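import Crest.Agent.R159.Final

/-!
Row 147 (S0207): definitions shared by all modules, and the statements of the modules.

Owners: `StmtN` helper54 (R147/N*), `StmtA1` and `StmtUniq` helper67 (R147/T*, LT by helper18),
`StmtGeo` helper16 (R147/Geo*), `StmtA2` helper82 (R147/St*, KN by helper5),
`Lin` and `Top` helper96.
-/

set_option autoImplicit false

open MeasureTheory ProbabilityTheory Set Filter
open scoped ENNReal NNReal
open Crest.ProbabilityR.Percolation

namespace Crest.Agent.R147

open Crest.Agent.R159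

section Defs
variable {V : Type*} (G : SimpleGraph V)

/-- Some vertex lies in an infinite cluster with positive probability. -/
def Perc (p : unitInterval) : Prop := ∃ x, 0 < P G p {ω | (cl G ∅ ω x).Infinite}

/-- Almost surely no two distinct infinite clusters. -/
def Uniq (p : unitInterval) : Prop :=
  ∀ x y, P G p {ω | (cl G ∅ ω x).Infinite ∧ (cl G ∅ ω y).Infinite ∧ ¬ conn G ∅ ω x y} = 0

/-- The automorphism `φ` translates `π` by `t`. -/
def Shifts (π : V → ℤ × ℤ) (φ : G ≃g G) (t : ℤ × ℤ) : Prop := ∀ w, π (φ w) = π w + t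

/-- An equivariant map to `ℤ²`: the automorphisms that translate `π` have finitely many orbits
and realise every translation. -/
def HasPi : Prop :=
  ∃ (π : V → ℤ × ℤ) (F : Finset V),
    (∀ v, ∃ (φ : G ≃g G) (t : ℤ × ℤ), Shifts G π φ t ∧ φ v ∈ F) ∧
    ∀ t : ℤ × ℤ, ∃ φ : G ≃g G, Shifts G π φ t

variable [DecidableEq V] [G.LocallyFinite]

/-- Volume of the ball of radius `k` around `x`. -/
def vol (x : V) (k : ℕ) : ℕ := (ball G k {x}).card

/-- Superpolynomial growth, uniformly in the base point. -/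
def SuperPoly : Prop := ∀ D : ℕ, ∀ᶠ k in atTop, ∀ x, k ^ D ≤ vol G x k

/-- Polynomial volume bound at infinitely many radii, uniformly in the base point. -/
def WeakPoly : Prop := ∃ D : ℕ, ∃ᶠ k in atTop, ∀ x, vol G x k ≤ k ^ D

/-- Linear growth from some base point. -/
def LinGrowth : Prop := ∃ (x : V) (C : ℕ), ∀ r, vol G x r ≤ C * (r + 1)

/-! ## Statements of the modules (for a connected, quasi-transitive, infinite `G`) -/

/-- Module N (nonamenable case). -/
def StmtN : Prop :=
  IsVertexNonamenable G → ∀ p : unitInterval, (p : ℝ) = bondCriticalValue G → p < 1 → ¬ Perc G p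

/-- Module A1 (amenable, superpolynomial growth). -/
def StmtA1 : Prop :=
  ¬ IsVertexNonamenable G → SuperPoly G → ∀ p : unitInterval, p < 1 → Perc G p →
    ∃ q : unitInterval, q < p ∧ Perc G q

/-- Uniqueness of the infinite cluster in the amenable case. -/
def StmtUniq : Prop := ¬ IsVertexNonamenable G → ∀ p : unitInterval, p < 1 → Uniq G p

/-- Module GEO. -/
def StmtGeo : Prop := WeakPoly G → LinGrowth G ∨ HasPi G

/-- Module A2 (steering and renormalisation). -/
def StmtA2 : Prop :=
  HasPi G → ∀ p : unitInterval, p < 1 → Perc G p → Uniq G p → ∃ q : unitInterval, q < p ∧ Perc G q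

end Defs

section Basic
variable {V : Type*} {G : SimpleGraph V}

theorem Shifts.refl (π : V → ℤ × ℤ) : Shifts G π (SimpleGraph.Iso.refl) 0 := fun w => by simp

theorem Shifts.trans {π : V → ℤ × ℤ} {φ ψ : G ≃g G} {s t : ℤ × ℤ} (h : Shifts G π φ s)
    (h' : Shifts G π ψ t) : Shifts G π (φ.trans ψ) (s + t) := fun w => by
  show π (ψ (φ w)) = _
  rw [h', h, add_assoc]

theorem Shifts.symm {π : V → ℤ × ℤ} {φ : G ≃g G} {s : ℤ × ℤ} (h : Shifts G π φ s) :
    Shifts G π φ.symm (-s) := fun w => by
  have := h (φ.symm w)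
  rw [φ.apply_symm_apply] at this
  rw [this]; abel

theorem critical_le_of_perc {q : unitInterval} (h : Perc G q) : bondCriticalValue G ≤ q := by
  obtain ⟨x, hx⟩ := h
  refine csInf_le (fin_bdd_below _) ⟨q, ?_, rfl⟩
  exact hx.trans_le (measure_mono fun ω hω => (fin_hasInf_iff ω).2 ⟨x, hω⟩)

theorem not_perc_of_lt {q : unitInterval} (h : (q : ℝ) < bondCriticalValue G) : ¬ Perc G q :=
  fun hq => absurd (critical_le_of_perc hq) (not_le.2 h)

theorem measure_eq_zero_of_not_perc [Countable V] {p : unitInterval} (h : ¬ Perc G p) :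
    P G p {ω | HasInfiniteCluster G ω} = 0 := by
  simp only [Perc, not_exists, not_lt, nonpos_iff_eq_zero] at h
  exact measure_mono_null (fun ω hω => mem_iUnion.2 ((fin_hasInf_iff ω).1 hω))
    (measure_iUnion_null h)

variable [DecidableEq V] [G.LocallyFinite]

theorem mem_ball_singleton {k : ℕ} {x y : V} :
    y ∈ ball G k {x} ↔ ∃ w : G.Walk x y, w.length ≤ k := by
  simp [mem_ball]

theorem vol_mono (x : V) {k l : ℕ} (h : k ≤ l) : vol G x k ≤ vol G x l :=
  Finset.card_le_card fun _ hy => by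
    obtain ⟨w, hw⟩ := mem_ball_singleton.1 hy
    exact mem_ball_singleton.2 ⟨w, hw.trans h⟩

theorem vol_iso (φ : G ≃g G) (x : V) (k : ℕ) : vol G x k ≤ vol G (φ x) k := by
  refine Finset.card_le_card_of_injOn φ (fun y hy => ?_) φ.injective.injOn
  obtain ⟨w, hw⟩ := mem_ball_singleton.1 (Finset.mem_coe.1 hy)
  exact Finset.mem_coe.2 (mem_ball_singleton.2 ⟨w.map φ.toHom, by simpa using hw⟩)

theorem vol_near {R : ℕ} (hR : Near G R) (x y : V) (k : ℕ) : vol G y k ≤ vol G x (k + R) := by
  obtain ⟨φ, w, hw⟩ := hR x y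
  refine (vol_iso φ y k).trans (Finset.card_le_card fun z hz => ?_)
  obtain ⟨w', hw'⟩ := mem_ball_singleton.1 hz
  exact mem_ball_singleton.2 ⟨w.append w', by rw [SimpleGraph.Walk.length_append]; omega⟩

/-- The growth dichotomy. -/
theorem superPoly_or_weakPoly (hconn : G.Connected) (hqt : IsQuasiTransitive G) :
    SuperPoly G ∨ WeakPoly G := by
  obtain ⟨R, hR⟩ := exists_near hconn hqt
  by_cases h : SuperPoly G
  · exact Or.inl h
  right
  simp only [SuperPoly, not_forall, not_eventually, not_le] at h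
  obtain ⟨D, hD⟩ := h
  refine ⟨2 * D, ?_⟩
  rw [frequently_atTop] at hD ⊢
  intro a
  obtain ⟨k, hk, x, hx⟩ := hD (a + 2 * R + 2)
  refine ⟨k - R, by omega, fun y => ?_⟩
  have h1 := vol_near hR x y (k - R)
  rw [Nat.sub_add_cancel (by omega)] at h1
  refine h1.trans (hx.le.trans ?_)
  rw [pow_mul]
  refine Nat.pow_le_pow_left ?_ _
  obtain ⟨m, rfl⟩ : ∃ m, k = m + R := ⟨k - R, by omega⟩
  rw [Nat.add_sub_cancel]
  nlinarith

end Basic

end Crest.Agent.R147
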