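import Crest.Agent.R159.Bern

/-! Row 147: conditioning a product Bernoulli law on the state of the slots off a set `I`. -/

set_option autoImplicit false

open MeasureTheory ProbabilityTheory Set
open scoped ENNReal NNReal

namespace Crest.Agent.R147

open Crest.Agent.R159

variable {ι : Type*}

open Classical in
/-- The parameters `π` on `I`, and the state of `ξ` (as `0` or `1`) off `I`. -/
noncomputable def fixOff (π : ι → unitInterval) (I ξ : Set ι) : ι → unitInterval :=
  fun i => if i ∈ I then π i else if i ∈ ξ then 1 else 0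

theorem fixOff_of_mem {π : ι → unitInterval} {I ξ : Set ι} {i : ι} (h : i ∈ I) :
    fixOff π I ξ i = π i := if_pos h

theorem measurable_splice_left (I ξ : Set ι) :
    Measurable fun ω : Set ι => (ω ∩ I) ∪ (ξ ∩ Iᶜ) :=
  measurable_set_iff.2 fun a => ((measurable_set_mem a).and measurable_const).or measurable_const

theorem map_fixOff (π : ι → unitInterval) (I ξ : Set ι) :
    (bern π).map (fun ω : Set ι => (ω ∩ I) ∪ (ξ ∩ Iᶜ)) = bern (fixOff π I ξ) := by
  classical
  have := Measure.isProbabilityMeasure_map (μ := bern π)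
    (measurable_splice_left I ξ).aemeasurable
  refine ext_avoid fun J => ?_
  rw [Measure.map_apply (measurable_splice_left I ξ) (measurableSet_avoid J), bern_avoid]
  by_cases h : ∃ i ∈ J, i ∉ I ∧ i ∈ ξ
  · obtain ⟨i, hi, hI, hξ⟩ := h
    have e : (fun ω : Set ι => (ω ∩ I) ∪ (ξ ∩ Iᶜ)) ⁻¹' {ω | ∀ i ∈ J, i ∉ ω} = ∅ := by
      ext ω
      simp only [mem_preimage, mem_ofPred_eq, mem_empty_iff_false, iff_false, not_forall, not_not]
      exact ⟨i, hi, Or.inr ⟨hξ, hI⟩⟩
    rw [e, measure_empty]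
    refine (Finset.prod_eq_zero hi ?_).symm
    simp [fixOff, hI, hξ, pe_eq_ofReal]
  · have e : (fun ω : Set ι => (ω ∩ I) ∪ (ξ ∩ Iᶜ)) ⁻¹' {ω | ∀ i ∈ J, i ∉ ω} =
        {ω | ∀ i ∈ J.filter (· ∈ I), i ∉ ω} := by
      ext ω
      simp only [mem_preimage, mem_ofPred_eq, mem_union, mem_inter_iff, mem_compl_iff,
        Finset.mem_filter]
      grind
    rw [e, bern_avoid, Finset.prod_filter]
    refine Finset.prod_congr rfl fun i hi => ?_
    by_cases hI : i ∈ I
    · simp [fixOff, hI]
    · have hξ : i ∉ ξ := fun hξ => h ⟨i, hi, hI, hξ⟩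
      simp [fixOff, hI, hξ, pe_eq_ofReal]

theorem bern_fixOff_apply (π : ι → unitInterval) (I ξ : Set ι) {E : Set (Set ι)}
    (hE : MeasurableSet E) :
    bern (fixOff π I ξ) E = bern π {ω | (ω ∩ I) ∪ (ξ ∩ Iᶜ) ∈ E} := by
  rw [← map_fixOff, Measure.map_apply (measurable_splice_left I ξ) hE]; rfl

theorem measurable_bern_fixOff (π : ι → unitInterval) (I : Set ι) {E : Set (Set ι)}
    (hE : MeasurableSet E) : Measurable fun ξ => bern (fixOff π I ξ) E := by
  simp only [bern_fixOff_apply π I _ hE]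
  exact measurable_measure_prodMk_right (μ := bern π) (measurable_splice I hE)

/-- Total probability formula over the state off `I`. -/
theorem bern_eq_lintegral_fixOff (π : ι → unitInterval) (I : Set ι) {E : Set (Set ι)}
    (hE : MeasurableSet E) : bern π E = ∫⁻ ξ, bern (fixOff π I ξ) E ∂bern π := by
  conv_lhs => rw [← map_splice π I]
  rw [Measure.map_apply (measurable_splice I) hE,
    Measure.prod_apply_symm (measurable_splice I hE)]
  refine lintegral_congr fun ξ => ?_
  rw [bern_fixOff_apply π I ξ hE]; rfl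

/-- An event depending only on slots off `I` is decided by the fixed state. -/
theorem bern_fixOff_inter (π : ι → unitInterval) (I ξ : Set ι) {E H : Set (Set ι)}
    (hE : MeasurableSet E) (hH : MeasurableSet H) (dH : Dep Iᶜ H) :
    bern (fixOff π I ξ) (E ∩ H) = H.indicator (fun ξ => bern (fixOff π I ξ) E) ξ := by
  have h2 : ∀ ω : Set ι, ∀ i ∈ Iᶜ, i ∈ ξ ↔ i ∈ (ω ∩ I) ∪ (ξ ∩ Iᶜ) := fun ω i hi => by
    have hi' : i ∉ I := hi
    simp [hi']
  rw [bern_fixOff_apply π I ξ (hE.inter hH)]
  by_cases hξ : ξ ∈ H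
  · rw [indicator_of_mem hξ, bern_fixOff_apply π I ξ hE]
    congr 1
    ext ω
    exact ⟨fun h => h.1, fun h => ⟨h, dH _ _ (h2 ω) hξ⟩⟩
  · rw [indicator_of_notMem hξ]
    have : {ω | (ω ∩ I) ∪ (ξ ∩ Iᶜ) ∈ E ∩ H} = ∅ := by
      ext ω
      exact ⟨fun h => hξ (dH _ _ (fun i hi => (h2 ω i hi).symm) h.2), fun h => h.elim⟩
    rw [this, measure_empty]

/-- A bound that holds for every state off `I` holds conditionally on any event off `I`. -/
theorem bern_inter_le_of_fixOff (π : ι → unitInterval) (I : Set ι) {E H : Set (Set ι)}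
    (hE : MeasurableSet E) (hH : MeasurableSet H) (dH : Dep Iᶜ H) {ε : ℝ≥0∞}
    (h : ∀ ξ, bern (fixOff π I ξ) E ≤ ε) : bern π (E ∩ H) ≤ ε * bern π H := by
  rw [bern_eq_lintegral_fixOff π I (hE.inter hH), ← lintegral_indicator_const hH]
  refine lintegral_mono fun ξ => ?_
  rw [bern_fixOff_inter π I ξ hE hH dH]
  exact indicator_le_indicator (h ξ)

/-- An event depending only on `I` has the same probability after fixing the state off `I`. -/
theorem bern_fixOff_of_dep (π : ι → unitInterval) (I ξ : Set ι) {E : Set (Set ι)}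
    (hE : MeasurableSet E) (dE : Dep I E) : bern (fixOff π I ξ) E = bern π E := by
  rw [bern_fixOff_apply π I ξ hE]
  congr 1
  ext ω
  have h1 : ∀ i ∈ I, i ∈ ω ↔ i ∈ (ω ∩ I) ∪ (ξ ∩ Iᶜ) := fun i hi => by simp [hi]
  exact ⟨fun h => dE _ _ (fun i hi => (h1 i hi).symm) h, fun h => dE _ _ h1 h⟩

end Crest.Agent.R147
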