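import Crest.Agent.R147.GeoLen1
import Crest.Agent.R147.Defs

/-! Row 147, module GEO, graph glue (helper88): `StmtGeo` follows from the group theorem applied to
`Aut G` with the length `g ↦ dist o (g o)`. -/

set_option autoImplicit false

open Filter
open Crest.ProbabilityR.Percolation

namespace Crest.Agent.R147.Geo

open Crest.Agent.R159

variable {V : Type*} {G : SimpleGraph V}

theorem gl_dist_le (hconn : G.Connected) (g : G ≃g G) (x y : V) :
    G.dist (g x) (g y) ≤ G.dist x y := by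
  obtain ⟨w, hw⟩ := (hconn x y).exists_walk_length_eq_dist
  have := SimpleGraph.dist_le (w.map g.toHom)
  rw [SimpleGraph.Walk.length_map, hw] at this
  exact this

theorem gl_dist (hconn : G.Connected) (g : G ≃g G) (x y : V) :
    G.dist (g x) (g y) = G.dist x y := by
  refine le_antisymm (gl_dist_le hconn g x y) ?_
  have := gl_dist_le hconn g⁻¹ (g x) (g y)
  rwa [RelIso.inv_apply_self, RelIso.inv_apply_self] at this

/-- The displacement of the base point. -/
noncomputable def glen (G : SimpleGraph V) (o : V) (g : G ≃g G) : ℕ := G.dist o (g o)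

theorem glen_inv_mul (hconn : G.Connected) (o : V) (a b : G ≃g G) :
    glen G o (a⁻¹ * b) = G.dist (a o) (b o) := by
  rw [glen, ← gl_dist hconn a, RelIso.mul_apply, RelIso.apply_inv_self]

theorem glen_len (hconn : G.Connected) (o : V) : Len (glen G o) := by
  refine ⟨?_, fun a b => ?_, fun a => ?_⟩
  · simp [glen]
  · have h1 : G.dist o (a (b o)) ≤ G.dist o (a o) + G.dist (a o) (a (b o)) := hconn.dist_triangle
    rw [gl_dist hconn] at h1
    exact h1
  · have := glen_inv_mul hconn o a 1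
    rw [mul_one] at this
    rw [this, SimpleGraph.dist_comm]
    rfl

/-- A subgroup of finite index is cocompact. -/
theorem gl_coc (hconn : G.Connected) (hqt : IsQuasiTransitive G) (o : V)
    (H : Subgroup (G ≃g G)) (hi : H.FiniteIndex) :
    ∃ R : ℕ, ∀ v, ∃ g ∈ H, G.dist (g o) v ≤ R := by
  obtain ⟨F, hF⟩ := hqt
  have hfin : Finite ((G ≃g G) ⧸ H) := Subgroup.finite_quotient_of_finiteIndex
  obtain ⟨c, hc⟩ := (Set.finite_range fun q : (G ≃g G) ⧸ H => glen G o q.out).bddAbove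
  refine ⟨c + F.sup (G.dist o), fun v => ?_⟩
  obtain ⟨φ, hφ⟩ := hF v
  obtain ⟨h, hh⟩ := QuotientGroup.mk_out_eq_mul H φ
  refine ⟨h, h.2, ?_⟩
  have h1 : glen G o (φ * h) ≤ c := by rw [← hh]; exact hc ⟨_, rfl⟩
  have h2 : G.dist o (φ v) ≤ F.sup (G.dist o) := Finset.le_sup (f := G.dist o) hφ
  have h3 : G.dist (φ ((h : G ≃g G) o)) (φ v) ≤ G.dist (φ ((h : G ≃g G) o)) o + G.dist o (φ v) :=
    hconn.dist_triangle
  rw [gl_dist hconn, SimpleGraph.dist_comm (v := o)] at h3
  have h4 : glen G o (φ * h) = G.dist o (φ ((h : G ≃g G) o)) := rfl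
  omega

/-- Elements of a cocompact subgroup are short products of short elements. -/
theorem gl_chain (hconn : G.Connected) (o : V) {H : Subgroup (G ≃g G)} {R : ℕ}
    (hR : ∀ v, ∃ g ∈ H, G.dist (g o) v ≤ R) (P : ℕ → (G ≃g G) → Prop) (h0 : P 0 1)
    (hstep : ∀ n g s, g ∈ H → s ∈ H → glen G o s ≤ 2 * R + 1 → P n g → P (n + 1) (g * s))
    (n : ℕ) : ∀ (v : V) (w : G.Walk v o), w.length = n → ∀ g ∈ H, G.dist (g o) v ≤ R →
      P (n + 1) g := by
  induction n with
  | zero =>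
    intro v w hw g hg hd
    have hv : v = o := SimpleGraph.Walk.eq_of_length_eq_zero hw
    subst hv
    have := hstep 0 1 g H.one_mem hg (by rw [glen, SimpleGraph.dist_comm]; omega) h0
    rwa [one_mul] at this
  | succ n ih =>
    intro v w hw g hg hd
    cases w with
    | nil => simp at hw
    | @cons _ u _ hadj w' =>
      obtain ⟨g', hg', hd'⟩ := hR u
      have h1 := ih u w' (by simpa using hw) g' hg' hd'
      have h2 := hstep (n + 1) g' (g'⁻¹ * g) hg' (H.mul_mem (H.inv_mem hg') hg) (by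
        rw [glen_inv_mul hconn]
        have a1 : G.dist (g' o) (g o) ≤ G.dist (g' o) u + G.dist u (g o) := hconn.dist_triangle
        have a2 : G.dist u (g o) ≤ G.dist u v + G.dist v (g o) := hconn.dist_triangle
        have a3 : G.dist u v = 1 := SimpleGraph.dist_eq_one_iff_adj.2 hadj.symm
        rw [SimpleGraph.dist_comm (u := v)] at a2
        omega) h1
      rwa [mul_inv_cancel_left] at h2

theorem gl_bgen (hconn : G.Connected) (hqt : IsQuasiTransitive G) (o : V) :
    BGen (glen G o) ⊤ := by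
  obtain ⟨R, hR⟩ := gl_coc hconn hqt o ⊤ inferInstance
  refine ⟨2 * R + 1, fun g hg => ?_⟩
  obtain ⟨w⟩ := hconn (g o) o
  exact gl_chain hconn o hR
    (fun _ a => a ∈ Subgroup.closure {s | s ∈ (⊤ : Subgroup (G ≃g G)) ∧ glen G o s ≤ 2 * R + 1})
    (Subgroup.one_mem _) (fun _ a s _ hs hl h => Subgroup.mul_mem _ h
      (Subgroup.subset_closure ⟨hs, hl⟩)) _ _ w rfl g hg (by simp)

/-- A character that kills the stabiliser of the base point kills every stabiliser. -/
theorem gl_fix (hconn : G.Connected) (o : V) {D : ℕ} (hs : Slow (glen G o) D)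
    {H : Subgroup (G ≃g G)} {χ : (G ≃g G) → ℤ × ℤ} (hχ : AddOn H χ)
    (h0 : ∀ g ∈ H, glen G o g = 0 → χ g = 0) {k : G ≃g G} (hk : k ∈ H) {u : V} (hu : k u = u) :
    χ k = 0 := by
  have he : Ell (glen G o) k := by
    refine ⟨2 * G.dist o u, fun j => ?_⟩
    have h1 : (k ^ j) u = u := by
      induction j with
      | zero => rfl
      | succ j ih => rw [pow_succ, RelIso.mul_apply, hu, ih]
    have h2 : G.dist o ((k ^ j) o) ≤ G.dist o u + G.dist u ((k ^ j) o) := hconn.dist_triangle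
    have h3 := gl_dist hconn (k ^ j) u o
    rw [h1, SimpleGraph.dist_comm (v := o)] at h3
    rw [glen]
    omega
  have h1 := ell_zero (glen_len hconn o) hs (H := H) (φ := fun g => ((χ g).1 : ℝ))
    (fun a ha b hb => by simp [hχ a ha b hb]) (fun g hg h => by simp [h0 g hg h]) hk he
  have h2 := ell_zero (glen_len hconn o) hs (H := H) (φ := fun g => ((χ g).2 : ℝ))
    (fun a ha b hb => by simp [hχ a ha b hb]) (fun g hg h => by simp [h0 g hg h]) hk he
  exact Prod.ext (by exact_mod_cast h1) (by exact_mod_cast h2)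

variable [DecidableEq V] [G.LocallyFinite]

theorem gl_mem_ball (hconn : G.Connected) {k : ℕ} {x y : V} :
    y ∈ ball G k {x} ↔ G.dist x y ≤ k := by
  rw [mem_ball_singleton]
  refine ⟨fun ⟨w, hw⟩ => (SimpleGraph.dist_le w).trans hw, fun h => ?_⟩
  obtain ⟨w, hw⟩ := (hconn x y).exists_walk_length_eq_dist
  exact ⟨w, hw.le.trans h⟩

theorem gl_slow (hconn : G.Connected) (o : V) (h : WeakPoly G) : ∃ D, Slow (glen G o) D := by
  obtain ⟨D, hD⟩ := h
  refine ⟨D, fun n => ?_⟩
  obtain ⟨r, hr, hv⟩ := frequently_atTop.1 hD n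
  refine ⟨r, hr, fun T hT hsep => le_trans ?_ (hv o)⟩
  refine Finset.card_le_card_of_injOn (fun g => g o) (fun g hg => ?_) fun a ha b hb hab => ?_
  · exact Finset.mem_coe.2 ((gl_mem_ball hconn).2 (hT g hg))
  · refine hsep a ha b hb ?_
    have hab' : a o = b o := hab
    rw [glen_inv_mul hconn, hab', SimpleGraph.dist_self]

theorem gl_rank1 (hconn : G.Connected) (hqt : IsQuasiTransitive G) (o : V) {D : ℕ}
    (hs : Slow (glen G o) D) {H : Subgroup (G ≃g G)} (hi : H.FiniteIndex)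
    (h : Rank1 (glen G o) H) : LinGrowth G := by
  classical
  obtain ⟨χ, hχ, h0, C, hC⟩ := h
  obtain ⟨R, hR⟩ := gl_coc hconn hqt o H hi
  obtain ⟨L, hL⟩ : ∃ L : ℕ, ∀ s ∈ H, glen G o s ≤ 2 * R + 1 → |χ s| ≤ L := by
    obtain ⟨L, hL⟩ := ((finite_image_of_zero (glen_len hconn o) hs hχ h0 (2 * R + 1)).image
      Int.natAbs).bddAbove
    refine ⟨L, fun s hs hl => ?_⟩
    have : (χ s).natAbs ≤ L := hL ⟨_, ⟨s, ⟨hs, hl⟩, rfl⟩, rfl⟩
    rw [← Int.natCast_natAbs]
    exact_mod_cast this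
  choose γ hγ hγd using hR
  have hb : ∀ r v, G.dist o v ≤ r → |χ (γ v)| ≤ (r + 1 : ℕ) * L := by
    intro r v hv
    obtain ⟨w, hw⟩ := (hconn v o).exists_walk_length_eq_dist
    have := gl_chain hconn o (fun v => ⟨γ v, hγ v, hγd v⟩) (fun n a => |χ a| ≤ (n : ℤ) * L)
      (by simp [hχ.one]) (fun n a s ha hs hl h => by
        rw [hχ a ha s hs]
        have h1 := hL s hs hl
        have h2 := abs_add_le (χ a) (χ s)
        push_cast
        linarith) _ v w rfl (γ v) (hγ v) (hγd v)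
    refine this.trans (mul_le_mul_of_nonneg_right ?_ (by positivity))
    rw [hw, SimpleGraph.dist_comm]
    exact_mod_cast Nat.succ_le_succ hv
  refine ⟨o, R147.vol G o (C + R) * (2 * L + 1), fun r => ?_⟩
  have h1 := Finset.card_le_mul_card_image_of_maps_to (s := ball G r {o})
    (t := Finset.Icc (-(((r + 1) * L : ℕ) : ℤ)) (((r + 1) * L : ℕ) : ℤ)) (f := fun v => χ (γ v))
    (fun v hv => by
      have := hb r v ((gl_mem_ball hconn).1 hv)
      rw [Finset.mem_Icc, ← abs_le, Nat.cast_mul]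
      exact this) (R147.vol G o (C + R)) (fun z _ => by
      rcases Finset.eq_empty_or_nonempty {a ∈ ball G r {o} | χ (γ a) = z} with he | ⟨v, hv⟩
      · rw [he]; simp
      · refine Finset.card_le_card_of_injOn (fun a => (γ v)⁻¹ a) (fun a ha => ?_)
          (γ v)⁻¹.injective.injOn
        have e1 := (Finset.mem_filter.1 hv).2
        have e2 := (Finset.mem_filter.1 (Finset.mem_coe.1 ha)).2
        have e3 : glen G o ((γ v)⁻¹ * γ a) ≤ C := hC _ (H.mul_mem (H.inv_mem (hγ v)) (hγ a)) (by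
          rw [hχ _ (H.inv_mem (hγ v)) _ (hγ a), hχ.inv (hγ v), e1, e2, neg_add_cancel])
        rw [glen_inv_mul hconn] at e3
        refine Finset.mem_coe.2 ((gl_mem_ball hconn).2 ?_)
        rw [← gl_dist hconn (γ v), RelIso.apply_inv_self]
        have a1 : G.dist (γ v o) a ≤ G.dist (γ v o) (γ a o) + G.dist (γ a o) a :=
          hconn.dist_triangle
        have := hγd a
        omega)
  refine h1.trans ?_
  rw [mul_assoc]
  refine Nat.mul_le_mul_left _ ?_
  rw [Int.card_Icc]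
  have : (((r + 1) * L : ℕ) : ℤ) + 1 - -(((r + 1) * L : ℕ) : ℤ) = ((2 * ((r + 1) * L) + 1 : ℕ) : ℤ) := by
    push_cast; ring
  rw [this, Int.toNat_natCast]
  nlinarith

theorem gl_rank2 (hconn : G.Connected) (hqt : IsQuasiTransitive G) (o : V) {D : ℕ}
    (hs : Slow (glen G o) D) {H : Subgroup (G ≃g G)} (hi : H.FiniteIndex)
    (h : Rank2 (glen G o) H) : HasPi G := by
  obtain ⟨χ, hχ, h0, hsurj⟩ := h
  obtain ⟨R, hR⟩ := gl_coc hconn hqt o H hi
  have : Nonempty V := ⟨o⟩
  let rep : V → V := fun v => Classical.epsilon fun u => ∃ g ∈ H, g u = v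
  have hrep : ∀ v, ∃ g ∈ H, g (rep v) = v := fun v =>
    Classical.epsilon_spec (p := fun u => ∃ g ∈ H, g u = v) ⟨v, 1, H.one_mem, rfl⟩
  have hinv : ∀ h ∈ H, ∀ v, rep (h v) = rep v := by
    intro h hh v
    have : (fun u => ∃ g ∈ H, g u = h v) = fun u => ∃ g ∈ H, g u = v := by
      funext u
      refine propext ⟨fun ⟨g, hg, e⟩ => ⟨h⁻¹ * g, H.mul_mem (H.inv_mem hh) hg, ?_⟩,
        fun ⟨g, hg, e⟩ => ⟨h * g, H.mul_mem hh hg, ?_⟩⟩
      · rw [RelIso.mul_apply, e, RelIso.inv_apply_self]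
      · rw [RelIso.mul_apply, e]
    simp only [rep, this]
  choose γ hγ hγe using hrep
  have hsh : ∀ h ∈ H, Shifts G (fun v => χ (γ v)) h (χ h) := by
    intro h hh v
    have hm : h * γ v ∈ H := H.mul_mem hh (hγ v)
    have h1 : χ ((γ (h v))⁻¹ * (h * γ v)) = 0 := by
      refine gl_fix hconn o hs hχ h0 (H.mul_mem (H.inv_mem (hγ _)) hm) (u := rep v) ?_
      have e := hγe (h v)
      rw [hinv h hh] at e
      rw [RelIso.mul_apply, RelIso.mul_apply, hγe]
      conv_lhs => arg 2; rw [← e]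
      rw [RelIso.inv_apply_self]
    rw [hχ _ (H.inv_mem (hγ _)) _ hm, hχ.inv (hγ _), hχ _ hh _ (hγ v), neg_add_eq_zero] at h1
    show χ (γ (h v)) = χ (γ v) + χ h
    rw [h1, add_comm]
  refine ⟨fun v => χ (γ v), ball G R {o}, fun v => ?_, fun t => ?_⟩
  · obtain ⟨g, hg, hd⟩ := hR v
    refine ⟨g⁻¹, _, hsh _ (H.inv_mem hg), (gl_mem_ball hconn).2 ?_⟩
    rw [← gl_dist hconn g, RelIso.apply_inv_self]
    exact hd
  · obtain ⟨g, hg, rfl⟩ := hsurj t
    exact ⟨g, hsh g hg⟩

/-- The graph statement from the group theorem. -/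
theorem stmtGeo_of_grp (hconn : G.Connected) (hqt : IsQuasiTransitive G)
    (main : ∀ (ℓ : (G ≃g G) → ℕ) (D : ℕ), Len ℓ → BGen ℓ ⊤ → Slow ℓ D →
      ∃ H : Subgroup (G ≃g G), H.FiniteIndex ∧ (Rank1 ℓ H ∨ Rank2 ℓ H)) : StmtGeo G := by
  intro h
  obtain ⟨o⟩ := hconn.nonempty
  obtain ⟨D, hs⟩ := gl_slow hconn o h
  obtain ⟨H, hi, h1 | h2⟩ := main _ D (glen_len hconn o) (gl_bgen hconn hqt o) hs
  · exact Or.inl (gl_rank1 hconn hqt o hs hi h1)
  · exact Or.inr (gl_rank2 hconn hqt o hs hi h2)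

end Crest.Agent.R147.Geo
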