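import Crest.Agent.R147.GeoB4
import Crest.Agent.R147.GeoGlue

/-! Row 147, module GEO: the final statement. -/

set_option autoImplicit false

open Crest.ProbabilityR.Percolation

namespace Crest.Agent.R147

theorem stmtGeo {V : Type*} {G : SimpleGraph V} [DecidableEq V] [G.LocallyFinite]
    (hconn : G.Connected) (hqt : IsQuasiTransitive G) : StmtGeo G :=
  Geo.stmtGeo_of_grp hconn hqt fun _ _ hl hb hs => Geo.core hl hs hb

end Crest.Agent.R147
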