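import Crest.Agent.R147.GeoKer

/-! Row 147, module GEO (owner helper16). See R147/GeoDefs.lean. -/

set_option autoImplicit false

namespace Crest.Agent.R147.Geo

open Filter Topology

namespace Walk
variable {Γ X : Type*} [Group Γ] [MulAction Γ X] (W : Walk Γ X)

theorem ret_convex_mem (o : X) : o ∈ W.N o := by
  by_contra h
  have h1 := W.q_supp o o h
  have h2 := W.q_lazy o
  linarith

/-- Convexity of return probabilities: `psd` with `c = δ_o - q o ·` on `S = N o`. -/
theorem ret_convex (k : ℕ) (o : X) :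
    0 ≤ W.pk k o o - 2 * W.pk (k + 1) o o + W.pk (k + 2) o o := by
  classical
  have h := W.psd k (W.N o) (fun x => (if x = o then 1 else 0) - W.q o x)
  have ho : o ∈ W.N o := W.ret_convex_mem o
  have e1 : ∀ x, ∑ y ∈ W.N o, W.q o y * W.pk k x y = W.pk (k + 1) o x := fun x => by
    rw [W.pk_succ]
    exact Finset.sum_congr rfl fun y _ => by rw [W.pk_symm k x y]
  have e2 : ∑ x ∈ W.N o, W.q o x * W.pk (k + 1) o x = W.pk (k + 2) o o := by
    rw [W.pk_succ (k + 1)]
    exact Finset.sum_congr rfl fun y _ => by rw [W.pk_symm (k + 1) o y]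
  have e3 : ∑ x ∈ W.N o, W.q o x * W.pk k x o = W.pk (k + 1) o o := (W.pk_succ k o o).symm
  have e4 : ∀ x, ∑ y ∈ W.N o, ((if x = o then 1 else 0) - W.q o x) *
      ((if y = o then 1 else 0) - W.q o y) * W.pk k x y =
      ((if x = o then 1 else 0) - W.q o x) * (W.pk k x o - W.pk (k + 1) o x) := fun x => by
    simp only [mul_assoc, ← Finset.mul_sum]
    congr 1
    simp only [sub_mul, Finset.sum_sub_distrib, e1, ite_mul, one_mul, zero_mul, Finset.sum_ite_eq',
      ho, if_true]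
  simp only [e4] at h
  simp only [sub_mul, Finset.sum_sub_distrib, ite_mul, one_mul, zero_mul, Finset.sum_ite_eq', ho,
    if_true, mul_sub, e2, e3] at h
  linarith

/-- `psd` with `c = δ_x - δ_y`, and `pk_diag`. -/
theorem pk_le_diag (k : ℕ) (x y : X) : W.pk k x y ≤ W.pk k x x := by
  classical
  by_cases hxy : x = y
  · rw [hxy]
  have h := W.psd k {x, y} (fun z => if z = x then 1 else -1)
  simp only [Finset.sum_pair hxy, if_true, if_neg (Ne.symm hxy)] at h
  have h1 := W.pk_symm k x y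
  have h2 := W.pk_diag k x y
  linarith

/-- A convex bounded sequence is antitone and its increments tend to zero (pure real analysis:
`b k = a k - a (k+1)` is antitone, its partial sums are bounded). -/
theorem convex_seq (a : ℕ → ℝ) (h0 : ∀ k, 0 ≤ a k) (h1 : ∀ k, a k ≤ 1)
    (hc : ∀ k, 0 ≤ a k - 2 * a (k + 1) + a (k + 2)) :
    (∀ k, a (k + 1) ≤ a k) ∧ Tendsto (fun k => a k - a (k + 1)) atTop (𝓝 0) := by
  have hb : Antitone fun k => a k - a (k + 1) :=
    antitone_nat_of_succ_le fun k => by linarith [hc k]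
  have hle : ∀ k, a (k + 1) ≤ a k := by
    intro k
    by_contra hk
    have hd : 0 < a (k + 1) - a k := by linarith [not_le.1 hk]
    have key : ∀ m : ℕ, m * (a (k + 1) - a k) ≤ a (k + m) := by
      intro m
      induction m with
      | zero => rw [Nat.cast_zero, zero_mul]; exact h0 _
      | succ m ih =>
        have : a (k + m) - a (k + m + 1) ≤ a k - a (k + 1) := hb (Nat.le_add_right k m)
        rw [← Nat.add_assoc, Nat.cast_succ]
        linarith
    obtain ⟨m, hm⟩ := exists_nat_gt (1 / (a (k + 1) - a k))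
    rw [div_lt_iff₀ hd] at hm
    linarith [key m, h1 (k + m)]
  have ht := tendsto_atTop_ciInf (antitone_nat_of_succ_le hle) ⟨0, by rintro _ ⟨k, rfl⟩; exact h0 k⟩
  refine ⟨hle, ?_⟩
  have := ht.sub (ht.comp (tendsto_add_atTop_nat 1))
  rwa [sub_self] at this

/-- Cauchy–Schwarz: `1 = (∑_{y ∈ B n o} pk n o y)^2 ≤ |B n o| ∑ pk n o y ^ 2 = |B n o| pk (2n) o o`. -/
theorem ret_lower (n : ℕ) (o : X) : 1 ≤ ((W.B n o).card : ℝ) * W.pk (2 * n) o o := by
  have h1 := W.pk_sum n o (Finset.Subset.refl _)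
  have h2 := W.pk_add n n o o (Finset.Subset.refl _)
  have h3 := sq_sum_le_card_mul_sum_sq (s := W.B n o) (f := fun y => W.pk n o y)
  rw [h1, one_pow] at h3
  rw [two_mul, h2]
  refine h3.trans (le_of_eq ?_)
  congr 1
  exact Finset.sum_congr rfl fun y _ => by rw [W.pk_symm n y o, sq]

/-- On an infinite set the return probability tends to zero. `d k y = pk k o o - pk k o y ≥ 0`,
`∑_z q y z * d k z = d (k+1) y + b k` (use `pk_symm`, `pk_succ`), so `c * d k z ≤ d (k+1) y + b k`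
for `z ∈ N y`, and `d k y → 0` for every `y` by induction along `conn`. The antitone sequence
`pk k o o` has a limit `α`; `pk k o y → α` for all `y`, `|F| α ≤ 1` for every finite `F`. -/
theorem ret_tendsto [Infinite X] (o : X) : Tendsto (fun k => W.pk k o o) atTop (𝓝 0) := by
  obtain ⟨ha, hb⟩ := convex_seq (fun k => W.pk k o o) (fun k => W.pk_nonneg k o o)
    (fun k => W.pk_le_one k o o) (fun k => W.ret_convex k o)
  have hd0 : ∀ k y, 0 ≤ W.pk k o o - W.pk k o y := fun k y => sub_nonneg.2 (W.pk_le_diag k o y)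
  have hstep : ∀ k y, ∀ z ∈ W.N y, W.c * (W.pk k o o - W.pk k o z) ≤
      (W.pk (k + 1) o o - W.pk (k + 1) o y) + (W.pk k o o - W.pk (k + 1) o o) := by
    intro k y z hz
    have e : ∑ z ∈ W.N y, W.q y z * (W.pk k o o - W.pk k o z) = W.pk k o o - W.pk (k + 1) o y := by
      simp only [mul_sub, Finset.sum_sub_distrib, ← Finset.sum_mul, W.q_sum, one_mul]
      rw [W.pk_symm (k + 1) o y, W.pk_succ]
      congr 1
      exact Finset.sum_congr rfl fun z _ => by rw [W.pk_symm k o z]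
    have h1 : W.q y z * (W.pk k o o - W.pk k o z) ≤
        ∑ z ∈ W.N y, W.q y z * (W.pk k o o - W.pk k o z) :=
      Finset.single_le_sum (f := fun z => W.q y z * (W.pk k o o - W.pk k o z))
        (fun z _ => mul_nonneg (W.q_nonneg y z) (hd0 k z)) hz
    have h2 := mul_le_mul_of_nonneg_right (W.q_ge y z hz) (hd0 k z)
    linarith
  have hd : ∀ y, Tendsto (fun k => W.pk k o o - W.pk k o y) atTop (𝓝 0) := by
    intro y
    induction W.conn o y with
    | refl => simp
    | tail _ hz ih =>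
      have h1 := ((ih.comp (tendsto_add_atTop_nat 1)).add hb).div_const W.c
      rw [add_zero, zero_div] at h1
      refine squeeze_zero (fun k => hd0 k _) (fun k => ?_) h1
      rw [le_div_iff₀ W.c_pos, mul_comm]
      exact hstep k _ _ hz
  have hanti : Antitone fun k => W.pk k o o := antitone_nat_of_succ_le ha
  have hlim := tendsto_atTop_ciInf hanti ⟨0, by rintro _ ⟨k, rfl⟩; exact W.pk_nonneg k o o⟩
  set α := ⨅ k, W.pk k o o
  have hy : ∀ y, Tendsto (fun k => W.pk k o y) atTop (𝓝 α) := fun y => by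
    simpa using hlim.sub (hd y)
  have hF : ∀ F : Finset X, (F.card : ℝ) * α ≤ 1 := fun F => by
    have h1 := tendsto_finset_sum F fun y _ => hy y
    rw [Finset.sum_const, nsmul_eq_mul] at h1
    exact le_of_tendsto' h1 fun k => W.pk_sum_le k o F
  have h0 : 0 ≤ α := ge_of_tendsto' hlim fun k => W.pk_nonneg k o o
  rcases h0.eq_or_lt with h | h
  · rwa [← h] at hlim
  · exfalso
    obtain ⟨n, hn⟩ := exists_nat_gt (1 / α)
    obtain ⟨F, hFn⟩ := Infinite.exists_subset_card_eq X n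
    have := hF F
    rw [hFn] at this
    rw [div_lt_iff₀ h] at hn
    linarith

/-- Pure real analysis. `b k = a k - a (k+1)` is antitone and `≥ 0`. If `b (2n) = 0` then `a` is
constant from `2n` on, hence `0`, against `hlow`. If `b (2n+1) ≤ (1-ε) b (2n)` for all `n ≥ n₀`
(wlog `ε < 1`) then `b (2n) ≤ C (1-ε)^n`, `a (2n) = ∑_{k ≥ 2n} b k ≤ C' (1-ε)^n`, against
`1 ≤ r^D a (2r)` for infinitely many `r`. -/
theorem ratio_seq (a : ℕ → ℝ) (D : ℕ) (h0 : ∀ k, 0 ≤ a k) (h1 : ∀ k, a k ≤ 1)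
    (hc : ∀ k, 0 ≤ a k - 2 * a (k + 1) + a (k + 2)) (hlim : Tendsto a atTop (𝓝 0))
    (hlow : ∀ n : ℕ, ∃ r, n ≤ r ∧ 1 ≤ (r : ℝ) ^ D * a (2 * r)) {ε : ℝ} (hε : 0 < ε) :
    ∃ n : ℕ, 0 < a (2 * n) - a (2 * n + 1) ∧
      a (2 * n) - 2 * a (2 * n + 1) + a (2 * n + 2) ≤ ε * (a (2 * n) - a (2 * n + 1)) := by
  by_contra hn
  have hle := (convex_seq a h0 h1 hc).1
  obtain ⟨q, hq0, hq1, hq⟩ : ∃ q : ℝ, 0 < q ∧ q < 1 ∧ 1 - ε ≤ q :=
    ⟨max (1 - ε) (1 / 2), lt_max_of_lt_right one_half_pos, max_lt (by linarith) one_half_lt_one,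
      le_max_left _ _⟩
  have h2 : ∀ n, a (2 * n + 1) - a (2 * n + 2) ≤ q * (a (2 * n) - a (2 * n + 1)) := by
    intro n
    have hb : 0 ≤ a (2 * n) - a (2 * n + 1) := sub_nonneg.2 (hle _)
    rcases hb.eq_or_lt with e | hb'
    · rw [← e, mul_zero]
      linarith [hc (2 * n)]
    · have := not_le.1 fun h => hn ⟨n, hb', h⟩
      linarith [mul_le_mul_of_nonneg_right hq hb]
  have h3 : ∀ n, a (2 * n) - a (2 * n + 1) ≤ q ^ n := by
    intro n
    induction n with
    | zero => rw [pow_zero]; linarith [h1 (2 * 0), h0 (2 * 0 + 1)]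
    | succ n ih =>
      have e1 := hc (2 * n + 1)
      have e2 := mul_le_mul_of_nonneg_left ih hq0.le
      rw [show 2 * (n + 1) = 2 * n + 2 by ring, pow_succ']
      have e3 := h2 n
      change 0 ≤ a (2 * n + 1) - 2 * a (2 * n + 2) + a (2 * n + 2 + 1) at e1
      linarith
  obtain ⟨C, hC0, hC⟩ : ∃ C : ℝ, 0 < C ∧ C * (1 - q) = 2 :=
    ⟨2 / (1 - q), div_pos two_pos (by linarith), div_mul_cancel₀ _ (by linarith)⟩
  have hmono : Monotone fun n => a (2 * n) - C * q ^ n := by
    refine monotone_nat_of_le_succ fun n => ?_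
    have e1 : C * q ^ n - C * q ^ (n + 1) = 2 * q ^ n := by rw [← hC]; ring
    rw [show 2 * (n + 1) = 2 * n + 2 by ring]
    linarith [h3 n, hc (2 * n)]
  have ht : Tendsto (fun n => a (2 * n) - C * q ^ n) atTop (𝓝 (0 - C * 0)) :=
    (hlim.comp (tendsto_id.const_mul_atTop' two_pos)).sub
      ((tendsto_pow_atTop_nhds_zero_of_lt_one hq0.le hq1).const_mul C)
  have h4 : ∀ n, a (2 * n) ≤ C * q ^ n := fun n => by
    have := hmono.ge_of_tendsto ht n
    linarith
  have h5 := (tendsto_pow_const_mul_const_pow_of_abs_lt_one D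
    (show |q| < 1 by rwa [abs_of_pos hq0])).const_mul C
  rw [mul_zero] at h5
  obtain ⟨N, hN⟩ := eventually_atTop.1 (h5.eventually (gt_mem_nhds one_pos))
  obtain ⟨r, hr, h6⟩ := hlow N
  have h7 := mul_le_mul_of_nonneg_left (h4 r) (pow_nonneg (Nat.cast_nonneg (α := ℝ) r) D)
  linarith [hN r hr]

open Classical in
theorem approx_harm_of_delta {S : Finset X} {u v : X} (hu : u ∈ S) (hv : v ∈ S) (h : X → ℝ) :
    ∑ z ∈ S, ((if z = u then 1 else 0) - if z = v then 1 else 0) * h z = h u - h v := by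
  simp [sub_mul, Finset.sum_sub_distrib, hu, hv]

open Classical in
theorem approx_harm_of_lap {S : Finset X} {x : X} (hS : W.N x ⊆ S) (h : X → ℝ) :
    ∑ z ∈ S, (W.q x z - if z = x then 1 else 0) * h z = W.P h x - h x := by
  simp [sub_mul, Finset.sum_sub_distrib, hS (W.mem_N_self x), W.P_eq_sum h x hS]

theorem approx_harm_of_cs (k : ℕ) {S : Finset X} {y o : X} (hy : y ∈ S) (ho : o ∈ S) (c : X → ℝ) :
    (∑ x ∈ S, c x * (W.pk k x y - W.pk k x o)) ^ 2 ≤
      (∑ x ∈ S, ∑ z ∈ S, c x * c z * W.pk k x z) * (2 * W.pk k o o - 2 * W.pk k o y) := by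
  classical
  have h := W.psd_cs k S c fun z => (if z = y then 1 else 0) - if z = o then 1 else 0
  simp only [mul_assoc, ← Finset.mul_sum, approx_harm_of_delta hy ho] at h ⊢
  rw [W.pk_diag k y o, W.pk_symm k y o] at h
  refine h.trans_eq ?_
  ring

theorem approx_harm_of_sum (k : ℕ) (x : X) :
    ∑ z ∈ W.N x, W.q x z * (2 * W.pk k x x - 2 * W.pk k x z) =
      2 * (W.pk k x x - W.pk (k + 1) x x) := by
  rw [W.pk_succ, mul_sub 2, Finset.mul_sum]
  conv_rhs => rw [← one_mul (2 * W.pk k x x), ← W.q_sum x, Finset.sum_mul]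
  rw [← Finset.sum_sub_distrib]
  exact Finset.sum_congr rfl fun z _ => by rw [W.pk_symm k z x]; ring

/-- Approximately harmonic functions from one good time `k`. Put `a j = pk j o o`, `b = a k - a (k+1)`,
`E y = 2 a k - 2 pk k o y`; `∑_y q o y E y = 2 b`, so some `y ∈ N o` has `E y ≥ 2 b`;
`f x = (pk k x y - pk k x o - pk k o y + pk k o o) / E y`. For `x' ∈ N x`:
`c (2 a k - 2 pk k x x') ≤ 2 b` (same sum at `x`, all terms `≥ 0` by `pk_le_diag`), and `psd_cs` with
`δ_x' - δ_x`, `δ_y - δ_o` gives the Lipschitz bound; `psd_cs` with `q x · - δ_x` and `δ_y - δ_o` gives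
the Laplacian bound (first form `= a k - 2 a (k+1) + a (k+2)`). -/
theorem approx_harm_of (o : X) (k : ℕ) {ε : ℝ} (hε : 0 < ε)
    (hb : 0 < W.pk k o o - W.pk (k + 1) o o)
    (hr : W.pk k o o - 2 * W.pk (k + 1) o o + W.pk (k + 2) o o ≤
      ε * (W.pk k o o - W.pk (k + 1) o o)) :
    ∃ f : X → ℝ, f o = 0 ∧ (∃ y ∈ W.N o, f y = 1) ∧
      (∀ x, ∀ x' ∈ W.N x, (f x' - f x) ^ 2 ≤ 1 / W.c) ∧ ∀ x, (W.P f x - f x) ^ 2 ≤ ε := by
  classical
  obtain ⟨y, hy, hE⟩ : ∃ y ∈ W.N o,
      2 * (W.pk k o o - W.pk (k + 1) o o) ≤ 2 * W.pk k o o - 2 * W.pk k o y := by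
    obtain ⟨y, hy, h⟩ := Finset.exists_le_of_sum_le ⟨o, W.mem_N_self o⟩
      (f := fun y => W.q o y * (2 * (W.pk k o o - W.pk (k + 1) o o)))
      (g := fun y => W.q o y * (2 * W.pk k o o - 2 * W.pk k o y))
      (by rw [W.approx_harm_of_sum, ← Finset.sum_mul, W.q_sum, one_mul])
    exact ⟨y, hy, le_of_mul_le_mul_left h (W.c_pos.trans_le (W.q_ge o y hy))⟩
  set E := 2 * W.pk k o o - 2 * W.pk k o y with hEd
  have hE0 : 0 < E := by linarith
  set g : X → ℝ := fun x => W.pk k x y - W.pk k x o with hg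
  refine ⟨fun x => (g x - g o) / E, by simp, ⟨y, hy, ?_⟩, fun x x' hx' => ?_, fun x => ?_⟩
  · rw [div_eq_one_iff_eq hE0.ne', hEd, hg]
    simp only
    rw [W.pk_diag k y o, W.pk_symm k y o]
    ring
  · have h1 := W.approx_harm_of_cs k (S := {x', x, y, o}) (y := y) (o := o) (by simp) (by simp)
      (fun z => (if z = x' then 1 else 0) - if z = x then 1 else 0)
    have hx1 : x' ∈ ({x', x, y, o} : Finset X) := by simp
    have hx2 : x ∈ ({x', x, y, o} : Finset X) := by simp
    simp only [mul_assoc, ← Finset.mul_sum, approx_harm_of_delta hx1 hx2] at h1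
    rw [W.pk_diag k x' x, W.pk_symm k x' x, ← hEd] at h1
    have h2 : W.q x x' * (2 * W.pk k x x - 2 * W.pk k x x') ≤
        2 * (W.pk k x x - W.pk (k + 1) x x) := by
      rw [← W.approx_harm_of_sum]
      exact Finset.single_le_sum (f := fun z => W.q x z * (2 * W.pk k x x - 2 * W.pk k x z))
        (fun z _ => mul_nonneg (W.q_nonneg _ _) (by linarith [W.pk_le_diag k x z])) hx'
    have h3 : 0 ≤ 2 * W.pk k x x - 2 * W.pk k x x' := by linarith [W.pk_le_diag k x x']
    have h4 := mul_le_mul_of_nonneg_right (W.q_ge x x' hx') h3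
    have h5 : W.c * (2 * W.pk k x x - 2 * W.pk k x x') ≤ E := by
      rw [W.pk_diag k x o, W.pk_diag (k + 1) x o] at h2
      rw [W.pk_diag k x o] at h4 ⊢
      linarith
    have h6 : (g x' - g x) ^ 2 ≤ (2 * W.pk k x x - 2 * W.pk k x x') * E := by
      rw [hg]
      simp only
      linarith
    have h7 : (g x' - g o) / E - (g x - g o) / E = (g x' - g x) / E := by ring
    rw [h7, div_pow, div_le_div_iff₀ (by positivity) W.c_pos]
    have := mul_le_mul_of_nonneg_right h6 W.c_pos.le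
    have := mul_le_mul_of_nonneg_right h5 hE0.le
    nlinarith
  · have hS : W.N x ⊆ W.N x ∪ {y, o} := Finset.subset_union_left
    have h1 := W.approx_harm_of_cs k (S := W.N x ∪ {y, o}) (y := y) (o := o) (by simp) (by simp)
      (fun z => W.q x z - if z = x then 1 else 0)
    simp only [mul_assoc, ← Finset.mul_sum, W.approx_harm_of_lap hS] at h1
    have h2 : ∀ n u, W.P (fun z => W.pk n u z) x = W.pk (n + 1) u x := fun n u => by
      rw [W.pk_symm (n + 1), W.pk_succ]
      exact Finset.sum_congr rfl fun z _ => by rw [W.pk_symm n z u]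
    have h3 : W.P (fun u => W.pk (k + 1) u x - W.pk k u x) x =
        W.pk (k + 2) x x - W.pk (k + 1) x x := by
      rw [W.pk_succ (k + 1) x x, W.pk_succ k x x, ← Finset.sum_sub_distrib]
      exact Finset.sum_congr rfl fun z _ => by ring
    simp only [h2] at h1
    rw [h3, W.pk_diag k x o, W.pk_diag (k + 1) x o, W.pk_diag (k + 2) x o, ← hEd, ← hg] at h1
    have h4 : W.P (fun x => (g x - g o) / E) x - (g x - g o) / E = (W.P g x - g x) / E := by
      have : W.P (fun x => (g x - g o) / E) x = (W.P g x - g o) / E := by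
        have e : g o = ∑ z ∈ W.N x, W.q x z * g o := by rw [← Finset.sum_mul, W.q_sum, one_mul]
        unfold P
        conv_rhs => rw [e, ← Finset.sum_sub_distrib, Finset.sum_div]
        exact Finset.sum_congr rfl fun z _ => by ring
      rw [this]
      ring
    have h5 : (W.P g x - g x) ^ 2 ≤ ε * (W.pk k o o - W.pk (k + 1) o o) * E :=
      h1.trans (mul_le_mul_of_nonneg_right (by linarith) hE0.le)
    rw [h4, div_pow, div_le_iff₀ (by positivity)]
    have := mul_le_mul_of_nonneg_left (show W.pk k o o - W.pk (k + 1) o o ≤ E by linarith)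
      (mul_pos hε hE0).le
    nlinarith

theorem harm_of_approx_bd (o x : X) : ∃ M : ℝ, ∀ f : X → ℝ, f o = 0 →
    (∀ x, ∀ x' ∈ W.N x, (f x' - f x) ^ 2 ≤ 1 / W.c) → |f x| ≤ M := by
  induction W.conn o x with
  | refl => exact ⟨0, fun f hf _ => by simp [hf]⟩
  | tail _ hb ih =>
    obtain ⟨M, hM⟩ := ih
    refine ⟨M + Real.sqrt (1 / W.c), fun f hf hl => ?_⟩
    have h1 := hM f hf hl
    have h2 := Real.abs_le_sqrt (hl _ _ hb)
    have h3 := abs_add_le (f _) (f _ - f _) |>.trans (add_le_add h1 h2)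
    simpa using h3

/-- Limit along an ultrafilter (`hyperfilter ℕ`): `|f_j x| ≤ n_x L` by `lip_B`; the neighbour `y_j`
is constant on a large set since `N o` is finite. -/
theorem harm_of_approx (o : X)
    (h : ∀ ε : ℝ, 0 < ε → ∃ f : X → ℝ, f o = 0 ∧ (∃ y ∈ W.N o, f y = 1) ∧
      (∀ x, ∀ x' ∈ W.N x, (f x' - f x) ^ 2 ≤ 1 / W.c) ∧ ∀ x, (W.P f x - f x) ^ 2 ≤ ε) :
    ∃ f : X → ℝ, W.Lip f ∧ W.Harm f ∧ ∃ y, f y ≠ f o := by
  choose M hM using W.harm_of_approx_bd o
  let C : ℕ → Set (X → ℝ) := fun n => {f | f o = 0 ∧ (∃ y ∈ W.N o, f y = 1) ∧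
      (∀ x, ∀ x' ∈ W.N x, (f x' - f x) ^ 2 ≤ 1 / W.c) ∧
        ∀ x, (W.P f x - f x) ^ 2 ≤ 1 / ((n : ℝ) + 1)}
  have hcl : ∀ n, IsClosed (C n) := by
    intro n
    refine IsClosed.inter (isClosed_eq (continuous_apply o) continuous_const)
      (IsClosed.inter ?_ (IsClosed.inter ?_ ?_))
    · have : {f : X → ℝ | ∃ y ∈ W.N o, f y = 1} = ⋃ y ∈ W.N o, {f : X → ℝ | f y = 1} := by
        ext f; simp
      change IsClosed {f : X → ℝ | ∃ y ∈ W.N o, f y = 1}
      rw [this]
      exact isClosed_biUnion_finset fun y _ => isClosed_eq (continuous_apply y) continuous_const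
    · change IsClosed {f : X → ℝ | ∀ x, ∀ x' ∈ W.N x, (f x' - f x) ^ 2 ≤ 1 / W.c}
      simp only [Set.setOf_forall]
      refine isClosed_iInter fun x => isClosed_iInter fun x' => isClosed_iInter fun _ => ?_
      exact isClosed_le (by fun_prop) continuous_const
    · change IsClosed {f : X → ℝ | ∀ x, (W.P f x - f x) ^ 2 ≤ 1 / ((n : ℝ) + 1)}
      simp only [Set.setOf_forall]
      refine isClosed_iInter fun x => isClosed_le ?_ continuous_const
      unfold P
      fun_prop
  have hK : IsCompact (Set.pi Set.univ fun x => Set.Icc (-M x) (M x)) :=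
    isCompact_univ_pi fun x => isCompact_Icc
  have hsub : ∀ n, C n ⊆ Set.pi Set.univ fun x => Set.Icc (-M x) (M x) := fun n f hf x _ =>
    abs_le.1 (hM x f hf.1 hf.2.2.1)
  have hne : ∀ n, (C n).Nonempty := fun n => h _ (by positivity)
  have hanti : ∀ n, C (n + 1) ⊆ C n := fun n f hf =>
    ⟨hf.1, hf.2.1, hf.2.2.1, fun x => (hf.2.2.2 x).trans (by
      push_cast
      exact one_div_le_one_div_of_le (by positivity) (by linarith))⟩
  obtain ⟨f, hf⟩ := IsCompact.nonempty_iInter_of_sequence_nonempty_isCompact_isClosed C hanti hne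
    (hK.of_isClosed_subset (hcl 0) (hsub 0)) hcl
  have hf' : ∀ n, f ∈ C n := Set.mem_iInter.1 hf
  obtain ⟨h0, ⟨y, _, hy⟩, hl, _⟩ := hf' 0
  refine ⟨f, ⟨Real.sqrt (1 / W.c), fun x x' hx => Real.abs_le_sqrt (hl x x' hx)⟩, fun x => ?_,
    y, by rw [hy, h0]; exact one_ne_zero⟩
  have h1 : (W.P f x - f x) ^ 2 ≤ 0 :=
    ge_of_tendsto' tendsto_one_div_add_atTop_nhds_zero_nat fun n => (hf' n).2.2.2 x
  have h2 : W.P f x - f x = 0 := by
    simpa using le_antisymm h1 (sq_nonneg _)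
  linarith

/-- A1: a nonconstant Lipschitz harmonic function. -/
theorem exists_harm [Infinite X] (o : X) {D : ℕ} (hs : W.Slow o D) :
    ∃ f : X → ℝ, W.Lip f ∧ W.Harm f ∧ ∃ y, f y ≠ f o := by
  refine W.harm_of_approx o fun ε hε => ?_
  obtain ⟨n, hb, hr⟩ := ratio_seq (fun k => W.pk k o o) D (fun k => W.pk_nonneg k o o)
    (fun k => W.pk_le_one k o o) (fun k => W.ret_convex k o) (W.ret_tendsto o) (fun n => by
      obtain ⟨r, hr, hc⟩ := hs n
      refine ⟨r, hr, (W.ret_lower r o).trans (mul_le_mul_of_nonneg_right ?_ (W.pk_nonneg _ _ _))⟩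
      exact_mod_cast hc) hε
  exact W.approx_harm_of o (2 * n) hε hb hr

end Walk

end Crest.Agent.R147.Geo
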