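import Crest.Agent.R147.GeoWalk

/-! Row 147, module GEO: Cesàro means along an ultrafilter (helper72). -/

set_option autoImplicit false

namespace Crest.Agent.R147.Geo

open Filter Topology

namespace Walk
variable {Γ X : Type*} [Group Γ] [MulAction Γ X] (W : Walk Γ X)

/-- Cesàro averages -/
noncomputable def cesA (ψ : X → ℝ) (x : X) (n : ℕ) : ℝ :=
  (∑ k ∈ Finset.range (n + 1), W.P^[k] ψ x) / (n + 1)

theorem cesA_abs_le {ψ : X → ℝ} {M : ℝ} (h : ∀ z, |ψ z| ≤ M) (x : X) (n : ℕ) :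
    |W.cesA ψ x n| ≤ M := by
  have hn : (0 : ℝ) < n + 1 := by positivity
  unfold cesA
  rw [abs_div, abs_of_pos hn, div_le_iff₀ hn]
  refine (Finset.abs_sum_le_sum_abs _ _).trans ?_
  refine (Finset.sum_le_card_nsmul _ _ M fun k _ => W.iter_abs_le k h x).trans ?_
  rw [Finset.card_range, nsmul_eq_mul]
  push_cast
  rw [mul_comm]

/-- the limit along `U` -/
noncomputable def cesM (U : Ultrafilter ℕ) (ψ : X → ℝ) (x : X) : ℝ :=
  limUnder (U : Filter ℕ) (W.cesA ψ x)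

theorem cesM_tendsto (U : Ultrafilter ℕ) {ψ : X → ℝ} (h : Bdd ψ) (x : X) :
    Tendsto (W.cesA ψ x) U (𝓝 (W.cesM U ψ x)) := by
  obtain ⟨M, hM⟩ := h
  obtain ⟨a, -, ha⟩ := (isCompact_Icc (a := -M) (b := M)).ultrafilter_le_nhds (U.map (W.cesA ψ x))
    (by
      rw [le_principal_iff]
      exact mem_map.2 (Eventually.of_forall fun n => abs_le.1 (W.cesA_abs_le hM x n)))
  exact tendsto_nhds_limUnder ⟨a, ha⟩

theorem cesM_bdd (U : Ultrafilter ℕ) {ψ : X → ℝ} (h : Bdd ψ) : Bdd (W.cesM U ψ) := by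
  obtain ⟨M, hM⟩ := h
  exact ⟨M, fun x => le_of_tendsto' (W.cesM_tendsto U ⟨M, hM⟩ x).abs (W.cesA_abs_le hM x)⟩

theorem cesA_P (ψ : X → ℝ) (x : X) (n : ℕ) :
    ∑ y ∈ W.N x, W.q x y * W.cesA ψ y n
      = W.cesA ψ x n + (W.P^[n + 1] ψ x - ψ x) / (n + 1) := by
  unfold cesA
  have h1 : ∑ y ∈ W.N x, W.q x y * ((∑ k ∈ Finset.range (n + 1), W.P^[k] ψ y) / (n + 1))
      = (∑ k ∈ Finset.range (n + 1), W.P^[k + 1] ψ x) / (n + 1) := by
    simp only [W.iter_succ', ← mul_div_assoc, Finset.mul_sum]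
    rw [← Finset.sum_div, Finset.sum_comm]
  rw [h1, ← add_div]
  congr 1
  have h2 := Finset.sum_range_succ' (fun k => W.P^[k] ψ x) (n + 1)
  rw [Finset.sum_range_succ] at h2
  simp only [Function.iterate_zero, id] at h2
  linarith

theorem cesM_harm (U : Ultrafilter ℕ) (hU : (U : Filter ℕ) ≤ atTop) {ψ : X → ℝ} (h : Bdd ψ) :
    W.Harm (W.cesM U ψ) := by
  intro x
  have h1 : Tendsto (fun n => ∑ y ∈ W.N x, W.q x y * W.cesA ψ y n) U (𝓝 (W.P (W.cesM U ψ) x)) :=
    tendsto_finsetSum _ fun y _ => (W.cesM_tendsto U h y).const_mul _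
  have h2 : Tendsto (fun n : ℕ => (W.P^[n + 1] ψ x - ψ x) / (n + 1)) U (𝓝 0) := by
    obtain ⟨M, hM⟩ := h
    have h3 : Tendsto (fun n : ℕ => (2 * M) * (1 / ((n : ℝ) + 1))) U (𝓝 0) := by
      simpa using (tendsto_one_div_add_atTop_nhds_zero_nat.mono_left hU).const_mul (2 * M)
    refine squeeze_zero_norm (fun n => ?_) h3
    have hn : (0 : ℝ) < n + 1 := by positivity
    rw [Real.norm_eq_abs, abs_div, abs_of_pos hn, mul_one_div]
    gcongr
    have := W.iter_abs_le (n + 1) hM x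
    have := hM x
    have := abs_sub (W.P^[n + 1] ψ x) (ψ x)
    linarith
  have h3 := (W.cesM_tendsto U h x).add h2
  rw [add_zero] at h3
  simp only [W.cesA_P] at h1
  exact tendsto_nhds_unique h1 h3

theorem exists_mean_of' (o : X) (U : Ultrafilter ℕ) (hU : (U : Filter ℕ) ≤ atTop)
    (hL : ∀ φ : X → ℝ, Bdd φ → W.Harm φ → ∀ x y, φ x = φ y) :
    ∃ m : (X → ℝ) → ℝ, Mean Γ m ∧ ∀ ψ, Bdd ψ → ∀ x,
      Tendsto (fun n : ℕ => (∑ k ∈ Finset.range (n + 1), W.P^[k] ψ x) / (n + 1)) U (𝓝 (m ψ)) := by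
  have key : ∀ ψ, Bdd ψ → ∀ x, Tendsto (W.cesA ψ x) U (𝓝 (W.cesM U ψ o)) := fun ψ h x => by
    rw [← hL _ (W.cesM_bdd U h) (W.cesM_harm U hU h) x o]
    exact W.cesM_tendsto U h x
  refine ⟨fun ψ => W.cesM U ψ o, ⟨?_, ?_, ?_, ?_, ?_⟩, key⟩
  · intro ψ ψ' h h'
    have hb : Bdd fun x => ψ x + ψ' x := by
      obtain ⟨M, hM⟩ := h
      obtain ⟨M', hM'⟩ := h'
      exact ⟨M + M', fun x => (abs_add_le _ _).trans (add_le_add (hM x) (hM' x))⟩
    refine tendsto_nhds_unique (key _ hb o) (((key _ h o).add (key _ h' o)).congr fun n => ?_)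
    simp only [cesA, W.iter_add, Finset.sum_add_distrib, add_div]
  · intro a ψ h
    have hb : Bdd fun x => a * ψ x := by
      obtain ⟨M, hM⟩ := h
      exact ⟨|a| * M, fun x => by
        rw [abs_mul]; exact mul_le_mul_of_nonneg_left (hM x) (abs_nonneg a)⟩
    refine tendsto_nhds_unique (key _ hb o) (((key _ h o).const_mul a).congr fun n => ?_)
    simp only [cesA, W.iter_mul, ← Finset.mul_sum, mul_div_assoc]
  · intro ψ ψ' h h' hle
    refine le_of_tendsto_of_tendsto' (key _ h o) (key _ h' o) fun n => ?_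
    unfold cesA
    gcongr with k _
    exact W.iter_mono k hle o
  · intro a
    have hb : Bdd fun _ : X => a := ⟨|a|, fun _ => le_rfl⟩
    refine tendsto_nhds_unique (key _ hb o) (tendsto_const_nhds.congr fun n => ?_)
    have hn : (n : ℝ) + 1 ≠ 0 := by positivity
    simp only [cesA, W.iter_const, Finset.sum_const, Finset.card_range, nsmul_eq_mul]
    push_cast
    field_simp
  · intro g ψ h
    have hb : Bdd fun x => ψ (g • x) := by
      obtain ⟨M, hM⟩ := h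
      exact ⟨M, fun x => hM _⟩
    refine tendsto_nhds_unique (key _ hb o) ((key _ h (g • o)).congr fun n => ?_)
    simp only [cesA, W.iter_smul]

end Walk

end Crest.Agent.R147.Geo
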