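import Crest.Agent.R147.GeoKer
import Crest.Agent.R147.GeoA2Aux7

/-! Row 147, module GEO (owner helper16). See R147/GeoDefs.lean. -/

set_option autoImplicit false

namespace Crest.Agent.R147.Geo

open Filter Topology

namespace Walk
variable {Γ X : Type*} [Group Γ] [MulAction Γ X] (W : Walk Γ X)

/-- Transitivity (`trans`, `pk_smul`, `smul_mem_B`; `Finset.sum_bij`/`sum_nbij'`). -/
theorem H_eq (n : ℕ) (x y : X) : W.H n x = W.H n y := by
  obtain ⟨g, rfl⟩ := W.trans x y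
  exact Finset.sum_equiv (MulAction.toPerm g) (fun z => (W.smul_mem_B n g).symm) fun z _ =>
    congrArg _ (W.pk_smul n g x z).symm

theorem H_nonneg (n : ℕ) (x : X) : 0 ≤ W.H n x :=
  Finset.sum_nonneg fun y _ => Real.negMulLog_nonneg (W.pk_nonneg n x y) (W.pk_le_one n x y)

theorem H_le_pt {p M : ℝ} (hp : 0 ≤ p) (hM : 0 < M) :
    Real.negMulLog p ≤ p * Real.log M + 1 / M - p := by
  rcases hp.eq_or_lt with rfl | hp
  · simpa using hM.le
  · have h := Real.log_le_sub_one_of_pos (show 0 < (p * M)⁻¹ by positivity)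
    rw [Real.log_inv, Real.log_mul hp.ne' hM.ne'] at h
    have h2 := mul_le_mul_of_nonneg_left h hp.le
    have e : p * (p * M)⁻¹ = 1 / M := by field_simp
    rw [Real.negMulLog]
    linarith

/-- Entropy is at most the logarithm of the size of the support
(`-p log p ≤ p log M + 1/M - p` from `log t ≤ t - 1` at `t = 1/(p M)`). -/
theorem H_le (n : ℕ) (x : X) : W.H n x ≤ Real.log (W.B n x).card := by
  have hM : (0 : ℝ) < (W.B n x).card := Nat.cast_pos.2 (Finset.card_pos.2 ⟨x, W.mem_B_self n x⟩)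
  refine (Finset.sum_le_sum fun y _ => H_le_pt (W.pk_nonneg n x y) hM).trans_eq ?_
  rw [Finset.sum_sub_distrib, Finset.sum_add_distrib, ← Finset.sum_mul, W.pk_sum n x subset_rfl,
    Finset.sum_const, nsmul_eq_mul, mul_one_div_cancel hM.ne']
  ring

/-- Pointwise inequality behind `χ² ≤ 2 KL`: for `t = a/b`, `t log t - t + 1 ≥ (t-1)²/(2(t+1))`.
(For `a = 0` the left side is `b/2 ≤ b`; one may use `log t ≥ 2(t-1)/(t+1)` for `t ≥ 1` and
`log t ≥ (t - 1/t)/2` for `t ≤ 1`, or `log t = 2 log √t ≥ 2 (1 - 1/√t)`, which gives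
`t log t - t + 1 ≥ (√t - 1)²` and `(t-1)² = (√t-1)²(√t+1)² ≤ 2 (t+1)(√t-1)²`.) -/
theorem kl_pt {a b : ℝ} (ha : 0 ≤ a) (hb : 0 < b) :
    (a - b) ^ 2 / (2 * (a + b)) ≤ a * Real.log a - a * Real.log b - a + b := by
  rw [div_le_iff₀ (by positivity)]
  rcases ha.eq_or_lt with rfl | ha
  · simp only [zero_mul, sub_zero, zero_add, zero_sub]
    nlinarith [sq_nonneg b]
  obtain ⟨u, hu, rfl⟩ : ∃ u : ℝ, 0 < u ∧ a = u ^ 2 :=
    ⟨√a, Real.sqrt_pos.2 ha, (Real.sq_sqrt ha.le).symm⟩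
  obtain ⟨v, hv, rfl⟩ : ∃ v : ℝ, 0 < v ∧ b = v ^ 2 :=
    ⟨√b, Real.sqrt_pos.2 hb, (Real.sq_sqrt hb.le).symm⟩
  have h1 := Real.log_le_sub_one_of_pos (div_pos hv hu)
  rw [Real.log_div hv.ne' hu.ne'] at h1
  have h2 := mul_le_mul_of_nonneg_left h1 (sq_nonneg u)
  have e : u ^ 2 * (v / u - 1) = u * v - u ^ 2 := by field_simp
  rw [e] at h2
  have h3 : (u - v) ^ 2 ≤ u ^ 2 * Real.log (u ^ 2) - u ^ 2 * Real.log (v ^ 2) - u ^ 2 + v ^ 2 := by
    rw [Real.log_pow, Real.log_pow]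
    push_cast
    nlinarith
  calc (u ^ 2 - v ^ 2) ^ 2 = (u - v) ^ 2 * (u + v) ^ 2 := by ring
    _ ≤ (u - v) ^ 2 * (2 * (u ^ 2 + v ^ 2)) :=
      mul_le_mul_of_nonneg_left (by nlinarith [sq_nonneg (u - v)]) (sq_nonneg _)
    _ ≤ _ := mul_le_mul_of_nonneg_right h3 (by positivity)

/-- Finite form: two probability vectors with `κ a ≤ b`. Cauchy–Schwarz with weights `a + b`
(drop the points with `b = 0`, where `a = 0`), `a + b ≤ (1 + 1/κ) b`, and `kl_pt`. -/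
theorem kl_fin {ι : Type*} (S : Finset ι) (a b f : ι → ℝ) {κ : ℝ} (hκ : 0 < κ)
    (ha : ∀ z ∈ S, 0 ≤ a z) (hab : ∀ z ∈ S, κ * a z ≤ b z) (ha1 : ∑ z ∈ S, a z = 1)
    (hb1 : ∑ z ∈ S, b z = 1) :
    0 ≤ ∑ z ∈ S, (a z * Real.log (a z) - a z * Real.log (b z)) ∧
    (∑ z ∈ S, a z * f z - ∑ z ∈ S, b z * f z) ^ 2 ≤
      2 * (1 + 1 / κ) * (∑ z ∈ S, (a z * Real.log (a z) - a z * Real.log (b z))) *
        ∑ z ∈ S, b z * f z ^ 2 := by
  obtain ⟨k, hk⟩ : ∃ k : ι → ℝ,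
      k = fun z => a z * Real.log (a z) - a z * Real.log (b z) - a z + b z := ⟨_, rfl⟩
  have hb : ∀ z ∈ S, 0 ≤ b z := fun z hz => (mul_nonneg hκ.le (ha z hz)).trans (hab z hz)
  have hsum : ∑ z ∈ S, (a z * Real.log (a z) - a z * Real.log (b z)) = ∑ z ∈ S, k z := by
    rw [hk, Finset.sum_add_distrib, Finset.sum_sub_distrib (f := fun z =>
      a z * Real.log (a z) - a z * Real.log (b z)), ha1, hb1, sub_add_cancel]
  have hpt : ∀ z ∈ S, 0 ≤ k z ∧ (a z - b z) ^ 2 ≤ 2 * (1 + 1 / κ) * k z * b z := by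
    intro z hz
    rcases (hb z hz).eq_or_lt with h0 | h0
    · have h1 : a z = 0 := by
        have h2 := hab z hz
        rw [← h0] at h2
        exact le_antisymm (nonpos_of_mul_nonpos_right h2 hκ) (ha z hz)
      simp [hk, h1, ← h0]
    · have h1 : (a z - b z) ^ 2 / (2 * (a z + b z)) ≤ k z := by
        rw [hk]; exact kl_pt (ha z hz) h0
      have hab' : 0 < 2 * (a z + b z) := by have := ha z hz; positivity
      have h2 : 0 ≤ k z := (div_nonneg (sq_nonneg _) hab'.le).trans h1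
      rw [div_le_iff₀ hab'] at h1
      have h3 : a z ≤ 1 / κ * b z := by
        rw [one_div, ← div_eq_inv_mul, le_div_iff₀ hκ, mul_comm]
        exact hab z hz
      refine ⟨h2, h1.trans ?_⟩
      calc k z * (2 * (a z + b z)) ≤ k z * (2 * (1 / κ * b z + b z)) := by gcongr
        _ = _ := by ring
  rw [hsum]
  refine ⟨Finset.sum_nonneg fun z hz => (hpt z hz).1, ?_⟩
  rw [← Finset.sum_sub_distrib, Finset.mul_sum S k]
  refine Finset.sum_sq_le_sum_mul_sum_of_sq_le_mul S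
    (fun z hz => mul_nonneg (by positivity) (hpt z hz).1)
    (fun z hz => mul_nonneg (hb z hz) (sq_nonneg _)) fun z hz => ?_
  calc (a z * f z - b z * f z) ^ 2 = (a z - b z) ^ 2 * f z ^ 2 := by ring
    _ ≤ 2 * (1 + 1 / κ) * k z * b z * f z ^ 2 :=
      mul_le_mul_of_nonneg_right (hpt z hz).2 (sq_nonneg _)
    _ = _ := by ring

/-- The entropy step. On `S = B (n+1) x` let `a_y = pk n y ·` for `y ∈ N x` and `b = pk (n+1) x ·
= ∑_y q x y a_y ≥ c a_y`. Then `∑_y q x y KL(a_y, b) = H (n+1) x - H n x` (`H_eq`), every term is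
`≥ 0`, so `c KL(a_y,b) ≤ H (n+1) x - H n x`; apply `kl_fin`, `iter_eq_sum`. -/
theorem kl_step (n : ℕ) (x : X) {y : X} (hy : y ∈ W.N x) (f : X → ℝ) :
    (W.P^[n] f y - W.P^[n + 1] f x) ^ 2 ≤
      2 * (1 + 1 / W.c) / W.c * (W.H (n + 1) x - W.H n x) * W.P^[n + 1] (fun z => f z ^ 2) x := by
  have sub : ∀ y ∈ W.N x, W.B n y ⊆ W.B (n + 1) x := fun y hy z hz => W.mem_B_succ.2 ⟨y, hy, hz⟩
  have key : ∀ y ∈ W.N x, _ := fun y hy =>
    kl_fin (W.B (n + 1) x) (W.pk n y) (W.pk (n + 1) x) f W.c_pos (fun z _ => W.pk_nonneg n y z)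
      (fun z _ => by
        rw [W.pk_succ]
        exact (mul_le_mul_of_nonneg_right (W.q_ge x y hy) (W.pk_nonneg n y z)).trans
          (Finset.single_le_sum (f := fun w => W.q x w * W.pk n w z)
            (fun w _ => mul_nonneg (W.q_nonneg x w) (W.pk_nonneg n w z)) hy))
      (W.pk_sum n y (sub y hy)) (W.pk_sum (n + 1) x subset_rfl)
  have e1 : ∀ y ∈ W.N x, ∑ z ∈ W.B (n + 1) x, W.pk n y z * Real.log (W.pk n y z) = -W.H n x := by
    intro y hy
    rw [W.H_eq n x y, H, ← Finset.sum_neg_distrib]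
    symm
    simp only [Real.negMulLog, neg_mul, neg_neg]
    exact Finset.sum_subset (sub y hy) fun z _ hz => by rw [W.pk_eq_zero hz, zero_mul]
  have e2 : ∑ y ∈ W.N x, W.q x y * ∑ z ∈ W.B (n + 1) x,
      (W.pk n y z * Real.log (W.pk n y z) - W.pk n y z * Real.log (W.pk (n + 1) x z)) =
        W.H (n + 1) x - W.H n x := by
    rw [Finset.sum_congr rfl fun y hy => by rw [Finset.sum_sub_distrib, e1 y hy, mul_sub],
      Finset.sum_sub_distrib, ← Finset.sum_mul, W.q_sum, one_mul]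
    simp only [Finset.mul_sum, ← mul_assoc]
    rw [Finset.sum_comm]
    simp only [← Finset.sum_mul, ← W.pk_succ]
    rw [H, H]
    simp only [Real.negMulLog, neg_mul, Finset.sum_neg_distrib]
    ring
  have h1 := Finset.single_le_sum (f := fun y => W.q x y * ∑ z ∈ W.B (n + 1) x,
      (W.pk n y z * Real.log (W.pk n y z) - W.pk n y z * Real.log (W.pk (n + 1) x z)))
    (fun y hy => mul_nonneg (W.q_nonneg x y) (key y hy).1) hy
  rw [e2] at h1
  have h2 := (mul_le_mul_of_nonneg_right (W.q_ge x y hy) (key y hy).1).trans h1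
  rw [← le_div_iff₀' W.c_pos] at h2
  rw [W.iter_eq_sum n f y (sub y hy), W.iter_eq_sum (n + 1) f x subset_rfl,
    W.iter_eq_sum (n + 1) _ x subset_rfl]
  have hc := W.c_pos
  refine (key y hy).2.trans (mul_le_mul_of_nonneg_right ?_
    (Finset.sum_nonneg fun z _ => mul_nonneg (W.pk_nonneg _ x z) (sq_nonneg _)))
  rw [div_mul_eq_mul_div, mul_div_assoc]
  exact mul_le_mul_of_nonneg_left h2 (by positivity)

/-- Pure real analysis: otherwise `h r ≥ (D+1) ∑_{n₀ ≤ n < r} 1/(n+1) ≥ (D+1) (log (r+1) - log (n₀+1))`. -/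
theorem incr_io (h : ℕ → ℝ) (D : ℕ) (h0 : ∀ n, 0 ≤ h n)
    (hD : ∀ n : ℕ, ∃ r, n ≤ r ∧ h r ≤ D * Real.log r) (n₀ : ℕ) :
    ∃ n, n₀ ≤ n ∧ h (n + 1) - h n ≤ (D + 1) / (n + 1) := by
  by_contra hn
  have hlt : ∀ n, n₀ ≤ n → ((D : ℝ) + 1) / (n + 1) < h (n + 1) - h n := fun n hle =>
    not_le.1 fun hh => hn ⟨n, hle, hh⟩
  have key : ∀ r, n₀ ≤ r →
      ((D : ℝ) + 1) * (Real.log ((r : ℝ) + 1) - Real.log ((n₀ : ℝ) + 1)) ≤ h r := by
    intro r hr
    induction r, hr using Nat.le_induction with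
    | base => rw [sub_self, mul_zero]; exact h0 _
    | succ r hr ih =>
      have h1 := hlt r hr
      have hp : (0 : ℝ) < (r : ℝ) + 1 := by positivity
      have h2 : Real.log (((r : ℝ) + 1 + 1) / ((r : ℝ) + 1)) ≤ ((r : ℝ) + 1 + 1) / ((r : ℝ) + 1) - 1 :=
        Real.log_le_sub_one_of_pos (by positivity)
      rw [Real.log_div (by positivity) hp.ne'] at h2
      have h3 : ((r : ℝ) + 1 + 1) / ((r : ℝ) + 1) - 1 = 1 / ((r : ℝ) + 1) := by
        field_simp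
        ring
      rw [h3] at h2
      have h4 := mul_le_mul_of_nonneg_left h2 (show (0 : ℝ) ≤ (D : ℝ) + 1 by positivity)
      rw [mul_one_div] at h4
      push_cast
      linarith
  obtain ⟨r, hr, hh⟩ := hD (n₀ + (n₀ + 1) ^ (D + 1))
  have h1 := key r (by omega)
  have hr1 : (n₀ + 1) ^ (D + 1) ≤ r := by omega
  have hpos : 0 < (n₀ + 1) ^ (D + 1) := by positivity
  have hr0 : (0 : ℝ) < r := by exact_mod_cast hpos.trans_le hr1
  have h2 : Real.log (r : ℝ) < Real.log ((r : ℝ) + 1) := Real.log_lt_log hr0 (by linarith)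
  have h3 : Real.log (((n₀ : ℝ) + 1) ^ (D + 1)) ≤ Real.log (r : ℝ) :=
    Real.log_le_log (by positivity) (by exact_mod_cast hr1)
  rw [Real.log_pow] at h3
  push_cast at h3
  have h4 := mul_le_mul_of_nonneg_left h2.le (Nat.cast_nonneg (α := ℝ) D)
  linarith

/-- Infinitely many good times (`incr_io` for `h n = H n o`, `H_le`, `H_eq`, `kl_step`;
`C = 2 (1 + 1/c)/c (D+1)`). -/
theorem good_io (o : X) {D : ℕ} (hs : W.Slow o D) :
    ∃ C : ℝ, 0 ≤ C ∧ ∀ n₀ : ℕ, ∃ n, n₀ ≤ n ∧ W.Good C n := by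
  have hc := W.c_pos
  have hK : 0 ≤ 2 * (1 + 1 / W.c) / W.c := by positivity
  refine ⟨2 * (1 + 1 / W.c) / W.c * (D + 1), by positivity, fun n₀ => ?_⟩
  obtain ⟨n, hn, hh⟩ := incr_io (fun n => W.H n o) D (fun n => W.H_nonneg n o) (fun n => by
    obtain ⟨r, hr, hb⟩ := hs n
    refine ⟨r, hr, (W.H_le r o).trans ?_⟩
    rw [← Real.log_pow]
    refine Real.log_le_log ?_ (by exact_mod_cast hb)
    exact_mod_cast Finset.card_pos.2 ⟨o, W.mem_B_self r o⟩) n₀
  refine ⟨n, hn, fun x y hy f => (W.kl_step n x hy f).trans ?_⟩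
  refine mul_le_mul_of_nonneg_right ?_
    ((W.iter_const (n + 1) 0 x).ge.trans (W.iter_mono (n + 1) (fun z => sq_nonneg (f z)) x))
  rw [W.H_eq (n + 1) x o, W.H_eq n x o, mul_div_assoc _ ((D : ℝ) + 1)]
  exact mul_le_mul_of_nonneg_left hh hK

/-- Liouville property: `(φ y - φ x)² ≤ C/(n+1) M²` at good times. -/
theorem liouville {C : ℝ} (hg : ∀ n₀ : ℕ, ∃ n, n₀ ≤ n ∧ W.Good C n) {φ : X → ℝ} (hb : Bdd φ)
    (hh : W.Harm φ) (x y : X) : φ x = φ y := by
  refine W.const_of_step (fun x y hy => ?_) x y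
  obtain ⟨M, hM⟩ := hb
  have hle : ∀ n₀ : ℕ, (φ y - φ x) ^ 2 ≤ |C| * M ^ 2 * (1 / ((n₀ : ℝ) + 1)) := by
    intro n₀
    obtain ⟨n, hn, hG⟩ := hg n₀
    have h1 := hG x y hy φ
    rw [hh.iter, hh.iter] at h1
    have h2 : W.P^[n + 1] (fun z => φ z ^ 2) x ≤ M ^ 2 :=
      (W.iter_mono (n + 1) (fun z => sq_le_sq' (abs_le.1 (hM z)).1 (abs_le.1 (hM z)).2) x).trans
        (W.iter_const (n + 1) (M ^ 2) x).le
    have h3 : 0 ≤ W.P^[n + 1] (fun z => φ z ^ 2) x :=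
      (W.iter_const (n + 1) 0 x).ge.trans (W.iter_mono (n + 1) (fun z => sq_nonneg (φ z)) x)
    have h4 : C / ((n : ℝ) + 1) ≤ |C| * (1 / ((n₀ : ℝ) + 1)) := by
      rw [div_eq_mul_one_div]
      refine (mul_le_mul_of_nonneg_right (le_abs_self C) (by positivity)).trans ?_
      refine mul_le_mul_of_nonneg_left (one_div_le_one_div_of_le (by positivity) ?_) (abs_nonneg C)
      have : (n₀ : ℝ) ≤ n := by exact_mod_cast hn
      linarith
    calc (φ y - φ x) ^ 2 ≤ C / ((n : ℝ) + 1) * W.P^[n + 1] (fun z => φ z ^ 2) x := h1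
      _ ≤ |C| * (1 / ((n₀ : ℝ) + 1)) * W.P^[n + 1] (fun z => φ z ^ 2) x :=
        mul_le_mul_of_nonneg_right h4 h3
      _ ≤ |C| * (1 / ((n₀ : ℝ) + 1)) * M ^ 2 := mul_le_mul_of_nonneg_left h2 (by positivity)
      _ = |C| * M ^ 2 * (1 / ((n₀ : ℝ) + 1)) := by ring
  have ht := (tendsto_one_div_add_atTop_nhds_zero_nat (𝕜 := ℝ)).const_mul (|C| * M ^ 2)
  rw [mul_zero] at ht
  have h0 : (φ y - φ x) ^ 2 ≤ 0 := ge_of_tendsto' ht hle
  have h1 : φ y - φ x = 0 := by simpa using le_antisymm h0 (sq_nonneg _)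
  linarith

theorem mart_one {f : X → ℝ} (hh : W.Harm f) (a : ℝ) :
    W.P (fun z => (f z - a) ^ 2) = fun z => (f z - a) ^ 2 + W.Gam f f z := by
  funext w
  have h1 : ∑ y ∈ W.N w, W.q w y * f y = f w := hh w
  have h2 := W.q_sum w
  have h3 : ∀ y, W.q w y * (f y - a) ^ 2 = W.q w y * ((f y - f w) * (f y - f w)) +
      2 * (f w - a) * (W.q w y * f y) + ((f w - a) ^ 2 - 2 * (f w - a) * f w) * W.q w y :=
    fun y => by ring
  unfold P Gam
  simp only [h3, Finset.sum_add_distrib, ← Finset.mul_sum, h1, h2]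
  ring

theorem mart_aux {f : X → ℝ} (hh : W.Harm f) (a : ℝ) (n : ℕ) (x : X) :
    W.P^[n] (fun z => (f z - a) ^ 2) x =
      (f x - a) ^ 2 + ∑ k ∈ Finset.range n, W.P^[k] (W.Gam f f) x := by
  induction n with
  | zero => simp
  | succ n ih =>
    rw [Function.iterate_succ_apply, W.mart_one hh, W.iter_add, ih, Finset.sum_range_succ,
      add_assoc]

/-- Martingale identity: `P ((f - a)²) = (f - a)² + Gam f f` pointwise for harmonic `f`. -/
theorem mart {f : X → ℝ} (hh : W.Harm f) (n : ℕ) (x : X) :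
    W.P^[n] (fun z => (f z - f x) ^ 2) x = ∑ k ∈ Finset.range n, W.P^[k] (W.Gam f f) x := by
  rw [W.mart_aux hh]
  simp

theorem bdd_gam {f f' : X → ℝ} (hf : W.Lip f) (hf' : W.Lip f') : Bdd (W.Gam f f') := by
  obtain ⟨L, hL⟩ := hf
  obtain ⟨L', hL'⟩ := hf'
  refine ⟨L * L', fun x => (Finset.abs_sum_le_sum_abs _ _).trans ?_⟩
  calc _ ≤ ∑ y ∈ W.N x, W.q x y * (L * L') := Finset.sum_le_sum fun y hy => by
        rw [abs_mul, abs_mul, abs_of_nonneg (W.q_nonneg x y)]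
        exact mul_le_mul_of_nonneg_left (mul_le_mul (hL x y hy) (hL' x y hy) (abs_nonneg _)
          ((abs_nonneg _).trans (hL x y hy))) (W.q_nonneg x y)
    _ = L * L' := by rw [← Finset.sum_mul, W.q_sum, one_mul]

theorem gam_smul (g : Γ) (f f' : X → ℝ) (x : X) :
    W.Gam (fun z => f (g • z)) (fun z => f' (g • z)) x = W.Gam f f' (g • x) := by
  exact W.P_smul g (fun w => (f w - f (g • x)) * (f' w - f' (g • x))) x

/-- Cesàro limits along an ultrafilter. `A n ψ x = (∑_{k ≤ n} P^[k] ψ x)/(n+1)` is bounded by the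
bound of `ψ`, so it has a limit `M ψ x` along `U`; `x ↦ M ψ x` is bounded and harmonic (finite sums
commute with limits, telescoping error `≤ 2M/(n+1)`), hence constant by `hL`; `m ψ = M ψ o`;
invariance from `iter_smul`. -/
theorem exists_mean_of (o : X) (U : Ultrafilter ℕ) (hU : (U : Filter ℕ) ≤ atTop)
    (hL : ∀ φ : X → ℝ, Bdd φ → W.Harm φ → ∀ x y, φ x = φ y) :
    ∃ m : (X → ℝ) → ℝ, Mean Γ m ∧ ∀ ψ, Bdd ψ → ∀ x,
      Tendsto (fun n : ℕ => (∑ k ∈ Finset.range (n + 1), W.P^[k] ψ x) / (n + 1)) U (𝓝 (m ψ)) :=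
  W.exists_mean_of' o U hU hL

/-- The invariant energy controls every increment. `U = Ultrafilter.of (atTop ⊓ 𝓟 {n | Good C n})`;
`Good` applied to `z ↦ f z - f x` (harmonic; `Harm.iter`, `iter_sub`, `iter_const`) and `mart` give
`(f y - f x)² ≤ C * A n (Gam f f) x` at good times. -/
theorem exists_mean (o : X) {D : ℕ} (hs : W.Slow o D) :
    ∃ (m : (X → ℝ) → ℝ) (C : ℝ), Mean Γ m ∧ 0 ≤ C ∧ ∀ f, W.Lip f → W.Harm f → ∀ x, ∀ y ∈ W.N x,
      (f y - f x) ^ 2 ≤ C * m (W.Gam f f) := by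
  obtain ⟨C, hC, hg⟩ := W.good_io o hs
  have hne : (atTop ⊓ 𝓟 {n | W.Good C n}).NeBot :=
    frequently_iff_neBot.1 (frequently_atTop.2 hg)
  obtain ⟨U, hU⟩ := Ultrafilter.exists_le (atTop ⊓ 𝓟 {n | W.Good C n})
  obtain ⟨m, hm, hlim⟩ := W.exists_mean_of o U (hU.trans inf_le_left)
    fun φ hb hh => W.liouville hg hb hh
  refine ⟨m, C, hm, hC, fun f hf hh x y hy => ?_⟩
  refine ge_of_tendsto ((hlim _ (W.bdd_gam hf hf) x).const_mul C) ?_
  have hG : ∀ᶠ n in (U : Filter ℕ), W.Good C n := le_principal_iff.1 (hU.trans inf_le_right)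
  filter_upwards [hG] with n hn
  have h1 := hn x y hy fun z => f z - f x
  rw [W.iter_sub, W.iter_sub, W.iter_const, W.iter_const, hh.iter, hh.iter, W.mart hh, sub_self,
    sub_zero] at h1
  rwa [← mul_div_assoc, ← div_mul_eq_mul_div]

end Walk

end Crest.Agent.R147.Geo
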