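import Crest.Agent.R147.GeoLen2

/-! Row 147, module GEO (owner helper16). See R147/GeoDefs.lean. -/

set_option autoImplicit false

namespace Crest.Agent.R147.Geo

section
variable {Λ : Type*} [Group Λ] {E : Type*} [NormedAddCommGroup E] [InnerProductSpace ℝ E]
  [FiniteDimensional ℝ E] {σ : Λ →* (E →L[ℝ] E)}

omit [FiniteDimensional ℝ E] in
/-- Left and right multiplication by an isometry of the group preserve the operator norm. -/
theorem norm_rep_mul (hσ : ∀ g v, ‖σ g v‖ = ‖v‖) (g : Λ) (A : E →L[ℝ] E) :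
    ‖σ g * A‖ = ‖A‖ ∧ ‖A * σ g‖ = ‖A‖ := by
  have hl : ∀ (g : Λ) (A : E →L[ℝ] E), ‖σ g * A‖ ≤ ‖A‖ := fun g A =>
    ContinuousLinearMap.opNorm_le_bound _ (norm_nonneg _) fun v => by
      rw [ContinuousLinearMap.mul_apply, hσ]; exact A.le_opNorm v
  have hr : ∀ (g : Λ) (A : E →L[ℝ] E), ‖A * σ g‖ ≤ ‖A‖ := fun g A =>
    ContinuousLinearMap.opNorm_le_bound _ (norm_nonneg _) fun v => by
      rw [ContinuousLinearMap.mul_apply, ← hσ g v]; exact A.le_opNorm _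
  refine ⟨le_antisymm (hl g A) ?_, le_antisymm (hr g A) ?_⟩
  · have := hl g⁻¹ (σ g * A)
    rwa [← mul_assoc, ← map_mul, inv_mul_cancel, map_one, one_mul] at this
  · have := hr g⁻¹ (A * σ g)
    rwa [mul_assoc, ← map_mul, mul_inv_cancel, map_one, mul_one] at this

/-- The elements near the identity generate a subgroup of finite index: the values of `σ` lie in the
closed unit ball of the finite-dimensional space `E →L[ℝ] E`, which is covered by finitely many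
balls of radius `ε/2`; two elements with values in the same ball lie in the same coset since
`‖σ (g⁻¹ g') - 1‖ = ‖σ g' - σ g‖`. -/
theorem near_index (hσ : ∀ g v, ‖σ g v‖ = ‖v‖) {ε : ℝ} (hε : 0 < ε) :
    (Subgroup.closure {g : Λ | ‖σ g - 1‖ < ε}).FiniteIndex := by
  set H := Subgroup.closure {g : Λ | ‖σ g - 1‖ < ε} with hH
  have hb : ∀ g, σ g ∈ Metric.closedBall (0 : E →L[ℝ] E) 1 := fun g => by
    rw [mem_closedBall_zero_iff]
    exact ContinuousLinearMap.opNorm_le_bound _ zero_le_one fun v => by rw [hσ, one_mul]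
  obtain ⟨t, ht, hcov⟩ := Metric.totallyBounded_iff.1
    (isCompact_closedBall (0 : E →L[ℝ] E) 1).totallyBounded (ε / 2) (half_pos hε)
  have hc : ∀ g : Λ, ∃ c : t, σ g ∈ Metric.ball (c : E →L[ℝ] E) (ε / 2) := fun g => by
    obtain ⟨c, hc, h⟩ := Set.mem_iUnion₂.1 (hcov (hb g))
    exact ⟨⟨c, hc⟩, h⟩
  choose c hc using hc
  haveI : Finite t := ht.to_subtype
  haveI : Finite (Λ ⧸ H) := by
    refine Finite.of_injective (fun q : Λ ⧸ H => c q.out) fun q q' h => ?_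
    rw [← q.out_eq, ← q'.out_eq]
    refine Quotient.sound (QuotientGroup.leftRel_apply.2 (Subgroup.subset_closure ?_))
    have h1 := hc q.out
    have h2 := hc q'.out
    simp only at h
    rw [← h] at h2
    have e : σ (q.out⁻¹ * q'.out) - 1 = σ q.out⁻¹ * (σ q'.out - σ q.out) := by
      rw [mul_sub, ← map_mul, ← map_mul, inv_mul_cancel, map_one]
    show ‖σ (q.out⁻¹ * q'.out) - 1‖ < ε
    rw [e, (norm_rep_mul hσ _ _).1, ← dist_eq_norm]
    have := dist_triangle_right (σ q'.out) (σ q.out) (c q.out)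
    rw [Metric.mem_ball] at h1 h2
    linarith
  exact Subgroup.finiteIndex_of_finite_quotient

omit [FiniteDimensional ℝ E] in
/-- `uv - vu = (u-1)(v-1) - (v-1)(u-1)`. -/
theorem comm_norm (hσ : ∀ g v, ‖σ g v‖ = ‖v‖) (g h : Λ) :
    ‖σ (g * h * g⁻¹ * h⁻¹) - 1‖ ≤ 2 * ‖σ g - 1‖ * ‖σ h - 1‖ := by
  have e : σ (g * h * g⁻¹ * h⁻¹) - 1 =
      ((σ g - 1) * (σ h - 1) - (σ h - 1) * (σ g - 1)) * σ (g⁻¹ * h⁻¹) := by
    have e1 : (σ g - 1) * (σ h - 1) - (σ h - 1) * (σ g - 1) = σ (g * h) - σ (h * g) := by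
      rw [map_mul, map_mul]; noncomm_ring
    rw [e1, sub_mul, ← map_mul, ← map_mul]
    congr 1
    · congr 1; group
    · rw [← map_one σ]; congr 1; group
  rw [e, (norm_rep_mul hσ _ _).2]
  have h1 := norm_sub_le ((σ g - 1) * (σ h - 1)) ((σ h - 1) * (σ g - 1))
  have h2 := norm_mul_le (σ g - 1) (σ h - 1)
  have h3 := norm_mul_le (σ h - 1) (σ g - 1)
  linarith

omit [FiniteDimensional ℝ E] in
theorem central_triv_adj (hσ : ∀ g v, ‖σ g v‖ = ‖v‖) (g : Λ) (v w : E) :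
    inner ℝ (σ g⁻¹ v) w = inner ℝ v (σ g w) := by
  have h1 := (LinearMap.norm_map_iff_inner_map_map (𝕜 := ℝ) (σ g)).1 (hσ g) (σ g⁻¹ v) w
  rw [← h1, ← ContinuousLinearMap.mul_apply, ← map_mul, mul_inv_cancel, map_one,
    ContinuousLinearMap.one_apply]

/-- Trace trick. `z = [g,h]` central: `g h g⁻¹ = z h` and `g⁻¹ h g = z⁻¹ h` under `σ`, so
`tr σ(z h) = tr σ(z⁻¹ h) = tr σ h`, hence `a tr σ h = 2 tr σ h`; `tr σ h > 0` for nontrivial `E`
because `⟪σ h e, e⟫ > 0` on an orthonormal basis; so `a = 2`, `⟪σ z v, v⟫ = ‖v‖²`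
(`⟪σ z⁻¹ v, v⟫ = ⟪v, σ z v⟫`), `‖σ z v - v‖² = 0`. -/
theorem central_triv (hσ : ∀ g v, ‖σ g v‖ = ‖v‖) (g h : Λ) (a : ℝ)
    (hg : σ (g * h * g⁻¹ * h⁻¹) * σ g = σ g * σ (g * h * g⁻¹ * h⁻¹))
    (ha : σ (g * h * g⁻¹ * h⁻¹) + σ (g * h * g⁻¹ * h⁻¹)⁻¹ = a • (1 : E →L[ℝ] E))
    (hh : ‖σ h - 1‖ < 1) : σ (g * h * g⁻¹ * h⁻¹) = 1 := by
  rcases subsingleton_or_nontrivial E with hE | hE
  · exact ContinuousLinearMap.ext fun v => Subsingleton.elim _ _
  obtain ⟨z, hz⟩ : ∃ z, z = g * h * g⁻¹ * h⁻¹ := ⟨_, rfl⟩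
  rw [← hz] at hg ha ⊢
  let tr : (E →L[ℝ] E) → ℝ := fun A => LinearMap.trace ℝ E (A : E →ₗ[ℝ] E)
  have tc : ∀ x y : Λ, tr (σ (x * y * x⁻¹)) = tr (σ y) := fun x y => by
    have h1 := LinearMap.trace_mul_comm ℝ (σ (x * y) : E →ₗ[ℝ] E) (σ x⁻¹ : E →ₗ[ℝ] E)
    rw [← ContinuousLinearMap.toLinearMap_mul, ← ContinuousLinearMap.toLinearMap_mul, ← map_mul,
      ← map_mul, inv_mul_cancel_left] at h1
    exact h1
  have h1 : tr (σ z * σ h) = tr (σ h) := by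
    rw [← map_mul, hz, inv_mul_cancel_right]
    exact tc g h
  have h2 : tr (σ z⁻¹ * σ h) = tr (σ h) := by
    have e1 : σ z⁻¹ * σ h = σ (g⁻¹ * h * g⁻¹⁻¹) := by
      have e2 : σ (z * g) = σ (g * z) := by rw [map_mul, map_mul, hg]
      have e4 : σ (g⁻¹ * z) = σ (z * g⁻¹) := by
        have : σ (g⁻¹ * (z * g) * g⁻¹) = σ (g⁻¹ * (g * z) * g⁻¹) := by
          rw [map_mul, map_mul, e2, ← map_mul, ← map_mul]
        rwa [show g⁻¹ * (z * g) * g⁻¹ = g⁻¹ * z by group,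
          show g⁻¹ * (g * z) * g⁻¹ = z * g⁻¹ by group] at this
      have e5 : h = (g⁻¹ * z) * (h * g) := by rw [hz]; group
      calc σ z⁻¹ * σ h = σ z⁻¹ * (σ (g⁻¹ * z) * σ (h * g)) := by rw [← map_mul σ _ (h * g), ← e5]
        _ = σ (z⁻¹ * (z * g⁻¹ * (h * g))) := by rw [e4, ← map_mul, ← map_mul]
        _ = σ (g⁻¹ * h * g⁻¹⁻¹) := by congr 1; group
    rw [e1]
    exact tc g⁻¹ h
  have h3 : a * tr (σ h) = 2 * tr (σ h) := by
    have e1 : tr ((σ z + σ z⁻¹) * σ h) = tr (σ z * σ h) + tr (σ z⁻¹ * σ h) := by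
      simp only [tr, add_mul, ContinuousLinearMap.toLinearMap_add, map_add]
    rw [ha, h1, h2, smul_mul_assoc, one_mul] at e1
    simp only [tr, ContinuousLinearMap.toLinearMap_smul, map_smul, smul_eq_mul] at e1 ⊢
    linarith
  have h4 : 0 < tr (σ h) := by
    let b := stdOrthonormalBasis ℝ E
    have : Nonempty (Fin (Module.finrank ℝ E)) := ⟨⟨0, Module.finrank_pos⟩⟩
    rw [show tr (σ h) = _ from LinearMap.trace_eq_sum_inner _ b]
    refine Finset.sum_pos (fun i _ => ?_) Finset.univ_nonempty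
    have e1 : ‖b i‖ = 1 := b.orthonormal.1 i
    have e2 := abs_real_inner_le_norm (b i) ((σ h - 1) (b i))
    have e3 := (σ h - 1).le_opNorm (b i)
    rw [ContinuousLinearMap.sub_apply, ContinuousLinearMap.one_apply, e1] at e2 e3
    rw [inner_sub_right, real_inner_self_eq_norm_sq, e1] at e2
    have e4 := (abs_le.1 e2).1
    show 0 < inner ℝ (b i) (σ h (b i))
    linarith
  have h5 : a = 2 := mul_right_cancel₀ h4.ne' h3
  refine ContinuousLinearMap.ext fun v => ?_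
  have e1 := congrArg (fun A : E →L[ℝ] E => inner ℝ (A v) v) ha
  simp only [ContinuousLinearMap.add_apply, ContinuousLinearMap.smul_apply,
    ContinuousLinearMap.one_apply, inner_add_left, real_inner_smul_left] at e1
  rw [central_triv_adj hσ, real_inner_comm (σ z v) v, real_inner_self_eq_norm_sq, h5] at e1
  have e2 := norm_sub_sq_real (σ z v) v
  rw [hσ] at e2
  have e3 : ‖σ z v - v‖ ^ 2 = 0 := by linarith
  rw [ContinuousLinearMap.one_apply]
  exact sub_eq_zero.1 (norm_eq_zero.1 (pow_eq_zero_iff two_ne_zero |>.1 e3))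

omit [FiniteDimensional ℝ E] in
theorem pow_norm_mul (hσ : ∀ g v, ‖σ g v‖ = ‖v‖) (g g' : Λ) :
    ‖σ (g * g') - 1‖ ≤ ‖σ g - 1‖ + ‖σ g' - 1‖ := by
  have e : σ (g * g') - 1 = (σ g - 1) + σ g * (σ g' - 1) := by
    rw [map_mul, mul_sub, mul_one]
    abel
  rw [e, ← (norm_rep_mul hσ g (σ g' - 1)).1]
  exact norm_add_le _ _

omit [FiniteDimensional ℝ E] in
theorem pow_norm_inv (hσ : ∀ g v, ‖σ g v‖ = ‖v‖) (g : Λ) : ‖σ g⁻¹ - 1‖ = ‖σ g - 1‖ := by
  rw [← (norm_rep_mul hσ g (σ g⁻¹ - 1)).1, mul_sub, ← map_mul, mul_inv_cancel, map_one, mul_one,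
    norm_sub_rev]

omit [FiniteDimensional ℝ E] in
theorem pow_norm_le (hσ : ∀ g v, ‖σ g v‖ = ‖v‖) (h : Λ) (j : ℕ) :
    ‖σ (h ^ j) - 1‖ ≤ j * ‖σ h - 1‖ := by
  induction j with
  | zero => simp
  | succ j ih =>
    rw [pow_succ]
    push_cast
    linarith [pow_norm_mul hσ (h ^ j) h]

omit [FiniteDimensional ℝ E] in
theorem pow_norm_snd (hσ : ∀ g v, ‖σ g v‖ = ‖v‖) (h : Λ) (j : ℕ) :
    ‖σ (h ^ j) - 1 - (j : ℝ) • (σ h - 1)‖ ≤ j * (j - 1) / 2 * ‖σ h - 1‖ ^ 2 := by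
  induction j with
  | zero => simp
  | succ j ih =>
    have e : σ (h ^ (j + 1)) - 1 - ((j + 1 : ℕ) : ℝ) • (σ h - 1) =
        (σ (h ^ j) - 1 - (j : ℝ) • (σ h - 1)) + (σ (h ^ j) - 1) * (σ h - 1) := by
      rw [pow_succ, map_mul, Nat.cast_succ, add_smul, one_smul, sub_mul, mul_sub, mul_one, one_mul]
      abel
    have h1 := (norm_mul_le (σ (h ^ j) - 1) (σ h - 1)).trans
      (mul_le_mul_of_nonneg_right (pow_norm_le hσ h j) (norm_nonneg _))
    rw [e]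
    refine (norm_add_le _ _).trans ((add_le_add ih h1).trans_eq ?_)
    push_cast
    ring

omit [FiniteDimensional ℝ E] in
/-- Small powers move away from the identity: with `u = σ h`, `δ = ‖u - 1‖`,
`u^j - 1 = j (u-1) + (u-1) ∑_{i<j} (u^i - 1)`, `‖u^i - 1‖ ≤ i δ`. Also the upper bound. -/
theorem pow_norm (hσ : ∀ g v, ‖σ g v‖ = ‖v‖) (h : Λ) (j : ℕ) :
    ‖σ (h ^ j) - 1‖ ≤ j * ‖σ h - 1‖ ∧
      (1 ≤ j → j * ‖σ h - 1‖ ≤ 1 → ‖σ h - 1‖ / 2 ≤ ‖σ (h ^ j) - 1‖) := by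
  refine ⟨pow_norm_le hσ h j, fun h1 h2 => ?_⟩
  have h3 := pow_norm_snd hσ h j
  have h4 := norm_sub_norm_le ((j : ℝ) • (σ h - 1)) (σ (h ^ j) - 1)
  rw [norm_sub_rev (_ • _), norm_smul, Real.norm_natCast] at h4
  have h5 : (1 : ℝ) ≤ j := by exact_mod_cast h1
  have h6 := mul_le_mul_of_nonneg_left h2 (mul_nonneg (sub_nonneg.2 h5) (norm_nonneg (σ h - 1)))
  have h7 := mul_le_mul_of_nonneg_right h5 (norm_nonneg (σ h - 1))
  linarith [norm_nonneg (σ h - 1)]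

omit [FiniteDimensional ℝ E] in
theorem prod_inj_word (hσ : ∀ g v, ‖σ g v‖ = ‖v‖) {ε : ℝ} {M : ℕ} (hε : 4 * ε ≤ 1) (m : ℕ)
    (h : ℕ → Λ) (hsh : ∀ i, ‖σ (h (i + 1)) - 1‖ ≤ 2 * ε * ‖σ (h i) - 1‖) (k : ℕ → ℕ)
    (hk : ∀ i, k i < M) :
    ‖σ ((List.range m).map fun i => h i ^ k i).prod - 1‖ ≤ 2 * M * ‖σ (h 0) - 1‖ := by
  induction m generalizing h k with
  | zero =>
    simp only [List.range_zero, List.map_nil, List.prod_nil, map_one, sub_self, norm_zero]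
    positivity
  | succ m ih =>
    rw [List.range_succ_eq_map, List.map_cons, List.prod_cons, List.map_map]
    have h1 := ih (fun i => h (i + 1)) (fun i => hsh (i + 1)) (fun i => k (i + 1)) fun i => hk _
    have h2 : (k 0 : ℝ) ≤ M := by exact_mod_cast (hk 0).le
    have h3 := (pow_norm_le hσ (h 0) (k 0)).trans (mul_le_mul_of_nonneg_right h2 (norm_nonneg _))
    have h4 : 2 * ‖σ (h (0 + 1)) - 1‖ ≤ ‖σ (h 0) - 1‖ := by
      nlinarith [hsh 0, norm_nonneg (σ (h 0) - 1)]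
    have h5 := mul_le_mul_of_nonneg_left h4 (Nat.cast_nonneg (α := ℝ) M)
    refine (pow_norm_mul hσ _ _).trans ((add_le_add h3 h1).trans ?_)
    linarith

omit [FiniteDimensional ℝ E] in
theorem prod_inj_cancel {a a' w w' : Λ} (h : σ (a * w) = σ (a' * w')) :
    σ (a'⁻¹ * a) = σ (w' * w⁻¹) := by
  rw [show a'⁻¹ * a = a'⁻¹ * (a * w) * w⁻¹ by group, map_mul, map_mul, h, ← map_mul, ← map_mul,
    inv_mul_cancel_left]

omit [FiniteDimensional ℝ E] in
theorem prod_inj_lt (hσ : ∀ g v, ‖σ g v‖ = ‖v‖) {g w w' : Λ} {a b : ℕ} (hpos : 0 < ‖σ g - 1‖)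
    (ha : a * ‖σ g - 1‖ ≤ 1) (hw : ‖σ w - 1‖ ≤ ‖σ g - 1‖ / 8) (hw' : ‖σ w' - 1‖ ≤ ‖σ g - 1‖ / 8)
    (he : σ (g ^ a * w) = σ (g ^ b * w')) : a ≤ b := by
  by_contra hab
  obtain ⟨j, rfl⟩ := Nat.exists_eq_add_of_lt (not_le.1 hab)
  have h1 := prod_inj_cancel he
  rw [add_assoc, pow_add, inv_mul_cancel_left] at h1
  have h2 := (pow_norm hσ g (j + 1)).2 (by omega) (le_trans (mul_le_mul_of_nonneg_right
    (Nat.cast_le.2 (by omega)) hpos.le) ha)
  have h3 := pow_norm_mul hσ w' w⁻¹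
  rw [pow_norm_inv hσ] at h3
  rw [h1] at h2
  linarith

omit [FiniteDimensional ℝ E] in
/-- Products of powers of a rapidly shrinking sequence are distinct. Induct on `m`, generalising
`h k k'` (`List.range_succ_eq_map`: first factor times the word of the shifted sequence). A word
`w` of the shifted sequence has `‖σ w - 1‖ ≤ M ∑_{i ≥ 1} δ i ≤ 4 ε M δ 0 ≤ δ 0 / 8`; if `k 0 > k' 0`
then `σ (h 0 ^ (k 0 - k' 0)) = σ (w' w⁻¹)` is within `δ 0 / 4` of `1`, against `pow_norm`. -/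
theorem prod_inj (hσ : ∀ g v, ‖σ g v‖ = ‖v‖) {ε : ℝ} {M : ℕ} (hM : 1 ≤ M) (hε : 32 * M * ε ≤ 1)
    (m : ℕ) (h : ℕ → Λ) (hpos : ∀ i, 0 < ‖σ (h i) - 1‖) (h0 : ‖σ (h 0) - 1‖ ≤ ε)
    (hsh : ∀ i, ‖σ (h (i + 1)) - 1‖ ≤ 2 * ε * ‖σ (h i) - 1‖) (k k' : ℕ → ℕ)
    (hk : ∀ i, k i < M) (hk' : ∀ i, k' i < M)
    (he : σ ((List.range m).map fun i => h i ^ k i).prod =
      σ ((List.range m).map fun i => h i ^ k' i).prod) : ∀ i < m, k i = k' i := by
  induction m generalizing h k k' with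
  | zero => exact fun i hi => absurd hi (Nat.not_lt_zero i)
  | succ m ih =>
    have hM' : (1 : ℝ) ≤ M := by exact_mod_cast hM
    have hp := hpos 0
    have hε0 : 0 < ε := hp.trans_le h0
    have hε1 : 32 * ε ≤ 1 := by nlinarith
    have hw : ∀ k : ℕ → ℕ, (∀ i, k i < M) →
        ‖σ ((List.range m).map fun i => h (i + 1) ^ k (i + 1)).prod - 1‖ ≤ ‖σ (h 0) - 1‖ / 8 ∧
          k 0 * ‖σ (h 0) - 1‖ ≤ 1 := fun k hk => by
      have h1 := prod_inj_word hσ (by linarith) m (fun i => h (i + 1)) (fun i => hsh (i + 1))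
        (fun i => k (i + 1)) fun i => hk _
      have h2 := mul_le_mul_of_nonneg_left (hsh 0) (by linarith : (0 : ℝ) ≤ 2 * M)
      have h3 := mul_le_mul_of_nonneg_right hε hp.le
      have h4 : (k 0 : ℝ) ≤ M := by exact_mod_cast (hk 0).le
      have h5 := mul_le_mul h4 h0 hp.le (by linarith)
      exact ⟨by linarith, by nlinarith⟩
    simp only [List.range_succ_eq_map, List.map_cons, List.prod_cons, List.map_map] at he
    have e : k 0 = k' 0 := le_antisymm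
      (prod_inj_lt hσ hp (hw k hk).2 (hw k hk).1 (hw k' hk').1 he)
      (prod_inj_lt hσ hp (hw k' hk').2 (hw k' hk').1 (hw k hk).1 he.symm)
    have he' := congrArg (σ (h 0 ^ k 0)⁻¹ * ·) he
    simp only [← map_mul, ← e, inv_mul_cancel_left] at he'
    have h2 := ih (fun i => h (i + 1)) (fun i => hpos _) (by nlinarith [hsh 0])
      (fun i => hsh (i + 1)) (fun i => k (i + 1)) (fun i => k' (i + 1)) (fun i => hk _)
      (fun i => hk' _) he'
    intro i hi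
    cases i with
    | zero => exact e
    | succ i => exact h2 i (by omega)

theorem shrink_false_len {ℓ : Λ → ℕ} (hl : Len ℓ) (h : ℕ → Λ) (A M : ℕ)
    (hA : ∀ i, ℓ (h i) ≤ A * 2 ^ i) (k : ℕ → ℕ) (hk : ∀ i, k i < M) (m : ℕ) :
    ℓ ((List.range m).map fun i => h i ^ k i).prod ≤ M * A * 2 ^ m := by
  induction m with
  | zero => simp [hl.one]
  | succ m ih =>
    rw [List.range_succ, List.map_append, List.prod_append, List.map_singleton,
      List.prod_singleton]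
    have h1 := hl.mul ((List.range m).map fun i => h i ^ k i).prod (h m ^ k m)
    have h2 : ℓ (h m ^ k m) ≤ M * A * 2 ^ m := by
      rw [mul_assoc]
      exact (hl.pow _ _).trans (Nat.mul_le_mul (hk m).le (hA m))
    rw [pow_succ, ← mul_assoc]
    omega

omit [FiniteDimensional ℝ E] in
/-- Counting: `M = 2^(D+1)`; the `M^m` words (`k : Fin m → Fin M`, extended by `0`) have length
`≤ M A 2^m` and distinct values (`prod_inj`); for `s` choose `m` with `s ≤ 2^m ≤ 2 (s+1)`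
and apply `SlowF.false`. -/
theorem shrink_false {ℓ : Λ → ℕ} (hl : Len ℓ) {D : ℕ} (hs : SlowF ℓ σ D)
    (hσ : ∀ g v, ‖σ g v‖ = ‖v‖) {ε : ℝ} (hε : 32 * (2 ^ (D + 1) : ℕ) * ε ≤ 1) (h : ℕ → Λ)
    (hpos : ∀ i, 0 < ‖σ (h i) - 1‖) (h0 : ‖σ (h 0) - 1‖ ≤ ε)
    (hsh : ∀ i, ‖σ (h (i + 1)) - 1‖ ≤ 2 * ε * ‖σ (h i) - 1‖) (A : ℕ)
    (hA : ∀ i, ℓ (h i) ≤ A * 2 ^ i) : False := by
  classical
  refine hs.false (A := 2 ^ (D + 1) * A * 2) fun s => ?_
  set M : ℕ := 2 ^ (D + 1) with hM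
  have hM1 : 1 ≤ M := Nat.one_le_two_pow
  obtain ⟨m, hm1, hm2⟩ : ∃ m : ℕ, s ≤ 2 ^ m ∧ 2 ^ m ≤ 2 * (s + 1) := by
    refine ⟨Nat.log 2 s + 1, (Nat.lt_pow_succ_log_self one_lt_two s).le, ?_⟩
    rcases eq_or_ne s 0 with rfl | hs0
    · simp
    · have := Nat.pow_log_le_self 2 hs0
      rw [pow_succ]
      omega
  let e : (Fin m → Fin M) → ℕ → ℕ := fun k i => if hi : i < m then k ⟨i, hi⟩ else 0
  have he : ∀ k i, e k i < M := fun k i => by
    by_cases hi : i < m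
    · simp only [e, dif_pos hi]
      exact (k _).2
    · simp only [e, dif_neg hi]
      exact hM1
  let w : (Fin m → Fin M) → Λ := fun k => ((List.range m).map fun i => h i ^ e k i).prod
  have hw : ∀ k k', σ (w k) = σ (w k') → k = k' := fun k k' hkk => by
    have := prod_inj hσ hM1 hε m h hpos h0 hsh (e k) (e k') (he k) (he k') hkk
    funext i
    have h1 := this i i.2
    simp only [e, dif_pos i.2] at h1
    exact Fin.ext h1
  refine ⟨Finset.univ.image w, fun g hg => ?_, fun g hg g' hg' hgg => ?_, ?_⟩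
  · obtain ⟨k, -, rfl⟩ := Finset.mem_image.1 hg
    refine (shrink_false_len hl h A M hA (e k) (he k) m).trans ?_
    rw [mul_assoc (M * A)]
    exact Nat.mul_le_mul_left _ hm2
  · obtain ⟨k, -, rfl⟩ := Finset.mem_image.1 (Finset.mem_coe.1 hg)
    obtain ⟨k', -, rfl⟩ := Finset.mem_image.1 (Finset.mem_coe.1 hg')
    rw [hw k k' hgg]
  · rw [Finset.card_image_of_injective _ fun k k' hkk => hw k k' (congrArg σ hkk)]
    simp only [Finset.card_univ, Fintype.card_fun, Fintype.card_fin]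
    rw [hM, ← pow_mul, mul_comm, pow_mul]
    exact Nat.pow_le_pow_left hm1 _

theorem gen_near_fin (C : Set Λ) {g : Λ} (hg : g ∈ Subgroup.closure C) :
    ∃ S : Finset Λ, (S : Set Λ) ⊆ C ∧ g ∈ Subgroup.closure (S : Set Λ) := by
  classical
  induction hg using Subgroup.closure_induction with
  | mem x hx => exact ⟨{x}, by simpa using hx, Subgroup.subset_closure (by simp)⟩
  | one => exact ⟨∅, by simp, Subgroup.one_mem _⟩
  | mul x y _ _ hx hy =>
    obtain ⟨S, hS, hx⟩ := hx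
    obtain ⟨S', hS', hy⟩ := hy
    refine ⟨S ∪ S', by rw [Finset.coe_union]; exact Set.union_subset hS hS', ?_⟩
    rw [Finset.coe_union]
    exact Subgroup.mul_mem _ (Subgroup.closure_mono Set.subset_union_left hx)
      (Subgroup.closure_mono Set.subset_union_right hy)
  | inv x _ hx =>
    obtain ⟨S, hS, hx⟩ := hx
    exact ⟨S, hS, Subgroup.inv_mem _ hx⟩

omit [FiniteDimensional ℝ E] in
/-- Finitely many generators from a generating set, modulo `σ`: the short generators have finitely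
many values; each value is the value of an element of `closure C`, which lies in the closure of a
finite subset of `C`. -/
theorem gen_near {ℓ : Λ → ℕ} (C : Set Λ) (hb : BGen ℓ (Subgroup.closure C))
    (hfin : ∀ r, (σ '' {g | ℓ g ≤ r}).Finite) :
    ∃ S : Finset Λ, (S : Set Λ) ⊆ C ∧
      ∀ g ∈ Subgroup.closure C, ∃ g' ∈ Subgroup.closure (S : Set Λ), σ g' = σ g := by
  classical
  obtain ⟨R, hR⟩ := hb
  have hf : (σ '' {s | s ∈ Subgroup.closure C ∧ ℓ s ≤ R}).Finite :=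
    (hfin R).subset (Set.image_mono fun s hs => hs.2)
  have hch : ∀ v ∈ hf.toFinset, ∃ S : Finset Λ, (S : Set Λ) ⊆ C ∧
      ∃ g' ∈ Subgroup.closure (S : Set Λ), σ g' = v := fun v hv => by
    obtain ⟨s, hs, rfl⟩ := hf.mem_toFinset.1 hv
    obtain ⟨S, hS, hs'⟩ := gen_near_fin C hs.1
    exact ⟨S, hS, s, hs', rfl⟩
  choose! Sv hSv hgv using hch
  refine ⟨hf.toFinset.biUnion Sv, fun x hx => ?_, fun g hg => ?_⟩
  · obtain ⟨v, hv, hx⟩ := Finset.mem_biUnion.1 (Finset.mem_coe.1 hx)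
    exact hSv v hv (Finset.mem_coe.2 hx)
  · have hg' := hR hg
    clear hg
    induction hg' using Subgroup.closure_induction with
    | mem x hx =>
      have hv : σ x ∈ hf.toFinset := hf.mem_toFinset.2 ⟨x, hx, rfl⟩
      obtain ⟨g', hg', e⟩ := hgv _ hv
      refine ⟨g', Subgroup.closure_mono ?_ hg', e⟩
      exact Finset.coe_subset.2 (Finset.subset_biUnion_of_mem Sv hv)
    | one => exact ⟨1, Subgroup.one_mem _, rfl⟩
    | mul x y _ _ hx hy =>
      obtain ⟨x', hx', ex⟩ := hx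
      obtain ⟨y', hy', ey⟩ := hy
      exact ⟨x' * y', Subgroup.mul_mem _ hx' hy', by rw [map_mul, map_mul, ex, ey]⟩
    | inv x _ hx =>
      obtain ⟨x', hx', ex⟩ := hx
      refine ⟨x'⁻¹, Subgroup.inv_mem _ hx', ?_⟩
      calc σ x'⁻¹ = σ x'⁻¹ * (σ x * σ x⁻¹) := by rw [← map_mul, mul_inv_cancel, map_one, mul_one]
        _ = σ x⁻¹ := by rw [← ex, ← mul_assoc, ← map_mul, inv_mul_cancel, map_one, one_mul]

/-- Commutator shrinking. `H = closure C`, `C` the `ε`-near elements, `S` from `gen_near`. An element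
`h ∈ H` whose value commutes with all `σ s`, `s ∈ S`, is central in `σ H`. If `σ H` is not
commutative some `h 0 ∈ S` is not central; given a noncentral `h i ∈ H` with `‖σ (h i) - 1‖ ≤ ε`
choose `s ∈ S` not commuting with it, `h (i+1) = s * h i * s⁻¹ * (h i)⁻¹`: its value is not `1`, it
is noncentral by `hsc` and `central_triv`, `comm_norm` gives the shrinking,
`ℓ (h i) + 2L ≤ 3L 2^i` with `L = max ℓ S`. Contradiction with `shrink_false`. -/
theorem comm_of_scalar {ℓ : Λ → ℕ} (hl : Len ℓ) {D : ℕ} (hs : SlowF ℓ σ D)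
    (hσ : ∀ g v, ‖σ g v‖ = ‖v‖) {ε : ℝ} (hε : 32 * (2 ^ (D + 1) : ℕ) * ε ≤ 1)
    {H : Subgroup Λ} (hH : H = Subgroup.closure {g : Λ | ‖σ g - 1‖ < ε}) (hb : BGen ℓ H)
    (hsc : ∀ z ∈ H, (∀ g ∈ H, σ z * σ g = σ g * σ z) →
      ∃ a : ℝ, σ z + σ z⁻¹ = a • (1 : E →L[ℝ] E)) :
    ∀ a ∈ H, ∀ b ∈ H, σ a * σ b = σ b * σ a := by
  subst hH
  obtain ⟨S, hSC, hS⟩ := gen_near (σ := σ) _ hb hs.finite
  have hSH : ∀ s ∈ S, s ∈ Subgroup.closure {g : Λ | ‖σ g - 1‖ < ε} := fun s hs =>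
    Subgroup.subset_closure (hSC hs)
  have hcen : ∀ h : Λ, (∀ s ∈ S, σ h * σ s = σ s * σ h) →
      ∀ g ∈ Subgroup.closure {g : Λ | ‖σ g - 1‖ < ε}, σ h * σ g = σ g * σ h := by
    intro h hh g hg
    obtain ⟨g', hg', e⟩ := hS g hg
    rw [← e]
    clear e
    induction hg' using Subgroup.closure_induction with
    | mem x hx => exact hh x hx
    | one => rw [map_one, mul_one, one_mul]
    | mul x y _ _ hx hy => rw [map_mul, ← mul_assoc, hx, mul_assoc, hy, mul_assoc]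
    | inv x _ hx =>
      have h1 : σ x⁻¹ * σ x = 1 := by rw [← map_mul, inv_mul_cancel, map_one]
      have h2 : σ x * σ x⁻¹ = 1 := by rw [← map_mul, mul_inv_cancel, map_one]
      calc σ h * σ x⁻¹ = σ x⁻¹ * (σ x * σ h) * σ x⁻¹ := by rw [← mul_assoc, h1, one_mul]
        _ = σ x⁻¹ * σ h := by rw [← hx, mul_assoc, mul_assoc, h2, mul_one]
  by_contra hne
  have h0 : ∃ s₀ ∈ S, ¬ ∀ s ∈ S, σ s₀ * σ s = σ s * σ s₀ := by
    by_contra h
    push Not at h
    exact hne fun a ha b hb => hcen a (fun s hs => (hcen s (h s hs) a ha).symm) b hb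
  obtain ⟨s₀, hs₀, hn₀⟩ := h0
  have hε0 : 0 < ε := (norm_nonneg _).trans_lt (hSC hs₀)
  have hε1 : 2 * ε ≤ 1 := by
    have h1 : (1 : ℝ) ≤ ((2 ^ (D + 1) : ℕ) : ℝ) := by exact_mod_cast Nat.one_le_two_pow
    nlinarith
  let L : ℕ := S.sup ℓ
  let Q : Λ → Prop := fun h => h ∈ Subgroup.closure {g : Λ | ‖σ g - 1‖ < ε} ∧
    ‖σ h - 1‖ ≤ ε ∧ ¬ ∀ s ∈ S, σ h * σ s = σ s * σ h
  have step : ∀ h : {h // Q h}, ∃ h' : {h // Q h},
      ‖σ h'.1 - 1‖ ≤ 2 * ε * ‖σ h.1 - 1‖ ∧ ℓ h'.1 ≤ 2 * ℓ h.1 + 2 * L := by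
    rintro ⟨h, hH, hh, hn⟩
    push Not at hn
    obtain ⟨s, hs, hn⟩ := hn
    have hz : s * h * s⁻¹ * h⁻¹ ∈ Subgroup.closure {g : Λ | ‖σ g - 1‖ < ε} :=
      mul_mem (mul_mem (mul_mem (hSH s hs) hH) (inv_mem (hSH s hs))) (inv_mem hH)
    have hsn : ‖σ s - 1‖ < ε := hSC hs
    have hle : ‖σ (s * h * s⁻¹ * h⁻¹) - 1‖ ≤ 2 * ε * ‖σ h - 1‖ :=
      (comm_norm hσ s h).trans (by gcongr)
    refine ⟨⟨s * h * s⁻¹ * h⁻¹, hz, hle.trans ?_, fun hc => hn ?_⟩, hle, ?_⟩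
    · nlinarith [norm_nonneg (σ h - 1)]
    · obtain ⟨a, ha⟩ := hsc _ hz (hcen _ hc)
      have h1 := central_triv hσ s h a (hc s hs) ha (by linarith)
      calc σ h * σ s = σ (s * h * s⁻¹ * h⁻¹) * (σ h * σ s) := by rw [h1, one_mul]
        _ = σ s * σ h := by
          rw [← map_mul, ← map_mul, ← map_mul]
          congr 1
          group
    · have h1 := hl.mul (s * h * s⁻¹) h⁻¹
      have h2 := hl.conj s h
      have h3 := hl.inv h
      have h4 : ℓ s ≤ L := Finset.le_sup hs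
      change ℓ (s * h * s⁻¹ * h⁻¹) ≤ 2 * ℓ h + 2 * L
      omega
  choose f hf1 hf2 using step
  let x₀ : {h // Q h} := ⟨s₀, hSH s₀ hs₀, le_of_lt (hSC hs₀), hn₀⟩
  have hA : ∀ i, ℓ (f^[i] x₀).1 + 2 * L ≤ 3 * L * 2 ^ i := by
    intro i
    induction i with
    | zero =>
      have h4 : ℓ s₀ ≤ L := Finset.le_sup hs₀
      change ℓ s₀ + 2 * L ≤ 3 * L * 2 ^ 0
      omega
    | succ i ih =>
      rw [Function.iterate_succ_apply', pow_succ, ← mul_assoc]
      have := hf2 (f^[i] x₀)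
      omega
  refine shrink_false hl hs hσ hε (fun i => (f^[i] x₀).1) (fun i => ?_) x₀.2.2.1 (fun i => ?_)
    (3 * L) fun i => (Nat.le_add_right _ _).trans (hA i)
  · refine norm_pos_iff.2 fun h => (f^[i] x₀).2.2.2 fun s _ => ?_
    rw [sub_eq_zero.1 h, one_mul, mul_one]
  · rw [Function.iterate_succ_apply']
    exact hf1 _

/-- A central element with nonscalar symmetric part gives an invariant proper subspace: `T = σ z + σ z⁻¹`
is symmetric, `E` is nontrivial, take an eigenspace `U` of `T`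
(`LinearMap.IsSymmetric.hasEigenvalue_iSup_of_finiteDimensional`); `Uᗮ` is invariant since `σ g` is
an isometry with inverse `σ g⁻¹`. -/
theorem inv_subspace (hσ : ∀ g v, ‖σ g v‖ = ‖v‖) (H : Subgroup Λ) (z : Λ)
    (hz : ∀ g ∈ H, σ z * σ g = σ g * σ z)
    (hns : ¬ ∃ a : ℝ, σ z + σ z⁻¹ = a • (1 : E →L[ℝ] E)) :
    ∃ U : Submodule ℝ E, U ≠ ⊥ ∧ U ≠ ⊤ ∧ (∀ g ∈ H, ∀ v ∈ U, σ g v ∈ U) ∧
      ∀ g ∈ H, ∀ v ∈ Uᗮ, σ g v ∈ Uᗮ := by
  rcases subsingleton_or_nontrivial E with hE | hE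
  · exact absurd ⟨0, ContinuousLinearMap.ext fun v => Subsingleton.elim _ _⟩ hns
  let T : E →ₗ[ℝ] E := (σ z + σ z⁻¹ : E →L[ℝ] E)
  have hT : ∀ v, T v = σ z v + σ z⁻¹ v := fun v => rfl
  have hs : T.IsSymmetric := fun v w => by
    have h1 := central_triv_adj hσ z⁻¹ v w
    rw [inv_inv] at h1
    rw [hT, hT, inner_add_left, inner_add_right, central_triv_adj hσ z, h1, add_comm]
  obtain ⟨μ, hμ⟩ : ∃ μ : ℝ, Module.End.HasEigenvalue T μ :=
    ⟨_, hs.hasEigenvalue_iSup_of_finiteDimensional⟩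
  have hc : ∀ g ∈ H, ∀ v, T (σ g v) = σ g (T v) := fun g hg v => by
    have h1 : σ z⁻¹ * σ g = σ g * σ z⁻¹ := by
      have h2 : σ z⁻¹ * (σ g * σ z) * σ z⁻¹ = σ z⁻¹ * (σ z * σ g) * σ z⁻¹ := by rw [hz g hg]
      simp only [← map_mul] at h2 ⊢
      rwa [show z⁻¹ * (g * z) * z⁻¹ = z⁻¹ * g by group,
        show z⁻¹ * (z * g) * z⁻¹ = g * z⁻¹ by group] at h2
    rw [hT, hT, map_add, ← ContinuousLinearMap.mul_apply, ← ContinuousLinearMap.mul_apply, hz g hg,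
      h1]
    rfl
  have hU : ∀ g ∈ H, ∀ v ∈ Module.End.eigenspace T μ, σ g v ∈ Module.End.eigenspace T μ :=
    fun g hg v hv => by
      rw [Module.End.mem_eigenspace_iff] at hv ⊢
      rw [hc g hg, hv, map_smul]
  refine ⟨Module.End.eigenspace T μ, Module.End.hasEigenvalue_iff.1 hμ, fun h => hns ⟨μ, ?_⟩, hU,
    fun g hg v hv => ?_⟩
  · refine ContinuousLinearMap.ext fun v => ?_
    exact Module.End.mem_eigenspace_iff.1 (h ▸ Submodule.mem_top : v ∈ Module.End.eigenspace T μ)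
  · rw [Submodule.mem_orthogonal] at hv ⊢
    intro u hu
    rw [← central_triv_adj hσ]
    exact hv _ (hU _ (H.inv_mem hg) u hu)

omit [FiniteDimensional ℝ E] in
/-- Restriction of a representation to an invariant subspace. -/
theorem rep_restrict (σ : Λ →* (E →L[ℝ] E)) (H : Subgroup Λ) (U : Submodule ℝ E)
    (hU : ∀ g ∈ H, ∀ v ∈ U, σ g v ∈ U) :
    ∃ σ' : H →* (U →L[ℝ] U), ∀ (g : H) (v : U), (σ' g v : E) = σ g v := by
  let r : H → (U →L[ℝ] U) := fun g =>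
    ((σ g).comp U.subtypeL).codRestrict U fun v => hU g g.2 v v.2
  have hr : ∀ (g : H) (v : U), (r g v : E) = σ g v := fun g v => rfl
  refine ⟨⟨⟨r, ?_⟩, fun a b => ?_⟩, hr⟩
  · ext v
    rw [hr]; simp
  · ext v
    simp only [ContinuousLinearMap.mul_apply, hr, Subgroup.coe_mul, map_mul]

end

universe u v

/-- A3: virtually abelian. Induction on the dimension: `H = closure (near elements)` has finite
index (`near_index`), `BGen` (`BGen.of_relIndex`); either `comm_of_scalar`, or `inv_subspace`,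
`rep_restrict` to `U` and `Uᗮ` (both of smaller dimension), the induction hypothesis for the group
`↥H` (`Len.restrict`, `BGen.restrict`, `SlowF.restrict`), intersect the two subgroups, map to `Λ`;
operators that agree on `U` and `Uᗮ` agree. For `n = 0` the space is trivial. -/
theorem virt_ab (n : ℕ) : ∀ (Λ : Type u) [Group Λ] (E : Type v) [NormedAddCommGroup E]
    [InnerProductSpace ℝ E] [FiniteDimensional ℝ E] (σ : Λ →* (E →L[ℝ] E)) (ℓ : Λ → ℕ) (D : ℕ),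
    Module.finrank ℝ E ≤ n → Len ℓ → BGen ℓ ⊤ → SlowF ℓ σ D → (∀ g v, ‖σ g v‖ = ‖v‖) →
    ∃ H : Subgroup Λ, H.FiniteIndex ∧ ∀ a ∈ H, ∀ b ∈ H, σ a * σ b = σ b * σ a := by
  induction n with
  | zero =>
    intro Λ _ E _ _ _ ρ ℓ D hn _ _ _ _
    have : Subsingleton E := Module.finrank_zero_iff.1 (Nat.le_zero.1 hn)
    exact ⟨⊤, inferInstance, fun a _ b _ => ContinuousLinearMap.ext fun v => Subsingleton.elim _ _⟩
  | succ n ih =>
    intro Λ _ E _ _ _ ρ ℓ D hn hl hb hs hρ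
    have hM : (0 : ℝ) < 32 * (2 ^ (D + 1) : ℕ) := by positivity
    obtain ⟨H, hH⟩ : ∃ H : Subgroup Λ,
      H = Subgroup.closure {g : Λ | ‖ρ g - 1‖ < (32 * (2 ^ (D + 1) : ℕ) : ℝ)⁻¹} := ⟨_, rfl⟩
    have hfi : H.FiniteIndex := hH ▸ near_index hρ (inv_pos.2 hM)
    have hbH : BGen ℓ H :=
      hb.of_relIndex hl le_top (by rw [Subgroup.relIndex_top_right]; exact hfi.index_ne_zero)
    by_cases hsc : ∀ z ∈ H, (∀ g ∈ H, ρ z * ρ g = ρ g * ρ z) →
        ∃ a : ℝ, ρ z + ρ z⁻¹ = a • (1 : E →L[ℝ] E)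
    · exact ⟨H, hfi, comm_of_scalar hl hs hρ (mul_inv_cancel₀ hM.ne').le hH hbH hsc⟩
    push Not at hsc
    obtain ⟨z, -, hz, hns⟩ := hsc
    obtain ⟨U, hU0, hU1, hU, hU'⟩ := inv_subspace hρ H z hz (not_exists.2 hns)
    have key : ∀ W : Submodule ℝ E, W ≠ ⊤ → (∀ g ∈ H, ∀ v ∈ W, ρ g v ∈ W) →
        ∃ K : Subgroup H, K.FiniteIndex ∧
          ∀ a ∈ K, ∀ b ∈ K, ∀ v ∈ W, ρ a (ρ b v) = ρ b (ρ a v) := fun W hW hi => by
      obtain ⟨ρ', hρ'⟩ := rep_restrict ρ H W hi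
      have hlt := Submodule.finrank_lt hW
      obtain ⟨K, hK, hc⟩ := ih H W ρ' (fun g => ℓ (g : Λ)) D (by omega) (hl.restrict H)
        hbH.restrict (hs.restrict H ρ' fun a b e => ContinuousLinearMap.ext fun v =>
          Subtype.ext (by rw [hρ', hρ', e]))
        (fun g v => by rw [Submodule.coe_norm, hρ', hρ, Submodule.coe_norm])
      refine ⟨K, hK, fun a ha b hb v hv => ?_⟩
      have h1 := congrArg (fun T : W →L[ℝ] W => (T ⟨v, hv⟩ : E)) (hc a ha b hb)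
      simpa only [mul_apply_eq_comp, hρ'] using h1
    obtain ⟨K₁, hK₁, h₁⟩ := key U hU1 hU
    obtain ⟨K₂, hK₂, h₂⟩ := key Uᗮ (fun h => hU0 (U.orthogonal_eq_top_iff.1 h)) hU'
    refine ⟨(K₁ ⊓ K₂).map H.subtype, ⟨?_⟩, ?_⟩
    · rw [Subgroup.index_map_subtype]
      exact mul_ne_zero Subgroup.FiniteIndex.index_ne_zero hfi.index_ne_zero
    · rintro _ ⟨a, ha, rfl⟩ _ ⟨b, hb, rfl⟩
      refine ContinuousLinearMap.ext fun v => ?_
      obtain ⟨u, hu, w, hw, rfl⟩ := U.exists_add_mem_mem_orthogonal v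
      simp only [mul_apply_eq_comp, map_add, Subgroup.coe_subtype]
      rw [h₁ a ha.1 b hb.1 u hu, h₂ a ha.2 b hb.2 w hw]

end Crest.Agent.R147.Geo
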