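import Crest.Agent.R147.GeoLen2

/-! Row 147, module GEO (owner helper16). See R147/GeoDefs.lean. -/

set_option autoImplicit false

namespace Crest.Agent.R147.Geo

variable {Γ : Type*} [Group Γ] {ℓ : Γ → ℕ}

/-- Chain lemma. Suppose not; choose `σ 0 = 1` and `σ j ∈ S` with `s j = t^j σ j t^{-j} ∉ M (j-1)`,
where `M j = closure {t^i a t^{-i} | i ≤ j, a ∈ S} ⊇ K`. For `e : ℕ → Bool` let
`w e m = ∏_{i<m} t^i (σ i)^(e i) t^{-i}` (with `e 0` fixed; `len_word` bounds the length,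
`w e (m+1) ∈ M m`). If `ℓ (w e m * (w e' m)⁻¹) = 0` then `e = e'` on `1 ≤ i < m`: compare the top
letters; equal letters cancel, different letters put `s (m-1)` in `M (m-2)`. So the `2^(m-1)`
inverses `(w e m)⁻¹` are separated; `Slow.false` with `m - 1 = (D+1) s`. -/
theorem chain_stab {D : ℕ} (hl : Len ℓ) (hs : Slow ℓ D) (t : Γ) (S : Set Γ) (c : ℕ)
    (hS : ∀ a ∈ S, ℓ a ≤ c) (hK : ∀ a, ℓ a = 0 → a ∈ S) :
    ∃ j : ℕ, ∀ a ∈ S, t ^ (j + 1) * a * (t ^ (j + 1))⁻¹ ∈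
      Subgroup.closure {x | ∃ i ≤ j, ∃ b ∈ S, x = t ^ i * b * (t ^ i)⁻¹} := by
  classical
  by_contra hcon
  push Not at hcon
  choose σ hσS hσ using hcon
  set M : ℕ → Subgroup Γ := fun j =>
    Subgroup.closure {x | ∃ i ≤ j, ∃ b ∈ S, x = t ^ i * b * (t ^ i)⁻¹} with hM
  have hmono : ∀ j, M j ≤ M (j + 1) := fun j => Subgroup.closure_mono fun x hx => by
    obtain ⟨i, hi, b, hb, e⟩ := hx
    exact ⟨i, by omega, b, hb, e⟩
  have hKM : ∀ j a, ℓ a = 0 → a ∈ M j := fun j a ha =>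
    Subgroup.subset_closure ⟨0, Nat.zero_le _, a, hK a ha, by simp⟩
  have key : ∀ m : ℕ, ∃ T : Finset Γ, (∀ g ∈ T, g ∈ M m ∧ ℓ ((t ^ m)⁻¹ * g) ≤ m * (c + ℓ t)) ∧
      Sep ℓ T ∧ T.card = 2 ^ m := by
    intro m
    induction m with
    | zero =>
      refine ⟨{1}, fun g hg => ?_, fun a ha b hb _ => ?_, by simp⟩
      · rw [Finset.mem_singleton.1 hg]
        exact ⟨one_mem _, by simp [hl.one]⟩
      · rw [Finset.mem_singleton.1 ha, Finset.mem_singleton.1 hb]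
    | succ m ih =>
      obtain ⟨T, hT, hsep, hcard⟩ := ih
      set u := t ^ (m + 1) * σ m * (t ^ (m + 1))⁻¹ with hu
      have hu1 : u ∉ M m := hσ m
      have hu2 : u ∈ M (m + 1) := Subgroup.subset_closure ⟨m + 1, le_rfl, σ m, hσS m, rfl⟩
      have hx : ∀ a ∈ T, ∀ b ∈ T, ℓ (a⁻¹ * (u * b)) ≠ 0 := by
        intro a ha b hb h0
        refine hu1 ?_
        have e : u = a * (a⁻¹ * (u * b)) * b⁻¹ := by group
        rw [e]
        exact mul_mem (mul_mem (hT a ha).1 (hKM m _ h0)) (inv_mem (hT b hb).1)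
      have hlen : ∀ g ∈ T, ℓ ((t ^ (m + 1))⁻¹ * g) ≤ m * (c + ℓ t) + ℓ t := by
        intro g hg
        have e : (t ^ (m + 1))⁻¹ * g = t⁻¹ * ((t ^ m)⁻¹ * g) := by rw [pow_succ]; group
        have h1 := hl.mul t⁻¹ ((t ^ m)⁻¹ * g)
        have h2 := hl.inv t
        have h3 := (hT g hg).2
        rw [e]
        omega
      refine ⟨T ∪ T.image (u * ·), fun g hg => ?_, fun a ha b hb h0 => ?_, ?_⟩
      · rcases Finset.mem_union.1 hg with hg | hg
        · refine ⟨hmono m (hT g hg).1, (hlen g hg).trans ?_⟩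
          rw [add_mul, one_mul]
          omega
        · obtain ⟨g, hg', rfl⟩ := Finset.mem_image.1 hg
          refine ⟨mul_mem hu2 (hmono m (hT g hg').1), ?_⟩
          have e : (t ^ (m + 1))⁻¹ * (u * g) = σ m * ((t ^ (m + 1))⁻¹ * g) := by rw [hu]; group
          have h1 := hl.mul (σ m) ((t ^ (m + 1))⁻¹ * g)
          have h2 := hS _ (hσS m)
          have h3 := hlen g hg'
          rw [e, add_mul, one_mul]
          omega
      · rcases Finset.mem_union.1 ha with ha | ha <;> rcases Finset.mem_union.1 hb with hb | hb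
        · exact hsep a ha b hb h0
        · obtain ⟨b, hb', rfl⟩ := Finset.mem_image.1 hb
          exact absurd h0 (hx a ha b hb')
        · obtain ⟨a, ha', rfl⟩ := Finset.mem_image.1 ha
          refine absurd ?_ (hx b hb a ha')
          rw [← hl.inv, mul_inv_rev, inv_inv]
          exact h0
        · obtain ⟨a, ha', rfl⟩ := Finset.mem_image.1 ha
          obtain ⟨b, hb', rfl⟩ := Finset.mem_image.1 hb
          have e : (u * a)⁻¹ * (u * b) = a⁻¹ * b := by group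
          rw [e] at h0
          rw [hsep a ha' b hb' h0]
      · rw [Finset.card_union_of_disjoint, Finset.card_image_of_injective _ (mul_right_injective u),
          hcard, pow_succ, mul_two]
        rw [Finset.disjoint_left]
        intro a ha hb
        obtain ⟨b, hb, e⟩ := Finset.mem_image.1 hb
        refine hx a ha b hb ?_
        rw [e, inv_mul_cancel, hl.one]
  refine hs.false (A := (D + 1) * (c + 2 * ℓ t)) fun s => ?_
  obtain ⟨T, hT, hsep, hcard⟩ := key (s * (D + 1))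
  refine ⟨T, fun g hg => ?_, hsep, ?_⟩
  · have h1 := hl.mul (t ^ (s * (D + 1))) ((t ^ (s * (D + 1)))⁻¹ * g)
    rw [mul_inv_cancel_left] at h1
    have h2 := hl.pow t (s * (D + 1))
    have h3 := (hT g hg).2
    calc ℓ g ≤ s * (D + 1) * ℓ t + s * (D + 1) * (c + ℓ t) := by omega
      _ = (D + 1) * (c + 2 * ℓ t) * s := by ring
      _ ≤ (D + 1) * (c + 2 * ℓ t) * (s + 1) := Nat.mul_le_mul_left _ (Nat.le_succ s)
  · rw [hcard, pow_mul]
    exact Nat.pow_le_pow_left Nat.lt_two_pow_self.le _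

/-- Once the chain stops it stops for ever: the closure `M` is stable under conjugation by `t`. -/
theorem chain_all (t : Γ) (S : Set Γ) (j : ℕ)
    (h : ∀ a ∈ S, t ^ (j + 1) * a * (t ^ (j + 1))⁻¹ ∈
      Subgroup.closure {x | ∃ i ≤ j, ∃ b ∈ S, x = t ^ i * b * (t ^ i)⁻¹}) (k : ℕ) :
    ∀ a ∈ S, t ^ k * a * (t ^ k)⁻¹ ∈
      Subgroup.closure {x | ∃ i ≤ j, ∃ b ∈ S, x = t ^ i * b * (t ^ i)⁻¹} := by
  have key : ∀ x ∈ Subgroup.closure {x | ∃ i ≤ j, ∃ b ∈ S, x = t ^ i * b * (t ^ i)⁻¹},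
      t * x * t⁻¹ ∈ Subgroup.closure {x | ∃ i ≤ j, ∃ b ∈ S, x = t ^ i * b * (t ^ i)⁻¹} := by
    intro x hx
    induction hx using Subgroup.closure_induction with
    | mem x hx =>
      obtain ⟨i, hi, b, hb, rfl⟩ := hx
      rw [show t * (t ^ i * b * (t ^ i)⁻¹) * t⁻¹ = t ^ (i + 1) * b * (t ^ (i + 1))⁻¹ by group]
      rcases hi.eq_or_lt with rfl | hi
      · exact h b hb
      · exact Subgroup.subset_closure ⟨i + 1, hi, b, hb, rfl⟩
    | one => simp
    | mul x y _ _ hx hy =>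
      rw [show t * (x * y) * t⁻¹ = t * x * t⁻¹ * (t * y * t⁻¹) by group]
      exact mul_mem hx hy
    | inv x _ hx =>
      rw [show t * x⁻¹ * t⁻¹ = (t * x * t⁻¹)⁻¹ by group]
      exact inv_mem hx
  intro a ha
  induction k with
  | zero => exact Subgroup.subset_closure ⟨0, Nat.zero_le _, a, ha, rfl⟩
  | succ k ih =>
    rw [show t ^ (k + 1) * a * (t ^ (k + 1))⁻¹ = t * (t ^ k * a * (t ^ k)⁻¹) * t⁻¹ by group]
    exact key _ ih

theorem ker_le_conj_zpow (hl : Len ℓ) (t : Γ) (k : ℤ) : ℓ (t ^ k) ≤ k.natAbs * ℓ t := by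
  obtain ⟨n, rfl | rfl⟩ := Int.eq_nat_or_neg k
  · rw [zpow_natCast, Int.natAbs_natCast]
    exact hl.pow t n
  · rw [zpow_neg, zpow_natCast, hl.inv, Int.natAbs_neg, Int.natAbs_natCast]
    exact hl.pow t n

/-- The kernel of `χ` is generated by the conjugates of its short elements. With `R` from `BGen` the
values of `χ` on the ball of radius `R` are bounded by some `B` (`finite_image_of_zero`),
`c = R + B ℓ t`; let `M` be the closure on the right; it is normalised by all `t^i`; by closure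
induction `g t^{-χ g} ∈ M` for every `g`. -/
theorem ker_le_conj {D : ℕ} (hl : Len ℓ) (hs : Slow ℓ D) (hb : BGen ℓ ⊤) {χ : Γ → ℤ}
    (hχ : AddOn ⊤ χ) (h0 : ∀ g, ℓ g = 0 → χ g = 0) {t : Γ} (ht : χ t = 1) :
    ∃ c : ℕ, ∀ g, χ g = 0 →
      g ∈ Subgroup.closure {x | ∃ i : ℤ, ∃ b, χ b = 0 ∧ ℓ b ≤ c ∧ x = t ^ i * b * (t ^ i)⁻¹} := by
  obtain ⟨R, hR⟩ := hb
  obtain ⟨B, hB⟩ := ((finite_image_of_zero hl hs hχ (fun g _ => h0 g) R).image
    Int.natAbs).bddAbove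
  refine ⟨R + B * ℓ t, ?_⟩
  generalize hM : Subgroup.closure
    {x | ∃ i : ℤ, ∃ b, χ b = 0 ∧ ℓ b ≤ R + B * ℓ t ∧ x = t ^ i * b * (t ^ i)⁻¹} = M
  have hconj : ∀ (k : ℤ), ∀ x ∈ M, t ^ k * x * (t ^ k)⁻¹ ∈ M := by
    intro k x hx
    subst hM
    induction hx using Subgroup.closure_induction with
    | mem x hx =>
      obtain ⟨i, b, hb, hb', rfl⟩ := hx
      exact Subgroup.subset_closure ⟨k + i, b, hb, hb', by group⟩
    | one => simp
    | mul x y _ _ hx hy =>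
      rw [show t ^ k * (x * y) * (t ^ k)⁻¹ = t ^ k * x * (t ^ k)⁻¹ * (t ^ k * y * (t ^ k)⁻¹) by
        group]
      exact mul_mem hx hy
    | inv x _ hx =>
      rw [show t ^ k * x⁻¹ * (t ^ k)⁻¹ = (t ^ k * x * (t ^ k)⁻¹)⁻¹ by group]
      exact inv_mem hx
  have key : ∀ g, g * (t ^ χ g)⁻¹ ∈ M := by
    intro g
    have hg := hR (Subgroup.mem_top g)
    induction hg using Subgroup.closure_induction with
    | mem s hs' =>
      rw [← hM]
      refine Subgroup.subset_closure ⟨0, s * (t ^ χ s)⁻¹, ?_, ?_, by group⟩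
      · rw [hχ _ trivial _ trivial, hχ.inv trivial, hχ.zpow trivial, ht]
        simp
      · have h1 := hl.mul s (t ^ χ s)⁻¹
        have h2 := ker_le_conj_zpow hl t (χ s)
        have h3 : (χ s).natAbs ≤ B := hB ⟨χ s, ⟨s, hs', rfl⟩, rfl⟩
        have h4 := Nat.mul_le_mul_right (ℓ t) h3
        have h5 := hs'.2
        rw [hl.inv] at h1
        omega
    | one => simp [hχ.one]
    | mul x y _ _ hx hy =>
      rw [hχ _ trivial _ trivial, show x * y * (t ^ (χ x + χ y))⁻¹ =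
        x * (t ^ χ x)⁻¹ * (t ^ χ x * (y * (t ^ χ y)⁻¹) * (t ^ χ x)⁻¹) by group]
      exact mul_mem hx (hconj _ _ hy)
    | inv x _ hx =>
      rw [hχ.inv trivial, show x⁻¹ * (t ^ (-χ x))⁻¹ =
        t ^ (-χ x) * (x * (t ^ χ x)⁻¹)⁻¹ * (t ^ (-χ x))⁻¹ by group]
      exact hconj _ _ (inv_mem hx)
  intro g hg
  simpa [hg] using key g

/-- B1 (Milnor's lemma): `ker_le_conj`, then `chain_stab` and `chain_all` for `t` and for `t⁻¹` with
`S = {b | χ b = 0 ∧ ℓ b ≤ c}`; the finitely many conjugates have length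
`≤ c + 2 (j + j') ℓ t` (`Len.conj`, `Len.pow`). -/
theorem milnor {D : ℕ} (hl : Len ℓ) (hs : Slow ℓ D) (hb : BGen ℓ ⊤) {χ : Γ → ℤ}
    (hχ : AddOn ⊤ χ) (h0 : ∀ g, ℓ g = 0 → χ g = 0) {t : Γ} (ht : χ t = 1) {N : Subgroup Γ}
    (hN : ∀ g, g ∈ N ↔ χ g = 0) : BGen ℓ N := by
  obtain ⟨c, hc⟩ := ker_le_conj hl hs hb hχ h0 ht
  have key : ∀ u : Γ, ∃ R : ℕ, ∀ R', R ≤ R' → ∀ (k : ℕ) (b : Γ), χ b = 0 → ℓ b ≤ c →
      u ^ k * b * (u ^ k)⁻¹ ∈ Subgroup.closure {s | s ∈ N ∧ ℓ s ≤ R'} := by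
    intro u
    obtain ⟨j, hj⟩ := chain_stab hl hs u {b | χ b = 0 ∧ ℓ b ≤ c} c (fun a ha => ha.2)
      fun a ha => ⟨h0 a ha, ha.trans_le (Nat.zero_le _)⟩
    refine ⟨c + 2 * (j * ℓ u), fun R' hR' k b hb1 hb2 =>
      Subgroup.closure_mono ?_ (chain_all u _ j hj k b ⟨hb1, hb2⟩)⟩
    rintro _ ⟨i, hi, a, ha, rfl⟩
    refine ⟨(hN _).2 ?_, ?_⟩
    · rw [hχ _ trivial _ trivial, hχ _ trivial _ trivial, hχ.inv trivial, ha.1]
      simp
    · have h1 := hl.conj (u ^ i) a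
      have h2 := hl.pow u i
      have h3 := Nat.mul_le_mul_right (ℓ u) hi
      have h4 := ha.2
      omega
  obtain ⟨R₁, h₁⟩ := key t
  obtain ⟨R₂, h₂⟩ := key t⁻¹
  refine ⟨R₁ + R₂, fun g hg => (Subgroup.closure_le _).2 ?_ (hc g ((hN g).1 hg))⟩
  rintro _ ⟨i, b, hb1, hb2, rfl⟩
  obtain ⟨n, rfl | rfl⟩ := Int.eq_nat_or_neg i
  · rw [zpow_natCast]
    exact h₁ _ (Nat.le_add_right _ _) n b hb1 hb2
  · rw [zpow_neg, zpow_natCast, ← inv_pow]
    exact h₂ _ (Nat.le_add_left _ _) n b hb1 hb2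

end Crest.Agent.R147.Geo
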