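import Crest.Agent.R147.GeoLen2

/-! Row 147, module GEO (owner helper16). See R147/GeoDefs.lean. -/

set_option autoImplicit false

namespace Crest.Agent.R147.Geo

variable {Γ : Type*} [Group Γ] {ℓ : Γ → ℕ}

/-- Stable extension: with `m` from `exists_core`, `ψ g = φ (g^m) / m` for `g ∈ N` and `0` off `N`;
`ψ = φ` on `H`; elliptic elements by `ell_zero` and `Ell.pow`. -/
theorem adm_exists {D : ℕ} (hl : Len ℓ) (hs : Slow ℓ D) {N H : Subgroup Γ} (hle : H ≤ N)
    (hi : H.relIndex N ≠ 0) {φ : Γ → ℝ} (hφ : AddOn H φ) (h0 : ∀ g ∈ H, ℓ g = 0 → φ g = 0)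
    (hne : ∃ g ∈ H, φ g ≠ 0) : ∃ ψ, Adm ℓ N ψ ∧ ∃ g ∈ N, ψ g ≠ 0 := by
  classical
  obtain ⟨H₀, h1, -, -, m, hm, hp⟩ := exists_core hle hi
  have hm' : (m : ℝ) ≠ 0 := by exact_mod_cast hm.ne'
  have e : ∀ g ∈ H, (if g ∈ N then φ (g ^ m) / m else 0) = φ g := fun g hg => by
    rw [if_pos (hle hg), hφ.pow hg, nsmul_eq_mul, mul_div_cancel_left₀ _ hm']
  refine ⟨fun g => if g ∈ N then φ (g ^ m) / m else 0, ⟨fun g hg => if_neg hg, fun g hg k => ?_,
    fun g hg => ?_, H, hle, hi, fun a ha b hb => ?_⟩, ?_⟩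
  · simp only [if_pos hg, if_pos (N.pow_mem hg k)]
    rw [← pow_mul, mul_comm k m, pow_mul, hφ.pow (h1 (hp g hg)), nsmul_eq_mul, mul_div_assoc]
  · by_cases hgN : g ∈ N
    · simp only [if_pos hgN]
      rw [ell_zero hl hs hφ h0 (h1 (hp g hgN)) (hg.pow m), zero_div]
    · exact if_neg hgN
  · simp only [e a ha, e b hb, e _ (H.mul_mem ha hb)]
    exact hφ a ha b hb
  · obtain ⟨g, hg, h⟩ := hne
    exact ⟨g, hle hg, by simpa only [e g hg] using h⟩

/-- The stable characters form a linear subspace (intersect the subgroups,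
`Subgroup.relIndex_inf_ne_zero`). -/
theorem adm_submodule (ℓ : Γ → ℕ) (N : Subgroup Γ) :
    ∃ W : Submodule ℝ (Γ → ℝ), ∀ ψ, ψ ∈ W ↔ Adm ℓ N ψ := by
  refine ⟨⟨⟨⟨{ψ | Adm ℓ N ψ}, ?_⟩, ?_⟩, ?_⟩, fun _ => Iff.rfl⟩
  · rintro a b ⟨a1, a2, a3, H, a4, a5, a6⟩ ⟨b1, b2, b3, H', b4, b5, b6⟩
    refine ⟨fun g hg => by simp [a1 g hg, b1 g hg], fun g hg k => ?_,
      fun g hg => by simp [a3 g hg, b3 g hg], H ⊓ H', inf_le_left.trans a4,
      Subgroup.relIndex_inf_ne_zero a5 b5, fun x hx y hy => ?_⟩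
    · simp only [Pi.add_apply, a2 g hg, b2 g hg, mul_add]
    · simp only [Pi.add_apply, a6 x hx.1 y hy.1, b6 x hx.2 y hy.2]
      ring
  · exact ⟨fun _ _ => rfl, fun _ _ _ => by simp, fun _ _ => rfl, N, le_rfl, by simp,
      fun _ _ _ _ => by simp⟩
  · rintro c a ⟨a1, a2, a3, H, a4, a5, a6⟩
    refine ⟨fun g hg => by simp [a1 g hg], fun g hg k => ?_, fun g hg => by simp [a3 g hg], H, a4, a5,
      fun x hx y hy => ?_⟩
    · simp only [Pi.smul_apply, smul_eq_mul, a2 g hg]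
      ring
    · simp only [Pi.smul_apply, smul_eq_mul, a6 x hx y hy, mul_add]

/-- Conjugation invariance (`Len.ell_conj`; the subgroup is conjugated: `H.map (MulAut.conj γ⁻¹)` or
`comap`, the relative index in the normal subgroup `N` is unchanged). -/
theorem adm_conj (hl : Len ℓ) {N : Subgroup Γ} (hN : N.Normal) {ψ : Γ → ℝ} (h : Adm ℓ N ψ)
    (γ : Γ) : Adm ℓ N (fun g => ψ (γ * g * γ⁻¹)) := by
  obtain ⟨a1, a2, a3, H, a4, a5, a6⟩ := h
  have hc : ∀ g, γ * g * γ⁻¹ ∈ N ↔ g ∈ N := fun g =>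
    ⟨fun h => by simpa [mul_assoc] using hN.conj_mem _ h γ⁻¹, fun h => hN.conj_mem _ h γ⟩
  refine ⟨fun g hg => a1 _ fun h => hg ((hc g).1 h), fun g hg k => ?_,
    fun g hg => a3 _ (hl.ell_conj hg γ), H.comap (MulAut.conj γ).toMonoidHom,
    fun g hg => (hc g).1 (a4 hg), ?_, fun x hx y hy => ?_⟩
  · simp only [← conj_pow]
    exact a2 _ ((hc g).2 hg) k
  · rw [Subgroup.relIndex_comap]
    refine fun h => a5 (Subgroup.relIndex_eq_zero_of_le_right ?_ h)
    rintro _ ⟨g, hg, rfl⟩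
    exact (hc g).2 hg
  · have := a6 _ hx _ hy
    rwa [← map_mul] at this

theorem char_dim_list (hl : Len ℓ) {H : Subgroup Γ} {A : Type*} [AddCommGroup A] {ev : Γ → A}
    (hev : AddOn H ev) (l : List Γ) (h : ∀ x ∈ l, x ∈ H) :
    l.prod ∈ H ∧ ev l.prod = (l.map ev).sum ∧ ℓ l.prod ≤ (l.map ℓ).sum := by
  induction l with
  | nil => simp [hev.one, hl.one]
  | cons a l ih =>
    have ha : a ∈ H := h a (by simp)
    obtain ⟨h1, h2, h3⟩ := ih fun x hx => h x (by simp [hx])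
    refine ⟨?_, ?_, ?_⟩
    · rw [List.prod_cons]; exact H.mul_mem ha h1
    · rw [List.prod_cons, hev a ha _ h1, h2, List.map_cons, List.sum_cons]
    · rw [List.prod_cons, List.map_cons, List.sum_cons]
      exact (hl.mul _ _).trans (Nat.add_le_add_left h3 _)

/-- Independent characters force polynomial growth from below. `ev g = (ψ i g)_i` is additive on `H`
and the vectors `ev (g j)` are linearly independent; the `s^m` words `∏_j (g j)^(k j)`, `k j < s`,
have distinct `ev`, hence are separated; `Slow.false` if `m ≥ D + 1` (one may drop all but `D + 1`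
of the `g j`). -/
theorem char_dim {D : ℕ} (hl : Len ℓ) (hs : Slow ℓ D) {H : Subgroup Γ} {A : Type*}
    [AddCommGroup A] [Module ℝ A] {ev : Γ → A} (hev : AddOn H ev)
    (h0 : ∀ g ∈ H, ℓ g = 0 → ev g = 0) {m : ℕ} (g : Fin m → Γ) (hg : ∀ j, g j ∈ H)
    (hli : LinearIndependent ℝ fun j => ev (g j)) : m ≤ D := by
  classical
  by_contra hm
  have hm' : D + 1 ≤ m := by omega
  set g' : Fin (D + 1) → Γ := fun j => g (Fin.castLE hm' j) with hg'
  have hg'H : ∀ j, g' j ∈ H := fun j => hg _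
  have hli' : LinearIndependent ℝ fun j => ev (g' j) :=
    hli.comp (Fin.castLE hm') (Fin.castLE_injective hm')
  let w : (Fin (D + 1) → ℕ) → Γ := fun k => (List.ofFn fun j => g' j ^ k j).prod
  have hw : ∀ k, w k ∈ H ∧ ev (w k) = ∑ j, (k j : ℝ) • ev (g' j) ∧
      ℓ (w k) ≤ ∑ j, k j * ℓ (g' j) := by
    intro k
    obtain ⟨h1, h2, h3⟩ := char_dim_list hl hev (List.ofFn fun j => g' j ^ k j) (by
      intro x hx
      obtain ⟨j, rfl⟩ := List.mem_ofFn.1 hx
      exact H.pow_mem (hg'H j) _)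
    refine ⟨h1, ?_, ?_⟩
    · rw [show ev (w k) = _ from h2, List.map_ofFn, List.sum_ofFn]
      refine Finset.sum_congr rfl fun j _ => ?_
      simp only [Function.comp_apply]
      rw [hev.pow (hg'H j), Nat.cast_smul_eq_nsmul]
    · refine h3.trans ?_
      rw [List.map_ofFn, List.sum_ofFn]
      exact Finset.sum_le_sum fun j _ => hl.pow _ _
  have hinj : ∀ k k', ev (w k) = ev (w k') → k = k' := by
    intro k k' h
    rw [(hw k).2.1, (hw k').2.1] at h
    have := Fintype.linearIndependent_iff.1 hli' (fun j => (k j : ℝ) - k' j) (by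
      simp only [sub_smul, Finset.sum_sub_distrib, h, sub_self])
    funext j
    have hj := this j
    exact_mod_cast sub_eq_zero.1 hj
  refine hs.false (A := ∑ j, ℓ (g' j)) fun s => ?_
  refine ⟨(Fintype.piFinset fun _ : Fin (D + 1) => Finset.range s).image w, ?_, ?_, ?_⟩
  · intro x hx
    obtain ⟨k, hk, rfl⟩ := Finset.mem_image.1 hx
    refine (hw k).2.2.trans ?_
    rw [Finset.sum_mul]
    refine Finset.sum_le_sum fun j _ => ?_
    have := Finset.mem_range.1 (Fintype.mem_piFinset.1 hk j)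
    rw [mul_comm]
    exact Nat.mul_le_mul_left _ (by omega)
  · intro a ha b hb hab
    obtain ⟨k, -, rfl⟩ := Finset.mem_image.1 ha
    obtain ⟨k', -, rfl⟩ := Finset.mem_image.1 hb
    have h1 := h0 _ (H.mul_mem (H.inv_mem (hw k).1) (hw k').1) hab
    rw [hev _ (H.inv_mem (hw k).1) _ (hw k').1, hev.inv (hw k).1, neg_add_eq_zero] at h1
    rw [hinj k k' h1]
  · rw [Finset.card_image_of_injective _ fun k k' h => hinj k k' (by rw [h])]
    simp

theorem adm_dim_common {N : Subgroup Γ} {κ : Type*} [Finite κ] (ψ : κ → Γ → ℝ)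
    (hψ : ∀ i, Adm ℓ N (ψ i)) :
    ∃ H : Subgroup Γ, H ≤ N ∧ H.relIndex N ≠ 0 ∧ ∀ i, AddOn H (ψ i) := by
  choose H _ hH hadd using fun i => (hψ i).2.2.2
  refine ⟨(⨅ i, H i) ⊓ N, inf_le_right, ?_, fun i => (hadd i).mono ?_⟩
  · rw [Subgroup.inf_relIndex_right]
    exact Subgroup.relIndex_iInf_ne_zero hH
  · exact inf_le_left.trans (iInf_le _ i)

/-- Dimension bound. Take a common subgroup `H` of finite index; the vectors `ev g = (ψ i g)_i`,
`g ∈ H`, span `Fin m → ℝ` (a linear form vanishing on them is a combination of the `ψ i` that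
vanishes on `H`, hence on `N` by homogeneity and `Subgroup.exists_pow_mem_of_relIndex_ne_zero`, hence
everywhere); extract a basis (`exists_linearIndependent`), apply `char_dim`
(`Len.ell_of_zero`). -/
theorem adm_dim {D : ℕ} (hl : Len ℓ) (hs : Slow ℓ D) {N : Subgroup Γ} {m : ℕ} (ψ : Fin m → Γ → ℝ)
    (hψ : ∀ i, Adm ℓ N (ψ i)) (hli : LinearIndependent ℝ ψ) : m ≤ D := by
  classical
  obtain ⟨H, -, hH, hadd⟩ := adm_dim_common ψ hψ
  set ev : Γ → Fin m → ℝ := fun g i => ψ i g with hev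
  have hspan : Submodule.span ℝ (Set.range fun h : H => ev h) = ⊤ := by
    by_contra hne
    obtain ⟨f, hf0, hf⟩ := Submodule.exists_le_ker_of_lt_top _ (lt_top_iff_ne_top.2 hne)
    have hfH : ∀ g ∈ H, f (ev g) = 0 := fun g hg =>
      hf (Submodule.subset_span ⟨⟨g, hg⟩, rfl⟩)
    have hfa : ∀ g, f (ev g) = 0 := by
      intro g
      by_cases hg : g ∈ N
      · obtain ⟨k, hk, -, hgk⟩ := Subgroup.exists_pow_mem_of_relIndex_ne_zero hH hg
        have h1 : ev (g ^ k) = (k : ℝ) • ev g := by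
          funext i
          exact (hψ i).2.1 g hg k
        have h2 := hfH _ (Subgroup.mem_inf.1 hgk).1
        rw [h1, map_smul, smul_eq_mul, mul_eq_zero] at h2
        exact h2.resolve_left (Nat.cast_ne_zero.2 hk.ne')
      · have h1 : ev g = 0 := by
          funext i
          exact (hψ i).1 g hg
        rw [h1, map_zero]
    have hc : ∀ i, f (fun j => if i = j then 1 else 0) = 0 := by
      refine Fintype.linearIndependent_iff.1 hli _ ?_
      funext g
      have h1 := hfa g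
      rw [LinearMap.pi_apply_eq_sum_univ] at h1
      rw [Finset.sum_apply, Pi.zero_apply]
      refine Eq.trans (Finset.sum_congr rfl fun i _ => ?_) h1
      simp only [hev, Pi.smul_apply, smul_eq_mul]
      ring
    refine hf0 (LinearMap.ext fun v => ?_)
    rw [LinearMap.pi_apply_eq_sum_univ]
    simp [hc]
  obtain ⟨κ, a, -, hsp, hind⟩ := exists_linearIndependent' ℝ (fun h : H => ev h)
  have : Finite κ := hind.finite
  have := Fintype.ofFinite κ
  have hcard : Fintype.card κ = m := by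
    have h1 := Module.finrank_eq_card_basis (Module.Basis.mk hind (hsp.trans hspan).ge)
    rw [Module.finrank_fin_fun] at h1
    exact h1.symm
  have e : Fin m ≃ κ := (Fintype.equivFinOfCardEq hcard).symm
  refine char_dim hl hs (H := H) (ev := ev) (fun x hx y hy => ?_) (fun g _ hg => ?_)
    (fun j => (a (e j) : Γ)) (fun j => (a (e j)).2) (hind.comp e e.injective)
  · funext i
    exact hadd i x hx y hy
  · funext i
    exact (hψ i).2.2.1 g (hl.ell_of_zero hg)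

/-- One subgroup for all stable characters: the subspace of `adm_submodule` is finite dimensional by
`adm_dim`; intersect the subgroups of a finite spanning family. -/
theorem adm_common {D : ℕ} (hl : Len ℓ) (hs : Slow ℓ D) (N : Subgroup Γ) :
    ∃ H : Subgroup Γ, H ≤ N ∧ H.relIndex N ≠ 0 ∧ ∀ ψ, Adm ℓ N ψ → AddOn H ψ := by
  obtain ⟨κ, a, -, hsp, hind⟩ :=
    exists_linearIndependent' ℝ (fun ψ : {ψ : Γ → ℝ // Adm ℓ N ψ} => (ψ : Γ → ℝ))
  have : Finite κ := by
    by_contra hinf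
    have := not_finite_iff_infinite.1 hinf
    let e : Fin (D + 1) → κ := fun j => Infinite.natEmbedding κ j
    have he : Function.Injective e := fun i j h =>
      Fin.ext ((Infinite.natEmbedding κ).injective h)
    have := adm_dim hl hs (N := N) (fun j => (a (e j) : Γ → ℝ)) (fun j => (a (e j)).2)
      (hind.comp e he)
    omega
  obtain ⟨H, hle, hH, hadd⟩ := adm_dim_common (fun k => (a k : Γ → ℝ)) fun k => (a k).2
  refine ⟨H, hle, hH, fun ψ hψ => ?_⟩
  have hmem : ψ ∈ Submodule.span ℝ (Set.range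
      ((fun ψ : {ψ : Γ → ℝ // Adm ℓ N ψ} => (ψ : Γ → ℝ)) ∘ a)) := by
    rw [hsp]
    exact Submodule.subset_span ⟨⟨ψ, hψ⟩, rfl⟩
  clear hψ
  induction hmem using Submodule.span_induction with
  | mem x hx =>
    obtain ⟨k, rfl⟩ := hx
    exact hadd k
  | zero => intro x _ y _; simp
  | add x y _ _ hx hy =>
    intro u hu v hv
    simp only [Pi.add_apply, hx u hu v hv, hy u hu v hv]
    ring
  | smul c x _ hx =>
    intro u hu v hv
    simp only [Pi.smul_apply, hx u hu v hv, smul_eq_mul]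
    ring

/-- The canonical subgroup. `H₀, m` from `adm_common` and `exists_core`.
`N* = {g ∈ N | ∀ ψ adm, ∀ x, ψ (g x g⁻¹) = ψ x}`,
`Hc = {g ∈ N* | ∀ ψ adm, ∀ x ∈ N*, ψ (g x) = ψ g + ψ x}` are subgroups, normal in `Γ` by `adm_conj`.
`H₀ ≤ N*`: `m ψ (g x g⁻¹) = ψ (g x^m g⁻¹) = ψ (x^m)`. `H₀ ≤ Hc`: for `g ∈ H₀`, `x ∈ N*` one has
`(g x)^k = u_k x^k` with `u_k ∈ H₀`, `ψ u_k = k ψ g` (`u_{k+1} = u_k (x^k g x^{-k})`); take `k = m`.
For inverses note `ψ 1 = 0` (homogeneity with `k = 0`). -/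
theorem exists_normal {D : ℕ} (hl : Len ℓ) (hs : Slow ℓ D) {N : Subgroup Γ} (hN : N.Normal) :
    ∃ Hc : Subgroup Γ, Hc.Normal ∧ Hc ≤ N ∧ Hc.relIndex N ≠ 0 ∧ ∀ ψ, Adm ℓ N ψ → AddOn Hc ψ := by
  obtain ⟨H₁, h1N, h1i, hadd⟩ := adm_common hl hs N
  obtain ⟨H₀, h01, h0i, hcj, m, hm, hpow⟩ := exists_core h1N h1i
  have hm' : (m : ℝ) ≠ 0 := Nat.cast_ne_zero.2 hm.ne'
  have h0N : H₀ ≤ N := h01.trans h1N
  have one : ∀ ψ, Adm ℓ N ψ → ψ 1 = 0 := fun ψ h => by simpa using h.2.1 1 N.one_mem 0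
  let S : Subgroup Γ :=
    { carrier := {g | g ∈ N ∧ ∀ ψ, Adm ℓ N ψ → ∀ x, ψ (g * x * g⁻¹) = ψ x}
      one_mem' := ⟨N.one_mem, fun ψ _ x => by rw [one_mul, inv_one, mul_one]⟩
      mul_mem' := fun {a b} ha hb => ⟨N.mul_mem ha.1 hb.1, fun ψ h x => by
        rw [← hb.2 ψ h x, ← ha.2 ψ h (b * x * b⁻¹)]
        congr 1
        group⟩
      inv_mem' := fun {a} ha => ⟨N.inv_mem ha.1, fun ψ h x => by
        rw [← ha.2 ψ h (a⁻¹ * x * a⁻¹⁻¹)]
        congr 1
        group⟩ }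
  have Sn : ∀ g ∈ S, ∀ γ, γ * g * γ⁻¹ ∈ S := fun g hg γ => ⟨hN.conj_mem g hg.1 γ, fun ψ h x => by
    have e := hg.2 _ (adm_conj hl hN h γ) (γ⁻¹ * x * γ)
    rw [show γ * (γ⁻¹ * x * γ) * γ⁻¹ = x by group] at e
    rw [← e]
    congr 1
    group⟩
  have h0S : H₀ ≤ S := fun g hg => ⟨h0N hg, fun ψ h x => by
    by_cases hx : x ∈ N
    · have a := (hadd ψ h).mono h01
      refine mul_left_cancel₀ hm' ?_
      rw [← h.2.1 _ (hN.conj_mem x hx g), ← h.2.1 x hx, conj_pow,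
        a _ (H₀.mul_mem hg (hpow x hx)) _ (H₀.inv_mem hg), a _ hg _ (hpow x hx), a.inv hg]
      ring
    · rw [h.1 x hx, h.1]
      intro hx'
      have := hN.conj_mem _ hx' g⁻¹
      exact hx (by simpa [mul_assoc] using this)⟩
  let Hc : Subgroup Γ :=
    { carrier := {g | g ∈ S ∧ ∀ ψ, Adm ℓ N ψ → ∀ x ∈ S, ψ (g * x) = ψ g + ψ x}
      one_mem' := ⟨S.one_mem, fun ψ h x _ => by rw [one_mul, one ψ h, zero_add]⟩
      mul_mem' := fun {a b} ha hb => ⟨S.mul_mem ha.1 hb.1, fun ψ h x hx => by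
        rw [mul_assoc, ha.2 ψ h _ (S.mul_mem hb.1 hx), hb.2 ψ h x hx, ha.2 ψ h b hb.1, add_assoc]⟩
      inv_mem' := fun {a} ha => ⟨S.inv_mem ha.1, fun ψ h x hx => by
        have e1 := ha.2 ψ h _ (S.mul_mem (S.inv_mem ha.1) hx)
        have e2 := ha.2 ψ h _ (S.inv_mem ha.1)
        rw [mul_inv_cancel_left] at e1
        rw [mul_inv_cancel, one ψ h] at e2
        linarith⟩ }
  have h0c : H₀ ≤ Hc := fun g hg => ⟨h0S hg, fun ψ h x hx => by
    have a := (hadd ψ h).mono h01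
    have key : ∀ k : ℕ, ∃ u ∈ H₀, (g * x) ^ k = u * x ^ k ∧ ψ u = k * ψ g := fun k => by
      induction k with
      | zero => exact ⟨1, H₀.one_mem, by simp, by simp [one ψ h]⟩
      | succ k ih =>
        obtain ⟨u, hu, e1, e2⟩ := ih
        have hv := hcj _ (N.pow_mem hx.1 k) g hg
        refine ⟨u * (x ^ k * g * (x ^ k)⁻¹), H₀.mul_mem hu hv, ?_, ?_⟩
        · rw [pow_succ, e1, pow_succ]
          group
        · rw [a u hu _ hv, e2, (S.pow_mem hx k).2 ψ h g]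
          push_cast
          ring
    obtain ⟨u, hu, e1, e2⟩ := key m
    refine mul_left_cancel₀ hm' ?_
    rw [← h.2.1 _ (N.mul_mem (h0N hg) hx.1), e1, a u hu _ (hpow x hx.1), e2, h.2.1 x hx.1]
    ring⟩
  refine ⟨Hc, ⟨fun g hg γ => ⟨Sn g hg.1 γ, fun ψ h x hx => ?_⟩⟩, fun g hg => hg.1.1,
    fun h => h0i (Subgroup.relIndex_eq_zero_of_le_left h0c h),
    fun ψ h a ha b hb => ha.2 ψ h b hb.1⟩
  have e := hg.2 _ (adm_conj hl hN h γ) _ (Sn x hx γ⁻¹)
  rw [show γ * (γ⁻¹ * x * γ⁻¹⁻¹) * γ⁻¹ = x by group] at e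
  rw [← e]
  congr 1
  group

end Crest.Agent.R147.Geo
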