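import Crest.Agent.R147.GeoLen2

/-! Row 147, module GEO (owner helper16). See R147/GeoDefs.lean. -/

set_option autoImplicit false

namespace Crest.Agent.R147.Geo

theorem root_le_one_bd {w : ℂ} (hw : 2 ≤ ‖w‖) {e : ℕ → ℤ} (he : ∀ i, |e i| ≤ 1) (m : ℕ) :
    ‖∑ i ∈ Finset.range m, (e i : ℂ) * w ^ i‖ ≤ ‖w‖ ^ m - 1 := by
  induction m with
  | zero => simp
  | succ m ih =>
    have h1 : ‖(e m : ℂ)‖ ≤ 1 := by
      rw [Complex.norm_intCast]
      exact_mod_cast he m
    have h2 : 0 ≤ ‖w‖ ^ m := by positivity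
    rw [Finset.sum_range_succ, pow_succ]
    refine (norm_add_le _ _).trans ?_
    rw [norm_mul, norm_pow]
    nlinarith

theorem root_le_one_zero {w : ℂ} (hw : 2 ≤ ‖w‖) {e : ℕ → ℤ} (he : ∀ i, |e i| ≤ 1) (m : ℕ)
    (h : ∑ i ∈ Finset.range m, (e i : ℂ) * w ^ i = 0) : ∀ i < m, e i = 0 := by
  induction m with
  | zero => simp
  | succ m ih =>
    rw [Finset.sum_range_succ] at h
    have h0 : e m = 0 := by
      by_contra hne
      have h1 : 1 ≤ ‖(e m : ℂ)‖ := by
        rw [Complex.norm_intCast]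
        exact_mod_cast Int.one_le_abs hne
      have h2 : 0 ≤ ‖w‖ ^ m := by positivity
      have h3 := root_le_one_bd hw he m
      rw [eq_neg_of_add_eq_zero_left h, norm_neg, norm_mul, norm_pow] at h3
      nlinarith
    rw [h0, Int.cast_zero, zero_mul, add_zero] at h
    intro i hi
    rcases (Nat.lt_succ_iff.1 hi).eq_or_lt with rfl | hi
    · exact h0
    · exact ih h i hi

/-- A root of polynomials with coefficients in `{0, ±1}` in all powers. If `‖z‖ > 1` choose `j` with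
`‖z^j‖ ≥ 2`; the top nonzero term dominates the geometric sum of the lower ones. -/
theorem root_le_one (z : ℂ)
    (h : ∀ j : ℕ, 0 < j → ∃ (m : ℕ) (e : ℕ → ℤ), (∀ i, |e i| ≤ 1) ∧ (∃ i < m, e i ≠ 0) ∧
      ∑ i ∈ Finset.range m, (e i : ℂ) * (z ^ j) ^ i = 0) : ‖z‖ ≤ 1 := by
  by_contra hz
  obtain ⟨j, hj⟩ := pow_unbounded_of_one_lt 2 (not_le.1 hz)
  have hj0 : 0 < j := Nat.pos_of_ne_zero fun e => by norm_num [e] at hj
  obtain ⟨m, e, he, ⟨i, hi, hne⟩, hs⟩ := h j hj0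
  exact hne (root_le_one_zero (by rw [norm_pow]; exact hj.le) he m hs i hi)

/-- A complex root of the characteristic polynomial gives an eigen-character. With a basis `b` and the
integer matrix `M` of `τ`, `det (z - M) = 0` gives a nonzero left null vector `c`
(`Matrix.exists_vecMul_eq_zero_iff`), `μ v = ∑ c i * b.repr v i`. -/
theorem eig_char {A : Type*} [AddCommGroup A] [Module.Free ℤ A] [Module.Finite ℤ A]
    (τ : A →ₗ[ℤ] A) (z : ℂ) (hz : Polynomial.aeval z τ.charpoly = 0) :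
    ∃ μ : A →+ ℂ, μ ≠ 0 ∧ ∀ v, μ (τ v) = z * μ v := by
  classical
  set b := Module.Free.chooseBasis ℤ A
  set M := LinearMap.toMatrix b b τ with hM
  rw [← LinearMap.charpoly_toMatrix τ b, ← hM, ← Polynomial.eval_map_algebraMap,
    ← Matrix.charpoly_map, Matrix.eval_charpoly] at hz
  obtain ⟨c, hc0, hc⟩ := Matrix.exists_vecMul_eq_zero_iff.2 hz
  rw [Matrix.vecMul_sub, sub_eq_zero] at hc
  refine ⟨AddMonoidHom.mk' (fun v => c ⬝ᵥ fun i => (b.repr v i : ℂ)) fun v w => ?_, fun h0 => ?_,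
    fun v => ?_⟩
  · rw [← dotProduct_add]
    congr 1
    funext i
    simp
  · refine hc0 (funext fun i => ?_)
    have := DFunLike.congr_fun h0 (b i)
    simpa [dotProduct, Finsupp.single_apply] using this
  · have e : (fun i => (b.repr (τ v) i : ℂ)) =
        (M.map (algebraMap ℤ ℂ)).mulVec fun i => (b.repr v i : ℂ) := by
      funext i
      rw [← congrFun (LinearMap.toMatrix_mulVec_repr b b τ v) i]
      simp [Matrix.mulVec, dotProduct, hM]
    simp only [AddMonoidHom.mk'_apply]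
    rw [e, Matrix.dotProduct_mulVec, ← hc]
    simp [dotProduct, Finset.mul_sum, Matrix.vecMul_diagonal, mul_assoc, mul_left_comm]

/-- Kronecker: a nonzero root of a monic integer polynomial all of whose complex roots lie in the closed
unit disc is a root of unity (`NumberField.Embeddings.pow_eq_one_of_norm_le_one` in `ℚ⟮z⟯`, as in
`Polynomial.pow_eq_one_of_mahlerMeasure_eq_one`, or compute the Mahler measure). -/
theorem kron_root (p : Polynomial ℤ) (hp : p.Monic) (h : ∀ w : ℂ, Polynomial.aeval w p = 0 → ‖w‖ ≤ 1)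
    (z : ℂ) (hz0 : z ≠ 0) (hz : Polynomial.aeval z p = 0) : ∃ k : ℕ, 0 < k ∧ z ^ k = 1 := by
  refine Polynomial.pow_eq_one_of_mahlerMeasure_eq_one (p := p) ?_ hz0
    (Polynomial.mem_aroots.2 ⟨hp.ne_zero, hz⟩)
  rw [Polynomial.mahlerMeasure_eq_leadingCoeff_mul_prod_roots, (hp.map _).leadingCoeff, norm_one,
    one_mul]
  refine Multiset.prod_eq_one fun x hx => ?_
  obtain ⟨w, hw, rfl⟩ := Multiset.mem_map.1 hx
  exact max_eq_left (h w (Polynomial.mem_aroots.1 hw).2)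

/-- An automorphism of a lattice with many small relations has a periodic character. Every root of the
characteristic polynomial has norm `≤ 1` (`eig_char`, apply `μ` to the relation for a `v` with
`μ v ≠ 0`, `root_le_one`), a root exists (degree = rank `> 0`) and is nonzero (`τ` is surjective);
`kron_root`; take the real or the imaginary part of `μ`. -/
theorem kron {A : Type*} [AddCommGroup A] [Module.Free ℤ A] [Module.Finite ℤ A] [Nontrivial A]
    (τ : A →ₗ[ℤ] A) (hτ : Function.Surjective τ)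
    (hrel : ∀ v : A, ∀ j : ℕ, 0 < j → ∃ (m : ℕ) (e : ℕ → ℤ), (∀ i, |e i| ≤ 1) ∧
      (∃ i < m, e i ≠ 0) ∧ ∑ i ∈ Finset.range m, e i • (τ ^ (j * i)) v = 0) :
    ∃ k : ℕ, 0 < k ∧ ∃ μ : A →+ ℝ, μ ≠ 0 ∧ ∀ v, μ ((τ ^ k) v) = μ v := by
  have hpow : ∀ (z : ℂ) (μ : A →+ ℂ), (∀ v, μ (τ v) = z * μ v) → ∀ (n : ℕ) v,
      μ ((τ ^ n) v) = z ^ n * μ v := by
    intro z μ h n
    induction n with
    | zero => simp
    | succ n ih => intro v; rw [pow_succ, Module.End.mul_apply, ih, h]; ring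
  have hex : ∀ μ : A →+ ℂ, μ ≠ 0 → ∃ v, μ v ≠ 0 := fun μ h => by
    by_contra h'
    push Not at h'
    exact h (AddMonoidHom.ext h')
  have hle : ∀ w : ℂ, Polynomial.aeval w τ.charpoly = 0 → ‖w‖ ≤ 1 := by
    intro w hw
    obtain ⟨μ, hμ0, hμ⟩ := eig_char τ w hw
    obtain ⟨v, hv⟩ := hex μ hμ0
    refine root_le_one w fun j hj => ?_
    obtain ⟨m, e, h1, h2, h3⟩ := hrel v j hj
    refine ⟨m, e, h1, h2, ?_⟩
    have h4 := congrArg μ h3
    rw [map_sum, map_zero] at h4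
    refine (mul_eq_zero.1 ?_).resolve_right hv
    rw [Finset.sum_mul, ← h4]
    refine Finset.sum_congr rfl fun i _ => ?_
    rw [map_zsmul, hpow w μ hμ, zsmul_eq_mul, ← pow_mul, mul_assoc]
  have hdeg : (τ.charpoly.map (algebraMap ℤ ℂ)).degree ≠ 0 := by
    rw [τ.charpoly_monic.degree_map, Polynomial.degree_eq_natDegree τ.charpoly_monic.ne_zero,
      LinearMap.charpoly_natDegree]
    exact_mod_cast Module.finrank_pos.ne'
  obtain ⟨z, hz⟩ := IsAlgClosed.exists_root _ hdeg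
  rw [Polynomial.IsRoot.def, Polynomial.eval_map_algebraMap] at hz
  obtain ⟨μ, hμ0, hμ⟩ := eig_char τ z hz
  obtain ⟨v, hv⟩ := hex μ hμ0
  have hz0 : z ≠ 0 := by
    rintro rfl
    obtain ⟨u, rfl⟩ := hτ v
    exact hv (by rw [hμ, zero_mul])
  obtain ⟨k, hk, hzk⟩ := kron_root _ τ.charpoly_monic hle z hz0 hz
  have hper : ∀ u, μ ((τ ^ k) u) = μ u := fun u => by rw [hpow z μ hμ, hzk, one_mul]
  refine ⟨k, hk, ?_⟩
  by_cases hre : (μ v).re = 0
  · refine ⟨Complex.imAddGroupHom.comp μ, fun h => hv (Complex.ext hre ?_), fun u => ?_⟩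
    · exact DFunLike.congr_fun h v
    · exact congrArg Complex.im (hper u)
  · exact ⟨Complex.reAddGroupHom.comp μ, fun h => hre (DFunLike.congr_fun h v),
      fun u => congrArg Complex.re (hper u)⟩

variable {Γ : Type*} [Group Γ] {ℓ : Γ → ℕ}

/-- Two different words move the base point to the same place. Otherwise the `2^m` words
(`e : Fin m → Bool`) are distinct and separated; `len_word`, `Slow.false` with `m = (D+1) s`. -/
theorem rel_words {D : ℕ} (hl : Len ℓ) (hs : Slow ℓ D) (g t : Γ) :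
    ∃ (m : ℕ) (e e' : ℕ → ℕ), (∀ i, e i ≤ 1) ∧ (∀ i, e' i ≤ 1) ∧ (∃ i < m, e i ≠ e' i) ∧
      ℓ ((((List.range m).map fun i => t ^ i * g ^ e i * (t ^ i)⁻¹).prod)⁻¹ *
        ((List.range m).map fun i => t ^ i * g ^ e' i * (t ^ i)⁻¹).prod) = 0 := by
  classical
  by_contra hcon
  refine hs.false (A := (D + 1) * (ℓ g + 2 * ℓ t)) fun s => ?_
  set m := (D + 1) * s with hm
  let e : Finset ℕ → ℕ → ℕ := fun S i => if i ∈ S then 1 else 0
  have he : ∀ S i, e S i ≤ 1 := fun S i => by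
    simp only [e]; split_ifs <;> omega
  let W : Finset ℕ → Γ := fun S =>
    ((List.range m).map fun i => t ^ i * g ^ e S i * (t ^ i)⁻¹).prod
  have key : ∀ S ∈ (Finset.range m).powerset, ∀ S' ∈ (Finset.range m).powerset,
      ℓ ((W S)⁻¹ * W S') = 0 → S = S' := by
    intro S hS S' hS' h0
    by_contra hne
    refine hcon ⟨m, e S, e S', he S, he S', ?_, h0⟩
    by_contra hall
    push Not at hall
    apply hne
    ext i
    by_cases hi : i < m
    · have := hall i hi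
      simp only [e] at this
      by_cases h1 : i ∈ S <;> by_cases h2 : i ∈ S' <;> simp_all
    · constructor
      · intro h
        exact absurd (Finset.mem_range.1 (Finset.mem_powerset.1 hS h)) hi
      · intro h
        exact absurd (Finset.mem_range.1 (Finset.mem_powerset.1 hS' h)) hi
  refine ⟨(Finset.range m).powerset.image W, ?_, ?_, ?_⟩
  · intro x hx
    obtain ⟨S, -, rfl⟩ := Finset.mem_image.1 hx
    have h1 := len_word hl t (fun i => g ^ e S i) (ℓ g) (fun i => by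
      have h2 := hl.pow g (e S i)
      have h3 := Nat.mul_le_mul_right (ℓ g) (he S i)
      omega) m
    refine h1.trans ?_
    rw [hm]
    calc (D + 1) * s * (ℓ g + 2 * ℓ t) = (D + 1) * (ℓ g + 2 * ℓ t) * s := by ring
      _ ≤ _ := Nat.mul_le_mul_left _ (Nat.le_succ s)
  · intro a ha b hb h0
    obtain ⟨S, hS, rfl⟩ := Finset.mem_image.1 ha
    obtain ⟨S', hS', rfl⟩ := Finset.mem_image.1 hb
    rw [key S hS S' hS' h0]
  · rw [Finset.card_image_of_injOn, Finset.card_powerset, Finset.card_range, hm, mul_comm,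
      pow_mul]
    · exact Nat.pow_le_pow_left (Nat.lt_two_pow_self).le _
    · intro S hS S' hS' h
      refine key S hS S' hS' ?_
      rw [h, inv_mul_cancel, hl.one]

theorem rel_ev_word {H : Subgroup Γ} (hH : H.Normal) {A : Type*} [AddCommGroup A] {ev : Γ → A}
    (hev : AddOn H ev) {g : Γ} (hg : g ∈ H) (t : Γ) (e : ℕ → ℕ) (m : ℕ) :
    ((List.range m).map fun i => t ^ i * g ^ e i * (t ^ i)⁻¹).prod ∈ H ∧
      ev (((List.range m).map fun i => t ^ i * g ^ e i * (t ^ i)⁻¹).prod) =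
        ∑ i ∈ Finset.range m, (e i : ℤ) • ev (t ^ i * g * (t ^ i)⁻¹) := by
  induction m with
  | zero => simp [hev.one]
  | succ m ih =>
    have h1 : t ^ m * g * (t ^ m)⁻¹ ∈ H := hH.conj_mem g hg _
    rw [List.range_succ, List.map_append, List.prod_append, List.map_singleton,
      List.prod_singleton, Finset.sum_range_succ, ← conj_pow]
    refine ⟨H.mul_mem ih.1 (H.pow_mem h1 _), ?_⟩
    rw [hev _ ih.1 _ (H.pow_mem h1 _), ih.2, hev.pow h1, natCast_zsmul]

/-- Additive form of `rel_words`: apply `ev` to the two words. -/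
theorem rel_ev {D : ℕ} (hl : Len ℓ) (hs : Slow ℓ D) {H : Subgroup Γ} (hH : H.Normal) {A : Type*}
    [AddCommGroup A] {ev : Γ → A} (hev : AddOn H ev) (h0 : ∀ g ∈ H, ℓ g = 0 → ev g = 0) {g : Γ}
    (hg : g ∈ H) (t : Γ) :
    ∃ (m : ℕ) (e : ℕ → ℤ), (∀ i, |e i| ≤ 1) ∧ (∃ i < m, e i ≠ 0) ∧
      ∑ i ∈ Finset.range m, e i • ev (t ^ i * g * (t ^ i)⁻¹) = 0 := by
  obtain ⟨m, e, e', he, he', ⟨i, hi, hne⟩, h⟩ := rel_words hl hs g t
  obtain ⟨h1, h2⟩ := rel_ev_word hH hev hg t e m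
  obtain ⟨h3, h4⟩ := rel_ev_word hH hev hg t e' m
  have h5 := h0 _ (H.mul_mem (H.inv_mem h1) h3) h
  rw [hev _ (H.inv_mem h1) _ h3, hev.inv h1, h2, h4] at h5
  refine ⟨m, fun i => (e' i : ℤ) - e i, fun i => ?_, ⟨i, hi, ?_⟩, ?_⟩
  · have := he i
    have := he' i
    show |(e' i : ℤ) - e i| ≤ 1
    rw [abs_le]
    constructor <;> omega
  · show (e' i : ℤ) - e i ≠ 0
    omega
  · simp only [sub_smul, Finset.sum_sub_distrib]
    rw [← h5]
    abel

/-- A character invariant under a power of `t`. Let `I = {ψ : Γ → ℝ // AddOn H ψ ∧ zero on elliptic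
elements of H}`, `ev g : I → ℝ`, `ev g ψ = ψ g`; `L = ev '' H` is a finitely generated
(`fg_image_add`, `finite_image_of_zero`, `Len.ell_of_zero`) torsion-free nonzero group, hence free;
`τ F ψ = F (ψ ∘ conj t)` (`Len.ell_conj`) satisfies `τ (ev g) = ev (t g t⁻¹)` and restricts to a
surjective `L →ₗ[ℤ] L`; relations from `rel_ev` with `t^j`; apply `kron`; `μ g = μ₀ (ev g)` on `H`. -/
theorem inv_char {D : ℕ} (hl : Len ℓ) (hs : Slow ℓ D) {H : Subgroup Γ} (hH : H.Normal)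
    (hb : BGen ℓ H) (t : Γ) {ψ : Γ → ℝ} (hψ : AddOn H ψ) (he : ∀ g ∈ H, Ell ℓ g → ψ g = 0)
    (hne : ∃ g ∈ H, ψ g ≠ 0) :
    ∃ k : ℕ, 0 < k ∧ ∃ μ : Γ → ℝ, AddOn H μ ∧ (∀ g ∈ H, ℓ g = 0 → μ g = 0) ∧
      (∀ g ∈ H, μ (t ^ k * g * (t ^ k)⁻¹) = μ g) ∧ ∃ g ∈ H, μ g ≠ 0 := by
  classical
  let I : Type _ := {φ : Γ → ℝ // AddOn H φ ∧ ∀ g ∈ H, Ell ℓ g → φ g = 0}
  let ev : Γ → I → ℝ := fun g φ => φ.1 g
  have hev : AddOn H ev := fun a ha b hb => funext fun φ => φ.2.1 a ha b hb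
  have h0 : ∀ g ∈ H, ℓ g = 0 → ev g = 0 := fun g hg h =>
    funext fun φ => φ.2.2 g hg (hl.ell_of_zero h)
  obtain ⟨L, hfg, hL⟩ := fg_image_add hb hev (finite_image_of_zero hl hs hev h0)
  let c : I → I := fun φ => ⟨fun g => φ.1 (t * g * t⁻¹), fun a ha b hb => by
      rw [← φ.2.1 _ (hH.conj_mem a ha t) _ (hH.conj_mem b hb t)]
      congr 1
      group, fun g hg h => φ.2.2 _ (hH.conj_mem g hg t) (hl.ell_conj h t)⟩
  let v : ∀ g ∈ H, L := fun g hg => ⟨ev g, (hL _).2 ⟨g, hg, rfl⟩⟩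
  have hv : ∀ a : L, ∃ g, ∃ hg : g ∈ H, v g hg = a := fun a => by
    obtain ⟨g, hg, e⟩ := (hL a).1 a.2
    exact ⟨g, hg, Subtype.ext e⟩
  let τ₀ : L →+ L := AddMonoidHom.mk' (fun a => ⟨fun φ => a.1 (c φ), by
      obtain ⟨g, hg, rfl⟩ := hv a
      exact (v _ (hH.conj_mem g hg t)).2⟩) fun a b => rfl
  let τ : L →ₗ[ℤ] L := τ₀.toIntLinearMap
  have hτ : ∀ g (hg : g ∈ H), τ (v g hg) = v _ (hH.conj_mem g hg t) := fun g hg => rfl
  have hvc : ∀ {a b : Γ} (ha : a ∈ H) (hb : b ∈ H), a = b → v a ha = v b hb := by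
    rintro a b ha hb rfl
    rfl
  have hτn : ∀ (n : ℕ) g (hg : g ∈ H), (τ ^ n) (v g hg) = v _ (hH.conj_mem g hg (t ^ n)) := by
    intro n g hg
    induction n with
    | zero => exact hvc hg (hH.conj_mem g hg (t ^ 0)) (by simp)
    | succ n ih =>
      rw [pow_succ', Module.End.mul_apply, ih]
      exact (hτ _ (hH.conj_mem g hg (t ^ n))).trans
        (hvc (hH.conj_mem _ (hH.conj_mem g hg (t ^ n)) t) (hH.conj_mem g hg (t ^ (n + 1)))
          (by rw [pow_succ']; group))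
  have : Module.Finite ℤ L := Module.Finite.iff_addGroup_fg.2 ((AddGroup.fg_iff_addSubgroup_fg L).2 hfg)
  have : Module.Free ℤ L := inferInstance
  have : Nontrivial L := by
    obtain ⟨g, hg, h⟩ := hne
    exact ⟨v g hg, 0, fun e => h (congrFun (congrArg Subtype.val e) ⟨ψ, hψ, he⟩)⟩
  obtain ⟨k, hk, μ, hμ, hinv⟩ := kron τ (fun a => by
      obtain ⟨g, hg, rfl⟩ := hv a
      exact ⟨v _ (hH.conj_mem g hg t⁻¹), (hτ _ (hH.conj_mem g hg t⁻¹)).trans
        (hvc (hH.conj_mem _ (hH.conj_mem g hg t⁻¹) t) hg (by group))⟩) (fun a j _ => by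
      obtain ⟨g, hg, rfl⟩ := hv a
      obtain ⟨m, e, h1, h2, h3⟩ := rel_ev hl hs hH hev h0 hg (t ^ j)
      refine ⟨m, e, h1, h2, L.subtype_injective ?_⟩
      rw [map_sum, map_zero, ← h3]
      refine Finset.sum_congr rfl fun i _ => ?_
      rw [map_zsmul, hτn _ g hg, pow_mul]
      rfl)
  refine ⟨k, hk, fun g => if hg : g ∈ H then μ (v g hg) else 0, fun a ha b hb => ?_,
    fun g hg h => ?_, fun g hg => ?_, ?_⟩
  · simp only [dif_pos ha, dif_pos hb, dif_pos (H.mul_mem ha hb)]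
    rw [← map_add]
    exact congrArg μ (Subtype.ext (hev a ha b hb))
  · simp only [dif_pos hg]
    rw [show v g hg = 0 from Subtype.ext (h0 g hg h), map_zero]
  · simp only [dif_pos hg, dif_pos (hH.conj_mem g hg (t ^ k))]
    rw [← hτn k g hg, hinv]
  · by_contra hcon
    refine hμ (AddMonoidHom.ext fun a => ?_)
    obtain ⟨g, hg, rfl⟩ := hv a
    by_contra h
    exact hcon ⟨g, hg, by simpa only [dif_pos hg, AddMonoidHom.zero_apply] using h⟩

end Crest.Agent.R147.Geo
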