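import Crest.Agent.R147.GeoStepA
import Crest.Agent.R147.GeoB1
import Crest.Agent.R147.GeoB3
import Crest.Agent.R147.GeoKron

/-! Row 147, module GEO (owner helper16). See R147/GeoDefs.lean. -/

set_option autoImplicit false

namespace Crest.Agent.R147.Geo

universe u

variable {Γ : Type u} [Group Γ] {ℓ : Γ → ℕ}

theorem rank2_of_conj {Hc : Subgroup Γ} (hn : Hc.Normal) {μ : Γ → ℤ} {s : Γ}
    (hinv : ∀ g ∈ Hc, μ (s * g * s⁻¹) = μ g) (a : ℤ) :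
    ∀ g ∈ Hc, μ (s ^ a * g * (s ^ a)⁻¹) = μ g := by
  induction a using Int.induction_on with
  | zero => intro g _; simp
  | succ a ih =>
    intro g hg
    rw [← hinv g hg, ← ih _ (hn.conj_mem g hg s)]
    congr 1
    group
  | pred a ih =>
    intro g hg
    rw [← ih g hg, ← hinv _ (hn.conj_mem g hg _)]
    congr 1
    group

/-- Assembly of rank two. `H = {g | k ∣ χ g ∧ g t^{-χ g} ∈ Hc}`, `χ₁ g = χ g / k`,
`χ₂ g = μ (g t^{-χ g})`; `g g' t^{-(a+a')} = h (t^a h' t^{-a})` and `μ` is invariant under `t^a`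
for every integer multiple `a` of `k`. Finite index: every `g` is `t^i n h` up to finitely many
`i < k` and coset representatives `n` of `Hc` in `N` (use normality of `Hc`). Surjective:
`h^b t^{k a}`. -/
theorem rank2_of {χ : Γ → ℤ} (hχ : AddOn ⊤ χ) (h0 : ∀ g, ℓ g = 0 → χ g = 0) {t : Γ} (ht : χ t = 1)
    {N Hc : Subgroup Γ} (hN : ∀ g, g ∈ N ↔ χ g = 0) (hn : Hc.Normal) (hle : Hc ≤ N)
    (hi : Hc.relIndex N ≠ 0) {k : ℕ} (hk : 0 < k) {μ : Γ → ℤ} (hμ : AddOn Hc μ)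
    (hμ0 : ∀ g ∈ Hc, ℓ g = 0 → μ g = 0) (hinv : ∀ g ∈ Hc, μ (t ^ k * g * (t ^ k)⁻¹) = μ g)
    (h1 : ∃ g ∈ Hc, μ g = 1) : ∃ H : Subgroup Γ, H.FiniteIndex ∧ Rank2 ℓ H := by
  have hk' : (k : ℤ) ≠ 0 := by exact_mod_cast hk.ne'
  have hm : ∀ a b, χ (a * b) = χ a + χ b := fun a b => hχ a trivial b trivial
  have hz : ∀ (g : Γ) (a : ℤ), χ (g ^ a) = a * χ g := fun g a => hχ.zpow (a := g) trivial a
  have hs : χ (t ^ k) = k := by rw [hχ.pow (a := t) trivial, ht]; simp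
  generalize t ^ k = s at hs hinv
  let H : Subgroup Γ :=
    { carrier := {g | ∃ a : ℤ, g * s ^ (-a) ∈ Hc}
      one_mem' := ⟨0, by simp⟩
      mul_mem' := by
        rintro g g' ⟨a, ha⟩ ⟨b, hb⟩
        refine ⟨a + b, ?_⟩
        convert Hc.mul_mem ha (hn.conj_mem _ hb (s ^ a)) using 1
        group
      inv_mem' := by
        rintro g ⟨a, ha⟩
        refine ⟨-a, ?_⟩
        convert hn.conj_mem _ (Hc.inv_mem ha) (s ^ (-a)) using 1
        group }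
  have key : ∀ (g : Γ) (a : ℤ), g * s ^ (-a) ∈ Hc → χ g / k = a := fun g a ha => by
    have h := (hN _).1 (hle ha)
    rw [hm, hz, hs] at h
    rw [show χ g = a * k by linarith, Int.mul_ediv_cancel _ hk']
  refine ⟨H, ?_, fun g => (χ g / k, μ (g * s ^ (-(χ g / k)))), ?_, ?_, ?_⟩
  · have : Finite (N ⧸ Hc.subgroupOf N) := Nat.finite_of_card_ne_zero hi
    have : Finite (Γ ⧸ H) := by
      refine Finite.of_surjective (fun p : Fin k × (N ⧸ Hc.subgroupOf N) =>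
        ((t ^ (p.1 : ℕ) * (p.2.out : N) : Γ) : Γ ⧸ H)) fun x => ?_
      obtain ⟨g, rfl⟩ := QuotientGroup.mk_surjective x
      have h2 := Int.emod_nonneg (χ g) hk'
      have h3 := Int.emod_lt_of_pos (χ g) (b := k) (by exact_mod_cast hk)
      have hmem : t ^ (-(χ g % k)) * g * s ^ (-(χ g / k)) ∈ N := by
        rw [hN, hm, hm, hz, hz, hs, ht]
        linarith [Int.emod_add_ediv_mul (χ g) k]
      obtain ⟨h, hh⟩ := QuotientGroup.mk_out_eq_mul (Hc.subgroupOf N) ⟨_, hmem⟩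
      refine ⟨(⟨(χ g % k).toNat, by omega⟩, QuotientGroup.mk ⟨_, hmem⟩),
        QuotientGroup.eq.2 ⟨χ g / k, ?_⟩⟩
      simp only [hh, Subgroup.coe_mul]
      rw [← zpow_natCast, Int.toNat_of_nonneg h2]
      convert Hc.inv_mem (Subgroup.mem_subgroupOf.1 h.2) using 1
      group
    exact Subgroup.finiteIndex_of_finite_quotient
  · rintro g ⟨a, ha⟩ g' ⟨b, hb⟩
    have hab : g * g' * s ^ (-(a + b)) = g * s ^ (-a) * (s ^ a * (g' * s ^ (-b)) * (s ^ a)⁻¹) := by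
      group
    have hc := hn.conj_mem _ hb (s ^ a)
    simp only [key g a ha, key g' b hb, key _ (a + b) (hab ▸ Hc.mul_mem ha hc), Prod.mk_add_mk]
    rw [hab, hμ _ ha _ hc, rank2_of_conj hn hinv a _ hb]
  · rintro g ⟨a, ha⟩ hg
    have h := key g a ha
    rw [h0 g hg, Int.zero_ediv] at h
    subst h
    rw [neg_zero, zpow_zero, mul_one] at ha
    simp [h0 g hg, hμ0 g ha hg]
  · rintro ⟨a, b⟩
    obtain ⟨h, hh, h1⟩ := h1
    have ha : h ^ b * s ^ a * s ^ (-a) = h ^ b := by group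
    have hc : h ^ b * s ^ a * s ^ (-a) ∈ Hc := ha.symm ▸ Hc.zpow_mem hh b
    refine ⟨h ^ b * s ^ a, ⟨a, hc⟩, ?_⟩
    simp only [key _ a hc, ha, hμ.zpow hh, h1, smul_eq_mul, mul_one]

/-- The kernel of a character as a normal subgroup. -/
theorem exists_ker {χ : Γ → ℤ} (hχ : AddOn ⊤ χ) :
    ∃ N : Subgroup Γ, N.Normal ∧ ∀ g, g ∈ N ↔ χ g = 0 := by
  have hm : ∀ a b, χ (a * b) = χ a + χ b := fun a b => hχ a trivial b trivial
  have hi : ∀ a, χ a⁻¹ = -χ a := fun a => hχ.inv trivial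
  refine ⟨{ carrier := {g | χ g = 0}
            one_mem' := hχ.one
            mul_mem' := fun {a b} ha hb => ?_
            inv_mem' := fun {a} ha => ?_ }, ⟨fun a ha g => ?_⟩, fun g => Iff.rfl⟩
  · change χ a = 0 at ha
    change χ b = 0 at hb
    change χ (a * b) = 0
    rw [hm, ha, hb, add_zero]
  · change χ a = 0 at ha
    change χ a⁻¹ = 0
    rw [hi, ha, neg_zero]
  · change χ a = 0 at ha
    change χ (g * a * g⁻¹) = 0
    rw [hm, hm, hi, ha]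
    ring

/-- Step B. -/
theorem stepB {D : ℕ} (hl : Len ℓ) (hs : Slow ℓ D) (hb : BGen ℓ ⊤) {χ : Γ → ℤ}
    (hχ : AddOn ⊤ χ) (h0 : ∀ g, ℓ g = 0 → χ g = 0) {t : Γ} (ht : χ t = 1) :
    ∃ H : Subgroup Γ, H.FiniteIndex ∧ (Rank1 ℓ H ∨ Rank2 ℓ H) := by
  obtain ⟨N, hn, hN⟩ := exists_ker hχ
  by_cases hu : ∀ C : ℕ, ∃ g ∈ N, C < ℓ g
  · have hbN := milnor hl hs hb hχ h0 ht hN
    obtain ⟨H, φ, hle, hi, hφ, hφ0, hne⟩ := stepA hl hs hbN hu
    obtain ⟨ψ, hψ, g, hg, hψg⟩ := adm_exists hl hs hle hi hφ hφ0 hne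
    obtain ⟨Hc, hcn, hcle, hci, hadd⟩ := exists_normal hl hs hn
    have hbc := hbN.of_relIndex hl hcle hci
    obtain ⟨j, hj, -, hgj⟩ := Subgroup.exists_pow_mem_of_relIndex_ne_zero hci hg
    have hne' : ∃ g ∈ Hc, ψ g ≠ 0 := by
      refine ⟨g ^ j, hgj.1, ?_⟩
      rw [hψ.2.1 g hg j]
      exact mul_ne_zero (by exact_mod_cast hj.ne') hψg
    obtain ⟨k, hk, μ, hμ, hμ0, hinv, hμne⟩ :=
      inv_char hl hs hcn hbc t (hadd ψ hψ) (fun g _ he => hψ.2.2.1 g he) hne'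
    obtain ⟨lam, hlam, hlam0, h1⟩ := intify hl hs hbc hμ hμ0 hμne
    obtain ⟨H', hH', hr⟩ := rank2_of hχ h0 ht hN hcn hcle hci hk hlam
      (fun g hg hg0 => by simp only [hμ0 g hg hg0, hlam0])
      (fun g hg => by simp only [hinv g hg]) h1
    exact ⟨H', hH', Or.inr hr⟩
  · push Not at hu
    obtain ⟨C, hC⟩ := hu
    exact ⟨⊤, inferInstance, Or.inl ⟨χ, hχ, fun g _ => h0 g, C, fun g _ hg => hC g ((hN g).2 hg)⟩⟩

/-- Transfer of the conclusion from a subgroup of finite index (`lift_char`;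
`Subgroup.relIndex_mul_index`). -/
theorem rank_lift (H : Subgroup Γ) (hH : H.FiniteIndex) (H' : Subgroup H) (hH' : H'.FiniteIndex)
    (h : Rank1 (fun g : H => ℓ (g : Γ)) H' ∨ Rank2 (fun g : H => ℓ (g : Γ)) H') :
    ∃ K : Subgroup Γ, K.FiniteIndex ∧ (Rank1 ℓ K ∨ Rank2 ℓ K) := by
  have hfi : ∀ K : Subgroup Γ, K ≤ H → K.relIndex H ≠ 0 → K.FiniteIndex := fun K h1 h2 =>
    ⟨by rw [← Subgroup.relIndex_mul_index h1]; exact mul_ne_zero h2 hH.index_ne_zero⟩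
  rcases h with ⟨χ, h1, h2, C, h3⟩ | ⟨χ, h1, h2, h3⟩
  · obtain ⟨K, ψ, k1, k2, k3, k4, k5⟩ := lift_char H H' hH' χ h1
    refine ⟨K, hfi K k1 k2, Or.inl ⟨ψ, k3, fun g hg h0 => ?_, C, fun g hg h0 => ?_⟩⟩
    · exact (k5 ⟨g, k1 hg⟩).trans (h2 ⟨g, k1 hg⟩ ((k4 _).1 hg) h0)
    · exact h3 ⟨g, k1 hg⟩ ((k4 _).1 hg) ((k5 ⟨g, k1 hg⟩).symm.trans h0)
  · obtain ⟨K, ψ, k1, k2, k3, k4, k5⟩ := lift_char H H' hH' χ h1
    refine ⟨K, hfi K k1 k2, Or.inr ⟨ψ, k3, fun g hg h0 => ?_, fun z => ?_⟩⟩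
    · exact (k5 ⟨g, k1 hg⟩).trans (h2 ⟨g, k1 hg⟩ ((k4 _).1 hg) h0)
    · obtain ⟨g, hg, e⟩ := h3 z
      exact ⟨g, (k4 g).2 hg, (k5 g).trans e⟩

/-- The group-theoretic core. -/
theorem core {D : ℕ} (hl : Len ℓ) (hs : Slow ℓ D) (hb : BGen ℓ ⊤) :
    ∃ H : Subgroup Γ, H.FiniteIndex ∧ (Rank1 ℓ H ∨ Rank2 ℓ H) := by
  by_cases hu : ∀ C : ℕ, ∃ g, C < ℓ g
  · obtain ⟨H, φ, hH, hφ, hφ0, hne⟩ := stepA_top hl hs hb hu
    have hbH : BGen ℓ H := hb.of_relIndex hl le_top (by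
      rw [Subgroup.relIndex_top_right]; exact hH.index_ne_zero)
    obtain ⟨lam, hlam, hlam0, t, ht, ht1⟩ := intify hl hs hbH hφ hφ0 hne
    obtain ⟨H', hH', hr⟩ := stepB (χ := fun g : H => lam (φ g)) (t := ⟨t, ht⟩) (hl.restrict H)
      (hs.restrict H) hbH.restrict (fun a _ b _ => hlam a a.2 b b.2)
      (fun g hg => by simp only [hφ0 g g.2 hg, hlam0]) ht1
    exact rank_lift H hH H' hH' hr
  · push Not at hu
    obtain ⟨C, hC⟩ := hu
    exact ⟨⊤, inferInstance, Or.inl ⟨fun _ => 0, fun _ _ _ _ => by simp, fun _ _ _ => rfl, C,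
      fun g _ _ => hC g⟩⟩

end Crest.Agent.R147.Geo
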