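import Mathlib

/-!
Row 147, module GEO (owner helper16): a weak Gromov–Trofimov theorem.
Definitions shared by all files `R147/Geo*.lean`.

Group side: a group `Γ` with a length function `ℓ` (think `ℓ g = dist o (g • o)`); the elements of
length `0` form the stabiliser of the base point.
Analytic side: a symmetric lazy finite-range random walk on a transitive `Γ`-set.
-/

set_option autoImplicit false

namespace Crest.Agent.R147.Geo

/-! ## Groups with a length function -/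

section Grp
variable {Γ : Type*} [Group Γ]

/-- Length function. -/
structure Len (ℓ : Γ → ℕ) : Prop where
  one : ℓ 1 = 0
  mul : ∀ a b, ℓ (a * b) ≤ ℓ a + ℓ b
  inv : ∀ a, ℓ a⁻¹ = ℓ a

/-- `H` is generated by its elements of bounded length. -/
def BGen (ℓ : Γ → ℕ) (H : Subgroup Γ) : Prop :=
  ∃ R : ℕ, H ≤ Subgroup.closure {s | s ∈ H ∧ ℓ s ≤ R}

/-- The elements of `T` move the base point to pairwise different points. -/
def Sep (ℓ : Γ → ℕ) (T : Finset Γ) : Prop := ∀ a ∈ T, ∀ b ∈ T, ℓ (a⁻¹ * b) = 0 → a = b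

/-- Weakly polynomial growth of the orbit of the base point. -/
def Slow (ℓ : Γ → ℕ) (D : ℕ) : Prop :=
  ∀ n : ℕ, ∃ r, n ≤ r ∧ ∀ T : Finset Γ, (∀ g ∈ T, ℓ g ≤ r) → Sep ℓ T → T.card ≤ r ^ D

/-- Weakly polynomial growth of the values of `σ`. -/
def SlowF {B : Type*} (ℓ : Γ → ℕ) (σ : Γ → B) (D : ℕ) : Prop :=
  ∀ n : ℕ, ∃ r, n ≤ r ∧ ∀ T : Finset Γ, (∀ g ∈ T, ℓ g ≤ r) → Set.InjOn σ ↑T → T.card ≤ r ^ D

/-- `φ` is additive on the subgroup `H`. -/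
def AddOn {A : Type*} [Add A] (H : Subgroup Γ) (φ : Γ → A) : Prop :=
  ∀ a ∈ H, ∀ b ∈ H, φ (a * b) = φ a + φ b

/-- Elliptic elements: bounded powers. -/
def Ell (ℓ : Γ → ℕ) (g : Γ) : Prop := ∃ C : ℕ, ∀ k : ℕ, ℓ (g ^ k) ≤ C

/-- Stable characters of `N`: homogeneous functions supported on `N`, zero on elliptic elements,
additive on a subgroup of finite index in `N`. -/
def Adm (ℓ : Γ → ℕ) (N : Subgroup Γ) (ψ : Γ → ℝ) : Prop :=
  (∀ g, g ∉ N → ψ g = 0) ∧ (∀ g ∈ N, ∀ k : ℕ, ψ (g ^ k) = k * ψ g) ∧ (∀ g, Ell ℓ g → ψ g = 0) ∧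
    ∃ H : Subgroup Γ, H ≤ N ∧ H.relIndex N ≠ 0 ∧ AddOn H ψ

/-- Rank one: an integer character with bounded kernel. -/
def Rank1 (ℓ : Γ → ℕ) (H : Subgroup Γ) : Prop :=
  ∃ χ : Γ → ℤ, AddOn H χ ∧ (∀ g ∈ H, ℓ g = 0 → χ g = 0) ∧ ∃ C : ℕ, ∀ g ∈ H, χ g = 0 → ℓ g ≤ C

/-- Rank two: a character onto `ℤ × ℤ` that kills the stabiliser. -/
def Rank2 (ℓ : Γ → ℕ) (H : Subgroup Γ) : Prop :=
  ∃ χ : Γ → ℤ × ℤ, AddOn H χ ∧ (∀ g ∈ H, ℓ g = 0 → χ g = 0) ∧ ∀ z, ∃ g ∈ H, χ g = z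

theorem AddOn.one {A : Type*} [AddGroup A] {H : Subgroup Γ} {φ : Γ → A} (h : AddOn H φ) :
    φ 1 = 0 := by
  have := h 1 H.one_mem 1 H.one_mem
  rw [mul_one] at this
  exact left_eq_add.1 this

theorem AddOn.inv {A : Type*} [AddGroup A] {H : Subgroup Γ} {φ : Γ → A} (h : AddOn H φ)
    {a : Γ} (ha : a ∈ H) : φ a⁻¹ = - φ a := by
  have := h a⁻¹ (H.inv_mem ha) a ha
  rw [inv_mul_cancel, h.one] at this
  exact eq_neg_of_add_eq_zero_left this.symm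

theorem AddOn.pow {A : Type*} [AddGroup A] {H : Subgroup Γ} {φ : Γ → A} (h : AddOn H φ)
    {a : Γ} (ha : a ∈ H) (k : ℕ) : φ (a ^ k) = k • φ a := by
  induction k with
  | zero => simp [h.one]
  | succ k ih => rw [pow_succ, h _ (H.pow_mem ha k) a ha, ih, succ_nsmul]

theorem AddOn.zpow {A : Type*} [AddGroup A] {H : Subgroup Γ} {φ : Γ → A} (h : AddOn H φ)
    {a : Γ} (ha : a ∈ H) (k : ℤ) : φ (a ^ k) = k • φ a := by
  obtain ⟨n, rfl | rfl⟩ := Int.eq_nat_or_neg k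
  · rw [zpow_natCast, natCast_zsmul, h.pow ha]
  · rw [zpow_neg, zpow_natCast, h.inv (H.pow_mem ha n), h.pow ha, neg_zsmul, natCast_zsmul]

theorem AddOn.mono {A : Type*} [Add A] {H H' : Subgroup Γ} {φ : Γ → A} (h : AddOn H φ)
    (hle : H' ≤ H) : AddOn H' φ := fun a ha b hb => h a (hle ha) b (hle hb)

theorem Len.pow {ℓ : Γ → ℕ} (h : Len ℓ) (a : Γ) (k : ℕ) : ℓ (a ^ k) ≤ k * ℓ a := by
  induction k with
  | zero => simp [h.one]
  | succ k ih =>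
    rw [pow_succ]
    calc ℓ (a ^ k * a) ≤ ℓ (a ^ k) + ℓ a := h.mul _ _
      _ ≤ k * ℓ a + ℓ a := by omega
      _ = (k + 1) * ℓ a := by ring

theorem Len.conj {ℓ : Γ → ℕ} (h : Len ℓ) (t a : Γ) : ℓ (t * a * t⁻¹) ≤ ℓ a + 2 * ℓ t := by
  have h1 := h.mul (t * a) t⁻¹
  have h2 := h.mul t a
  have h3 := h.inv t
  omega

theorem Len.ell_of_zero {ℓ : Γ → ℕ} (h : Len ℓ) {a : Γ} (ha : ℓ a = 0) : Ell ℓ a :=
  ⟨0, fun k => by simpa [ha] using h.pow a k⟩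

theorem Len.ell_conj {ℓ : Γ → ℕ} (h : Len ℓ) {a : Γ} (ha : Ell ℓ a) (t : Γ) :
    Ell ℓ (t * a * t⁻¹) := by
  obtain ⟨C, hC⟩ := ha
  refine ⟨C + 2 * ℓ t, fun k => ?_⟩
  rw [conj_pow]
  have := h.conj t (a ^ k)
  have := hC k
  omega

theorem Ell.pow {ℓ : Γ → ℕ} {a : Γ} (ha : Ell ℓ a) (m : ℕ) : Ell ℓ (a ^ m) := by
  obtain ⟨C, hC⟩ := ha
  exact ⟨C, fun k => by rw [← pow_mul]; exact hC _⟩

/-- Restriction of a length function to a subgroup. -/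
theorem Len.restrict {ℓ : Γ → ℕ} (h : Len ℓ) (H : Subgroup Γ) : Len (fun g : H => ℓ (g : Γ)) :=
  ⟨by simpa using h.one, fun a b => by simpa using h.mul a b, fun a => by simpa using h.inv a⟩

/-- The stabiliser of the base point. -/
def Len.K {ℓ : Γ → ℕ} (h : Len ℓ) : Subgroup Γ where
  carrier := {g | ℓ g = 0}
  one_mem' := h.one
  mul_mem' := fun {a b} ha hb => by
    have := h.mul a b
    simp only [Set.mem_ofPred_eq] at ha hb ⊢
    omega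
  inv_mem' := fun {a} ha => by
    simp only [Set.mem_ofPred_eq] at ha ⊢
    rw [h.inv, ha]

theorem Len.mem_K {ℓ : Γ → ℕ} (h : Len ℓ) {g : Γ} : g ∈ h.K ↔ ℓ g = 0 := Iff.rfl

end Grp

/-! ## Random walks -/

/-- A symmetric, lazy, finite-range, irreducible, `Γ`-invariant random walk on a transitive
`Γ`-set `X`. `N x` is the set of points reachable from `x` in one step (it contains `x`). -/
structure Walk (Γ X : Type*) [Group Γ] [MulAction Γ X] where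
  N : X → Finset X
  q : X → X → ℝ
  c : ℝ
  c_pos : 0 < c
  q_nonneg : ∀ x y, 0 ≤ q x y
  q_symm : ∀ x y, q x y = q y x
  q_supp : ∀ x y, y ∉ N x → q x y = 0
  q_ge : ∀ x y, y ∈ N x → c ≤ q x y
  q_sum : ∀ x, ∑ y ∈ N x, q x y = 1
  q_lazy : ∀ x, 1 / 2 ≤ q x x
  q_smul : ∀ (g : Γ) x y, q (g • x) (g • y) = q x y
  conn : ∀ x y, Relation.ReflTransGen (fun a b => b ∈ N a) x y
  trans : ∀ x y : X, ∃ g : Γ, g • x = y

namespace Walk
variable {Γ X : Type*} [Group Γ] [MulAction Γ X] (W : Walk Γ X)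

/-- The Markov operator. -/
noncomputable def P (f : X → ℝ) : X → ℝ := fun x => ∑ y ∈ W.N x, W.q x y * f y

open Classical in
/-- Points reachable in `n` steps. -/
noncomputable def B : ℕ → X → Finset X
  | 0, x => {x}
  | n + 1, x => (W.N x).biUnion (fun z => B n z)

open Classical in
/-- The `n`-step kernel. -/
noncomputable def pk (n : ℕ) (x y : X) : ℝ := W.P^[n] (fun z => if z = y then 1 else 0) x

/-- Lipschitz functions. -/
def Lip (f : X → ℝ) : Prop := ∃ L : ℝ, ∀ x, ∀ y ∈ W.N x, |f y - f x| ≤ L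

/-- Harmonic functions. -/
def Harm (f : X → ℝ) : Prop := ∀ x, W.P f x = f x

/-- Carré du champ. -/
noncomputable def Gam (f f' : X → ℝ) : X → ℝ :=
  fun x => ∑ y ∈ W.N x, W.q x y * ((f y - f x) * (f' y - f' x))

/-- Weakly polynomial growth. -/
def Slow (o : X) (D : ℕ) : Prop := ∀ n : ℕ, ∃ r, n ≤ r ∧ (W.B r o).card ≤ r ^ D

/-- Entropy of the `n`-step law from `x`. -/
noncomputable def H (n : ℕ) (x : X) : ℝ := ∑ y ∈ W.B n x, Real.negMulLog (W.pk n x y)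

/-- Good times: the `n`-step law from a neighbour is close to the `(n+1)`-step law. -/
def Good (C : ℝ) (n : ℕ) : Prop :=
  ∀ x, ∀ y ∈ W.N x, ∀ f : X → ℝ,
    (W.P^[n] f y - W.P^[n + 1] f x) ^ 2 ≤ C / (n + 1) * W.P^[n + 1] (fun z => f z ^ 2) x

end Walk

/-- Bounded functions. -/
def Bdd {X : Type*} (ψ : X → ℝ) : Prop := ∃ M : ℝ, ∀ x, |ψ x| ≤ M

/-- Invariant mean on bounded functions. -/
structure Mean (Γ : Type*) {X : Type*} [Group Γ] [MulAction Γ X] (m : (X → ℝ) → ℝ) : Prop where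
  add : ∀ ψ ψ', Bdd ψ → Bdd ψ' → m (fun x => ψ x + ψ' x) = m ψ + m ψ'
  smul : ∀ (a : ℝ) ψ, Bdd ψ → m (fun x => a * ψ x) = a * m ψ
  mono : ∀ ψ ψ', Bdd ψ → Bdd ψ' → (∀ x, ψ x ≤ ψ' x) → m ψ ≤ m ψ'
  const : ∀ a : ℝ, m (fun _ => a) = a
  inv : ∀ (g : Γ) ψ, Bdd ψ → m (fun x => ψ (g • x)) = m ψ

/-- Euclidean space. -/
abbrev Euc (m : ℕ) := EuclideanSpace ℝ (Fin m)

/-! ## Graphs -/

/-- An equivariant Lipschitz map to `ℤ × ℤ` for a cocompact group of automorphisms. -/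
structure Z2Data {V : Type*} (G : SimpleGraph V) where
  Γ : Subgroup (G ≃g G)
  χ : (G ≃g G) → ℤ × ℤ
  π : V → ℤ × ℤ
  coc : ∃ F : Finset V, ∀ v, ∃ g ∈ Γ, g v ∈ F
  equi : ∀ g ∈ Γ, ∀ v, π (g v) = π v + χ g
  surj : ∀ z, ∃ g ∈ Γ, χ g = z
  lip : ∃ L : ℕ, ∀ u v, G.Adj u v → |(π u).1 - (π v).1| ≤ L ∧ |(π u).2 - (π v).2| ≤ L

/-- Number of vertices within distance `r` of `o`. -/
noncomputable def vol {V : Type*} (G : SimpleGraph V) (o : V) (r : ℕ) : ℕ :=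
  {v | G.dist o v ≤ r}.ncard

end Crest.Agent.R147.Geo
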