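import Crest.Agent.R147.GeoWalk

/-! Row 147, module GEO (owner helper16). See R147/GeoDefs.lean. -/

set_option autoImplicit false

namespace Crest.Agent.R147.Geo

namespace Walk
variable {Γ X : Type*} [Group Γ] [MulAction Γ X] (W : Walk Γ X)

open Classical in
theorem pk_zero (x y : X) : W.pk 0 x y = if x = y then 1 else 0 := by
  rfl

theorem pk_one (x y : X) : W.pk 1 x y = W.q x y := by
  classical
  show ∑ z ∈ W.N x, W.q x z * (if z = y then 1 else 0) = W.q x y
  simp only [mul_ite, mul_one, mul_zero, Finset.sum_ite_eq']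
  split_ifs with h
  · rfl
  · exact (W.q_supp x y h).symm

theorem pk_succ (n : ℕ) (x y : X) : W.pk (n + 1) x y = ∑ z ∈ W.N x, W.q x z * W.pk n z y := by
  exact W.iter_succ' n _ x

theorem pk_nonneg (n : ℕ) (x y : X) : 0 ≤ W.pk n x y := by
  induction n generalizing x with
  | zero => rw [pk_zero]; split_ifs <;> norm_num
  | succ n ih =>
    rw [pk_succ]
    exact Finset.sum_nonneg fun z _ => mul_nonneg (W.q_nonneg x z) (ih z)

theorem pk_le_one (n : ℕ) (x y : X) : W.pk n x y ≤ 1 := by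
  induction n generalizing x with
  | zero => rw [pk_zero]; split_ifs <;> norm_num
  | succ n ih =>
    rw [pk_succ, ← W.q_sum x]
    exact Finset.sum_le_sum fun z _ => mul_le_of_le_one_right (W.q_nonneg x z) (ih z)

theorem pk_eq_zero {n : ℕ} {x y : X} (h : y ∉ W.B n x) : W.pk n x y = 0 := by
  induction n generalizing x with
  | zero =>
    rw [pk_zero, if_neg]
    rintro rfl
    exact h (W.mem_B_self 0 x)
  | succ n ih =>
    rw [pk_succ]
    refine Finset.sum_eq_zero fun z hz => ?_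
    rw [ih fun hy => h (W.mem_B_succ.2 ⟨z, hz, hy⟩), mul_zero]

/-- Expectation after `n` steps as a finite sum. -/
theorem iter_eq_sum (n : ℕ) (f : X → ℝ) (x : X) {S : Finset X} (hS : W.B n x ⊆ S) :
    W.P^[n] f x = ∑ y ∈ S, W.pk n x y * f y := by
  induction n generalizing x with
  | zero =>
    have hx : x ∈ S := hS (W.mem_B_self 0 x)
    rw [Finset.sum_eq_single_of_mem x hx fun y _ hy => by
      rw [pk_zero, if_neg (Ne.symm hy), zero_mul]]
    rw [pk_zero, if_pos rfl, one_mul]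
    rfl
  | succ n ih =>
    rw [W.iter_succ']
    have h1 : ∀ z ∈ W.N x, W.q x z * W.P^[n] f z
        = ∑ y ∈ S, W.q x z * W.pk n z y * f y := by
      intro z hz
      rw [ih z fun y hy => hS (W.mem_B_succ.2 ⟨z, hz, hy⟩), Finset.mul_sum]
      simp only [mul_assoc]
    rw [Finset.sum_congr rfl h1, Finset.sum_comm]
    refine Finset.sum_congr rfl fun y _ => ?_
    rw [pk_succ, Finset.sum_mul]

theorem pk_sum (n : ℕ) (x : X) {S : Finset X} (hS : W.B n x ⊆ S) : ∑ y ∈ S, W.pk n x y = 1 := by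
  have h := W.iter_eq_sum n (fun _ => 1) x hS
  rw [W.iter_const] at h
  simpa only [mul_one] using h.symm

theorem pk_sum_le (n : ℕ) (x : X) (S : Finset X) : ∑ y ∈ S, W.pk n x y ≤ 1 := by
  classical
  rw [← W.pk_sum n x (S := S ∪ W.B n x) Finset.subset_union_right]
  exact Finset.sum_le_sum_of_subset_of_nonneg Finset.subset_union_left
    fun y _ _ => W.pk_nonneg n x y

/-- Chapman–Kolmogorov. -/
theorem pk_add (m n : ℕ) (x y : X) {S : Finset X} (hS : W.B m x ⊆ S) :
    W.pk (m + n) x y = ∑ z ∈ S, W.pk m x z * W.pk n z y := by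
  unfold pk
  rw [Function.iterate_add_apply]
  exact W.iter_eq_sum m _ x hS

theorem pk_symm (n : ℕ) (x y : X) : W.pk n x y = W.pk n y x := by
  classical
  induction n generalizing x y with
  | zero =>
    rw [pk_zero, pk_zero]
    by_cases h : x = y
    · rw [if_pos h, if_pos h.symm]
    · rw [if_neg h, if_neg (Ne.symm h)]
  | succ n ih =>
    rw [W.pk_add n 1 y x (S := W.B n y ∪ W.N x) Finset.subset_union_left, pk_succ,
      Finset.sum_subset (Finset.subset_union_right (s₁ := W.B n y))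
        fun z _ hz => by rw [W.q_supp x z hz, zero_mul]]
    refine Finset.sum_congr rfl fun z _ => ?_
    rw [pk_one, ih z y, W.q_symm x z, mul_comm]

theorem pk_smul (n : ℕ) (g : Γ) (x y : X) : W.pk n (g • x) (g • y) = W.pk n x y := by
  classical
  unfold pk
  rw [← W.iter_smul n g]
  refine congrFun (congrArg _ (funext fun z => ?_)) x
  by_cases h : z = y
  · rw [if_pos h, if_pos (by rw [h])]
  · rw [if_neg h, if_neg fun h' => h (MulAction.injective g h')]

theorem pk_diag (n : ℕ) (x y : X) : W.pk n x x = W.pk n y y := by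
  obtain ⟨g, rfl⟩ := W.trans x y
  exact (W.pk_smul n g x x).symm

theorem psd_one (S : Finset X) (c : X → ℝ) : 0 ≤ ∑ x ∈ S, ∑ y ∈ S, c x * c y * W.q x y := by
  have h1 : ∀ x, ∑ y ∈ S, W.q x y ≤ 1 := fun x => by simpa only [pk_one] using W.pk_sum_le 1 x S
  have h2 : ∑ x ∈ S, ∑ y ∈ S, c x ^ 2 * W.q x y ≤ ∑ x ∈ S, c x ^ 2 :=
    Finset.sum_le_sum fun x _ => by
      rw [← Finset.mul_sum]
      exact mul_le_of_le_one_right (sq_nonneg _) (h1 x)
  have h3 : ∑ x ∈ S, ∑ y ∈ S, c y ^ 2 * W.q x y = ∑ x ∈ S, ∑ y ∈ S, c x ^ 2 * W.q x y := by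
    rw [Finset.sum_comm]
    simp only [W.q_symm]
  have h4 : ∑ x ∈ S, 2 * c x ^ 2 ≤ ∑ x ∈ S, ∑ y ∈ S, (c x + c y) ^ 2 * W.q x y :=
    Finset.sum_le_sum fun x hx => by
      refine le_trans ?_ (Finset.single_le_sum (f := fun y => (c x + c y) ^ 2 * W.q x y)
        (fun y _ => mul_nonneg (sq_nonneg _) (W.q_nonneg x y)) hx)
      nlinarith [W.q_lazy x, sq_nonneg (c x)]
  have h5 : ∑ x ∈ S, ∑ y ∈ S, (c x + c y) ^ 2 * W.q x y = ∑ x ∈ S, ∑ y ∈ S, c x ^ 2 * W.q x y +
      ∑ x ∈ S, ∑ y ∈ S, c y ^ 2 * W.q x y + 2 * ∑ x ∈ S, ∑ y ∈ S, c x * c y * W.q x y := by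
    simp only [Finset.mul_sum, ← Finset.sum_add_distrib]
    exact Finset.sum_congr rfl fun x _ => Finset.sum_congr rfl fun y _ => by ring
  rw [← Finset.mul_sum] at h4
  linarith

theorem psd_succ (n : ℕ) (x y : X) {U : Finset X} (hU : W.N x ⊆ U) :
    W.pk (n + 1) x y = ∑ z ∈ U, W.q x z * W.pk n z y := by
  rw [pk_succ]
  exact Finset.sum_subset hU fun z _ hz => by rw [W.q_supp x z hz, zero_mul]

theorem psd_step (k : ℕ) (S : Finset X) (c : X → ℝ) {U : Finset X} (hU : ∀ x ∈ S, W.N x ⊆ U) :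
    ∑ x ∈ S, ∑ y ∈ S, c x * c y * W.pk (k + 2) x y = ∑ z ∈ U, ∑ z' ∈ U,
      (∑ x ∈ S, c x * W.q x z) * (∑ y ∈ S, c y * W.q y z') * W.pk k z z' := by
  have h : ∀ x ∈ S, ∀ y ∈ S, c x * c y * W.pk (k + 2) x y =
      ∑ z ∈ U, ∑ z' ∈ U, c x * W.q x z * (c y * W.q y z') * W.pk k z z' := fun x hx y hy => by
    rw [W.psd_succ (k + 1) x y (hU x hx), Finset.mul_sum]
    refine Finset.sum_congr rfl fun z _ => ?_
    rw [W.pk_symm, W.psd_succ k y z (hU y hy), Finset.mul_sum, Finset.mul_sum]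
    exact Finset.sum_congr rfl fun z' _ => by rw [W.pk_symm k z' z]; ring
  rw [Finset.sum_congr rfl fun x hx => Finset.sum_congr rfl (h x hx)]
  simp only [Finset.sum_mul_sum]
  simp only [Finset.sum_mul]
  rw [Finset.sum_congr rfl fun x _ => Finset.sum_comm, Finset.sum_comm]
  refine Finset.sum_congr rfl fun z _ => ?_
  rw [Finset.sum_congr rfl fun x _ => Finset.sum_comm, Finset.sum_comm]

/-- Positive semidefiniteness of every power. With `w z = ∑_{x ∈ S} c x * pk n x z` on a large finite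
set `U`: the form is `∑ w z ^ 2` for `k = 2n`, and `∑_{z,z'} q z z' w z w z'` for `k = 2n+1`, which is
`≥ ∑ q z z w z ^2 - ∑ (1 - q z z) w z ^ 2 ≥ 0` by laziness and symmetry. -/
theorem psd (k : ℕ) (S : Finset X) (c : X → ℝ) :
    0 ≤ ∑ x ∈ S, ∑ y ∈ S, c x * c y * W.pk k x y := by
  classical
  induction k using Nat.twoStepInduction generalizing S c with
  | zero =>
    refine Finset.sum_nonneg fun x _ => Finset.sum_nonneg fun y _ => ?_
    rw [pk_zero]
    split_ifs with h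
    · rw [h, mul_one]
      exact mul_self_nonneg _
    · rw [mul_zero]
  | one => simpa only [pk_one] using W.psd_one S c
  | more k ih _ =>
    rw [W.psd_step k S c (U := S.biUnion W.N) fun x hx => Finset.subset_biUnion_of_mem W.N hx]
    exact ih _ _

/-- Cauchy–Schwarz for the form of `psd` (discriminant; `pk_symm`). -/
theorem psd_cs (k : ℕ) (S : Finset X) (c c' : X → ℝ) :
    (∑ x ∈ S, ∑ y ∈ S, c x * c' y * W.pk k x y) ^ 2 ≤
      (∑ x ∈ S, ∑ y ∈ S, c x * c y * W.pk k x y) * ∑ x ∈ S, ∑ y ∈ S, c' x * c' y * W.pk k x y := by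
  have h1 : ∑ x ∈ S, ∑ y ∈ S, c' x * c y * W.pk k x y =
      ∑ x ∈ S, ∑ y ∈ S, c x * c' y * W.pk k x y := by
    rw [Finset.sum_comm]
    exact Finset.sum_congr rfl fun x _ => Finset.sum_congr rfl fun y _ => by
      rw [W.pk_symm k y x]; ring
  have h := discrim_le_zero (a := ∑ x ∈ S, ∑ y ∈ S, c x * c y * W.pk k x y)
    (b := 2 * ∑ x ∈ S, ∑ y ∈ S, c x * c' y * W.pk k x y)
    (c := ∑ x ∈ S, ∑ y ∈ S, c' x * c' y * W.pk k x y) fun t => by
      refine (W.psd k S fun x => t * c x + c' x).trans_eq ?_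
      rw [two_mul]
      nth_rewrite 2 [← h1]
      simp only [Finset.sum_mul, add_mul, ← Finset.sum_add_distrib]
      exact Finset.sum_congr rfl fun x _ => Finset.sum_congr rfl fun y _ => by ring
  rw [discrim] at h
  linarith

end Walk

end Crest.Agent.R147.Geo
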