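import Crest.Agent.R147.GeoDefs

/-! Row 147, module GEO (owner helper16). See R147/GeoDefs.lean. -/

set_option autoImplicit false

namespace Crest.Agent.R147.Geo

variable {Γ : Type*} [Group Γ] {ℓ : Γ → ℕ}

/-- Arithmetic core. Take `r ≥ n` large, `s = r / (A+1) - 1`, so `A (s+1) ≤ r ≤ 3 (A+1) s`;
`s^(D+1) ≤ r^D ≤ (3(A+1))^D s^D` forces `s ≤ (3(A+1))^D`. -/
theorem grow_arith (D A : ℕ) : ∃ n : ℕ, ∀ r, n ≤ r → ∃ s : ℕ, A * (s + 1) ≤ r ∧ r ^ D < s ^ (D + 1) := by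
  refine ⟨(A + 1) * ((3 * (A + 1)) ^ D + 2), fun r hr => ?_⟩
  have h1 : (3 * (A + 1)) ^ D + 2 ≤ r / (A + 1) :=
    (Nat.le_div_iff_mul_le (Nat.succ_pos A)).2 (by rwa [mul_comm])
  obtain ⟨s, hs⟩ : ∃ s, r / (A + 1) = s + 1 := ⟨r / (A + 1) - 1, by omega⟩
  have h2 : (A + 1) * (s + 1) ≤ r := hs ▸ Nat.mul_div_le r (A + 1)
  have h3 : r < (A + 1) * (s + 1 + 1) := hs ▸ Nat.lt_mul_div_succ r (Nat.succ_pos A)
  have h4 : (3 * (A + 1)) ^ D < s := by omega
  have h5 : 0 < s := by omega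
  refine ⟨s, le_trans (Nat.mul_le_mul_right _ (Nat.le_succ A)) h2, ?_⟩
  have h6 : r ≤ 3 * (A + 1) * s := by
    have : (A + 1) * (s + 1 + 1) ≤ (A + 1) * (3 * s) := Nat.mul_le_mul_left _ (by omega)
    calc r ≤ (A + 1) * (3 * s) := by omega
      _ = 3 * (A + 1) * s := by ring
  calc r ^ D ≤ (3 * (A + 1) * s) ^ D := Nat.pow_le_pow_left h6 D
    _ = (3 * (A + 1)) ^ D * s ^ D := mul_pow _ _ _
    _ < s * s ^ D := Nat.mul_lt_mul_of_pos_right h4 (Nat.pow_pos h5)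
    _ = s ^ (D + 1) := by ring

/-- Growth of degree `D + 1` at all scales contradicts `Slow`. From `grow_arith`. -/
theorem Slow.false {D A : ℕ} (hs : Slow ℓ D)
    (h : ∀ s : ℕ, ∃ T : Finset Γ, (∀ g ∈ T, ℓ g ≤ A * (s + 1)) ∧ Sep ℓ T ∧ s ^ (D + 1) ≤ T.card) :
    False := by
  obtain ⟨n, hn⟩ := grow_arith D A
  obtain ⟨r, hr, hT⟩ := hs n
  obtain ⟨s, h1, h2⟩ := hn r hr
  obtain ⟨T, a1, a2, a3⟩ := h s
  have := hT T (fun g hg => (a1 g hg).trans h1) a2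
  omega

/-- Growth of degree `D + 1` at all scales contradicts `SlowF`. From `grow_arith`. -/
theorem SlowF.false {B : Type*} {σ : Γ → B} {D A : ℕ} (hs : SlowF ℓ σ D)
    (h : ∀ s : ℕ, ∃ T : Finset Γ, (∀ g ∈ T, ℓ g ≤ A * (s + 1)) ∧ Set.InjOn σ ↑T ∧
      s ^ (D + 1) ≤ T.card) : False := by
  obtain ⟨n, hn⟩ := grow_arith D A
  obtain ⟨r, hr, hT⟩ := hs n
  obtain ⟨s, h1, h2⟩ := hn r hr
  obtain ⟨T, a1, a2, a3⟩ := h s
  have := hT T (fun g hg => (a1 g hg).trans h1) a2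
  omega

/-- A ball in `H` is covered by finitely many cosets of the stabiliser: take a separated subset of
`H ∩ ball r` of maximal cardinality (cardinalities are bounded by `Slow`). -/
theorem Slow.cover {D : ℕ} (hl : Len ℓ) (hs : Slow ℓ D) (H : Subgroup Γ) (r : ℕ) :
    ∃ T : Finset Γ, (∀ t ∈ T, t ∈ H ∧ ℓ t ≤ r) ∧ Sep ℓ T ∧
      ∀ g ∈ H, ℓ g ≤ r → ∃ t ∈ T, ℓ (t⁻¹ * g) = 0 := by
  classical
  obtain ⟨R, hR, hb⟩ := hs r
  let P : ℕ → Prop := fun m =>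
    ∃ T : Finset Γ, (∀ t ∈ T, t ∈ H ∧ ℓ t ≤ r) ∧ Sep ℓ T ∧ T.card = m
  have h0 : P 0 := ⟨∅, by simp, by simp [Sep], rfl⟩
  obtain ⟨T, hT, hsep, hc⟩ : P (Nat.findGreatest P (R ^ D)) :=
    Nat.findGreatest_spec (Nat.zero_le _) h0
  refine ⟨T, hT, hsep, fun g hg hgr => ?_⟩
  by_contra hcon
  push Not at hcon
  have hgT : g ∉ T := fun h => hcon g h (by simpa using hl.one)
  have hT' : ∀ t ∈ insert g T, t ∈ H ∧ ℓ t ≤ r := by
    intro t ht
    rcases Finset.mem_insert.1 ht with rfl | ht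
    · exact ⟨hg, hgr⟩
    · exact hT t ht
  have hsep' : Sep ℓ (insert g T) := by
    intro a ha b hb hab
    rcases Finset.mem_insert.1 ha with ha | ha <;> rcases Finset.mem_insert.1 hb with hb | hb
    · rw [ha, hb]
    · exfalso
      apply hcon b hb
      rw [← hl.inv, ← ha]
      simpa using hab
    · exact absurd (hb ▸ hab) (hcon a ha)
    · exact hsep a ha b hb hab
  have hle := hb _ (fun t ht => (hT' t ht).2.trans hR) hsep'
  have := Nat.le_findGreatest (P := P) hle ⟨_, hT', hsep', rfl⟩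
  rw [Finset.card_insert_of_notMem hgT, hc] at this
  omega

/-- Under `SlowF` the values on a ball are finitely many (an infinite image has finite subsets of
every size; choose preimages). -/
theorem SlowF.finite {B : Type*} {σ : Γ → B} {D : ℕ} (hs : SlowF ℓ σ D) (r : ℕ) :
    (σ '' {g | ℓ g ≤ r}).Finite := by
  classical
  obtain ⟨R, hR, hb⟩ := hs r
  by_contra hinf
  obtain ⟨S, hS, hc⟩ := Set.Infinite.exists_subset_card_eq hinf (R ^ D + 1)
  choose f hf using fun b : S => hS b.2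
  have hinj : Function.Injective f := by
    intro a b hab
    apply Subtype.ext
    rw [← (hf a).2, ← (hf b).2, hab]
  have h1 := hb (Finset.univ.image f) (by
    intro g hg
    obtain ⟨a, -, rfl⟩ := Finset.mem_image.1 hg
    exact le_trans (hf a).1 hR) (by
    intro g hg g' hg' h
    obtain ⟨a, -, rfl⟩ := Finset.mem_image.1 (Finset.mem_coe.1 hg)
    obtain ⟨b, -, rfl⟩ := Finset.mem_image.1 (Finset.mem_coe.1 hg')
    rw [(hf a).2, (hf b).2] at h
    rw [Subtype.ext h])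
  rw [Finset.card_image_of_injective _ hinj, Finset.card_univ, Fintype.card_coe, hc] at h1
  omega

/-- A character that kills the stabiliser takes finitely many values on a ball
(`Slow.cover`; `φ g = φ t + φ (t⁻¹ g)`). -/
theorem finite_image_of_zero {A : Type*} [AddGroup A] {D : ℕ} (hl : Len ℓ) (hs : Slow ℓ D)
    {H : Subgroup Γ} {φ : Γ → A} (hφ : AddOn H φ) (h0 : ∀ g ∈ H, ℓ g = 0 → φ g = 0) (r : ℕ) :
    (φ '' {g | g ∈ H ∧ ℓ g ≤ r}).Finite := by
  obtain ⟨T, hT, -, hcov⟩ := hs.cover hl H r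
  refine (T.finite_toSet.image φ).subset ?_
  rintro _ ⟨g, ⟨hg, hgr⟩, rfl⟩
  obtain ⟨t, ht, h⟩ := hcov g hg hgr
  have hm : t⁻¹ * g ∈ H := H.mul_mem (H.inv_mem (hT t ht).1) hg
  refine ⟨t, ht, ?_⟩
  have := hφ t (hT t ht).1 _ hm
  rw [mul_inv_cancel_left, h0 _ hm h, add_zero] at this
  exact this.symm

/-- A real character that kills the stabiliser kills elliptic elements: the values `k * φ g` lie
in a finite set (`finite_image_of_zero`, `AddOn.pow`). -/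
theorem ell_zero {D : ℕ} (hl : Len ℓ) (hs : Slow ℓ D) {H : Subgroup Γ} {φ : Γ → ℝ}
    (hφ : AddOn H φ) (h0 : ∀ g ∈ H, ℓ g = 0 → φ g = 0) {g : Γ} (hg : g ∈ H) (he : Ell ℓ g) :
    φ g = 0 := by
  obtain ⟨C, hC⟩ := he
  have hfin := finite_image_of_zero hl hs hφ h0 C
  by_contra hne
  refine Set.infinite_of_injective_forall_mem (f := fun k : ℕ => (k : ℝ) * φ g) ?_ ?_ hfin
  · intro a b hab
    exact_mod_cast mul_right_cancel₀ hne hab
  · intro k
    exact ⟨g ^ k, ⟨H.pow_mem hg k, hC k⟩, by rw [hφ.pow hg, nsmul_eq_mul]⟩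

/-- Length of `∏_{i<m} t^i σ_i t^{-i}`: multiply by `t^m` and induct,
`w_{m+1} t^{m+1} = (w_m t^m) σ_m t`. -/
theorem len_word (hl : Len ℓ) (t : Γ) (σ : ℕ → Γ) (c : ℕ) (hσ : ∀ i, ℓ (σ i) ≤ c) (m : ℕ) :
    ℓ (((List.range m).map fun i => t ^ i * σ i * (t ^ i)⁻¹).prod) ≤ m * (c + 2 * ℓ t) := by
  have key : ∀ m : ℕ,
      ℓ (((List.range m).map fun i => t ^ i * σ i * (t ^ i)⁻¹).prod * t ^ m) ≤ m * (c + ℓ t) := by
    intro m
    induction m with
    | zero => simp [hl.one]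
    | succ m ih =>
      rw [List.range_succ, List.map_append, List.prod_append, List.map_singleton,
        List.prod_singleton]
      have e : ((List.range m).map fun i => t ^ i * σ i * (t ^ i)⁻¹).prod *
          (t ^ m * σ m * (t ^ m)⁻¹) * t ^ (m + 1) =
          ((List.range m).map fun i => t ^ i * σ i * (t ^ i)⁻¹).prod * t ^ m * σ m * t := by
        rw [pow_succ]
        group
      rw [e]
      have h1 := hl.mul (((List.range m).map fun i => t ^ i * σ i * (t ^ i)⁻¹).prod * t ^ m * σ m) t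
      have h2 := hl.mul (((List.range m).map fun i => t ^ i * σ i * (t ^ i)⁻¹).prod * t ^ m) (σ m)
      have h3 := hσ m
      rw [add_mul, one_mul]
      omega
  have h1 := hl.mul (((List.range m).map fun i => t ^ i * σ i * (t ^ i)⁻¹).prod * t ^ m) (t ^ m)⁻¹
  rw [mul_inv_cancel_right, hl.inv] at h1
  have h2 := hl.pow t m
  have h3 := key m
  calc _ ≤ m * (c + ℓ t) + m * ℓ t := by omega
    _ = m * (c + 2 * ℓ t) := by ring

theorem Slow.restrict {D : ℕ} (hs : Slow ℓ D) (H : Subgroup Γ) :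
    Slow (fun g : H => ℓ (g : Γ)) D := by
  intro n
  obtain ⟨r, hr, h⟩ := hs n
  refine ⟨r, hr, fun T hT hS => ?_⟩
  rw [← Finset.card_map (Function.Embedding.subtype (· ∈ H))]
  refine h _ (fun g hg => ?_) fun a ha b hb e => ?_
  · obtain ⟨g, hg', rfl⟩ := Finset.mem_map.1 hg
    exact hT g hg'
  · obtain ⟨a, ha', rfl⟩ := Finset.mem_map.1 ha
    obtain ⟨b, hb', rfl⟩ := Finset.mem_map.1 hb
    rw [hS a ha' b hb' e]

/-- Restriction to a subgroup, and passage to a coarser function. -/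
theorem SlowF.restrict {B B' : Type*} {σ : Γ → B} {D : ℕ} (hs : SlowF ℓ σ D) (H : Subgroup Γ)
    (σ' : H → B') (h : ∀ a b : H, σ a = σ b → σ' a = σ' b) :
    SlowF (fun g : H => ℓ (g : Γ)) σ' D := by
  intro n
  obtain ⟨r, hr, h'⟩ := hs n
  refine ⟨r, hr, fun T hT hS => ?_⟩
  rw [← Finset.card_map (Function.Embedding.subtype (· ∈ H))]
  refine h' _ (fun g hg => ?_) fun a ha b hb e => ?_
  · obtain ⟨g, hg', rfl⟩ := Finset.mem_map.1 hg
    exact hT g hg'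
  · obtain ⟨a, ha', rfl⟩ := Finset.mem_map.1 (Finset.mem_coe.1 ha)
    obtain ⟨b, hb', rfl⟩ := Finset.mem_map.1 (Finset.mem_coe.1 hb)
    rw [hS ha' hb' (h a b e)]

theorem BGen.restrict {H : Subgroup Γ} (h : BGen ℓ H) :
    BGen (fun g : H => ℓ (g : Γ)) ⊤ := by
  obtain ⟨R, hR⟩ := h
  refine ⟨R, fun g _ => ?_⟩
  have e : {s | s ∈ H ∧ ℓ s ≤ R} =
      H.subtype '' {s : H | s ∈ (⊤ : Subgroup H) ∧ ℓ (s : Γ) ≤ R} := by
    ext s
    exact ⟨fun hs => ⟨⟨s, hs.1⟩, ⟨trivial, hs.2⟩, rfl⟩, fun ⟨a, ha, e⟩ => e ▸ ⟨a.2, ha.2⟩⟩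
  have hg := hR g.2
  rw [e, ← MonoidHom.map_closure] at hg
  obtain ⟨a, ha, e⟩ := hg
  exact (Subtype.ext e : a = g) ▸ ha

end Crest.Agent.R147.Geo
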