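import Crest.Agent.R147.GeoLen1

/-! Row 147, module GEO (owner helper16). See R147/GeoDefs.lean. -/

set_option autoImplicit false

namespace Crest.Agent.R147.Geo

variable {Γ : Type*} [Group Γ] {ℓ : Γ → ℕ}

/-- Schreier's lemma with lengths. `T ⊆ H` a finite set of representatives with `H = H' T`,
`c = max ℓ T`, `M = closure {h ∈ H', ℓ h ≤ R + 2c}` . The set `M T` is stable under right
multiplication by generators `s` of `H` (and inverses): `t s = h t'` with `h = t s t'⁻¹ ∈ H'` short;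
`1 = t⁻¹ t` for the representative `t ∈ H'` of `1`. So `g ∈ H'` is `m t` with `t ∈ H'` short. -/
theorem BGen.of_relIndex (hl : Len ℓ) {H H' : Subgroup Γ} (h : BGen ℓ H) (hle : H' ≤ H)
    (hi : H'.relIndex H ≠ 0) : BGen ℓ H' := by
  obtain ⟨R, hR⟩ := h
  have : (H'.subgroupOf H).FiniteIndex := ⟨hi⟩
  obtain ⟨c, hc⟩ : ∃ c : ℕ, ∀ g ∈ H, ∃ t ∈ H, ℓ t ≤ c ∧ g * t⁻¹ ∈ H' := by
    obtain ⟨c, hc⟩ :=
      (Set.finite_range fun q : H ⧸ H'.subgroupOf H => ℓ (q.out : H)).bddAbove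
    refine ⟨c, fun g hg => ?_⟩
    obtain ⟨u, hu⟩ := QuotientGroup.mk_out_eq_mul (H'.subgroupOf H) (⟨g, hg⟩ : H)⁻¹
    refine ⟨_, H.inv_mem (QuotientGroup.mk (s := H'.subgroupOf H) (⟨g, hg⟩ : H)⁻¹).out.2,
      (hl.inv _).trans_le (hc ⟨_, rfl⟩), ?_⟩
    rw [inv_inv, hu]
    simpa using Subgroup.mem_subgroupOf.1 u.2
  refine ⟨R + 2 * c, fun g hg => ?_⟩
  have gen : ∀ s ∈ H, ℓ s ≤ R → ∀ t ∈ H, ℓ t ≤ c → ∃ t' ∈ H, ℓ t' ≤ c ∧
      t * s * t'⁻¹ ∈ Subgroup.closure {s | s ∈ H' ∧ ℓ s ≤ R + 2 * c} := by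
    intro s hs h1 t ht h2
    obtain ⟨t', a1, a2, a3⟩ := hc _ (H.mul_mem ht hs)
    refine ⟨t', a1, a2, Subgroup.subset_closure ⟨a3, ?_⟩⟩
    have b1 := hl.mul (t * s) t'⁻¹
    have b2 := hl.mul t s
    have b3 := hl.inv t'
    omega
  have key : ∀ t ∈ H, ℓ t ≤ c → ∃ t' ∈ H, ℓ t' ≤ c ∧
      t * g * t'⁻¹ ∈ Subgroup.closure {s | s ∈ H' ∧ ℓ s ≤ R + 2 * c} := by
    have hg' := hR (hle hg)
    clear hg
    induction hg' using Subgroup.closure_induction'' with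
    | mem x hx => exact gen x hx.1 hx.2
    | inv_mem x hx => exact gen x⁻¹ (H.inv_mem hx.1) ((hl.inv x).trans_le hx.2)
    | one => exact fun t ht h2 => ⟨t, ht, h2, by simp⟩
    | mul x y _ _ ix iy =>
      intro t ht h2
      obtain ⟨t₁, a1, a2, a3⟩ := ix t ht h2
      obtain ⟨t₂, b1, b2, b3⟩ := iy t₁ a1 a2
      refine ⟨t₂, b1, b2, ?_⟩
      have := Subgroup.mul_mem _ a3 b3
      rwa [show t * x * t₁⁻¹ * (t₁ * y * t₂⁻¹) = t * (x * y) * t₂⁻¹ by group] at this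
  obtain ⟨t, -, a2, a3⟩ := key 1 H.one_mem (by rw [hl.one]; omega)
  rw [one_mul] at a3
  have a4 : g * t⁻¹ ∈ H' := (Subgroup.closure_le H').2 (fun s hs => hs.1) a3
  have a5 : t ∈ H' := by simpa using H'.mul_mem (H'.inv_mem a4) hg
  simpa using Subgroup.mul_mem _ a3 (Subgroup.subset_closure (show t ∈ {s | s ∈ H' ∧
    ℓ s ≤ R + 2 * c} from ⟨a5, by omega⟩))

/-- The image of an additive map with finite values on balls is a finitely generated subgroup. -/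
theorem fg_image_add {A : Type*} [AddCommGroup A] {H : Subgroup Γ} (h : BGen ℓ H) {φ : Γ → A}
    (hφ : AddOn H φ) (hfin : ∀ r, (φ '' {g | g ∈ H ∧ ℓ g ≤ r}).Finite) :
    ∃ L : AddSubgroup A, L.FG ∧ ∀ a, a ∈ L ↔ ∃ g ∈ H, φ g = a := by
  obtain ⟨R, hR⟩ := h
  refine ⟨AddSubgroup.closure (φ '' {g | g ∈ H ∧ ℓ g ≤ R}),
    (AddSubgroup.fg_iff _).2 ⟨_, rfl, hfin R⟩, fun a => ⟨fun ha => ?_, ?_⟩⟩
  · induction ha using AddSubgroup.closure_induction with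
    | mem x hx =>
      obtain ⟨g, hg, rfl⟩ := hx
      exact ⟨g, hg.1, rfl⟩
    | zero => exact ⟨1, H.one_mem, hφ.one⟩
    | add x y _ _ hx hy =>
      obtain ⟨g, hg, rfl⟩ := hx
      obtain ⟨g', hg', rfl⟩ := hy
      exact ⟨g * g', H.mul_mem hg hg', hφ g hg g' hg'⟩
    | neg x _ hx =>
      obtain ⟨g, hg, rfl⟩ := hx
      exact ⟨g⁻¹, H.inv_mem hg, hφ.inv hg⟩
  · rintro ⟨g, hg, rfl⟩
    have key : ∀ g ∈ Subgroup.closure {s | s ∈ H ∧ ℓ s ≤ R},
        g ∈ H ∧ φ g ∈ AddSubgroup.closure (φ '' {g | g ∈ H ∧ ℓ g ≤ R}) := by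
      intro g hg
      induction hg using Subgroup.closure_induction with
      | mem x hx => exact ⟨hx.1, AddSubgroup.subset_closure ⟨x, hx, rfl⟩⟩
      | one => exact ⟨H.one_mem, by rw [hφ.one]; exact zero_mem _⟩
      | mul x y _ _ hx hy =>
        exact ⟨H.mul_mem hx.1 hy.1, by rw [hφ x hx.1 y hy.1]; exact add_mem hx.2 hy.2⟩
      | inv x _ hx => exact ⟨H.inv_mem hx.1, by rw [hφ.inv hx.1]; exact neg_mem hx.2⟩
    exact (key g (hR hg)).2

/-- An infinite finitely generated abelian group maps onto `ℤ`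
(`AddCommGroup.equiv_free_prod_directSum_zmod`, or the torsion-free quotient is free). -/
theorem exists_int_char_add {A : Type*} [AddCommGroup A] (L : AddSubgroup A) (hfg : L.FG)
    (hinf : (L : Set A).Infinite) :
    ∃ lam : A → ℤ, (∀ a ∈ L, ∀ b ∈ L, lam (a + b) = lam a + lam b) ∧ ∃ a ∈ L, lam a = 1 := by
  classical
  have : AddGroup.FG L := (AddGroup.fg_iff_addSubgroup_fg L).2 hfg
  obtain ⟨n, ι, _, p, hp, e, ⟨f⟩⟩ := AddCommGroup.equiv_free_prod_directSum_zmod L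
  have hne : ∀ i, NeZero (p i ^ e i) := fun i => ⟨pow_ne_zero _ (hp i).ne_zero⟩
  rcases n with _ | n
  · exfalso
    have : Finite (DirectSum ι fun i => ZMod (p i ^ e i)) :=
      Finite.of_equiv _ (DFinsupp.equivFunOnFintype).symm
    have : Finite L := Finite.of_equiv _ f.toEquiv.symm
    exact hinf (Set.toFinite _)
  · refine ⟨fun a => if h : a ∈ L then (f ⟨a, h⟩).1 0 else 0, fun a ha b hb => ?_,
      (f.symm (Finsupp.single 0 1, 0) : L), (f.symm _).2, ?_⟩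
    · beta_reduce
      rw [dif_pos ha, dif_pos hb, dif_pos (L.add_mem ha hb)]
      have : (⟨a + b, L.add_mem ha hb⟩ : L) = ⟨a, ha⟩ + ⟨b, hb⟩ := rfl
      rw [this, map_add]
      rfl
    · beta_reduce
      rw [dif_pos (f.symm _).2]
      simp

/-- Multiplicative version, for a monoid homomorphism `σ` whose values on `H` commute: the values
of `σ` on `H` form a finitely generated infinite abelian group (use `σ.toHomUnits`, the subgroup
`H.map σ.toHomUnits` with `Subgroup.IsCommutative`/`IsMulCommutative`, `Additive`,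
`exists_int_char_add` with `L = ⊤`). -/
theorem exists_int_char_mul {B : Type*} [Monoid B] (σ : Γ →* B) {H : Subgroup Γ} (h : BGen ℓ H)
    (hfin : ∀ r, (σ '' {g | ℓ g ≤ r}).Finite)
    (hc : ∀ a ∈ H, ∀ b ∈ H, σ a * σ b = σ b * σ a) (hinf : (σ '' (H : Set Γ)).Infinite) :
    ∃ φ : Γ → ℤ, AddOn H φ ∧ (∀ a ∈ H, ∀ b ∈ H, σ a = σ b → φ a = φ b) ∧ ∃ g ∈ H, φ g = 1 := by
  classical
  letI : CommGroup (H.map σ.toHomUnits) :=
    { (inferInstance : Group (H.map σ.toHomUnits)) with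
      mul_comm := by
        rintro ⟨_, a, ha, rfl⟩ ⟨_, b, hb, rfl⟩
        exact Subtype.ext (Units.ext (hc a ha b hb)) }
  let ι : Additive (H.map σ.toHomUnits) → B := fun a => ((a.toMul : Bˣ) : B)
  have hι : Function.Injective ι := fun a b e =>
    Additive.toMul.injective (Subtype.ext (Units.ext e))
  let ψ : Γ → Additive (H.map σ.toHomUnits) := fun g =>
    if hg : g ∈ H then Additive.ofMul ⟨σ.toHomUnits g, g, hg, rfl⟩ else 0
  have h1 : ∀ g ∈ H, ι (ψ g) = σ g := fun g hg => by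
    simp only [ψ, dif_pos hg]
    rfl
  have h2 : AddOn H ψ := fun a ha b hb => by
    apply hι
    have : ι (ψ a + ψ b) = ι (ψ a) * ι (ψ b) := rfl
    rw [this, h1 _ (H.mul_mem ha hb), h1 a ha, h1 b hb, map_mul]
  obtain ⟨L, hL, hmem⟩ := fg_image_add h h2 fun r => by
    refine Set.Finite.of_finite_image (f := ι) ((hfin r).subset ?_) hι.injOn
    rintro _ ⟨_, ⟨g, hg, rfl⟩, rfl⟩
    exact ⟨g, hg.2, (h1 g hg.1).symm⟩
  obtain ⟨lam, h3, a, ha, h4⟩ := exists_int_char_add L hL (by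
    refine Set.Infinite.of_image ι (hinf.mono ?_)
    rintro _ ⟨g, hg, rfl⟩
    exact ⟨ψ g, (hmem _).2 ⟨g, hg, rfl⟩, h1 g hg⟩)
  refine ⟨fun g => lam (ψ g), fun a ha b hb => ?_, fun a ha b hb e => ?_, ?_⟩
  · show lam (ψ (a * b)) = lam (ψ a) + lam (ψ b)
    rw [h2 a ha b hb, h3 _ ((hmem _).2 ⟨a, ha, rfl⟩) _ ((hmem _).2 ⟨b, hb, rfl⟩)]
  · show lam (ψ a) = lam (ψ b)
    rw [hι (a₁ := ψ a) (a₂ := ψ b) (by rw [h1 a ha, h1 b hb, e])]
  · obtain ⟨g, hg, rfl⟩ := (hmem a).1 ha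
    exact ⟨g, hg, h4⟩

/-- From a real character to an integer character through a map `ℝ → ℤ`
(`finite_image_of_zero`, `fg_image_add`, `exists_int_char_add`; a nonzero subgroup of `ℝ` is
infinite). -/
theorem intify {D : ℕ} (hl : Len ℓ) (hs : Slow ℓ D) {H : Subgroup Γ} (h : BGen ℓ H) {φ : Γ → ℝ}
    (hφ : AddOn H φ) (h0 : ∀ g ∈ H, ℓ g = 0 → φ g = 0) (hne : ∃ g ∈ H, φ g ≠ 0) :
    ∃ lam : ℝ → ℤ, AddOn H (fun g => lam (φ g)) ∧ lam 0 = 0 ∧ ∃ g ∈ H, lam (φ g) = 1 := by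
  obtain ⟨L, hfg, hL⟩ := fg_image_add h hφ (finite_image_of_zero hl hs hφ h0)
  obtain ⟨g, hg, hg0⟩ := hne
  have hinf : (L : Set ℝ).Infinite := by
    refine Set.infinite_of_injective_forall_mem (f := fun k : ℕ => k • φ g) ?_ fun k => ?_
    · intro a b hab
      simp only [nsmul_eq_mul] at hab
      exact_mod_cast mul_right_cancel₀ hg0 hab
    · exact L.nsmul_mem ((hL _).2 ⟨g, hg, rfl⟩) k
  obtain ⟨lam, hadd, a, ha, ha1⟩ := exists_int_char_add L hfg hinf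
  obtain ⟨g', hg', rfl⟩ := (hL a).1 ha
  refine ⟨lam, fun x hx y hy => ?_, ?_, g', hg', ha1⟩
  · show lam (φ (x * y)) = lam (φ x) + lam (φ y)
    rw [hφ x hx y hy]
    exact hadd _ ((hL _).2 ⟨x, hx, rfl⟩) _ ((hL _).2 ⟨y, hy, rfl⟩)
  · have := hadd 0 L.zero_mem 0 L.zero_mem
    rw [add_zero] at this
    omega

/-- A uniform exponent and a normal core: inside `H' ≤ N` of finite index there is `H₀` of finite
index, normalised by `N` (map the `normalCore` of `H'.subgroupOf N` back to `Γ`), and a power `m`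
(the index of the core) that sends `N` into `H₀`. -/
theorem exists_core {N H' : Subgroup Γ} (hle : H' ≤ N) (hi : H'.relIndex N ≠ 0) :
    ∃ H₀ : Subgroup Γ, H₀ ≤ H' ∧ H₀.relIndex N ≠ 0 ∧ (∀ x ∈ N, ∀ g ∈ H₀, x * g * x⁻¹ ∈ H₀) ∧
      ∃ m : ℕ, 0 < m ∧ ∀ x ∈ N, x ^ m ∈ H₀ := by
  have : (H'.subgroupOf N).FiniteIndex := ⟨hi⟩
  have hc : (H'.subgroupOf N).normalCore.index ≠ 0 := Subgroup.FiniteIndex.index_ne_zero
  refine ⟨(H'.subgroupOf N).normalCore.map N.subtype, ?_, ?_, ?_,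
    (H'.subgroupOf N).normalCore.index, Nat.pos_of_ne_zero hc, fun x hx => ?_⟩
  · rintro _ ⟨g, hg, rfl⟩
    exact (H'.subgroupOf N).normalCore_le hg
  · rwa [Subgroup.relIndex, Subgroup.subgroupOf, Subgroup.comap_map_eq_self_of_injective
      N.subtype_injective]
  · rintro x hx _ ⟨g, hg, rfl⟩
    exact ⟨_, (Subgroup.normalCore_normal _).conj_mem g hg ⟨x, hx⟩, rfl⟩
  · exact ⟨_, Subgroup.pow_index_mem _ ⟨x, hx⟩, rfl⟩

/-- Transfer of a character from a subgroup of `↥H` to `Γ` (take `H'.map H.subtype`, extend `φ`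
by `0`). -/
theorem lift_char {A : Type*} [AddGroup A] (H : Subgroup Γ) (H' : Subgroup H) (hi : H'.FiniteIndex)
    (φ : H → A) (hφ : AddOn H' φ) :
    ∃ (K : Subgroup Γ) (ψ : Γ → A), K ≤ H ∧ K.relIndex H ≠ 0 ∧ AddOn K ψ ∧
      (∀ g : H, (g : Γ) ∈ K ↔ g ∈ H') ∧ ∀ g : H, ψ g = φ g := by
  classical
  obtain ⟨ψ, hψ⟩ : ∃ ψ : Γ → A, ∀ g : H, ψ g = φ g :=
    ⟨fun g => if h : g ∈ H then φ ⟨g, h⟩ else 0, fun g => dif_pos g.2⟩
  refine ⟨H'.map H.subtype, ψ, ?_, ?_, ?_, fun g => ?_, hψ⟩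
  · exact Subgroup.map_subtype_le _
  · rw [Subgroup.relIndex, Subgroup.subgroupOf, Subgroup.comap_map_eq_self_of_injective
      H.subtype_injective]
    exact hi.index_ne_zero
  · rintro _ ⟨a, ha, rfl⟩ _ ⟨b, hb, rfl⟩
    exact ((hψ (a * b)).trans (hφ a ha b hb)).trans (congrArg₂ (· + ·) (hψ a).symm (hψ b).symm)
  · exact ⟨fun ⟨a, ha, e⟩ => (Subtype.ext e : a = g) ▸ ha, fun h => ⟨g, h, rfl⟩⟩

end Crest.Agent.R147.Geo
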