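import Crest.Agent.R147.GeoA1
import Crest.Agent.R147.GeoA2

/-! Row 147, module GEO (owner helper16). See R147/GeoDefs.lean. -/

set_option autoImplicit false

namespace Crest.Agent.R147.Geo

namespace Walk
variable {Γ X : Type*} [Group Γ] [MulAction Γ X] (W : Walk Γ X)

theorem lip_comb {n : ℕ} {f : Fin n → X → ℝ} (hf : ∀ i, W.Lip (f i)) (a : Fin n → ℝ) :
    W.Lip (fun x => ∑ i, a i * f i x) := by
  choose L hL using hf
  refine ⟨∑ i, |a i| * L i, fun x y hy => ?_⟩
  rw [← Finset.sum_sub_distrib]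
  refine (Finset.abs_sum_le_sum_abs _ _).trans (Finset.sum_le_sum fun i _ => ?_)
  rw [← mul_sub, abs_mul]
  exact mul_le_mul_of_nonneg_left (hL i x y hy) (abs_nonneg _)

theorem harm_comb {n : ℕ} {f : Fin n → X → ℝ} (hf : ∀ i, W.Harm (f i)) (a : Fin n → ℝ) :
    W.Harm (fun x => ∑ i, a i * f i x) := by
  intro x
  unfold P
  simp only [Finset.mul_sum]
  rw [Finset.sum_comm]
  refine Finset.sum_congr rfl fun i _ => ?_
  rw [← hf i x]
  unfold P
  rw [Finset.mul_sum]
  exact Finset.sum_congr rfl fun y _ => by ring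

theorem gam_comm (f f' : X → ℝ) : W.Gam f f' = W.Gam f' f := by
  funext x
  unfold Gam
  exact Finset.sum_congr rfl fun y _ => by ring

theorem mean_sum_bdd {ι : Type*} (s : Finset ι) (a : ι → ℝ) (ψ : ι → X → ℝ)
    (hψ : ∀ i, Bdd (ψ i)) : Bdd (fun x => ∑ i ∈ s, a i * ψ i x) := by
  choose M hM using hψ
  refine ⟨∑ i ∈ s, |a i| * M i, fun x => ?_⟩
  refine (Finset.abs_sum_le_sum_abs _ _).trans (Finset.sum_le_sum fun i _ => ?_)
  rw [abs_mul]
  exact mul_le_mul_of_nonneg_left (hM i x) (abs_nonneg _)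

/-- A mean commutes with finite linear combinations. -/
theorem mean_sum {m : (X → ℝ) → ℝ} (hm : Mean Γ m) {ι : Type*} (s : Finset ι) (a : ι → ℝ)
    (ψ : ι → X → ℝ) (hψ : ∀ i, Bdd (ψ i)) :
    m (fun x => ∑ i ∈ s, a i * ψ i x) = ∑ i ∈ s, a i * m (ψ i) := by
  classical
  induction s using Finset.induction_on with
  | empty => simpa using hm.const 0
  | insert i s hi ih =>
    simp only [Finset.sum_insert hi]
    have h1 : Bdd (fun x => a i * ψ i x) := by
      simpa using mean_sum_bdd {i} a ψ hψ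
    rw [hm.add _ _ h1 (mean_sum_bdd s a ψ hψ), hm.smul _ _ (hψ i), ih]

/-- Linearity of the energy form in the first slot (`Gam` is pointwise linear and ignores
constants; `mean_sum`, `bdd_gam`). -/
theorem form_comb {m : (X → ℝ) → ℝ} (hm : Mean Γ m) {n : ℕ} {f : Fin n → X → ℝ}
    (hf : ∀ i, W.Lip (f i)) (a : Fin n → ℝ) (b : ℝ) {h : X → ℝ} (hh : W.Lip h) :
    m (W.Gam (fun x => (∑ i, a i * f i x) + b) h) = ∑ i, a i * m (W.Gam (f i) h) := by
  rw [← mean_sum hm Finset.univ a (fun i => W.Gam (f i) h) (fun i => W.bdd_gam (hf i) hh)]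
  congr 1
  funext x
  unfold Gam
  simp only [Finset.mul_sum]
  rw [Finset.sum_comm]
  refine Finset.sum_congr rfl fun y _ => ?_
  rw [add_sub_add_right_eq_sub, ← Finset.sum_sub_distrib, Finset.sum_mul, Finset.mul_sum]
  exact Finset.sum_congr rfl fun i _ => by ring

/-- Bessel. For a step `x → y` put `a i = f i y - f i x`, `g = ∑ a i f i`; then
`(∑ a i²)² = (g y - g x)² ≤ C m (Gam g g) = C ∑ a i²`, so `∑ a i² ≤ C`; average over `y` and apply
`m`: `n = ∑_i m (Gam (f i) (f i)) ≤ C`. -/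
theorem dim_bound {m : (X → ℝ) → ℝ} {C : ℝ} (hm : Mean Γ m) (hC0 : 0 ≤ C)
    (hC : ∀ f, W.Lip f → W.Harm f → ∀ x, ∀ y ∈ W.N x, (f y - f x) ^ 2 ≤ C * m (W.Gam f f))
    {n : ℕ} (f : Fin n → X → ℝ) (hl : ∀ i, W.Lip (f i)) (hh : ∀ i, W.Harm (f i))
    (ho : ∀ i j, m (W.Gam (f i) (f j)) = if i = j then 1 else 0) : (n : ℝ) ≤ C := by
  have key : ∀ x, ∀ y ∈ W.N x, ∑ i, (f i y - f i x) ^ 2 ≤ C := by
    intro x y hy
    set a : Fin n → ℝ := fun i => f i y - f i x with ha
    have hg := W.lip_comb hl a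
    have h1 := hC _ hg (W.harm_comb hh a) x y hy
    have h2 : ∀ h, W.Lip h → m (W.Gam (fun x => ∑ i, a i * f i x) h)
        = ∑ i, a i * m (W.Gam (f i) h) := fun h hlh => by
      simpa using W.form_comb hm hl a 0 hlh
    have h3 : m (W.Gam (fun x => ∑ i, a i * f i x) (fun x => ∑ i, a i * f i x))
        = ∑ i, a i ^ 2 := by
      rw [h2 _ hg]
      refine Finset.sum_congr rfl fun i _ => ?_
      rw [W.gam_comm, h2 _ (hl i)]
      simp only [ho, mul_ite, mul_one, mul_zero, Finset.sum_ite_eq', Finset.mem_univ, if_true]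
      ring
    have h4 : (∑ i, a i * f i y) - ∑ i, a i * f i x = ∑ i, a i ^ 2 := by
      rw [← Finset.sum_sub_distrib]
      exact Finset.sum_congr rfl fun i _ => by simp only [ha]; ring
    rw [h3, h4] at h1
    have h5 : 0 ≤ ∑ i, a i ^ 2 := Finset.sum_nonneg fun i _ => sq_nonneg _
    rcases h5.eq_or_lt with h6 | h6
    · rw [← h6]; exact hC0
    · rw [sq] at h1
      exact le_of_mul_le_mul_right h1 h6
  have hb : ∀ i, Bdd (W.Gam (f i) (f i)) := fun i => W.bdd_gam (hl i) (hl i)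
  have h1 := mean_sum hm Finset.univ (fun _ => (1 : ℝ)) (fun i => W.Gam (f i) (f i)) hb
  have h2 := hm.mono _ (fun _ => C) (mean_sum_bdd Finset.univ (fun _ => (1 : ℝ)) _ hb)
    ⟨|C|, fun _ => le_rfl⟩ (fun x => by
      unfold Gam
      simp only [one_mul]
      rw [Finset.sum_comm]
      calc ∑ y ∈ W.N x, ∑ i, W.q x y * ((f i y - f i x) * (f i y - f i x))
          ≤ ∑ y ∈ W.N x, W.q x y * C := by
            refine Finset.sum_le_sum fun y hy => ?_
            rw [← Finset.mul_sum]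
            refine mul_le_mul_of_nonneg_left ?_ (W.q_nonneg x y)
            simpa only [sq] using key x y hy
        _ = C := by rw [← Finset.sum_mul, W.q_sum, one_mul])
  rw [h1, hm.const] at h2
  simpa [ho] using h2

theorem onb_lip_aff {f : X → ℝ} (hf : W.Lip f) (t b : ℝ) : W.Lip (fun x => t * f x + b) := by
  obtain ⟨L, hL⟩ := hf
  refine ⟨|t| * L, fun x y hy => ?_⟩
  have : t * f y + b - (t * f x + b) = t * (f y - f x) := by ring
  rw [this, abs_mul]
  exact mul_le_mul_of_nonneg_left (hL x y hy) (abs_nonneg t)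

theorem onb_harm_aff {f : X → ℝ} (hf : W.Harm f) (t b : ℝ) : W.Harm (fun x => t * f x + b) := by
  intro x
  have h1 := hf x
  have h2 := W.q_sum x
  unfold P at h1 ⊢
  have : ∀ y, W.q x y * (t * f y + b) = t * (W.q x y * f y) + b * W.q x y := fun y => by ring
  simp only [this]
  rw [Finset.sum_add_distrib, ← Finset.mul_sum, ← Finset.mul_sum, h1, h2, mul_one]

theorem onb_scale {m : (X → ℝ) → ℝ} (hm : Mean Γ m) {f k : X → ℝ} (hf : W.Lip f) (hk : W.Lip k)
    (t b : ℝ) : m (W.Gam (fun x => t * f x + b) k) = t * m (W.Gam f k) := by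
  rw [← hm.smul t _ (W.bdd_gam hf hk)]
  congr 1
  funext x
  unfold Gam
  rw [Finset.mul_sum]
  exact Finset.sum_congr rfl fun y _ => by ring

theorem onb_nonneg {m : (X → ℝ) → ℝ} (hm : Mean Γ m) {f : X → ℝ} (hf : W.Lip f) :
    0 ≤ m (W.Gam f f) := by
  rw [← hm.const 0]
  refine hm.mono _ _ ⟨0, fun _ => by simp⟩ (W.bdd_gam hf hf) fun x => ?_
  exact Finset.sum_nonneg fun y _ => mul_nonneg (W.q_nonneg x y) (mul_self_nonneg _)

/-- A maximal orthonormal family (sizes are bounded by `dim_bound`; `Nat.findGreatest` or strong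
induction). For `h` put `h' = h - h o - ∑ m (Gam h (f i)) f i`, orthogonal to all `f i`; if
`m (Gam h' h') > 0` normalise and extend the family (`Fin.cons`/`Fin.snoc`), otherwise `hC` and
`const_of_step` give `h' = 0`. (`m (Gam h' h') ≥ 0` by `Mean.mono`, `Mean.const`.) -/
theorem onb (o : X) {m : (X → ℝ) → ℝ} {C : ℝ} (hm : Mean Γ m) (hC0 : 0 ≤ C)
    (hC : ∀ f, W.Lip f → W.Harm f → ∀ x, ∀ y ∈ W.N x, (f y - f x) ^ 2 ≤ C * m (W.Gam f f)) :
    ∃ (n : ℕ) (f : Fin n → X → ℝ), (∀ i, W.Lip (f i)) ∧ (∀ i, W.Harm (f i)) ∧ (∀ i, f i o = 0) ∧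
      (∀ i j, m (W.Gam (f i) (f j)) = if i = j then 1 else 0) ∧
      ∀ h, W.Lip h → W.Harm h → ∀ x, h x - h o = ∑ i, m (W.Gam h (f i)) * f i x := by
  let Q : ℕ → Prop := fun n => ∃ f : Fin n → X → ℝ, (∀ i, W.Lip (f i)) ∧ (∀ i, W.Harm (f i)) ∧
    (∀ i, f i o = 0) ∧ ∀ i j, m (W.Gam (f i) (f j)) = if i = j then 1 else 0
  have hQ0 : Q 0 := ⟨Fin.elim0, fun i => i.elim0, fun i => i.elim0, fun i => i.elim0,
    fun i => i.elim0⟩
  obtain ⟨n, ⟨f, hl, hh, h0, ho⟩, hn⟩ : ∃ n, Q n ∧ ¬ Q (n + 1) := by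
    by_contra hcon
    push Not at hcon
    have hall : ∀ n, Q n := fun n => Nat.rec hQ0 (fun k hk => hcon k hk) n
    obtain ⟨f, hl, hh, _, ho⟩ := hall (⌈C⌉₊ + 1)
    have h1 := W.dim_bound hm hC0 hC f hl hh ho
    have h2 := Nat.le_ceil C
    push_cast at h1
    linarith
  refine ⟨n, f, hl, hh, h0, ho, fun h hhl hhh => ?_⟩
  let F : Fin (n + 1) → X → ℝ := Fin.cons h f
  let a : Fin (n + 1) → ℝ := Fin.cons 1 fun i => - m (W.Gam h (f i))
  have hFl : ∀ i, W.Lip (F i) := fun i => Fin.cases hhl hl i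
  have hFh : ∀ i, W.Harm (F i) := fun i => Fin.cases hhh hh i
  let g : X → ℝ := fun x => (∑ i, a i * F i x) + (- h o)
  have hg : ∀ x, g x = h x - h o - ∑ i, m (W.Gam h (f i)) * f i x := fun x => by
    simp only [g, a, F, Fin.sum_univ_succ, Fin.cons_zero, Fin.cons_succ, neg_mul,
      Finset.sum_neg_distrib]
    ring
  have hgl : W.Lip g := by
    simpa only [one_mul] using W.onb_lip_aff (W.lip_comb hFl a) 1 (- h o)
  have hgh : W.Harm g := by
    simpa only [one_mul] using W.onb_harm_aff (W.harm_comb hFh a) 1 (- h o)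
  have hgo : g o = 0 := by
    rw [hg]; simp [h0]
  have hgf : ∀ j, m (W.Gam g (f j)) = 0 := fun j => by
    have := W.form_comb hm hFl a (- h o) (hl j)
    rw [show W.Gam g (f j) = W.Gam (fun x => (∑ i, a i * F i x) + (- h o)) (f j) from rfl, this]
    simp only [a, F, Fin.sum_univ_succ, Fin.cons_zero, Fin.cons_succ, ho]
    simp
  rcases (W.onb_nonneg hm hgl).eq_or_lt with hz | hpos
  · have hc : ∀ x, ∀ y ∈ W.N x, g y = g x := fun x y hy => by
      have h1 := hC g hgl hgh x y hy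
      rw [← hz, mul_zero] at h1
      have h2 : g y - g x = 0 := by simpa using le_antisymm h1 (sq_nonneg _)
      linarith
    intro x
    have h1 := W.const_of_step hc x o
    rw [hgo, hg] at h1
    linarith
  · exfalso
    apply hn
    set e := m (W.Gam g g) with he
    let t : ℝ := (Real.sqrt e)⁻¹
    have ht : t * (t * e) = 1 := by
      have h1 : Real.sqrt e ≠ 0 := (Real.sqrt_pos.2 hpos).ne'
      have h2 := Real.mul_self_sqrt hpos.le
      simp only [t]
      field_simp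
      nlinarith
    let g' : X → ℝ := fun x => t * g x + 0
    have hg'l : W.Lip g' := W.onb_lip_aff hgl t 0
    have hg'h : W.Harm g' := W.onb_harm_aff hgh t 0
    have h1 : ∀ j, m (W.Gam g' (f j)) = 0 := fun j => by
      rw [show W.Gam g' (f j) = W.Gam (fun x => t * g x + 0) (f j) from rfl,
        W.onb_scale hm hgl (hl j), hgf, mul_zero]
    have h2 : m (W.Gam g' g') = 1 := by
      rw [show W.Gam g' g' = W.Gam (fun x => t * g x + 0) g' from rfl, W.onb_scale hm hgl hg'l,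
        W.gam_comm, show W.Gam g' g = W.Gam (fun x => t * g x + 0) g from rfl,
        W.onb_scale hm hgl hgl, ← he, ht]
    refine ⟨Fin.cons g' f, fun i => Fin.cases hg'l hl i, fun i => Fin.cases hg'h hh i,
      fun i => Fin.cases (by simp [g', hgo]) h0 i, fun i j => ?_⟩
    refine Fin.cases ?_ (fun i => ?_) i <;> refine Fin.cases ?_ (fun j => ?_) j
    · simpa using h2
    · simpa [(Fin.succ_ne_zero j).symm] using h1 j
    · simp only [Fin.cons_succ, Fin.cons_zero]
      rw [W.gam_comm, h1]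
      simp
    · simp only [Fin.cons_succ, ho, Fin.succ_inj]

/-- The matrices of the action. `M g i j = m (Gam (f i ∘ g) (f j))`; `f i ∘ g` is Lipschitz and
harmonic (`smul_mem_N`, `P_smul`); orthogonality from `gam_smul`, `Mean.inv`, `form_comb`,
`gam_comm`. The last claim: `∑ a i f i = 0` has energy `∑ a i² = 0`. -/
theorem onb_matrix (o : X) {m : (X → ℝ) → ℝ} (hm : Mean Γ m) {n : ℕ} (f : Fin n → X → ℝ)
    (hl : ∀ i, W.Lip (f i)) (hh : ∀ i, W.Harm (f i))
    (ho : ∀ i j, m (W.Gam (f i) (f j)) = if i = j then 1 else 0)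
    (hsp : ∀ h, W.Lip h → W.Harm h → ∀ x, h x - h o = ∑ i, m (W.Gam h (f i)) * f i x) :
    (∀ g : Γ, ∃ M : Matrix (Fin n) (Fin n) ℝ, M * M.transpose = 1 ∧
      ∀ i x, f i (g • x) - f i (g • o) = ∑ j, M i j * f j x) ∧
    ∀ a : Fin n → ℝ, (∀ x, ∑ i, a i * f i x = 0) → a = 0 := by
  refine ⟨fun g => ?_, fun a ha => funext fun j => ?_⟩
  · have hl' : ∀ i, W.Lip fun z => f i (g • z) := fun i => by
      obtain ⟨L, hL⟩ := hl i
      exact ⟨L, fun x y hy => hL _ _ ((W.smul_mem_N g).2 hy)⟩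
    have hh' : ∀ i, W.Harm fun z => f i (g • z) := fun i x => by rw [W.P_smul, hh i]
    refine ⟨Matrix.of fun i j => m (W.Gam (fun z => f i (g • z)) (f j)), ?_,
      fun i x => hsp _ (hl' i) (hh' i) x⟩
    ext i k
    have h1 := W.form_comb hm hl (fun j => m (W.Gam (fun z => f i (g • z)) (f j))) (f i (g • o))
      (hl' k)
    have h2 : (fun x => (∑ j, m (W.Gam (fun z => f i (g • z)) (f j)) * f j x) + f i (g • o)) =
        fun z => f i (g • z) := funext fun x => by rw [← hsp _ (hl' i) (hh' i) x, sub_add_cancel]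
    rw [h2, funext (W.gam_smul g (f i) (f k)), hm.inv g _ (W.bdd_gam (hl i) (hl k)), ho] at h1
    rw [Matrix.one_apply, h1, Matrix.mul_apply]
    exact Finset.sum_congr rfl fun j _ => by
      rw [Matrix.transpose_apply, Matrix.of_apply, Matrix.of_apply, W.gam_comm (f j)]
  · have h1 := W.form_comb hm hl a 0 (hl j)
    have h2 : W.Gam (fun x => (∑ i, a i * f i x) + 0) (f j) = fun _ => 0 := by
      funext x
      exact Finset.sum_eq_zero fun y _ => by simp only [ha, sub_self, zero_mul, mul_zero]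
    rw [h2, hm.const] at h1
    simpa [ho] using h1.symm

end Walk

/-- Packaging: from orthogonal matrices to an isometric representation. `Φ x = WithLp.toLp 2 (f · x)`;
its range spans (a vector orthogonal to the span is `0` by `hind`); `ρ g = Matrix.toEuclideanCLM`
(or `LinearMap.toContinuousLinearMap (Matrix.toEuclideanLin M)`) of a chosen `M`; `ρ` is
multiplicative because `ρ (g h) (Φ x) = Φ (g h x) - Φ (g h o) = ρ g (Φ (h x) - Φ (h o))` on a
spanning set; isometry from `Mᵀ M = 1`. -/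
theorem rep_of_matrix {Γ X : Type*} [Group Γ] [MulAction Γ X] (o : X) {n : ℕ} (f : Fin n → X → ℝ)
    (h0 : ∀ i, f i o = 0)
    (hM : ∀ g : Γ, ∃ M : Matrix (Fin n) (Fin n) ℝ, M * M.transpose = 1 ∧
      ∀ i x, f i (g • x) - f i (g • o) = ∑ j, M i j * f j x)
    (hind : ∀ a : Fin n → ℝ, (∀ x, ∑ i, a i * f i x = 0) → a = 0) :
    ∃ (ρ : Γ →* (Euc n →L[ℝ] Euc n)) (Φ : X → Euc n), (∀ g v, ‖ρ g v‖ = ‖v‖) ∧
      (∀ x i, Φ x i = f i x) ∧ (∀ (g : Γ) x, Φ (g • x) = ρ g (Φ x) + Φ (g • o)) ∧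
      Submodule.span ℝ (Set.range Φ) = ⊤ := by
  choose M hMo hMf using hM
  let Φ : X → Euc n := fun x => WithLp.toLp 2 fun i => f i x
  have hΦ : ∀ x i, Φ x i = f i x := fun _ _ => rfl
  have hΦo : Φ o = 0 := by
    ext i
    simp [hΦ, h0]
  have hspan : Submodule.span ℝ (Set.range Φ) = ⊤ := by
    rw [← Submodule.orthogonal_eq_bot_iff, Submodule.eq_bot_iff]
    intro v hv
    have h1 : ∀ x, ∑ i, v i * f i x = 0 := fun x => by
      have := (Submodule.mem_orthogonal _ _).1 hv (Φ x) (Submodule.subset_span ⟨x, rfl⟩)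
      simpa [PiLp.inner_apply, hΦ] using this
    ext i
    exact congrFun (hind (fun i => v i) h1) i
  let R : Γ → Euc n →L[ℝ] Euc n := fun g =>
    LinearMap.toContinuousLinearMap (Matrix.toEuclideanLin (M g))
  have hR : ∀ g (v : Euc n) i, R g v i = (M g).mulVec (fun j => v j) i := fun _ _ _ => rfl
  have he : ∀ g x, R g (Φ x) = Φ (g • x) - Φ (g • o) := fun g x => by
    ext i
    rw [hR, PiLp.sub_apply, hΦ, hΦ, hMf]
    rfl
  have hext : ∀ A B : Euc n →L[ℝ] Euc n, (∀ x, A (Φ x) = B (Φ x)) → A = B := fun A B h =>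
    ContinuousLinearMap.ext_on (by rw [hspan]; exact dense_univ) (by rintro _ ⟨x, rfl⟩; exact h x)
  let ρ : Γ →* (Euc n →L[ℝ] Euc n) :=
    { toFun := R
      map_one' := hext _ _ fun x => by
        rw [he, one_smul, one_smul, hΦo, sub_zero]
        rfl
      map_mul' := fun g h => hext _ _ fun x => by
        rw [mul_apply_eq_comp, he, he, map_sub, he, he, mul_smul, mul_smul]
        abel }
  refine ⟨ρ, Φ, fun g v => ?_, hΦ, fun g x => ?_, hspan⟩
  · have key : (M g).mulVec (fun j => v j) ⬝ᵥ (M g).mulVec (fun j => v j) =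
        (fun j => v j) ⬝ᵥ fun j => v j := by
      rw [Matrix.dotProduct_mulVec, Matrix.vecMul_mulVec, mul_eq_one_comm.1 (hMo g),
        Matrix.vecMul_one]
    change ‖R g v‖ = ‖v‖
    rw [EuclideanSpace.norm_eq, EuclideanSpace.norm_eq]
    congr 1
    simpa only [hR, Real.norm_eq_abs, sq, abs_mul_abs_self, dotProduct] using key
  · change _ = R g (Φ x) + _
    rw [he, sub_add_cancel]

/-- A1 + A2: the harmonic map. The range of `Φ` is infinite because the nonconstant harmonic function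
of `exists_harm` is an affine function of `Φ` (`Harm.const_of_finite`). -/
theorem Walk.harm_rep {Γ X : Type*} [Group Γ] [MulAction Γ X] [Infinite X] (W : Walk Γ X) (o : X)
    {D : ℕ} (hs : W.Slow o D) :
    ∃ (n : ℕ) (ρ : Γ →* (Euc n →L[ℝ] Euc n)) (Φ : X → Euc n), (∀ g v, ‖ρ g v‖ = ‖v‖) ∧ Φ o = 0 ∧
      (∀ (g : Γ) x, Φ (g • x) = ρ g (Φ x) + Φ (g • o)) ∧ Submodule.span ℝ (Set.range Φ) = ⊤ ∧
      (Set.range Φ).Infinite := by
  obtain ⟨m, C, hm, hC0, hC⟩ := W.exists_mean o hs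
  obtain ⟨n, f, hl, hh, h0, ho, hsp⟩ := W.onb o hm hC0 hC
  obtain ⟨hM, hind⟩ := W.onb_matrix o hm f hl hh ho hsp
  obtain ⟨ρ, Φ, hρ, hΦ, he, hspan⟩ := rep_of_matrix o f h0 hM hind
  refine ⟨n, ρ, Φ, hρ, ?_, he, hspan, fun hfin => ?_⟩
  · ext i
    simp [hΦ, h0]
  · obtain ⟨h, hhl, hhh, y, hy⟩ := W.exists_harm o hs
    refine hy (Walk.Harm.const_of_finite hhh ?_ y o)
    refine (hfin.image (fun v : Euc n => h o + ∑ i, m (W.Gam h (f i)) * v i)).subset ?_
    rintro _ ⟨x, rfl⟩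
    refine ⟨Φ x, ⟨x, rfl⟩, ?_⟩
    simp only [hΦ]
    rw [← hsp h hhl hhh x]
    ring

end Crest.Agent.R147.Geo
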