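import Crest.Agent.R147.GeoRep
import Crest.Agent.R147.GeoA3

/-! Row 147, module GEO (owner helper16). See R147/GeoDefs.lean. -/

set_option autoImplicit false

namespace Crest.Agent.R147.Geo

universe u

variable {Γ : Type u} [Group Γ] {ℓ : Γ → ℕ}

/-- Distance of two cosets. -/
noncomputable def existsWalkD (hl : Len ℓ) (x y : Γ ⧸ hl.K) : ℕ := ℓ (x.out⁻¹ * y.out)

theorem existsWalkD_mk (hl : Len ℓ) (a b : Γ) :
    existsWalkD hl (a : Γ ⧸ hl.K) (b : Γ ⧸ hl.K) = ℓ (a⁻¹ * b) := by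
  obtain ⟨k, hk⟩ := QuotientGroup.mk_out_eq_mul hl.K a
  obtain ⟨k', hk'⟩ := QuotientGroup.mk_out_eq_mul hl.K b
  have h0 : ℓ (k : Γ) = 0 := k.2
  have h0' : ℓ (k' : Γ) = 0 := k'.2
  rw [existsWalkD, hk, hk']
  have h1 := hl.mul ((k : Γ)⁻¹ * (a⁻¹ * b)) k'
  have h2 := hl.mul (k : Γ)⁻¹ (a⁻¹ * b)
  have h3 := hl.mul ((k : Γ) * ((a * k)⁻¹ * (b * k'))) (k' : Γ)⁻¹
  have h4 := hl.mul (k : Γ) ((a * k)⁻¹ * (b * k'))
  rw [show (k : Γ)⁻¹ * (a⁻¹ * b) * k' = (a * k)⁻¹ * (b * k') by group] at h1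
  rw [show (k : Γ) * ((a * k)⁻¹ * (b * k')) * (k' : Γ)⁻¹ = a⁻¹ * b by group] at h3
  have h5 := hl.inv (k : Γ)
  have h6 := hl.inv (k' : Γ)
  omega

theorem existsWalkD_symm (hl : Len ℓ) (x y : Γ ⧸ hl.K) :
    existsWalkD hl x y = existsWalkD hl y x := by
  rw [existsWalkD, existsWalkD, ← hl.inv]
  congr 1
  group

theorem existsWalkD_self (hl : Len ℓ) (x : Γ ⧸ hl.K) : existsWalkD hl x x = 0 := by
  rw [existsWalkD, inv_mul_cancel, hl.one]

theorem existsWalkD_smul (hl : Len ℓ) (g : Γ) (x y : Γ ⧸ hl.K) :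
    existsWalkD hl (g • x) (g • y) = existsWalkD hl x y := by
  obtain ⟨a, rfl⟩ := QuotientGroup.mk_surjective x
  obtain ⟨b, rfl⟩ := QuotientGroup.mk_surjective y
  rw [MulAction.Quotient.smul_mk, MulAction.Quotient.smul_mk, existsWalkD_mk, existsWalkD_mk]
  congr 1
  simp only [smul_eq_mul]
  group

theorem existsWalkD_finite {D : ℕ} (hl : Len ℓ) (hs : Slow ℓ D) (R : ℕ) (x : Γ ⧸ hl.K) :
    {y | existsWalkD hl x y ≤ R}.Finite := by
  classical
  obtain ⟨r, hr, h⟩ := hs R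
  by_contra hinf
  obtain ⟨T, hT, hc⟩ := Set.Infinite.exists_subset_card_eq hinf (r ^ D + 1)
  have hinj : Function.Injective fun y : Γ ⧸ hl.K => x.out⁻¹ * y.out := fun y y' e =>
    Quotient.out_injective (mul_left_cancel e)
  have := h (T.image fun y => x.out⁻¹ * y.out) (fun g hg => by
    obtain ⟨y, hy, rfl⟩ := Finset.mem_image.1 hg
    exact le_trans (hT (Finset.mem_coe.2 hy)) hr) (fun a ha b hb hab => by
    obtain ⟨y, hy, rfl⟩ := Finset.mem_image.1 ha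
    obtain ⟨y', hy', rfl⟩ := Finset.mem_image.1 hb
    rw [show (x.out⁻¹ * y.out)⁻¹ * (x.out⁻¹ * y'.out) = y.out⁻¹ * y'.out by group] at hab
    have : y = y' := by
      rw [← QuotientGroup.out_eq' y, ← QuotientGroup.out_eq' y', QuotientGroup.eq]
      exact hab
    rw [this])
  rw [Finset.card_image_of_injective _ hinj, hc] at this
  omega

/-- The walk on `Γ ⧸ K`. Let `R` come from `BGen`. `d (a K) (b K) = ℓ (a⁻¹ b)` is well defined
(`ℓ` is bi-`K`-invariant; or use `Quotient.out`), `N x = {y | d x y ≤ R}` is finite (`Slow.cover`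
with `H = ⊤`, translated) of constant cardinality `M ≥ 1`,
`q x y = (if x = y then 1/2 else 0) + (if y ∈ N x then 1/(2M) else 0)`, `c = 1/(2M)`; irreducible by
closure induction (right multiplication by generators and inverses). -/
theorem exists_walk {D : ℕ} (hl : Len ℓ) (hs : Slow ℓ D) (hb : BGen ℓ ⊤) :
    ∃ (W : Walk Γ (Γ ⧸ hl.K)) (R : ℕ), ∀ a b : Γ,
      (b : Γ ⧸ hl.K) ∈ W.N (a : Γ ⧸ hl.K) ↔ ℓ (a⁻¹ * b) ≤ R := by
  classical
  obtain ⟨R, hR⟩ := hb
  let N : Γ ⧸ hl.K → Finset (Γ ⧸ hl.K) := fun x => (existsWalkD_finite hl hs R x).toFinset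
  have hN : ∀ x y, y ∈ N x ↔ existsWalkD hl x y ≤ R := fun x y => Set.Finite.mem_toFinset _
  have hself : ∀ x, x ∈ N x := fun x => (hN x x).2 (by rw [existsWalkD_self]; omega)
  have htr : ∀ x y : Γ ⧸ hl.K, ∃ g : Γ, g • x = y := fun x y => MulAction.exists_smul_eq Γ x y
  have hle : ∀ x y, (N x).card ≤ (N y).card := fun x y => by
    obtain ⟨g, rfl⟩ := htr x y
    exact Finset.card_le_card_of_injOn (fun z => g • z)
      (fun z hz => Finset.mem_coe.2 ((hN _ _).2 (by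
        rw [existsWalkD_smul]; exact (hN _ _).1 (Finset.mem_coe.1 hz))))
      (MulAction.injective g).injOn
  set M : ℕ := (N ((1 : Γ) : Γ ⧸ hl.K)).card with hMdef
  have hM : ∀ x, (N x).card = M := fun x => le_antisymm (hle _ _) (hle _ _)
  have hM0 : (0 : ℝ) < M := by exact_mod_cast Finset.card_pos.2 ⟨_, hself _⟩
  have hc : (0 : ℝ) < 1 / (2 * M) := by positivity
  have hconn : ∀ g : Γ, ∀ a : Γ, Relation.ReflTransGen (fun a b => b ∈ N a) (a : Γ ⧸ hl.K)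
      ((a * g : Γ) : Γ ⧸ hl.K) := fun g => by
    have hg := hR (Subgroup.mem_top g)
    induction hg using Subgroup.closure_induction with
    | mem s hs' =>
      exact fun a => Relation.ReflTransGen.single ((hN _ _).2 (by
        rw [existsWalkD_mk, inv_mul_cancel_left]; exact hs'.2))
    | one => intro a; rw [mul_one]
    | mul g h _ _ hg hh => intro a; rw [← mul_assoc]; exact (hg a).trans (hh _)
    | inv g _ hg =>
      intro a
      have := hg (a * g⁻¹)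
      rw [inv_mul_cancel_right] at this
      generalize ((a * g⁻¹ : Γ) : Γ ⧸ hl.K) = u at this ⊢
      generalize (a : Γ ⧸ hl.K) = v at this ⊢
      induction this with
      | refl => exact .refl
      | tail _ h ih => exact .head (by rw [hN, existsWalkD_symm, ← hN]; exact h) ih
  refine ⟨{ N := N
            q := fun x y => (if x = y then (1 / 2 : ℝ) else 0) +
              (if y ∈ N x then (1 / (2 * M) : ℝ) else 0)
            c := 1 / (2 * M)
            c_pos := hc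
            q_nonneg := fun x y => by positivity
            q_symm := fun x y => by
              simp only [hN, existsWalkD_symm hl x y, eq_comm (a := x)]
            q_supp := fun x y h => by
              rw [if_neg h, if_neg (fun e : x = y => h (e ▸ hself x)), add_zero]
            q_ge := fun x y h => by
              rw [if_pos h]
              exact le_add_of_nonneg_left (by positivity)
            q_sum := fun x => by
              rw [Finset.sum_add_distrib, Finset.sum_ite_eq, if_pos (hself x),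
                Finset.sum_congr rfl fun y hy => if_pos hy, Finset.sum_const, hM, nsmul_eq_mul]
              field_simp
              norm_num
            q_lazy := fun x => by
              rw [if_pos rfl]
              exact le_add_of_nonneg_right (by positivity)
            q_smul := fun g x y => by
              simp only [hN, existsWalkD_smul, smul_left_cancel_iff]
            conn := fun x y => by
              obtain ⟨a, rfl⟩ := QuotientGroup.mk_surjective x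
              obtain ⟨b, rfl⟩ := QuotientGroup.mk_surjective y
              have := hconn (a⁻¹ * b) a
              rwa [mul_inv_cancel_left] at this
            trans := htr }, R, fun a b => ?_⟩
  show _ ∈ N _ ↔ _
  rw [hN, existsWalkD_mk]

theorem walk_slow_B (hl : Len ℓ) (W : Walk Γ (Γ ⧸ hl.K)) (R : ℕ)
    (hW : ∀ a b : Γ, (b : Γ ⧸ hl.K) ∈ W.N (a : Γ ⧸ hl.K) ↔ ℓ (a⁻¹ * b) ≤ R) (k : ℕ) (a b : Γ)
    (h : (b : Γ ⧸ hl.K) ∈ W.B k (a : Γ ⧸ hl.K)) : ℓ (a⁻¹ * b) ≤ R * k := by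
  induction k generalizing a with
  | zero => exact (hl.mem_K.1 (QuotientGroup.eq.1 (W.mem_B_zero'.1 h).symm)).le
  | succ k ih =>
    obtain ⟨z, hz, hb⟩ := W.mem_B_succ.1 h
    obtain ⟨c, rfl⟩ := QuotientGroup.mk_surjective z
    have h1 := (hW a c).1 hz
    have h2 := ih c hb
    have h3 := hl.mul (a⁻¹ * c) (c⁻¹ * b)
    rw [mul_assoc, mul_inv_cancel_left] at h3
    rw [mul_add]
    omega

/-- Growth of the walk. A point of `B r o` is `g K` with `ℓ g ≤ R r` (induction; `mem_B_succ`), the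
representatives `Quotient.out` are separated. For a good radius `r'` take `r = r' / (R+1)`:
`|B r o| ≤ r'^D ≤ (r²)^D` for large `r'`. -/
theorem walk_slow {D : ℕ} (hl : Len ℓ) (hs : Slow ℓ D) (W : Walk Γ (Γ ⧸ hl.K)) (R : ℕ)
    (hW : ∀ a b : Γ, (b : Γ ⧸ hl.K) ∈ W.N (a : Γ ⧸ hl.K) ↔ ℓ (a⁻¹ * b) ≤ R) :
    W.Slow ((1 : Γ) : Γ ⧸ hl.K) (2 * D) := by
  classical
  intro n
  obtain ⟨r', hr', hT⟩ := hs ((R + 1) * (n + R + 2))
  have h1 : n + R + 2 ≤ r' / (R + 1) :=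
    (Nat.le_div_iff_mul_le (Nat.succ_pos R)).2 (by rwa [mul_comm])
  have h2 : (R + 1) * (r' / (R + 1)) ≤ r' := Nat.mul_div_le _ _
  have h3 : r' < (R + 1) * (r' / (R + 1) + 1) := Nat.lt_mul_div_succ _ (Nat.succ_pos R)
  generalize r' / (R + 1) = r at h1 h2 h3
  refine ⟨r, by omega, ?_⟩
  have h4 := hT ((W.B r ((1 : Γ) : Γ ⧸ hl.K)).image Quotient.out) (fun g hg => ?_)
    (fun a ha b hb hab => ?_)
  · rw [Finset.card_image_of_injective _ Quotient.out_injective] at h4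
    refine h4.trans ?_
    rw [pow_mul]
    exact Nat.pow_le_pow_left (by nlinarith) D
  · obtain ⟨x, hx, rfl⟩ := Finset.mem_image.1 hg
    have := walk_slow_B hl W R hW r 1 x.out (by rwa [QuotientGroup.out_eq'])
    rw [inv_one, one_mul] at this
    nlinarith
  · obtain ⟨x, -, rfl⟩ := Finset.mem_image.1 ha
    obtain ⟨y, -, rfl⟩ := Finset.mem_image.1 hb
    have : ((x.out : Γ) : Γ ⧸ hl.K) = (y.out : Γ) := QuotientGroup.eq.2 hab
    rw [QuotientGroup.out_eq', QuotientGroup.out_eq'] at this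
    rw [this]

/-- Unbounded length gives infinitely many cosets (`ℓ` is constant on cosets). -/
theorem infinite_quot (hl : Len ℓ) (hu : ∀ C : ℕ, ∃ g, C < ℓ g) : Infinite (Γ ⧸ hl.K) := by
  by_contra hfin
  rw [not_infinite_iff_finite] at hfin
  obtain ⟨C, hC⟩ := (Set.finite_range fun x : Γ ⧸ hl.K => ℓ x.out).bddAbove
  obtain ⟨g, hg⟩ := hu C
  have h1 : ℓ (g : Γ ⧸ hl.K).out ≤ C := hC ⟨_, rfl⟩
  have h2 : ℓ (((g : Γ ⧸ hl.K).out)⁻¹ * g) = 0 :=
    hl.mem_K.1 (QuotientGroup.eq.1 (QuotientGroup.out_eq' _))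
  have h3 := hl.mul (g : Γ ⧸ hl.K).out (((g : Γ ⧸ hl.K).out)⁻¹ * g)
  rw [mul_inv_cancel_left] at h3
  omega

/-- The affine isometric action. -/
theorem aff_rep {D : ℕ} (hl : Len ℓ) (hs : Slow ℓ D) (hb : BGen ℓ ⊤) (hu : ∀ C : ℕ, ∃ g, C < ℓ g) :
    ∃ (n : ℕ) (ρ : Γ →* (Euc n →L[ℝ] Euc n)) (Φ : Γ → Euc n), (∀ g v, ‖ρ g v‖ = ‖v‖) ∧
      (∀ g, ℓ g = 0 → Φ g = 0) ∧ (∀ g h, Φ (g * h) = ρ g (Φ h) + Φ g) ∧
      Submodule.span ℝ (Set.range Φ) = ⊤ ∧ (Set.range Φ).Infinite := by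
  obtain ⟨W, R, hW⟩ := exists_walk hl hs hb
  haveI := infinite_quot hl hu
  obtain ⟨n, ρ, Φ, hρ, h0, he, hsp, hinf⟩ := W.harm_rep _ (walk_slow hl hs W R hW)
  have hr : Set.range (fun g : Γ => Φ (g : Γ ⧸ hl.K)) = Set.range Φ :=
    (QuotientGroup.mk_surjective (s := hl.K)).range_comp Φ
  refine ⟨n, ρ, fun g => Φ (g : Γ ⧸ hl.K), hρ, fun g hg => ?_, fun g h => ?_, by rw [hr, hsp],
    by rw [hr]; exact hinf⟩
  · have : (g : Γ ⧸ hl.K) = ((1 : Γ) : Γ ⧸ hl.K) := by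
      rw [QuotientGroup.eq, mul_one, hl.mem_K, hl.inv, hg]
    simp only [this, h0]
  · have := he g (h : Γ ⧸ hl.K)
    simpa [MulAction.Quotient.smul_mk] using this

/-- Growth of the linear part. A finite `F ∋ 1` has `span (Φ '' F) = ⊤`; `ρ g` is determined by the
values `Φ (g f)`, `f ∈ F`, which depend only on the cosets `g f K`. For a good radius `r'` let
`r = r' - R_F` and `T₀` from `Slow.cover` (`H = ⊤`, radius `r'`, `|T₀| ≤ r'^D`); `T` injects in
`F → T₀`, so `|T| ≤ r'^(D |F|) ≤ r^(2 D |F|)` for large `r'`. -/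
theorem slowF_of_aff {D : ℕ} (hl : Len ℓ) (hs : Slow ℓ D) {n : ℕ} (ρ : Γ →* (Euc n →L[ℝ] Euc n))
    (Φ : Γ → Euc n) (h0 : ∀ g, ℓ g = 0 → Φ g = 0) (he : ∀ g h, Φ (g * h) = ρ g (Φ h) + Φ g)
    (hsp : Submodule.span ℝ (Set.range Φ) = ⊤) : ∃ D' : ℕ, SlowF ℓ ρ D' := by
  classical
  obtain ⟨k, f, hf, hf'⟩ : ∃ (k : ℕ) (f : Fin k → Euc n), (∀ i, f i ∈ Set.range Φ) ∧
      Submodule.span ℝ (Set.range f) = ⊤ := by
    obtain ⟨f, h1, h2, -⟩ := Submodule.exists_fun_fin_finrank_span_eq ℝ (Set.range Φ)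
    exact ⟨_, f, h1, h2.trans hsp⟩
  choose a ha using hf
  let b : Option (Fin k) → Γ := fun o => o.elim 1 a
  obtain ⟨R, hR⟩ : ∃ R : ℕ, ∀ o, ℓ (b o) ≤ R :=
    ⟨Finset.univ.sup fun o => ℓ (b o), fun o => Finset.le_sup (f := fun o => ℓ (b o))
      (Finset.mem_univ o)⟩
  refine ⟨2 * D * (k + 1), fun n₀ => ?_⟩
  obtain ⟨r', hr', hb⟩ := hs (n₀ + 2 * R + 4)
  obtain ⟨r, rfl⟩ : ∃ r, r' = r + R := ⟨r' - R, by omega⟩
  obtain ⟨T₀, h1, h2, h3⟩ := hs.cover hl ⊤ (r + R)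
  have hV : (T₀.image Φ).card ≤ (r ^ 2) ^ D :=
    Finset.card_image_le.trans ((hb T₀ (fun g hg => (h1 g hg).2) h2).trans
      (Nat.pow_le_pow_left (by nlinarith) D))
  have hm : ∀ g, ℓ g ≤ r + R → Φ g ∈ T₀.image Φ := fun g hg => by
    obtain ⟨t, ht, h⟩ := h3 g (Subgroup.mem_top g) hg
    have := he t (t⁻¹ * g)
    rw [mul_inv_cancel_left, h0 _ h, map_zero, zero_add] at this
    exact this ▸ Finset.mem_image_of_mem Φ ht
  refine ⟨r, by omega, fun T hT hi => ?_⟩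
  calc T.card ≤ (Fintype.piFinset fun _ : Option (Fin k) => T₀.image Φ).card := by
        refine Finset.card_le_card_of_injOn (fun g o => Φ (g * b o)) (fun g hg => ?_)
          fun g hg g' hg' e => hi hg hg' ?_
        · exact Finset.mem_coe.2 (Fintype.mem_piFinset.2 fun o =>
            hm _ ((hl.mul _ _).trans (add_le_add (hT g hg) (hR o))))
        · have e0 : Φ g = Φ g' := by
            have := congrFun e none
            simpa [b] using this
          refine ContinuousLinearMap.coe_injective (LinearMap.ext_on_range hf' fun i => ?_)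
          have : Φ (g * a i) = Φ (g' * a i) := congrFun e (some i)
          rw [he, he, e0, ha] at this
          exact add_right_cancel this
    _ = (T₀.image Φ).card ^ (k + 1) := by
        rw [Fintype.card_piFinset, Finset.prod_const, Finset.card_univ, Fintype.card_option,
          Fintype.card_fin]
    _ ≤ ((r ^ 2) ^ D) ^ (k + 1) := Nat.pow_le_pow_left hV _
    _ = r ^ (2 * D * (k + 1)) := by rw [← pow_mul, ← pow_mul, mul_assoc]

/-- Finite linear part on a subgroup of finite index: `H' = ker ρ` has finite index, `Φ` is additive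
on it; if `Φ = 0` on `H'` then `Φ (t h) = Φ t` has finite range. Take a coordinate of `Φ`. -/
theorem char_of_finite {n : ℕ} (ρ : Γ →* (Euc n →L[ℝ] Euc n)) (Φ : Γ → Euc n)
    (h0 : ∀ g, ℓ g = 0 → Φ g = 0) (he : ∀ g h, Φ (g * h) = ρ g (Φ h) + Φ g)
    (hinf : (Set.range Φ).Infinite) (H : Subgroup Γ) (hH : H.FiniteIndex)
    (hfin : (ρ '' (H : Set Γ)).Finite) :
    ∃ (H' : Subgroup Γ) (φ : Γ → ℝ), H'.FiniteIndex ∧ AddOn H' φ ∧
      (∀ g ∈ H', ℓ g = 0 → φ g = 0) ∧ ∃ g ∈ H', φ g ≠ 0 := by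
  have hf : Finite (H.map ρ.toHomUnits) := by
    refine Set.Finite.to_subtype (Set.Finite.of_finite_image (f := Units.val) (hfin.subset ?_)
      Units.val_injective.injOn)
    rintro _ ⟨_, ⟨g, hg, rfl⟩, rfl⟩
    exact ⟨g, hg, rfl⟩
  have hi : (ρ.toHomUnits.ker ⊓ H).FiniteIndex := by
    refine ⟨?_⟩
    rw [← Subgroup.relIndex_mul_index (inf_le_right : ρ.toHomUnits.ker ⊓ H ≤ H),
      Subgroup.inf_relIndex_right, Subgroup.relIndex_ker]
    exact mul_ne_zero Nat.card_pos.ne' hH.index_ne_zero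
  have hk : ∀ g ∈ ρ.toHomUnits.ker ⊓ H, ρ g = 1 := fun g hg =>
    congrArg Units.val (MonoidHom.mem_ker.1 hg.1)
  generalize ρ.toHomUnits.ker ⊓ H = H' at hi hk
  obtain ⟨g, hg, hne⟩ : ∃ g ∈ H', Φ g ≠ 0 := by
    by_contra hno
    push Not at hno
    refine hinf ((Set.finite_range fun x : Γ ⧸ H' => Φ x.out).subset ?_)
    rintro _ ⟨t, rfl⟩
    refine ⟨(t : Γ ⧸ H'), ?_⟩
    have h1 : ((t : Γ ⧸ H').out)⁻¹ * t ∈ H' := QuotientGroup.eq.1 (QuotientGroup.out_eq' _)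
    have h2 := he (t : Γ ⧸ H').out (((t : Γ ⧸ H').out)⁻¹ * t)
    rw [mul_inv_cancel_left, hno _ h1, map_zero, zero_add] at h2
    exact h2.symm
  obtain ⟨i, hi'⟩ : ∃ i, Φ g i ≠ 0 := by
    by_contra hno
    push Not at hno
    exact hne (PiLp.ext hno)
  refine ⟨H', fun g => Φ g i, hi, fun a ha b _ => ?_, fun a _ h => by simp only [h0 a h]; rfl,
    g, hg, hi'⟩
  simp only [he a b, hk a ha, one_apply_eq_self, PiLp.add_apply]
  exact add_comm _ _

/-- Infinite commutative linear part: `exists_int_char_mul` on `H` (`BGen.of_relIndex`,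
`SlowF.finite`); if `ℓ g = 0` the values `ρ (g^k)` are finitely many, so `i φ g = j φ g` for some
`i ≠ j`. -/
theorem char_of_infinite {D' : ℕ} (hl : Len ℓ) (hb : BGen ℓ ⊤) {B : Type*} [Monoid B] (ρ : Γ →* B)
    (hs : SlowF ℓ ρ D') (H : Subgroup Γ) (hH : H.FiniteIndex)
    (hc : ∀ a ∈ H, ∀ b ∈ H, ρ a * ρ b = ρ b * ρ a) (hinf : (ρ '' (H : Set Γ)).Infinite) :
    ∃ φ : Γ → ℝ, AddOn H φ ∧ (∀ g ∈ H, ℓ g = 0 → φ g = 0) ∧ ∃ g ∈ H, φ g ≠ 0 := by
  have hbH : BGen ℓ H := hb.of_relIndex hl le_top (by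
    rw [Subgroup.relIndex_top_right]
    exact hH.index_ne_zero)
  obtain ⟨φ, hadd, hwd, g, hg, h1⟩ := exists_int_char_mul ρ hbH hs.finite hc hinf
  refine ⟨fun a => (φ a : ℝ), fun a ha b hb => by simp only [hadd a ha b hb, Int.cast_add],
    fun a ha h0 => ?_, g, hg, by simp only [h1]; norm_num⟩
  obtain ⟨i, j, hij, e⟩ := Set.Finite.exists_lt_map_eq_of_forall_mem (f := fun k : ℕ => ρ (a ^ k))
    (t := ρ '' {g | ℓ g ≤ 0}) (fun k => ⟨a ^ k, by simpa [h0] using hl.pow a k, rfl⟩) (hs.finite 0)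
  have h2 := hwd _ (H.pow_mem ha i) _ (H.pow_mem ha j) e
  rw [hadd.pow ha, hadd.pow ha, nsmul_eq_mul, nsmul_eq_mul] at h2
  rcases mul_eq_mul_right_iff.1 h2 with h | h
  · exact absurd (Nat.cast_injective h) hij.ne
  · simp only [h, Int.cast_zero]

/-- Step A for the whole group. -/
theorem stepA_top {D : ℕ} (hl : Len ℓ) (hs : Slow ℓ D) (hb : BGen ℓ ⊤)
    (hu : ∀ C : ℕ, ∃ g, C < ℓ g) :
    ∃ (H : Subgroup Γ) (φ : Γ → ℝ), H.FiniteIndex ∧ AddOn H φ ∧
      (∀ g ∈ H, ℓ g = 0 → φ g = 0) ∧ ∃ g ∈ H, φ g ≠ 0 := by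
  obtain ⟨n, ρ, Φ, hρ, h0, he, hsp, hinf⟩ := aff_rep hl hs hb hu
  obtain ⟨D', hD'⟩ := slowF_of_aff hl hs ρ Φ h0 he hsp
  obtain ⟨H, hH, hc⟩ := virt_ab _ Γ (Euc n) ρ ℓ D' le_rfl hl hb hD' hρ
  by_cases hfin : (ρ '' (H : Set Γ)).Finite
  · exact char_of_finite ρ Φ h0 he hinf H hH hfin
  · obtain ⟨φ, h1, h2, h3⟩ := char_of_infinite hl hb ρ hD' H hH hc hfin
    exact ⟨H, φ, hH, h1, h2, h3⟩

/-- Step A for a subgroup. -/
theorem stepA {D : ℕ} (hl : Len ℓ) (hs : Slow ℓ D) {N : Subgroup Γ} (hb : BGen ℓ N)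
    (hu : ∀ C : ℕ, ∃ g ∈ N, C < ℓ g) :
    ∃ (H : Subgroup Γ) (φ : Γ → ℝ), H ≤ N ∧ H.relIndex N ≠ 0 ∧ AddOn H φ ∧
      (∀ g ∈ H, ℓ g = 0 → φ g = 0) ∧ ∃ g ∈ H, φ g ≠ 0 := by
  obtain ⟨H', φ, hi, ha, h0, g, hg, hne⟩ := stepA_top (hl.restrict N) (hs.restrict N) hb.restrict
    (fun C => by
      obtain ⟨g, hg, hC⟩ := hu C
      exact ⟨⟨g, hg⟩, hC⟩)
  obtain ⟨K, ψ, hle, hri, hadd, hmem, hψ⟩ := lift_char N H' hi φ ha
  refine ⟨K, ψ, hle, hri, hadd, fun x hx hx0 => ?_, g, (hmem g).2 hg, by rw [hψ]; exact hne⟩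
  have := hψ ⟨x, hle hx⟩
  simp only at this
  rw [this]
  exact h0 _ ((hmem ⟨x, hle hx⟩).1 hx) hx0

end Crest.Agent.R147.Geo
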