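import Crest.Agent.R147.GeoLen1

/-! Row 147, module GEO, step A3 (helper88): a group of isometries of `Euc m` of weakly polynomial
growth is virtually abelian (shrinking commutators and the Frobenius–Bieberbach lemma). -/

set_option autoImplicit false

namespace Crest.Agent.R147.Geo

variable {Γ : Type*} [Group Γ] {ℓ : Γ → ℕ}

/-- Words `∏ h_j ^ i_j` for a rapidly shrinking sequence `h_j` are pairwise separated. -/
theorem uni_words (hl : Len ℓ) (n : Γ → ℝ) (n1 : n 1 = 0)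
    (nmul : ∀ a b, n (a * b) ≤ n a + n b) (ninv : ∀ a, n a⁻¹ = n a) (K M : ℕ) (hK : 1 ≤ K)
    (h : ℕ → Γ) (hpos : ∀ j, 0 < n (h j)) (hshr : ∀ j, 16 * K * n (h (j + 1)) ≤ n (h j))
    (hlow : ∀ j k, 1 ≤ k → k ≤ K → n (h j) / 2 ≤ n (h j ^ k))
    (hlen : ∀ j, ℓ (h j) ≤ M * 2 ^ j) (m : ℕ) :
    ∀ j, ∃ T : Finset Γ, T.card = K ^ m ∧ (∀ g ∈ T, n g ≤ 2 * K * n (h j)) ∧
      (∀ g ∈ T, ℓ g + K * M * 2 ^ j ≤ K * M * 2 ^ (j + m)) ∧
      ∀ a ∈ T, ∀ b ∈ T, n (a⁻¹ * b) = 0 → a = b := by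
  classical
  have npow : ∀ a (k : ℕ), n (a ^ k) ≤ k * n a := by
    intro a k
    induction k with
    | zero => simp [n1]
    | succ k ih =>
      rw [pow_succ]
      have := nmul (a ^ k) a
      push_cast
      linarith
  have hK' : (1 : ℝ) ≤ K := by exact_mod_cast hK
  induction m with
  | zero =>
    intro j
    refine ⟨{1}, by simp, ?_, ?_, ?_⟩
    · intro g hg
      rw [Finset.mem_singleton.1 hg, n1]
      have := hpos j
      positivity
    · intro g hg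
      rw [Finset.mem_singleton.1 hg, hl.one]
      simp
    · intro a ha b hb _
      rw [Finset.mem_singleton.1 ha, Finset.mem_singleton.1 hb]
  | succ m ih =>
    intro j
    obtain ⟨T, hc, hn, hL, hs⟩ := ih (j + 1)
    have key0 : ∀ i i' : ℕ, i < i' → i' < K → ∀ t ∈ T, ∀ t' ∈ T,
        n ((h j ^ i * t)⁻¹ * (h j ^ i' * t')) ≠ 0 := by
      intro i i' hi hi' t ht t' ht' h0
      obtain ⟨k, rfl⟩ := Nat.exists_eq_add_of_lt hi
      have e : h j ^ (k + 1) = t * ((h j ^ i * t)⁻¹ * (h j ^ (i + k + 1) * t')) * t'⁻¹ := by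
        rw [add_assoc, pow_add]; group
      have h1 := hlow j (k + 1) (by omega) (by omega)
      have h2 := nmul (t * ((h j ^ i * t)⁻¹ * (h j ^ (i + k + 1) * t'))) t'⁻¹
      have h3 := nmul t ((h j ^ i * t)⁻¹ * (h j ^ (i + k + 1) * t'))
      rw [← e, ninv] at h2
      have := hn t ht
      have := hn t' ht'
      have := hshr j
      have := hpos j
      linarith
    have key : ∀ i < K, ∀ i' < K, ∀ t ∈ T, ∀ t' ∈ T,
        n ((h j ^ i * t)⁻¹ * (h j ^ i' * t')) = 0 → i = i' ∧ t = t' := by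
      intro i hi i' hi' t ht t' ht' h0
      have e : i = i' := by
        rcases lt_trichotomy i i' with hlt | heq | hgt
        · exact absurd h0 (key0 i i' hlt hi' t ht t' ht')
        · exact heq
        · refine absurd ?_ (key0 i' i hgt hi t' ht' t ht)
          rw [← ninv, ← h0]
          congr 1
          group
      subst e
      refine ⟨rfl, hs t ht t' ht' ?_⟩
      rw [← h0]
      congr 1
      group
    refine ⟨(Finset.range K ×ˢ T).image fun p => h j ^ p.1 * p.2, ?_, ?_, ?_, ?_⟩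
    · rw [Finset.card_image_of_injOn, Finset.card_product, Finset.card_range, hc, pow_succ']
      rintro ⟨i, t⟩ hp ⟨i', t'⟩ hp' he
      simp only [Finset.coe_product, Finset.coe_range, Set.mem_prod, Set.mem_Iio,
        Finset.mem_coe] at hp hp'
      have he' : h j ^ i * t = h j ^ i' * t' := he
      obtain ⟨h1, h2⟩ := key i hp.1 i' hp'.1 t hp.2 t' hp'.2 (by rw [he', inv_mul_cancel, n1])
      rw [h1, h2]
    · intro g hg
      obtain ⟨⟨i, t⟩, hp, rfl⟩ := Finset.mem_image.1 hg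
      rw [Finset.mem_product, Finset.mem_range] at hp
      have h1 := nmul (h j ^ i) t
      have h2 := npow (h j) i
      have h3 := hn t hp.2
      have h4 := hshr j
      have h5 := hpos j
      have h6 : (i : ℝ) ≤ K := by exact_mod_cast hp.1.le
      have h7 : (i : ℝ) * n (h j) ≤ K * n (h j) := mul_le_mul_of_nonneg_right h6 h5.le
      have h8 : n (h j) ≤ K * n (h j) := le_mul_of_one_le_left h5.le hK'
      show n (h j ^ i * t) ≤ _
      linarith
    · intro g hg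
      obtain ⟨⟨i, t⟩, hp, rfl⟩ := Finset.mem_image.1 hg
      rw [Finset.mem_product, Finset.mem_range] at hp
      have h1 := hl.mul (h j ^ i) t
      have h2 := hl.pow (h j) i
      have h3 := hL t hp.2
      have h4 : i * ℓ (h j) ≤ K * (M * 2 ^ j) := Nat.mul_le_mul hp.1.le (hlen j)
      have e1 : j + 1 + m = j + (m + 1) := by omega
      have e2 : K * M * 2 ^ (j + 1) = 2 * (K * M * 2 ^ j) := by ring
      have e3 : K * (M * 2 ^ j) = K * M * 2 ^ j := by ring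
      rw [e1, e2] at h3
      show ℓ (h j ^ i * t) + _ ≤ _
      omega
    · intro a ha b hb h0
      obtain ⟨⟨i, t⟩, hp, rfl⟩ := Finset.mem_image.1 ha
      obtain ⟨⟨i', t'⟩, hp', rfl⟩ := Finset.mem_image.1 hb
      rw [Finset.mem_product, Finset.mem_range] at hp hp'
      obtain ⟨h1, h2⟩ := key i hp.1 i' hp'.1 t hp.2 t' hp'.2 h0
      simp only at h1 h2 ⊢
      rw [h1, h2]

theorem ring_pow_err {B : Type*} [NormedRing B] [NormedAlgebra ℝ B] (x : B)
    (hx : ∀ k : ℕ, ‖x ^ k - 1‖ ≤ k * ‖x - 1‖) (k : ℕ) :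
    ‖x ^ k - 1 - (k : ℝ) • (x - 1)‖ ≤ (k : ℝ) ^ 2 / 2 * ‖x - 1‖ ^ 2 := by
  induction k with
  | zero => simp
  | succ k ih =>
    have e : x ^ (k + 1) - 1 - ((k + 1 : ℕ) : ℝ) • (x - 1) =
        (x ^ k - 1 - (k : ℝ) • (x - 1)) + (x ^ k - 1) * (x - 1) := by
      rw [pow_succ, Nat.cast_succ, add_smul, one_smul, sub_mul, mul_sub, one_mul, mul_one]
      abel
    rw [e]
    refine (norm_add_le _ _).trans ?_
    have h1 := norm_mul_le (x ^ k - 1) (x - 1)
    have h2 := mul_le_mul_of_nonneg_right (hx k) (norm_nonneg (x - 1))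
    push_cast
    nlinarith [sq_nonneg ‖x - 1‖]

theorem ring_pow_ge {B : Type*} [NormedRing B] [NormedAlgebra ℝ B] (x : B)
    (hx : ∀ k : ℕ, ‖x ^ k - 1‖ ≤ k * ‖x - 1‖) {k : ℕ} (hk : 1 ≤ k) (h : k * ‖x - 1‖ ≤ 1) :
    ‖x - 1‖ / 2 ≤ ‖x ^ k - 1‖ := by
  have h1 := ring_pow_err x hx k
  have h2 : ‖(k : ℝ) • (x - 1)‖ = k * ‖x - 1‖ := by
    rw [norm_smul, Real.norm_natCast]
  have h3 := norm_sub_norm_le ((k : ℝ) • (x - 1)) (x ^ k - 1)
  rw [norm_sub_rev ((k : ℝ) • (x - 1)), h2] at h3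
  have hk' : (1 : ℝ) ≤ k := by exact_mod_cast hk
  have h0 := norm_nonneg (x - 1)
  have h4 : ‖x - 1‖ ≤ k * ‖x - 1‖ := le_mul_of_one_le_left h0 hk'
  have h5 : 0 ≤ k * ‖x - 1‖ := h0.trans h4
  nlinarith

section Iso
variable {m : ℕ} (σ : Γ →* (Euc m →L[ℝ] Euc m)) (hσ : ∀ g v, ‖σ g v‖ = ‖v‖)
include hσ

theorem uni_norm_le (g : Γ) : ‖σ g‖ ≤ 1 :=
  ContinuousLinearMap.opNorm_le_bound _ zero_le_one fun v => by rw [hσ, one_mul]

theorem uni_left (g : Γ) (x : Euc m →L[ℝ] Euc m) : ‖σ g * x‖ ≤ ‖x‖ :=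
  (norm_mul_le _ _).trans (mul_le_of_le_one_left (norm_nonneg _) (uni_norm_le σ hσ g))

theorem uni_right (g : Γ) (x : Euc m →L[ℝ] Euc m) : ‖x * σ g‖ ≤ ‖x‖ :=
  (norm_mul_le _ _).trans (mul_le_of_le_one_right (norm_nonneg _) (uni_norm_le σ hσ g))

theorem uni_mul (a b : Γ) : ‖σ (a * b) - 1‖ ≤ ‖σ a - 1‖ + ‖σ b - 1‖ := by
  have e : σ (a * b) - 1 = (σ a - 1) + σ a * (σ b - 1) := by
    rw [map_mul, mul_sub, mul_one]; abel
  rw [e]
  exact (norm_add_le _ _).trans (add_le_add le_rfl (uni_left σ hσ _ _))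

theorem uni_inv_le (a : Γ) : ‖σ a⁻¹ - 1‖ ≤ ‖σ a - 1‖ := by
  have e : σ a⁻¹ - 1 = -(σ a⁻¹ * (σ a - 1)) := by
    rw [mul_sub, ← map_mul, inv_mul_cancel, map_one, mul_one, neg_sub]
  rw [e, norm_neg]
  exact uni_left σ hσ _ _

theorem uni_inv (a : Γ) : ‖σ a⁻¹ - 1‖ = ‖σ a - 1‖ :=
  le_antisymm (uni_inv_le σ hσ a) (by simpa using uni_inv_le σ hσ a⁻¹)

theorem uni_comm (a b : Γ) : ‖σ (a * b * a⁻¹ * b⁻¹) - 1‖ ≤ 2 * ‖σ a - 1‖ * ‖σ b - 1‖ := by
  have e : σ (a * b * a⁻¹ * b⁻¹) - 1 =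
      ((σ a - 1) * (σ b - 1) - (σ b - 1) * (σ a - 1)) * σ (a⁻¹ * b⁻¹) := by
    have e1 : (σ a - 1) * (σ b - 1) - (σ b - 1) * (σ a - 1) = σ (a * b) - σ (b * a) := by
      simp only [map_mul, sub_mul, mul_sub, one_mul, mul_one]; abel
    rw [e1, sub_mul, ← map_mul, ← map_mul]
    congr 1
    · congr 1; group
    · rw [← map_one σ]; congr 1; group
  rw [e]
  refine (uni_right σ hσ _ _).trans ((norm_sub_le _ _).trans ?_)
  have h1 := norm_mul_le (σ a - 1) (σ b - 1)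
  have h2 := norm_mul_le (σ b - 1) (σ a - 1)
  linarith

theorem uni_pow_le (a : Γ) (k : ℕ) : ‖σ (a ^ k) - 1‖ ≤ k * ‖σ a - 1‖ := by
  induction k with
  | zero => simp
  | succ k ih =>
    rw [pow_succ]
    have := uni_mul σ hσ (a ^ k) a
    push_cast
    linarith

theorem uni_pow_ge (a : Γ) {k : ℕ} (hk : 1 ≤ k) (h : k * ‖σ a - 1‖ ≤ 1) :
    ‖σ a - 1‖ / 2 ≤ ‖σ (a ^ k) - 1‖ := by
  rw [map_pow]
  exact ring_pow_ge (σ a) (fun j => by rw [← map_pow]; exact uni_pow_le σ hσ a j) hk h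

theorem uni_inner (g : Γ) (x y : Euc m) : inner ℝ (σ g⁻¹ x) y = inner ℝ x (σ g y) := by
  have h1 : ∀ u v : Euc m, inner ℝ (σ g u) (σ g v) = inner ℝ u v :=
    (LinearMap.norm_map_iff_inner_map_map (σ g)).1 (hσ g)
  rw [← h1]
  congr 1
  rw [← mul_apply_eq_comp, ← map_mul, mul_inv_cancel, map_one,
    one_apply_eq_self]

/-- Frobenius–Bieberbach. -/
theorem uni_fb {g h : Γ} (hh : ‖σ h - 1‖ < 1) (hc : Commute (σ g) (σ (g * h * g⁻¹ * h⁻¹))) :
    Commute (σ g) (σ h) := by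
  have hc1 : Commute (σ g) (σ (h * g⁻¹ * h⁻¹)) := by
    have h1 : Commute (σ g) (σ g⁻¹) := by
      rw [Commute, SemiconjBy, ← map_mul, ← map_mul, mul_inv_cancel, inv_mul_cancel]
    have h2 := h1.mul_right hc
    rw [← map_mul] at h2
    have e : g⁻¹ * (g * h * g⁻¹ * h⁻¹) = h * g⁻¹ * h⁻¹ := by group
    rwa [e] at h2
  set d' : Euc m →L[ℝ] Euc m := σ (h * g⁻¹ * h⁻¹) - σ g⁻¹ with hd'
  set d : Euc m →L[ℝ] Euc m := σ (h * g * h⁻¹) - σ g with hd
  have hadj : ∀ x y, inner ℝ (d' x) y = inner ℝ x (d y) := by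
    intro x y
    have e : h * g⁻¹ * h⁻¹ = (h * g * h⁻¹)⁻¹ := by group
    rw [hd', hd, e, sub_apply, sub_apply, inner_sub_left,
      inner_sub_right, uni_inner σ hσ, uni_inner σ hσ]
  have hcd : σ g * d' = d' * σ g := by
    have h1 : Commute (σ g) (σ g⁻¹) := by
      rw [Commute, SemiconjBy, ← map_mul, ← map_mul, mul_inv_cancel, inv_mul_cancel]
    exact (hc1.sub_right h1).eq
  have hdb : d * σ h = σ h * σ g - σ g * σ h := by
    rw [hd, sub_mul, ← map_mul, ← map_mul σ h g]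
    congr 2
    group
  let tr : (Euc m →L[ℝ] Euc m) → ℝ := fun x => LinearMap.trace ℝ (Euc m) (x : Euc m →ₗ[ℝ] Euc m)
  have trc : ∀ x y, tr (x * y) = tr (y * x) := fun x y =>
    LinearMap.trace_mul_comm ℝ (x : Euc m →ₗ[ℝ] Euc m) (y : Euc m →ₗ[ℝ] Euc m)
  have trs : ∀ x y, tr (x - y) = tr x - tr y := fun x y =>
    map_sub (LinearMap.trace ℝ (Euc m)) (x : Euc m →ₗ[ℝ] Euc m) (y : Euc m →ₗ[ℝ] Euc m)
  have htr : tr (d * σ h * d') = 0 := by
    rw [hdb, sub_mul, trs, mul_assoc (σ g), trc (σ g), mul_assoc, mul_assoc, hcd, sub_self]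
  let e := EuclideanSpace.basisFun (Fin m) ℝ
  have hsum : ∑ i, inner ℝ (d' (e i)) (σ h (d' (e i))) = 0 := by
    rw [← htr]
    simp only [tr]
    rw [LinearMap.trace_eq_sum_inner _ e]
    exact Finset.sum_congr rfl fun i _ => hadj _ _
  have hge : ∀ v : Euc m, (1 - ‖σ h - 1‖) * ‖v‖ ^ 2 ≤ inner ℝ v (σ h v) := by
    intro v
    have h1 : σ h v = v + (σ h - 1) v := by simp
    have h2 := abs_real_inner_le_norm v ((σ h - 1) v)
    have h3 := mul_le_mul_of_nonneg_left ((σ h - 1).le_opNorm v) (norm_nonneg v)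
    have h4 := neg_abs_le (inner ℝ v ((σ h - 1) v))
    rw [h1, inner_add_right, real_inner_self_eq_norm_sq]
    nlinarith
  have hz : ∀ i, d' (e i) = 0 := by
    intro i
    have h1 : ∀ j ∈ Finset.univ, 0 ≤ inner ℝ (d' (e j)) (σ h (d' (e j))) := fun j _ =>
      le_trans (mul_nonneg (by linarith) (sq_nonneg _)) (hge _)
    have h2 := (Finset.sum_eq_zero_iff_of_nonneg h1).1 hsum i (Finset.mem_univ i)
    have h3 := hge (d' (e i))
    rw [h2] at h3
    have h4 : ‖d' (e i)‖ ^ 2 ≤ 0 := by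
      by_contra h5
      have := mul_pos (sub_pos.2 hh) (not_le.1 h5)
      linarith
    exact norm_eq_zero.1 (pow_eq_zero_iff two_ne_zero |>.1 (le_antisymm h4 (sq_nonneg _)))
  have hd0 : d = 0 := by
    ext1 y
    refine e.toBasis.ext_elem fun i => ?_
    have := hadj (e i) y
    rw [hz, inner_zero_left] at this
    simp only [OrthonormalBasis.coe_toBasis_repr_apply, zero_apply, map_zero,
      Finsupp.coe_zero, Pi.zero_apply]
    rw [OrthonormalBasis.repr_apply_apply, ← this]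
  rw [hd0, zero_mul] at hdb
  exact (sub_eq_zero.1 hdb.symm).symm

/-- Two elements close to the identity commute. -/
theorem uni_near {D : ℕ} (hl : Len ℓ) (hs : SlowF ℓ σ D) {g h : Γ}
    (hg : ‖σ g - 1‖ < 1 / (32 * 2 ^ (D + 1))) (hh : ‖σ h - 1‖ < 1 / (32 * 2 ^ (D + 1))) :
    Commute (σ g) (σ h) := by
  by_contra hne
  set K : ℕ := 2 ^ (D + 1) with hK
  have hK1 : 1 ≤ K := Nat.one_le_two_pow
  have hK1' : (1 : ℝ) ≤ K := by exact_mod_cast hK1
  have hKc : (2 : ℝ) ^ (D + 1) = K := by rw [hK]; push_cast; rfl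
  rw [hKc, lt_div_iff₀ (by positivity)] at hg hh
  let u : ℕ → Γ := fun j => (fun x => g * x * g⁻¹ * x⁻¹)^[j] h
  have u0 : u 0 = h := rfl
  have us : ∀ j, u (j + 1) = g * u j * g⁻¹ * (u j)⁻¹ := fun j => Function.iterate_succ_apply' _ _ _
  have hshr : ∀ j, 16 * K * ‖σ (u (j + 1)) - 1‖ ≤ ‖σ (u j) - 1‖ := by
    intro j
    rw [us]
    have h1 := mul_le_mul_of_nonneg_left (uni_comm σ hσ g (u j))
      (show (0 : ℝ) ≤ 16 * K by positivity)
    have h2 := mul_le_mul_of_nonneg_right hg.le (norm_nonneg (σ (u j) - 1))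
    nlinarith
  have hsm : ∀ j, ‖σ (u j) - 1‖ * (32 * K) < 1 := by
    intro j
    induction j with
    | zero => exact hh
    | succ j ih =>
      have h1 := hshr j
      have h2 := norm_nonneg (σ (u (j + 1)) - 1)
      have h3 : ‖σ (u (j + 1)) - 1‖ ≤ ‖σ (u j) - 1‖ := by nlinarith
      exact lt_of_le_of_lt (mul_le_mul_of_nonneg_right h3 (by positivity)) ih
  have hnc : ∀ j, ¬ Commute (σ g) (σ (u j)) := by
    intro j
    induction j with
    | zero => exact hne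
    | succ j ih =>
      intro hc
      rw [us] at hc
      refine ih (uni_fb σ hσ ?_ hc)
      have h1 := hsm j
      have h2 := norm_nonneg (σ (u j) - 1)
      nlinarith
  have hpos : ∀ j, 0 < ‖σ (u j) - 1‖ := by
    intro j
    rw [norm_pos_iff, sub_ne_zero]
    intro h1
    exact hnc j (by rw [h1]; exact Commute.one_right _)
  have hlen : ∀ j, ℓ (u j) + 2 * ℓ g ≤ (ℓ h + 2 * ℓ g) * 2 ^ j := by
    intro j
    induction j with
    | zero => simp [u0]
    | succ j ih =>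
      rw [us, pow_succ, ← mul_assoc]
      have h1 := hl.mul (g * u j * g⁻¹) (u j)⁻¹
      have h2 := hl.conj g (u j)
      have h3 := hl.inv (u j)
      omega
  refine SlowF.false (A := 2 * (K * (ℓ h + 2 * ℓ g))) hs fun s => ?_
  obtain ⟨T, hc, -, hL, hsep⟩ := uni_words hl (fun a => ‖σ a - 1‖) (by simp) (uni_mul σ hσ)
    (uni_inv σ hσ) K (ℓ h + 2 * ℓ g) hK1 u hpos hshr (fun j k hk hkK => by
      refine uni_pow_ge σ hσ _ hk ?_
      have h1 := hsm j
      have h2 := norm_nonneg (σ (u j) - 1)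
      have h3 : (k : ℝ) ≤ K := by exact_mod_cast hkK
      nlinarith) (fun j => le_trans (Nat.le_add_right _ _) (hlen j)) (Nat.log 2 s + 1) 0
  have hp1 : s < 2 ^ (Nat.log 2 s + 1) := Nat.lt_pow_succ_log_self one_lt_two s
  have hp2 : 2 ^ (Nat.log 2 s + 1) ≤ 2 * (s + 1) := by
    rcases Nat.eq_zero_or_pos s with rfl | hs0
    · simp
    · have := Nat.pow_log_le_self 2 hs0.ne'
      rw [pow_succ]; omega
  refine ⟨T, fun a ha => ?_, fun a ha b hb hab => hsep a ha b hb ?_, ?_⟩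
  · have h1 := hL a ha
    rw [zero_add] at h1
    calc ℓ a ≤ K * (ℓ h + 2 * ℓ g) * 2 ^ (Nat.log 2 s + 1) := le_trans (Nat.le_add_right _ _) h1
      _ ≤ K * (ℓ h + 2 * ℓ g) * (2 * (s + 1)) := Nat.mul_le_mul_left _ hp2
      _ = _ := by ring
  · show ‖σ (a⁻¹ * b) - 1‖ = 0
    rw [map_mul, ← hab, ← map_mul, inv_mul_cancel, map_one, sub_self, norm_zero]
  · rw [hc, hK, ← pow_mul, mul_comm, pow_mul]
    exact Nat.pow_le_pow_left hp1.le _

/-- The elements close to the identity generate a subgroup of finite index. -/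
theorem uni_index {ε : ℝ} (hε : 0 < ε) :
    (Subgroup.closure {g : Γ | ‖σ g - 1‖ < ε}).FiniteIndex := by
  have htb : TotallyBounded (Set.range σ) := by
    refine (isCompact_closedBall (0 : Euc m →L[ℝ] Euc m) 1).totallyBounded.subset ?_
    rintro _ ⟨g, rfl⟩
    exact mem_closedBall_zero_iff.2 (uni_norm_le σ hσ g)
  obtain ⟨t, hts, htf, hcov⟩ := Metric.finite_approx_of_totallyBounded htb ε hε
  have : Finite t := htf
  choose r hr using fun y : t => hts y.2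
  have : Finite (Γ ⧸ Subgroup.closure {g : Γ | ‖σ g - 1‖ < ε}) := by
    refine Finite.of_surjective (fun y : t => (QuotientGroup.mk (r y))) fun q => ?_
    obtain ⟨g, rfl⟩ := QuotientGroup.mk_surjective q
    obtain ⟨y, hy, hgy⟩ := Set.mem_iUnion₂.1 (hcov ⟨g, rfl⟩)
    refine ⟨⟨y, hy⟩, QuotientGroup.eq.2 (Subgroup.subset_closure ?_)⟩
    have e : σ ((r ⟨y, hy⟩)⁻¹ * g) - 1 = σ (r ⟨y, hy⟩)⁻¹ * (σ g - σ (r ⟨y, hy⟩)) := by
      rw [mul_sub, ← map_mul, ← map_mul, inv_mul_cancel, map_one]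
    show ‖σ ((r ⟨y, hy⟩)⁻¹ * g) - 1‖ < ε
    rw [e]
    refine (uni_left σ hσ _ _).trans_lt ?_
    rw [hr]
    exact mem_ball_iff_norm.1 hgy
  exact Subgroup.finiteIndex_of_finite_quotient

end Iso

/-- A3: an isometric representation with weakly polynomial growth is virtually abelian. -/
theorem virt_comm {m D : ℕ} (hl : Len ℓ) (σ : Γ →* (Euc m →L[ℝ] Euc m))
    (hσ : ∀ g v, ‖σ g v‖ = ‖v‖) (hs : SlowF ℓ σ D) :
    ∃ H : Subgroup Γ, H.FiniteIndex ∧ ∀ a ∈ H, ∀ b ∈ H, σ a * σ b = σ b * σ a := by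
  have hinv : ∀ (x : Euc m →L[ℝ] Euc m) (b : Γ), Commute x (σ b) → Commute x (σ b⁻¹) := by
    intro x b h
    exact Commute.units_inv_right (u := σ.toHomUnits b) h
  refine ⟨_, uni_index σ hσ (ε := 1 / (32 * 2 ^ (D + 1))) (by positivity), fun a ha b hb => ?_⟩
  show Commute (σ a) (σ b)
  induction ha, hb using Subgroup.closure_induction₂ with
  | mem x y hx hy => exact uni_near σ hσ hl hs hx hy
  | one_left x _ => rw [map_one]; exact Commute.one_left _
  | one_right x _ => rw [map_one]; exact Commute.one_right _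
  | mul_left x y z _ _ _ h1 h2 => rw [map_mul]; exact h1.mul_left h2
  | mul_right y z x _ _ _ h1 h2 => rw [map_mul]; exact h1.mul_right h2
  | inv_left x y _ _ h => exact (hinv _ _ h.symm).symm
  | inv_right x y _ _ h => exact hinv _ _ h

end Crest.Agent.R147.Geo
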