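import Crest.Agent.R147.GeoDefs

/-! Row 147, module GEO (owner helper16). See R147/GeoDefs.lean. -/

set_option autoImplicit false

namespace Crest.Agent.R147.Geo

namespace Walk
variable {Γ X : Type*} [Group Γ] [MulAction Γ X] (W : Walk Γ X)

theorem mem_N_iff {x y : X} : y ∈ W.N x ↔ W.q x y ≠ 0 := by
  exact ⟨fun h => (W.c_pos.trans_le (W.q_ge x y h)).ne', fun h => by_contra fun h' =>
    h (W.q_supp x y h')⟩

theorem mem_N_self (x : X) : x ∈ W.N x := by
  refine W.mem_N_iff.2 (ne_of_gt ?_)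
  linarith [W.q_lazy x]

theorem mem_N_comm {x y : X} : y ∈ W.N x ↔ x ∈ W.N y := by
  rw [mem_N_iff, mem_N_iff, W.q_symm]

theorem smul_mem_N (g : Γ) {x y : X} : g • y ∈ W.N (g • x) ↔ y ∈ W.N x := by
  rw [mem_N_iff, mem_N_iff, W.q_smul]

theorem c_le_one (x : X) : W.c ≤ 1 := by
  rw [← W.q_sum x]
  exact (W.q_ge x x (W.mem_N_self x)).trans
    (Finset.single_le_sum (fun y _ => W.q_nonneg x y) (W.mem_N_self x))

/-- `P` as a sum over any finite set containing the neighbourhood. -/
theorem P_eq_sum (f : X → ℝ) (x : X) {S : Finset X} (hS : W.N x ⊆ S) :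
    W.P f x = ∑ y ∈ S, W.q x y * f y := by
  exact Finset.sum_subset hS fun y _ hy => by rw [W.q_supp x y hy, zero_mul]

theorem P_smul (g : Γ) (f : X → ℝ) (x : X) : W.P (fun z => f (g • z)) x = W.P f (g • x) := by
  exact Finset.sum_equiv (MulAction.toPerm g) (fun y => (W.smul_mem_N g).symm)
    fun y _ => by rw [MulAction.toPerm_apply, W.q_smul]

theorem iter_smul (n : ℕ) (g : Γ) (f : X → ℝ) (x : X) :
    W.P^[n] (fun z => f (g • z)) x = W.P^[n] f (g • x) := by
  induction n generalizing f with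
  | zero => rfl
  | succ n ih =>
    rw [Function.iterate_succ_apply, Function.iterate_succ_apply, ← ih,
      show W.P (fun z => f (g • z)) = fun z => W.P f (g • z) from funext (W.P_smul g f)]

theorem iter_add (n : ℕ) (f f' : X → ℝ) (x : X) :
    W.P^[n] (fun z => f z + f' z) x = W.P^[n] f x + W.P^[n] f' x := by
  induction n generalizing f f' with
  | zero => rfl
  | succ n ih =>
    rw [Function.iterate_succ_apply, Function.iterate_succ_apply, Function.iterate_succ_apply, ← ih]
    refine congrArg (W.P^[n] · x) (funext fun z => ?_)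
    simp only [P, mul_add, Finset.sum_add_distrib]

theorem iter_sub (n : ℕ) (f f' : X → ℝ) (x : X) :
    W.P^[n] (fun z => f z - f' z) x = W.P^[n] f x - W.P^[n] f' x := by
  induction n generalizing f f' with
  | zero => rfl
  | succ n ih =>
    rw [Function.iterate_succ_apply, Function.iterate_succ_apply, Function.iterate_succ_apply, ← ih]
    refine congrArg (W.P^[n] · x) (funext fun z => ?_)
    simp only [P, mul_sub, Finset.sum_sub_distrib]

theorem iter_mul (n : ℕ) (a : ℝ) (f : X → ℝ) (x : X) :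
    W.P^[n] (fun z => a * f z) x = a * W.P^[n] f x := by
  induction n generalizing f with
  | zero => rfl
  | succ n ih =>
    rw [Function.iterate_succ_apply, Function.iterate_succ_apply, ← ih]
    refine congrArg (W.P^[n] · x) (funext fun z => ?_)
    simp only [P, Finset.mul_sum, mul_left_comm]

theorem iter_const (n : ℕ) (a : ℝ) (x : X) : W.P^[n] (fun _ => a) x = a := by
  induction n with
  | zero => rfl
  | succ n ih =>
    rw [Function.iterate_succ_apply, show W.P (fun _ => a) = fun _ => a from funext fun z => by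
      simp only [P, ← Finset.sum_mul, W.q_sum, one_mul], ih]

theorem iter_mono (n : ℕ) {f f' : X → ℝ} (h : ∀ z, f z ≤ f' z) (x : X) :
    W.P^[n] f x ≤ W.P^[n] f' x := by
  induction n generalizing f f' with
  | zero => exact h x
  | succ n ih =>
    rw [Function.iterate_succ_apply, Function.iterate_succ_apply]
    exact ih fun z => Finset.sum_le_sum fun y _ => mul_le_mul_of_nonneg_left (h y) (W.q_nonneg z y)

theorem iter_abs_le (n : ℕ) {f : X → ℝ} {M : ℝ} (h : ∀ z, |f z| ≤ M) (x : X) :
    |W.P^[n] f x| ≤ M := by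
  exact abs_le.2 ⟨(W.iter_const n (-M) x).ge.trans (W.iter_mono n (fun z => (abs_le.1 (h z)).1) x),
    (W.iter_mono n (fun z => (abs_le.1 (h z)).2) x).trans (W.iter_const n M x).le⟩

theorem iter_succ' (n : ℕ) (f : X → ℝ) (x : X) :
    W.P^[n + 1] f x = ∑ y ∈ W.N x, W.q x y * W.P^[n] f y := by
  rw [Function.iterate_succ_apply']
  rfl

theorem Harm.iter {W : Walk Γ X} {f : X → ℝ} (h : W.Harm f) (n : ℕ) (x : X) :
    W.P^[n] f x = f x := by
  rw [Function.iterate_fixed (funext h : W.P f = f)]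

theorem mem_B_self (n : ℕ) (x : X) : x ∈ W.B n x := by
  classical
  induction n with
  | zero => simp [B]
  | succ n ih =>
    simp only [B, Finset.mem_biUnion]
    exact ⟨x, W.mem_N_self x, ih⟩

theorem mem_B_succ {n : ℕ} {x y : X} : y ∈ W.B (n + 1) x ↔ ∃ z ∈ W.N x, y ∈ W.B n z := by
  simp only [B, Finset.mem_biUnion]

theorem mem_B_zero' {x y : X} : y ∈ W.B 0 x ↔ y = x := by
  simp only [B, Finset.mem_singleton]

theorem mem_B_add {m n : ℕ} {x y z : X} (h : y ∈ W.B m x) (h' : z ∈ W.B n y) :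
    z ∈ W.B (m + n) x := by
  induction m generalizing x with
  | zero =>
    rw [W.mem_B_zero'] at h
    subst h
    simpa using h'
  | succ m ih =>
    obtain ⟨w, hw, hy⟩ := W.mem_B_succ.1 h
    rw [Nat.add_right_comm]
    exact W.mem_B_succ.2 ⟨w, hw, ih hy⟩

theorem B_mono {m n : ℕ} (h : m ≤ n) (x : X) : W.B m x ⊆ W.B n x := by
  intro y hy
  obtain ⟨k, rfl⟩ := Nat.exists_eq_add_of_le h
  exact W.mem_B_add hy (W.mem_B_self k y)

theorem B_one (x : X) : W.B 1 x = W.N x := by
  ext y
  rw [W.mem_B_succ]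
  constructor
  · rintro ⟨z, hz, hy⟩
    rw [W.mem_B_zero'] at hy
    rwa [hy]
  · exact fun h => ⟨y, h, W.mem_B_self 0 y⟩

theorem exists_mem_B (x y : X) : ∃ n, y ∈ W.B n x := by
  induction W.conn x y with
  | refl => exact ⟨0, W.mem_B_self 0 x⟩
  | tail _ hz ih =>
    obtain ⟨n, hn⟩ := ih
    exact ⟨n + 1, W.mem_B_add hn (by rw [W.B_one]; exact hz)⟩

theorem smul_mem_B (n : ℕ) (g : Γ) {x y : X} : g • y ∈ W.B n (g • x) ↔ y ∈ W.B n x := by
  induction n generalizing x with
  | zero => rw [W.mem_B_zero', W.mem_B_zero', smul_left_cancel_iff]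
  | succ n ih =>
    rw [W.mem_B_succ, W.mem_B_succ]
    constructor
    · rintro ⟨z, hz, hy⟩
      refine ⟨g⁻¹ • z, ?_, ?_⟩
      · rw [← W.smul_mem_N g, smul_inv_smul]
        exact hz
      · rw [← ih, smul_inv_smul]
        exact hy
    · rintro ⟨z, hz, hy⟩
      exact ⟨g • z, (W.smul_mem_N g).2 hz, ih.2 hy⟩

theorem card_B_eq (n : ℕ) (x y : X) : (W.B n x).card = (W.B n y).card := by
  obtain ⟨g, rfl⟩ := W.trans x y
  refine Finset.card_bij (fun z _ => g • z) (fun z hz => (W.smul_mem_B n g).2 hz)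
    (fun a _ b _ hab => (smul_left_cancel_iff g).1 hab) fun z hz => ⟨g⁻¹ • z, ?_, smul_inv_smul g z⟩
  rw [← W.smul_mem_B n g, smul_inv_smul]
  exact hz

theorem lip_B {f : X → ℝ} {L : ℝ} (h : ∀ x, ∀ y ∈ W.N x, |f y - f x| ≤ L) {n : ℕ} {x y : X}
    (hy : y ∈ W.B n x) : |f y - f x| ≤ n * L := by
  induction n generalizing x with
  | zero =>
    rw [W.mem_B_zero'] at hy
    simp [hy]
  | succ n ih =>
    obtain ⟨z, hz, hy⟩ := W.mem_B_succ.1 hy
    have h1 := ih hy
    have h2 := h x z hz
    have h3 := abs_sub_le (f y) (f z) (f x)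
    push_cast
    linarith

/-- A function with zero increments along steps is constant. -/
theorem const_of_step {f : X → ℝ} (h : ∀ x, ∀ y ∈ W.N x, f y = f x) (x y : X) : f x = f y := by
  induction W.conn x y with
  | refl => rfl
  | tail _ hz ih => rw [ih, h _ _ hz]

/-- Maximum principle: a harmonic function with finitely many values is constant. -/
theorem Harm.const_of_finite {W : Walk Γ X} {f : X → ℝ} (h : W.Harm f)
    (hfin : (Set.range f).Finite) (x y : X) : f x = f y := by
  obtain ⟨_, ⟨x₀, rfl⟩, hmax⟩ := hfin.exists_maximal ⟨f x, x, rfl⟩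
  have hle : ∀ z, f z ≤ f x₀ := fun z => by
    by_contra hz
    have h1 : f x₀ < f z := not_le.1 hz
    exact absurd (hmax ⟨z, rfl⟩ h1.le) hz
  have step : ∀ a, f a = f x₀ → ∀ b ∈ W.N a, f b = f x₀ := fun a ha b hb => by
    have h1 : ∑ z ∈ W.N a, W.q a z * (f x₀ - f z) = 0 := by
      have h2 := h a
      simp only [P] at h2
      simp only [mul_sub, Finset.sum_sub_distrib, ← Finset.sum_mul, W.q_sum, h2, ha]
      ring
    rw [Finset.sum_eq_zero_iff_of_nonneg
      (fun z _ => mul_nonneg (W.q_nonneg a z) (sub_nonneg.2 (hle z)))] at h1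
    have h3 := h1 b hb
    have h4 : 0 < W.q a b := W.c_pos.trans_le (W.q_ge a b hb)
    rcases mul_eq_zero.1 h3 with h5 | h5
    · exact absurd h5 h4.ne'
    · linarith
  have all : ∀ z, f z = f x₀ := fun z => by
    induction W.conn x₀ z with
    | refl => rfl
    | tail _ hz ih => exact step _ ih _ hz
  rw [all x, all y]

end Walk

end Crest.Agent.R147.Geo
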