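import Crest.Agent.R159.Bern

/-! Row 147: the Harris inequality for product Bernoulli laws on arbitrary index sets. -/

set_option autoImplicit false

open MeasureTheory ProbabilityTheory Set
open scoped ENNReal NNReal symmDiff

namespace Crest.Agent.R147

open Crest.Agent.R159

section Bern
variable {ι : Type*}

theorem measurable_insert_cfg (i : ι) : Measurable fun ω : Set ι => insert i ω :=
  measurable_set_iff.2 fun a => measurable_const.or (measurable_set_mem a)

theorem measurable_sdiff_cfg (i : ι) : Measurable fun ω : Set ι => ω \ {i} :=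
  measurable_set_iff.2 fun a => (measurable_set_mem a).and measurable_const

theorem pe_add_symm (p : unitInterval) : pe p + pe (unitInterval.symm p) = 1 := by
  rw [pe_symm, add_tsub_cancel_of_le (pe_le_one p)]

/-- Integrating out one coordinate. -/
theorem lintegral_bern_step (π : ι → unitInterval) (i : ι) {h : Set ι → ℝ≥0∞} (hm : Measurable h) :
    ∫⁻ ω, h ω ∂bern π =
      ∫⁻ ω, (pe (π i) * h (insert i ω) + pe (unitInterval.symm (π i)) * h (ω \ {i})) ∂bern π := by
  conv_lhs => rw [← map_splice π {i}]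
  rw [lintegral_map hm (measurable_splice _),
    lintegral_prod_symm (fun z : Set ι × Set ι => h ((z.1 ∩ {i}) ∪ (z.2 ∩ {i}ᶜ)))
      (hm.comp (measurable_splice {i})).aemeasurable]
  refine lintegral_congr fun ω => ?_
  rw [← lintegral_add_compl _ (measurableSet_mem' i)]
  congr 1
  · rw [setLIntegral_congr_fun (measurableSet_mem' i) (g := fun _ => h (insert i ω)),
      setLIntegral_const, bern_mem, mul_comm]
    intro ω' hω'
    refine congrArg h (Set.ext fun a => ?_)
    by_cases ha : a = i
    · subst ha; simpa using hω'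
    · simp [ha]
  · rw [setLIntegral_congr_fun (measurableSet_mem' i).compl (g := fun _ => h (ω \ {i})),
      setLIntegral_const, prob_compl_eq_one_sub (measurableSet_mem' i), bern_mem, pe_symm, mul_comm]
    intro ω' hω'
    refine congrArg h (Set.ext fun a => ?_)
    by_cases ha : a = i
    · subst ha; simpa using hω'
    · simp [ha]

theorem harris_two {s s' a a' b b' : ℝ≥0∞} (hs : s + s' = 1) (ha : a' ≤ a) (hb : b' ≤ b) :
    (s * a + s' * a') * (s * b + s' * b') ≤ s * (a * b) + s' * (a' * b') := by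
  obtain ⟨x, rfl⟩ := le_iff_exists_add.1 ha
  obtain ⟨y, rfl⟩ := le_iff_exists_add.1 hb
  have hs1 : s ≤ 1 := hs ▸ le_self_add
  have e1 : ∀ u v : ℝ≥0∞, s * (u + v) + s' * u = u + s * v := fun u v => by
    calc s * (u + v) + s' * u = (s + s') * u + s * v := by ring
      _ = _ := by rw [hs, one_mul]
  have e2 : s * ((a' + x) * (b' + y)) + s' * (a' * b') =
      a' * b' + s * (a' * y + x * b' + x * y) := by
    rw [← e1]; ring
  rw [e1, e1, e2]
  calc (a' + s * x) * (b' + s * y) = a' * b' + s * (a' * y + x * b' + s * (x * y)) := by ring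
    _ ≤ _ := add_le_add le_rfl (mul_le_mul_right
      (add_le_add le_rfl (mul_le_of_le_one_left' hs1)) _)

theorem harris_fin (π : ι → unitInterval) (I : Finset ι) :
    ∀ f g : Set ι → ℝ≥0∞, Measurable f → Measurable g → Monotone f → Monotone g →
      (∀ ω, f (ω ∩ I) = f ω) → (∀ ω, g (ω ∩ I) = g ω) →
      (∫⁻ ω, f ω ∂bern π) * ∫⁻ ω, g ω ∂bern π ≤ ∫⁻ ω, f ω * g ω ∂bern π := by
  classical
  induction I using Finset.induction_on with
  | empty =>
    intro f g _ _ _ _ df dg
    have e1 : ∀ ω, f ω = f ∅ := fun ω => by rw [← df ω]; simp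
    have e2 : ∀ ω, g ω = g ∅ := fun ω => by rw [← dg ω]; simp
    simp only [lintegral_congr e1, lintegral_congr e2,
      lintegral_congr fun ω => show f ω * g ω = f ∅ * g ∅ by rw [e1 ω, e2 ω]]
    simp
  | insert i J hi ih =>
    intro f g mf mg hf hg df dg
    have key : ∀ f : Set ι → ℝ≥0∞, Measurable f → Monotone f → (∀ ω, f (ω ∩ ↑(insert i J)) = f ω) →
        Measurable (fun ω => pe (π i) * f (insert i ω) +
          pe (unitInterval.symm (π i)) * f (ω \ {i})) ∧
        Monotone (fun ω => pe (π i) * f (insert i ω) +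
          pe (unitInterval.symm (π i)) * f (ω \ {i})) ∧
        ∀ ω : Set ι, pe (π i) * f (insert i (ω ∩ J)) +
          pe (unitInterval.symm (π i)) * f ((ω ∩ J) \ {i}) =
          pe (π i) * f (insert i ω) + pe (unitInterval.symm (π i)) * f (ω \ {i}) := by
      intro f mf hf df
      refine ⟨((mf.comp (measurable_insert_cfg i)).const_mul _).add
        ((mf.comp (measurable_sdiff_cfg i)).const_mul _), fun ω ω' h => ?_, fun ω => ?_⟩
      · exact add_le_add (mul_le_mul_right (hf (insert_subset_insert h)) _)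
          (mul_le_mul_right (hf (sdiff_subset_sdiff_left h)) _)
      · rw [← df (insert i ω), ← df (ω \ {i})]
        congr 3
        · ext a
          by_cases ha : a = i <;> simp [ha]
        · ext a
          by_cases ha : a = i <;> simp [ha]
    obtain ⟨m1, h1, d1⟩ := key f mf hf df
    obtain ⟨m2, h2, d2⟩ := key g mg hg dg
    rw [lintegral_bern_step π i mf, lintegral_bern_step π i mg,
      lintegral_bern_step π i (h := fun ω => f ω * g ω) (mf.mul mg)]
    refine (ih _ _ m1 m2 h1 h2 d1 d2).trans (lintegral_mono fun ω => ?_)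
    have hsub : ω \ {i} ⊆ insert i ω := sdiff_subset.trans (subset_insert i ω)
    exact harris_two (pe_add_symm _) (hf hsub) (hg hsub)

/-- Every event is approximated by an event that depends on finitely many slots. -/
theorem exists_dep_approx (μ : Measure (Set ι)) [IsFiniteMeasure μ] {E : Set (Set ι)}
    (hE : MeasurableSet E) {ε : ℝ≥0∞} (hε : 0 < ε) :
    ∃ E' : Set (Set ι), MeasurableSet E' ∧ (∃ I : Finset ι, Dep (↑I) E') ∧ μ (E' ∆ E) < ε := by
  classical
  have hC : IsSetRing {A : Set (Set ι) | MeasurableSet A ∧ ∃ I : Finset ι, Dep (↑I) A} := by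
    refine ⟨⟨MeasurableSet.empty, ∅, fun _ _ _ h => h⟩, ?_, ?_⟩
    · rintro s t ⟨ms, I, hI⟩ ⟨mt, J, hJ⟩
      exact ⟨ms.union mt, I ∪ J, (hI.mono (by simp)).union (hJ.mono (by simp))⟩
    · rintro s t ⟨ms, I, hI⟩ ⟨mt, J, hJ⟩
      exact ⟨ms.diff mt, I ∪ J, (hI.mono (by simp)).inter' (hJ.mono (by simp)).compl⟩
  obtain ⟨t, ht, h⟩ := exists_measure_symmDiff_lt_of_generateFrom_isSetRing (μ := μ) hC
    ⟨{univ}, countable_singleton _,
      singleton_subset_iff.2 ⟨MeasurableSet.univ, ∅, fun _ _ _ h => h⟩, by simp⟩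
    (le_antisymm (generateFrom_avoid.le.trans (MeasurableSpace.generateFrom_mono (by
        rintro _ ⟨J, rfl⟩
        exact ⟨measurableSet_avoid J, J, fun ω ω' h h' i hi hh => h' i hi ((h i hi).2 hh)⟩)))
      (MeasurableSpace.generateFrom_le fun _ h => h.1)) hE hε
  exact ⟨t, ht.1, ht.2, h⟩

/-- Harris inequality, two increasing events. -/
theorem harris_bern (π : ι → unitInterval) {E F : Set (Set ι)} (hE : MeasurableSet E)
    (hF : MeasurableSet F) (uE : IsUpperSet E) (uF : IsUpperSet F) :
    bern π E * bern π F ≤ bern π (E ∩ F) := by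
  classical
  refine ENNReal.le_of_forall_pos_le_add fun ε hε _ => ?_
  have hε4 : (0 : ℝ≥0∞) < ε / 4 := ENNReal.div_pos (ENNReal.coe_ne_zero.2 hε.ne') (by simp)
  obtain ⟨E', mE', ⟨I, dI⟩, aE⟩ := exists_dep_approx (bern π) hE hε4
  obtain ⟨F', mF', ⟨J, dJ⟩, aF⟩ := exists_dep_approx (bern π) hF hε4
  have dE : Dep (↑(I ∪ J)) E' := dI.mono (by simp)
  have dF : Dep (↑(I ∪ J)) F' := dJ.mono (by simp)
  generalize I ∪ J = K at dE dF
  obtain ⟨T, hT⟩ : ∃ T : Set (Set ι) → Set ι → ℝ≥0∞, ∀ A ω,
      T A ω = bern π {ω' | (ω ∩ K) ∪ (ω' ∩ (↑K)ᶜ) ∈ A} := ⟨_, fun _ _ => rfl⟩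
  have mT : ∀ A, MeasurableSet A → Measurable (T A) := fun A hA => by
    rw [funext (hT A)]
    exact measurable_measure_prodMk_left (ν := bern π) (measurable_splice (↑K) hA)
  have iT : ∀ A, MeasurableSet A → ∫⁻ ω, T A ω ∂bern π = bern π A := fun A hA => by
    conv_rhs => rw [← map_splice π (↑K)]
    rw [Measure.map_apply (measurable_splice _) hA, Measure.prod_apply (measurable_splice _ hA)]
    exact lintegral_congr fun ω => hT A ω
  have uT : ∀ A, IsUpperSet A → Monotone (T A) := fun A hA ω ω' h => by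
    rw [hT, hT]
    exact measure_mono fun σ hσ => hA (union_subset_union_left _ (inter_subset_inter_left _ h)) hσ
  have dT : ∀ A ω, T A (ω ∩ K) = T A ω := fun A ω => by rw [hT, hT, inter_assoc, inter_self]
  have oT : ∀ A ω, T A ω ≤ 1 := fun A ω => by rw [hT]; exact prob_le_one
  have aT : ∀ A A', Dep (↑K) A' → ∀ ω, T A ω ≤ A'.indicator 1 ω + T (A' ∆ A) ω := by
    intro A A' hA' ω
    by_cases h : ω ∈ A'
    · rw [indicator_of_mem h]
      exact (oT A ω).trans le_self_add
    · rw [indicator_of_notMem h, zero_add, hT, hT]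
      refine measure_mono fun σ hσ => Or.inr ⟨hσ, fun h' => h (hA' _ _ (fun i hi => ?_) h')⟩
      simp [hi]
  have h1 := harris_fin π K (T E) (T F) (mT E hE) (mT F hF) (uT E uE) (uT F uF) (dT E) (dT F)
  rw [iT E hE, iT F hF] at h1
  have h2 : ∀ ω, T E ω * T F ω ≤ (E' ∩ F').indicator 1 ω + T (E' ∆ E) ω + T (F' ∆ F) ω := by
    intro ω
    by_cases h : ω ∈ E'
    · refine (mul_le_of_le_one_left' (oT E ω)).trans ((aT F F' dF ω).trans ?_)
      gcongr
      refine le_trans ?_ le_self_add
      by_cases h' : ω ∈ F'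
      · rw [indicator_of_mem h', indicator_of_mem (mem_inter h h')]
      · rw [indicator_of_notMem h']; exact zero_le
    · refine (mul_le_of_le_one_right' (oT F ω)).trans ((aT E E' dE ω).trans ?_)
      rw [indicator_of_notMem h, zero_add]
      exact le_add_self.trans le_self_add
  have h3 : bern π (E' ∩ F') ≤ bern π (E ∩ F) + bern π (E' ∆ E) + bern π (F' ∆ F) := by
    refine le_trans (measure_mono (t := (E ∩ F) ∪ E' ∆ E ∪ F' ∆ F) fun ω hω => ?_)
      ((measure_union_le _ _).trans (add_le_add (measure_union_le _ _) le_rfl))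
    by_cases h : ω ∈ E
    · by_cases h' : ω ∈ F
      · exact Or.inl (Or.inl ⟨h, h'⟩)
      · exact Or.inr (Or.inl ⟨hω.2, h'⟩)
    · exact Or.inl (Or.inr (Or.inl ⟨hω.1, h⟩))
  refine h1.trans ((lintegral_mono h2).trans ?_)
  rw [lintegral_add_right _ (mT _ (mF'.symmDiff hF)), lintegral_add_right _ (mT _ (mE'.symmDiff hE)),
    iT _ (mF'.symmDiff hF), iT _ (mE'.symmDiff hE), lintegral_indicator_one (mE'.inter mF')]
  calc bern π (E' ∩ F') + bern π (E' ∆ E) + bern π (F' ∆ F)
      ≤ bern π (E ∩ F) + ε / 4 + ε / 4 + ε / 4 + ε / 4 := by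
        gcongr
        exact h3.trans (by gcongr)
    _ = bern π (E ∩ F) + ε := by
        have : (ε : ℝ≥0∞) / 4 + ε / 4 + ε / 4 + ε / 4 = ε := by
          rw [show ∀ x : ℝ≥0∞, x + x + x + x = 4 * x from fun x => by ring,
            ENNReal.mul_div_cancel (by simp) (by simp)]
        conv_rhs => rw [← this]
        simp only [add_assoc]

/-- Harris inequality, an increasing and a decreasing event. -/
theorem harris_bern_anti (π : ι → unitInterval) {E F : Set (Set ι)} (hE : MeasurableSet E)
    (hF : MeasurableSet F) (uE : IsUpperSet E) (lF : IsLowerSet F) :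
    bern π (E ∩ F) ≤ bern π E * bern π F := by
  have h := harris_bern π hE hF.compl uE lF.compl
  have e1 : bern π (E ∩ F) + bern π (E ∩ Fᶜ) = bern π E := measure_inter_add_sdiff E hF
  have e2 : bern π E * bern π F + bern π E * bern π Fᶜ = bern π E := by
    rw [← mul_add, prob_add_prob_compl hF, mul_one]
  refine ENNReal.le_of_add_le_add_right (a := bern π (E ∩ Fᶜ)) (measure_ne_top _ _) ?_
  rw [e1]
  exact e2.ge.trans (add_le_add le_rfl h)

/-- Harris inequality, two decreasing events. -/
theorem harris_bern_lower (π : ι → unitInterval) {E F : Set (Set ι)} (hE : MeasurableSet E)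
    (hF : MeasurableSet F) (lE : IsLowerSet E) (lF : IsLowerSet F) :
    bern π E * bern π F ≤ bern π (E ∩ F) := by
  have h := harris_bern_anti π hF.compl hE lF.compl lE
  have e1 : bern π (E ∩ F) + bern π (E ∩ Fᶜ) = bern π E := measure_inter_add_sdiff E hF
  have e2 : bern π E * bern π F + bern π E * bern π Fᶜ = bern π E := by
    rw [← mul_add, prob_add_prob_compl hF, mul_one]
  refine ENNReal.le_of_add_le_add_right (a := bern π E * bern π Fᶜ)
    (ENNReal.mul_ne_top (measure_ne_top _ _) (measure_ne_top _ _)) ?_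
  rw [e2, mul_comm]
  exact e1.ge.trans (add_le_add le_rfl (by rwa [inter_comm] at h))

theorem harris_bern_prod {κ : Type*} (π : ι → unitInterval) (s : Finset κ) {A : κ → Set (Set ι)}
    (hm : ∀ k ∈ s, MeasurableSet (A k)) (hu : ∀ k ∈ s, IsUpperSet (A k)) :
    ∏ k ∈ s, bern π (A k) ≤ bern π (⋂ k ∈ s, A k) := by
  classical
  induction s using Finset.induction_on with
  | empty => simp
  | insert a s ha ih =>
    have hm' : ∀ k ∈ s, MeasurableSet (A k) := fun k hk => hm k (Finset.mem_insert_of_mem hk)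
    have hu' : ∀ k ∈ s, IsUpperSet (A k) := fun k hk => hu k (Finset.mem_insert_of_mem hk)
    rw [Finset.prod_insert ha, Finset.set_biInter_insert]
    exact (mul_le_mul_right (ih hm' hu') _).trans (harris_bern π (hm a (Finset.mem_insert_self a s))
      (Finset.measurableSet_biInter s hm') (hu a (Finset.mem_insert_self a s))
      (isUpperSet_iInter₂ hu'))

theorem harris_bern_prod_lower {κ : Type*} (π : ι → unitInterval) (s : Finset κ)
    {A : κ → Set (Set ι)} (hm : ∀ k ∈ s, MeasurableSet (A k)) (hu : ∀ k ∈ s, IsLowerSet (A k)) :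
    ∏ k ∈ s, bern π (A k) ≤ bern π (⋂ k ∈ s, A k) := by
  classical
  induction s using Finset.induction_on with
  | empty => simp
  | insert a s ha ih =>
    have hm' : ∀ k ∈ s, MeasurableSet (A k) := fun k hk => hm k (Finset.mem_insert_of_mem hk)
    have hu' : ∀ k ∈ s, IsLowerSet (A k) := fun k hk => hu k (Finset.mem_insert_of_mem hk)
    rw [Finset.prod_insert ha, Finset.set_biInter_insert]
    exact (mul_le_mul_right (ih hm' hu') _).trans (harris_bern_lower π
      (hm a (Finset.mem_insert_self a s)) (Finset.measurableSet_biInter s hm')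
      (hu a (Finset.mem_insert_self a s)) (isLowerSet_iInter₂ hu'))

/-- The square root trick. -/
theorem sqrt_trick_bern {κ : Type*} (π : ι → unitInterval) {s : Finset κ} (hs : s.Nonempty)
    {A : κ → Set (Set ι)} (hm : ∀ k ∈ s, MeasurableSet (A k)) (hu : ∀ k ∈ s, IsUpperSet (A k)) :
    ∃ k ∈ s, bern π (A k)ᶜ ^ s.card ≤ bern π (⋃ k ∈ s, A k)ᶜ := by
  obtain ⟨k, hk, hmin⟩ := s.exists_min_image (fun k => bern π (A k)ᶜ) hs
  refine ⟨k, hk, (Finset.pow_card_le_prod s _ _ hmin).trans ?_⟩
  rw [compl_iUnion₂]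
  exact harris_bern_prod_lower π s (fun k hk => (hm k hk).compl) fun k hk => (hu k hk).compl

end Bern

section Perc
variable {V : Type*} (G : SimpleGraph V) (p : unitInterval) {E F : Set (Set (Sym2 V))}

theorem harris_P (hE : MeasurableSet E) (hF : MeasurableSet F) (uE : IsUpperSet E)
    (uF : IsUpperSet F) : P G p E * P G p F ≤ P G p (E ∩ F) := by
  rw [P, setBer_eq_bern]; exact harris_bern _ hE hF uE uF

theorem harris_P_anti (hE : MeasurableSet E) (hF : MeasurableSet F) (uE : IsUpperSet E)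
    (lF : IsLowerSet F) : P G p (E ∩ F) ≤ P G p E * P G p F := by
  rw [P, setBer_eq_bern]; exact harris_bern_anti _ hE hF uE lF

theorem harris_P_lower (hE : MeasurableSet E) (hF : MeasurableSet F) (lE : IsLowerSet E)
    (lF : IsLowerSet F) : P G p E * P G p F ≤ P G p (E ∩ F) := by
  rw [P, setBer_eq_bern]; exact harris_bern_lower _ hE hF lE lF

theorem harris_P_prod {κ : Type*} (s : Finset κ) {A : κ → Set (Set (Sym2 V))}
    (hm : ∀ k ∈ s, MeasurableSet (A k)) (hu : ∀ k ∈ s, IsUpperSet (A k)) :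
    ∏ k ∈ s, P G p (A k) ≤ P G p (⋂ k ∈ s, A k) := by
  rw [P, setBer_eq_bern]; exact harris_bern_prod _ s hm hu

theorem harris_P_prod_lower {κ : Type*} (s : Finset κ) {A : κ → Set (Set (Sym2 V))}
    (hm : ∀ k ∈ s, MeasurableSet (A k)) (hu : ∀ k ∈ s, IsLowerSet (A k)) :
    ∏ k ∈ s, P G p (A k) ≤ P G p (⋂ k ∈ s, A k) := by
  rw [P, setBer_eq_bern]; exact harris_bern_prod_lower _ s hm hu

theorem sqrt_trick_P {κ : Type*} {s : Finset κ} (hs : s.Nonempty) {A : κ → Set (Set (Sym2 V))}
    (hm : ∀ k ∈ s, MeasurableSet (A k)) (hu : ∀ k ∈ s, IsUpperSet (A k)) :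
    ∃ k ∈ s, P G p (A k)ᶜ ^ s.card ≤ P G p (⋃ k ∈ s, A k)ᶜ := by
  rw [P, setBer_eq_bern]; exact sqrt_trick_bern _ hs hm hu

theorem harris_P_real (hE : MeasurableSet E) (hF : MeasurableSet F) (uE : IsUpperSet E)
    (uF : IsUpperSet F) : (P G p).real E * (P G p).real F ≤ (P G p).real (E ∩ F) := by
  rw [Measure.real, Measure.real, ← ENNReal.toReal_mul]
  exact ENNReal.toReal_mono (measure_ne_top _ _) (harris_P G p hE hF uE uF)

theorem harris_P_lower_real (hE : MeasurableSet E) (hF : MeasurableSet F) (lE : IsLowerSet E)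
    (lF : IsLowerSet F) : (P G p).real E * (P G p).real F ≤ (P G p).real (E ∩ F) := by
  rw [Measure.real, Measure.real, ← ENNReal.toReal_mul]
  exact ENNReal.toReal_mono (measure_ne_top _ _) (harris_P_lower G p hE hF lE lF)

theorem harris_P_anti_real (hE : MeasurableSet E) (hF : MeasurableSet F) (uE : IsUpperSet E)
    (lF : IsLowerSet F) : (P G p).real (E ∩ F) ≤ (P G p).real E * (P G p).real F := by
  rw [Measure.real, Measure.real, Measure.real, ← ENNReal.toReal_mul]
  exact ENNReal.toReal_mono (ENNReal.mul_ne_top (measure_ne_top _ _) (measure_ne_top _ _))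
    (harris_P_anti G p hE hF uE lF)

end Perc

end Crest.Agent.R147
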