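import Crest.Agent.R147.KN4
import Crest.Agent.R159.Bern

/-! Row 147, module KN (helper5): the Kozma-Nitzan gluing inequality, final statements. -/

set_option autoImplicit false

open MeasureTheory ProbabilityTheory Set
open scoped ENNReal NNReal

namespace Crest.Agent.R147

open Crest.Agent.R159

variable {V : Type*}

/-- Kozma-Nitzan gluing inside the finite region `S`, for arbitrary edge probabilities `π`
(values `0` and `1` allowed), a wired source set `O`, and an increasing property `𝒢` of vertex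
sets: if the cluster of each point of `A` fails `𝒢` with probability at most `δ`, then so does
the hull of `O`, conditionally on meeting `A`. -/
theorem kn_general (G : SimpleGraph V) (π : Sym2 V → unitInterval) (S : Finset V) (O A : Set V)
    (𝒢 : Set (Set V)) (h𝒢 : IsUpperSet 𝒢) (δ : ℝ≥0∞)
    (hA : ∀ a ∈ A, a ∈ S → bern π {ω | cl G (↑S)ᶜ ω a ∉ 𝒢} ≤ δ) :
    bern π {ω | (∃ a ∈ A, a ∈ hullR G (↑S)ᶜ ω O) ∧ hullR G (↑S)ᶜ ω O ∉ 𝒢} ≤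
      δ * bern π {ω | ∃ a ∈ A, a ∈ hullR G (↑S)ᶜ ω O} :=
  KN.general G π S O A 𝒢 h𝒢 δ hA

/-- Kozma-Nitzan gluing, connection form: `P(O ↔ A, O ↮ B) ≤ P(O ↔ A) max_a P(a ↮ B)`,
all connections inside the finite region `S`. -/
theorem kn (G : SimpleGraph V) (π : Sym2 V → unitInterval) (S : Finset V) (O A B : Set V)
    (δ : ℝ≥0∞) (hA : ∀ a ∈ A, a ∈ S → bern π {ω | ¬ ∃ b ∈ B, conn G (↑S)ᶜ ω a b} ≤ δ) :
    bern π {ω | (∃ o ∈ O, ∃ a ∈ A, conn G (↑S)ᶜ ω o a) ∧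
        ¬ ∃ o ∈ O, ∃ b ∈ B, conn G (↑S)ᶜ ω o b} ≤
      δ * bern π {ω | ∃ o ∈ O, ∃ a ∈ A, conn G (↑S)ᶜ ω o a} := by
  have h := kn_general G π S O A {C | ∃ b ∈ B, b ∈ C}
    (fun C D hCD ⟨b, hb, hbC⟩ => ⟨b, hb, hCD hbC⟩) δ hA
  have e1 : ∀ ω, (∃ a ∈ A, a ∈ hullR G (↑S)ᶜ ω O) ↔ ∃ o ∈ O, ∃ a ∈ A, conn G (↑S)ᶜ ω o a :=
    fun ω => ⟨fun ⟨a, ha, o, ho, h⟩ => ⟨o, ho, a, ha, h⟩, fun ⟨o, ho, a, ha, h⟩ => ⟨a, ha, o, ho, h⟩⟩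
  have e2 : ∀ ω, hullR G (↑S)ᶜ ω O ∈ {C | ∃ b ∈ B, b ∈ C} ↔
      ∃ o ∈ O, ∃ b ∈ B, conn G (↑S)ᶜ ω o b :=
    fun ω => ⟨fun ⟨a, ha, o, ho, h⟩ => ⟨o, ho, a, ha, h⟩, fun ⟨o, ho, a, ha, h⟩ => ⟨a, ha, o, ho, h⟩⟩
  simpa only [e1, e2] using h

/-- The same for homogeneous bond percolation on `G`. -/
theorem kn_P (G : SimpleGraph V) (p : unitInterval) (S : Finset V) (O A B : Set V)
    (δ : ℝ≥0∞) (hA : ∀ a ∈ A, a ∈ S → P G p {ω | ¬ ∃ b ∈ B, conn G (↑S)ᶜ ω a b} ≤ δ) :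
    P G p {ω | (∃ o ∈ O, ∃ a ∈ A, conn G (↑S)ᶜ ω o a) ∧
        ¬ ∃ o ∈ O, ∃ b ∈ B, conn G (↑S)ᶜ ω o b} ≤
      δ * P G p {ω | ∃ o ∈ O, ∃ a ∈ A, conn G (↑S)ᶜ ω o a} := by
  unfold P at hA ⊢
  rw [setBer_eq_bern] at hA ⊢
  exact kn G _ S O A B δ hA

end Crest.Agent.R147
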