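import Crest.Agent.R147.KNDefs

/-! Row 147, module KN (helper5): finite product expectations and the splice lemma. -/

set_option autoImplicit false

open MeasureTheory Set
open scoped ENNReal NNReal

namespace Crest.Agent.R147.KN

open Crest.Agent.R159

variable {ι : Type*} [Fintype ι]

open Classical in
/-- Product weight of a configuration. -/
noncomputable def wt (q : ι → ℝ) (ω : Set ι) : ℝ := ∏ i, if i ∈ ω then q i else 1 - q i

/-- Expectation under the product weight. -/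
noncomputable def Ex (q : ι → ℝ) (f : Set ι → ℝ) : ℝ := ∑ ω : Set ι, wt q ω * f ω

/-- Admissible parameters. -/
def Ok (q : ι → ℝ) : Prop := ∀ i, 0 ≤ q i ∧ q i ≤ 1

variable {q : ι → ℝ}

theorem wt_nonneg (hq : Ok q) (ω : Set ι) : 0 ≤ wt q ω :=
  Finset.prod_nonneg fun i _ => by
    split_ifs
    · exact (hq i).1
    · linarith [(hq i).2]

theorem sum_wt (q : ι → ℝ) : ∑ ω : Set ι, wt q ω = 1 := by
  classical
  have h := Fintype.prod_add q (fun i => 1 - q i)
  simp only [add_sub_cancel, Finset.prod_const_one] at h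
  rw [h, ← (Fintype.finsetEquivSet (α := ι)).sum_comp]
  refine Finset.sum_congr rfl fun t _ => ?_
  unfold wt
  rw [Finset.prod_ite]
  congr 1
  · refine Finset.prod_congr ?_ fun _ _ => rfl
    ext i; simp
  · refine Finset.prod_congr ?_ fun _ _ => rfl
    ext i; simp

theorem wt_empty_pos (hq : ∀ i, q i < 1) : 0 < wt q ∅ :=
  Finset.prod_pos fun i _ => by simpa using hq i

theorem wt_le_one (hq : Ok q) (ω : Set ι) : wt q ω ≤ 1 := by
  rw [← sum_wt q]
  exact Finset.single_le_sum (fun ω _ => wt_nonneg hq ω) (Finset.mem_univ ω)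

theorem Ex_const (c : ℝ) : Ex q (fun _ => c) = c := by
  unfold Ex; rw [← Finset.sum_mul, sum_wt, one_mul]

theorem Ex_add (f g : Set ι → ℝ) : Ex q (fun ω => f ω + g ω) = Ex q f + Ex q g := by
  unfold Ex; simp only [mul_add, Finset.sum_add_distrib]

theorem Ex_sub (f g : Set ι → ℝ) : Ex q (fun ω => f ω - g ω) = Ex q f - Ex q g := by
  unfold Ex; simp only [mul_sub, Finset.sum_sub_distrib]

theorem Ex_mul (c : ℝ) (f : Set ι → ℝ) : Ex q (fun ω => c * f ω) = c * Ex q f := by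
  unfold Ex; rw [Finset.mul_sum]; exact Finset.sum_congr rfl fun _ _ => by ring

theorem Ex_neg (f : Set ι → ℝ) : Ex q (fun ω => - f ω) = - Ex q f := by
  unfold Ex; simp only [mul_neg, Finset.sum_neg_distrib]

theorem Ex_congr {f g : Set ι → ℝ} (h : ∀ ω, f ω = g ω) : Ex q f = Ex q g := by
  rw [funext h]

theorem Ex_mono (hq : Ok q) {f g : Set ι → ℝ} (h : ∀ ω, f ω ≤ g ω) : Ex q f ≤ Ex q g :=
  Finset.sum_le_sum fun ω _ => mul_le_mul_of_nonneg_left (h ω) (wt_nonneg hq ω)

theorem Ex_nonneg (hq : Ok q) {f : Set ι → ℝ} (h : ∀ ω, 0 ≤ f ω) : 0 ≤ Ex q f :=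
  Finset.sum_nonneg fun ω _ => mul_nonneg (wt_nonneg hq ω) (h ω)

theorem wt_mul_le_Ex (hq : Ok q) {f : Set ι → ℝ} (h : ∀ ω, 0 ≤ f ω) (ω : Set ι) :
    wt q ω * f ω ≤ Ex q f :=
  Finset.single_le_sum (f := fun ω => wt q ω * f ω)
    (fun ω _ => mul_nonneg (wt_nonneg hq ω) (h ω)) (Finset.mem_univ ω)

theorem abs_Ex_sub_le (hq : Ok q) {f : Set ι → ℝ} {c r : ℝ} (h : ∀ ω, |f ω - c| ≤ r) :
    |Ex q f - c| ≤ r := by
  have h1 := Ex_mono hq (f := f) (g := fun _ => c + r) fun ω => by linarith [(abs_le.1 (h ω)).2]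
  have h2 := Ex_mono hq (g := f) (f := fun _ => c - r) fun ω => by linarith [(abs_le.1 (h ω)).1]
  rw [Ex_const] at h1 h2
  exact abs_le.2 ⟨by linarith, by linarith⟩

/-- The atom at the empty configuration contracts the oscillation. -/
theorem abs_Ex_contract (hq : Ok q) {f : Set ι → ℝ} {c r : ℝ} (h : ∀ ω, |f ω - c| ≤ r) :
    |Ex q f - (wt q ∅ * f ∅ + (1 - wt q ∅) * c)| ≤ (1 - wt q ∅) * r := by
  have h1 := wt_mul_le_Ex hq (f := fun ω => c + r - f ω)
    (fun ω => by linarith [(abs_le.1 (h ω)).2]) ∅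
  have h2 := wt_mul_le_Ex hq (f := fun ω => f ω - (c - r))
    (fun ω => by linarith [(abs_le.1 (h ω)).1]) ∅
  rw [Ex_sub, Ex_const] at h1 h2
  exact abs_le.2 ⟨by linarith, by linarith⟩

/-- `ω` on `T`, `ω'` off `T`. -/
def spl (T ω ω' : Set ι) : Set ι := (ω ∩ T) ∪ (ω' ∩ Tᶜ)

omit [Fintype ι] in
theorem mem_spl_of_mem {T ω ω' : Set ι} {i : ι} (hi : i ∈ T) : i ∈ spl T ω ω' ↔ i ∈ ω := by
  simp [spl, hi]

omit [Fintype ι] in
theorem mem_spl_of_notMem {T ω ω' : Set ι} {i : ι} (hi : i ∉ T) : i ∈ spl T ω ω' ↔ i ∈ ω' := by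
  simp [spl, hi]

theorem wt_spl (T ω ω' : Set ι) : wt q (spl T ω ω') * wt q (spl T ω' ω) = wt q ω * wt q ω' := by
  unfold wt
  rw [← Finset.prod_mul_distrib, ← Finset.prod_mul_distrib]
  refine Finset.prod_congr rfl fun i _ => ?_
  by_cases hi : i ∈ T <;> by_cases h1 : i ∈ ω <;> by_cases h2 : i ∈ ω' <;>
    simp [spl, hi, h1, h2, mul_comm]

/-- A stopping set. -/
def Stop (T : Set ι → Set ι) : Prop := ∀ ω ω', (∀ i ∈ T ω, i ∈ ω ↔ i ∈ ω') → T ω' = T ω

/-- Splicing along a stopping set preserves the law. -/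
theorem Ex_spl {T : Set ι → Set ι} (hT : Stop T) (F : Set ι → ℝ) :
    Ex q (fun ω => Ex q fun ω' => F (spl (T ω) ω ω')) = Ex q F := by
  have hT' : ∀ ω ω', T (spl (T ω) ω ω') = T ω := fun ω ω' =>
    hT _ _ fun i hi => (mem_spl_of_mem hi).symm
  let Φ : Set ι × Set ι → Set ι × Set ι := fun z => (spl (T z.1) z.1 z.2, spl (T z.1) z.2 z.1)
  have hΦ : Function.Involutive Φ := fun z => by
    simp only [Φ, hT']
    refine Prod.ext ?_ ?_ <;> ext i <;> by_cases hi : i ∈ T z.1 <;>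
      simp only [mem_spl_of_mem, mem_spl_of_notMem, hi, not_false_eq_true]
  have h1 := Equiv.sum_comp hΦ.toPerm (fun z : Set ι × Set ι => wt q z.1 * wt q z.2 * F z.1)
  have h2 : ∑ z : Set ι × Set ι, wt q z.1 * wt q z.2 * F z.1 = Ex q F := by
    rw [Fintype.sum_prod_type]
    unfold Ex
    refine Finset.sum_congr rfl fun ω _ => ?_
    simp only [mul_right_comm (wt q ω), ← Finset.mul_sum, sum_wt, mul_one]
  rw [← h2, ← h1, Fintype.sum_prod_type]
  unfold Ex
  refine Finset.sum_congr rfl fun ω _ => ?_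
  rw [Finset.mul_sum]
  refine Finset.sum_congr rfl fun ω' _ => ?_
  simp only [Function.Involutive.coe_toPerm, Φ, wt_spl]
  ring

theorem continuous_Ex (f : Set ι → ℝ) : Continuous fun q : ι → ℝ => Ex q f := by
  unfold Ex wt
  refine continuous_finsetSum _ fun ω _ => Continuous.mul ?_ continuous_const
  refine continuous_finsetProd _ fun i _ => ?_
  split_ifs <;> fun_prop

theorem bern_singleton (π : ι → unitInterval) (ω : Set ι) :
    bern π {ω} = ENNReal.ofReal (wt (fun i => (π i : ℝ)) ω) := by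
  classical
  have h : ({ω} : Set (Set ι)) = {η | ∀ i ∈ Finset.univ.filter (· ∈ ω), i ∈ η} ∩
      {η | ∀ i ∈ Finset.univ.filter (¬ · ∈ ω), i ∉ η} := by
    ext η
    simp only [mem_singleton_iff, mem_inter_iff, mem_ofPred_eq, Finset.mem_filter,
      Finset.mem_univ, true_and]
    exact ⟨fun h => by subst h; exact ⟨fun _ h => h, fun _ h => h⟩,
      fun h => Set.ext fun i => ⟨fun hi => by_contra fun h' => h.2 i h' hi, h.1 i⟩⟩
  rw [h, bern_indep π (I := ω) (J := ωᶜ) disjoint_compl_right (measurableSet_contains _)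
    (measurableSet_avoid _), bern_subset, bern_avoid]
  · unfold wt
    rw [Finset.prod_ite, ENNReal.ofReal_mul (Finset.prod_nonneg fun i _ => (π i).2.1),
      ENNReal.ofReal_prod_of_nonneg fun i _ => (π i).2.1,
      ENNReal.ofReal_prod_of_nonneg fun i _ => sub_nonneg.2 (π i).2.2]
    simp only [pe_eq_ofReal, unitInterval.coe_symm_eq]
  · exact fun η η' hη h i hi => (hη i (Finset.mem_filter.1 hi).2).1 (h i hi)
  · exact fun η η' hη h i hi hi' => h i hi ((hη i (Finset.mem_filter.1 hi).2).2 hi')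

omit [Fintype ι] in
theorem ok_coe (π : ι → unitInterval) : Ok fun i => (π i : ℝ) := fun i => (π i).2

open Classical in
theorem bern_eq_Ex (π : ι → unitInterval) (E : Set (Set ι)) :
    bern π E = ENNReal.ofReal (Ex (fun i => (π i : ℝ)) fun ω => if ω ∈ E then 1 else 0) := by
  have h : bern π E = ∑ ω ∈ Finset.univ.filter (· ∈ E), bern π {ω} := by
    rw [sum_measure_singleton]
    congr 1
    ext ω; simp
  rw [h]
  unfold Ex
  rw [ENNReal.ofReal_sum_of_nonneg fun ω _ => mul_nonneg (wt_nonneg (ok_coe π) ω)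
    (by split_ifs <;> norm_num), Finset.sum_filter]
  refine Finset.sum_congr rfl fun ω _ => ?_
  split_ifs
  · rw [bern_singleton, mul_one]
  · simp

end Crest.Agent.R147.KN
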