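import Crest.Agent.R147.KN0

/-! Row 147, module KN (helper5): domain Markov property and monotonicity of `psi`. -/

set_option autoImplicit false

open Set

namespace Crest.Agent.R147.KN

open Crest.Agent.R159

variable {V : Type*} {G : SimpleGraph V}

theorem cl_subset_hullR {R Y : Set V} {ω : Set (Sym2 V)} {y : V} (hy : y ∈ Y) :
    cl G R ω y ⊆ hullR G R ω Y := fun _ h => ⟨y, hy, h⟩

theorem hullR_singleton (R : Set V) (ω : Set (Sym2 V)) (x : V) :
    hullR G R ω {x} = cl G R ω x := by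
  ext z; simp [hullR, cl]

theorem cl_anti {R R' : Set V} (h : R ⊆ R') (ω : Set (Sym2 V)) (x : V) :
    cl G R' ω x ⊆ cl G R ω x := fun _ hz => conn.mono hz h Subset.rfl

theorem hullR_anti {R R' : Set V} (h : R ⊆ R') (ω : Set (Sym2 V)) (Y : Set V) :
    hullR G R' ω Y ⊆ hullR G R ω Y := fun _ ⟨y, hy, hz⟩ => ⟨y, hy, hz.mono h Subset.rfl⟩

theorem cl_of_mem {R : Set V} {x : V} (hx : x ∈ R) (ω : Set (Sym2 V)) : cl G R ω x = ∅ :=
  eq_empty_of_forall_notMem fun _ hz => conn.left hz hx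

theorem cl_empty_config {R : Set V} {x : V} (hx : x ∉ R) : cl G R ∅ x = {x} := by
  ext z
  exact ⟨fun hz => conn.ind (Q := fun z => z ∈ ({x} : Set V)) hz rfl
    fun _ _ _ _ he _ _ => he.elim, fun hz => by rw [hz]; exact conn_refl hx⟩

theorem stop_hullR (R Y : Set V) : Stop fun ω => touch G (hullR G R ω Y) := fun ω ω' h => by
  have : hullR G R ω' Y = hullR G R ω Y := by
    refine Set.ext fun z => exists_congr fun y => and_congr_right fun hy => ?_
    exact (conn_iff_of_subset (cl_subset_hullR hy) (fun e he => h e he.1) z).symm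
  simp only [this]

theorem hullR_spl (R Y : Set V) (ω ω' : Set (Sym2 V)) :
    hullR G R (spl (touch G (hullR G R ω Y)) ω ω') Y = hullR G R ω Y := by
  refine Set.ext fun z => exists_congr fun y => and_congr_right fun hy => ?_
  exact (conn_iff_of_subset (cl_subset_hullR hy) (fun e he => (mem_spl_of_mem he.1).symm) z).symm

theorem conn_congr_off {K R : Set V} (h : K ⊆ R) {ω ω' : Set (Sym2 V)}
    (hω : ∀ e, e ∉ touch G K → (e ∈ ω ↔ e ∈ ω')) (x y : V) : conn G R ω x y ↔ conn G R ω' x y :=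
  ⟨dep_conn R x y ω ω' fun e he => hω e fun h' => he (touch_mono h h'),
    dep_conn R x y ω' ω fun e he => (hω e fun h' => he (touch_mono h h')).symm⟩

theorem cl_congr_off {K R : Set V} (h : K ⊆ R) {ω ω' : Set (Sym2 V)}
    (hω : ∀ e, e ∉ touch G K → (e ∈ ω ↔ e ∈ ω')) (x : V) : cl G R ω x = cl G R ω' x :=
  Set.ext fun y => conn_congr_off h hω x y

theorem hullR_congr_off {K R : Set V} (h : K ⊆ R) {ω ω' : Set (Sym2 V)}
    (hω : ∀ e, e ∉ touch G K → (e ∈ ω ↔ e ∈ ω')) (Y : Set V) :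
    hullR G R ω Y = hullR G R ω' Y :=
  Set.ext fun z => exists_congr fun y => and_congr_right fun _ => conn_congr_off h hω y z

theorem cl_union_hullR {R Y : Set V} {ω : Set (Sym2 V)} {x : V} (hx : x ∉ hullR G R ω Y) :
    cl G (R ∪ hullR G R ω Y) ω x = cl G R ω x :=
  cl_union_of_disjoint (Set.disjoint_left.2 fun _ hz ⟨y, hy, h⟩ =>
    hx ⟨y, hy, h.trans (conn.symm hz)⟩)

theorem hullR_union_of_disjoint {R S Y : Set V} {ω : Set (Sym2 V)}
    (h : Disjoint (hullR G R ω Y) S) : hullR G (R ∪ S) ω Y = hullR G R ω Y :=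
  Subset.antisymm (hullR_anti subset_union_left ω Y) fun _ ⟨y, hy, hz⟩ =>
    ⟨y, hy, hz.off_disjoint (h.mono_left (cl_subset_hullR hy))⟩

theorem disjoint_cl_iff {ω : Set (Sym2 V)} {R Y : Set V} {x : V} :
    Disjoint (cl G R ω x) Y ↔ x ∉ hullR G R ω Y :=
  ⟨fun h ⟨_, hy, hx⟩ => Set.disjoint_left.1 h hx.symm hy,
    fun h => Set.disjoint_left.2 fun y hy hY => h ⟨y, hY, conn.symm hy⟩⟩

theorem disjoint_hullR_cl {ω : Set (Sym2 V)} {R Y : Set V} {x : V} (hx : x ∉ hullR G R ω Y) :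
    Disjoint (hullR G R ω Y) (cl G R ω x) :=
  Set.disjoint_left.2 fun _ ⟨y, hy, h⟩ hz => hx ⟨y, hy, h.trans (conn.symm hz)⟩

/-- Two-stage exploration of a hull. -/
theorem hullR_two_stage {W K Y : Set V} {ω : Set (Sym2 V)} (hK : K ⊆ hullR G W ω Y) :
    hullR G W ω Y =
      K ∪ hullR G (W ∪ K) ω {v | v ∈ Y ∨ ∃ u ∈ K, G.Adj u v ∧ s(u, v) ∈ ω} := by
  refine Subset.antisymm ?_ (union_subset hK ?_)
  · rintro z ⟨y, hy, hz⟩
    refine hz.ind (Q := fun z => z ∈ K ∪ hullR G (W ∪ K) ω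
      {v | v ∈ Y ∨ ∃ u ∈ K, G.Adj u v ∧ s(u, v) ∈ ω}) ?_ ?_
    · by_cases hyK : y ∈ K
      · exact Or.inl hyK
      · exact Or.inr ⟨y, Or.inl hy, conn_refl fun h => h.elim hz.left hyK⟩
    · intro a b _ hab he hb ih
      by_cases hbK : b ∈ K
      · exact Or.inl hbK
      have hb' : b ∉ W ∪ K := fun h => h.elim hb hbK
      rcases ih with ha | ⟨v, hv, ha⟩
      · exact Or.inr ⟨b, Or.inr ⟨a, ha, hab, he⟩, conn_refl hb'⟩
      · exact Or.inr ⟨v, hv, ha.tail hab he hb'⟩
  · rintro z ⟨v, hv, hz⟩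
    have hz' : conn G W ω v z := hz.mono subset_union_left Subset.rfl
    rcases hv with hv | ⟨u, hu, huv, he⟩
    · exact ⟨v, hv, hz'⟩
    · obtain ⟨y, hy, h⟩ := hK hu
      exact ⟨y, hy, (h.tail huv he hz'.left).trans hz'⟩

variable [Fintype (Sym2 V)] {q : Sym2 V → ℝ}

/-- Domain Markov property for hulls. -/
theorem dm (R Y : Set V) (H : Set V → Set (Sym2 V) → ℝ)
    (hH : ∀ K ω ω', (∀ e, e ∉ touch G K → (e ∈ ω ↔ e ∈ ω')) → H K ω = H K ω') :
    Ex q (fun ω => H (hullR G R ω Y) ω) = Ex q fun ω => Ex q (H (hullR G R ω Y)) := by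
  rw [← Ex_spl (stop_hullR (G := G) R Y)]
  refine Ex_congr fun ω => Ex_congr fun ω' => ?_
  rw [hullR_spl]
  exact hH _ _ _ fun e he => mem_spl_of_notMem he

/-- Domain Markov property for clusters. -/
theorem dm_cl (R : Set V) (x : V) (H : Set V → Set (Sym2 V) → ℝ)
    (hH : ∀ K ω ω', (∀ e, e ∉ touch G K → (e ∈ ω ↔ e ∈ ω')) → H K ω = H K ω') :
    Ex q (fun ω => H (cl G R ω x) ω) = Ex q fun ω => Ex q (H (cl G R ω x)) := by
  simpa only [hullR_singleton] using dm (G := G) (q := q) R {x} H hH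

variable (G q) in
/-- Mean of `f` at the cluster of `x` off `K`. -/
noncomputable def phi (f : Set V → ℝ) (x : V) (K : Set V) : ℝ := Ex q fun ω => f (cl G K ω x)

variable {f : Set V → ℝ} {x : V}

theorem phi_anti (hq : Ok q) (hf : Monotone f) : Antitone (phi G q f x) := fun _ _ h =>
  Ex_mono hq fun ω => hf (cl_anti h ω x)

theorem phi_of_mem {K : Set V} (hx : x ∈ K) : phi G q f x K = f ∅ := by
  unfold phi
  simp only [cl_of_mem hx, Ex_const]

/-- The splice inequality. -/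
theorem lemmaA (hq : Ok q) (hf : Monotone f) {R R' : Set V} (h : R ⊆ R') (N : Set V) :
    Ex q (fun ω => phi G q f x (R ∪ hullR G R' ω N) - phi G q f x (R' ∪ hullR G R' ω N)) ≤
      phi G q f x R - phi G q f x R' := by
  have h0 : phi G q f x R - phi G q f x R' =
      Ex q fun ω => f (cl G R ω x) - f (cl G R' ω x) := by rw [Ex_sub]; rfl
  rw [h0, ← Ex_spl (stop_hullR (G := G) R' N) fun ω => f (cl G R ω x) - f (cl G R' ω x)]
  refine Ex_mono hq fun ω => ?_
  by_cases hx : x ∈ hullR G R' ω N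
  · rw [phi_of_mem (mem_union_right _ hx), phi_of_mem (mem_union_right _ hx), sub_self]
    exact Ex_nonneg hq fun ω' => sub_nonneg.2 (hf (cl_anti h _ x))
  · unfold phi
    rw [← Ex_sub]
    refine Ex_mono hq fun ω' => ?_
    have h1 : ∀ S : Set V, cl G (S ∪ hullR G R' ω N) (spl (touch G (hullR G R' ω N)) ω ω') x =
        cl G (S ∪ hullR G R' ω N) ω' x := fun S =>
      cl_congr_off subset_union_right (fun e he => mem_spl_of_notMem he) x
    have h2 := cl_union_hullR (G := G) (R := R') (Y := N)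
      (ω := spl (touch G (hullR G R' ω N)) ω ω') (x := x) (by rwa [hullR_spl])
    rw [hullR_spl] at h2
    rw [← h1, ← h1, h2]
    exact sub_le_sub_right (hf (cl_anti subset_union_left _ x)) _

variable (G q) in
/-- The gain function of a free cluster `W`. -/
noncomputable def psi (f : Set V → ℝ) (x : V) (Y W : Set V) : ℝ :=
  Ex q fun ω => phi G q f x (hullR G W ω Y) - phi G q f x (W ∪ hullR G W ω Y)

theorem psi_nonneg (hq : Ok q) (hf : Monotone f) (Y W : Set V) : 0 ≤ psi G q f x Y W :=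
  Ex_nonneg hq fun _ => sub_nonneg.2 (phi_anti hq hf subset_union_right)

theorem psi_mono (hq : Ok q) (hf : Monotone f) (Y : Set V) : Monotone (psi G q f x Y) := by
  intro W W' h
  unfold psi
  rw [← Ex_spl (stop_hullR (G := G) W' Y)
    fun ω => phi G q f x (hullR G W ω Y) - phi G q f x (W ∪ hullR G W ω Y)]
  refine Ex_mono hq fun ω => ?_
  set K := hullR G W' ω Y with hK
  have h1 : ∀ ω', hullR G W (spl (touch G K) ω ω') Y =
      K ∪ hullR G (W ∪ K) ω' {v | v ∈ Y ∨ ∃ u ∈ K, G.Adj u v ∧ s(u, v) ∈ ω} := fun ω' => by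
    have h2 : K ⊆ hullR G W (spl (touch G K) ω ω') Y := by
      have := hullR_anti (G := G) h (spl (touch G K) ω ω') Y
      rwa [hK, hullR_spl] at this
    rw [hullR_two_stage h2,
      hullR_congr_off subset_union_right (fun e he => mem_spl_of_notMem (ω := ω) (ω' := ω') he)]
    congr 2
    ext v
    refine or_congr_right (exists_congr fun u => and_congr_right fun hu =>
      and_congr_right fun huv => mem_spl_of_mem (mem_touch_of_adj huv hu))
  simp only [h1, ← union_assoc]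
  refine (lemmaA hq hf subset_union_right _).trans ?_
  exact sub_le_sub_left (phi_anti hq hf (union_subset_union_left _ h)) _

end Crest.Agent.R147.KN
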