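import Crest.Agent.R147.KN1

/-! Row 147, module KN (helper5): the Gibbs step. -/

set_option autoImplicit false

open Set Filter
open scoped Topology

namespace Crest.Agent.R147.KN

open Crest.Agent.R159

variable {V : Type*} {G : SimpleGraph V} [Fintype (Sym2 V)] {q : Sym2 V → ℝ}

variable (G q) in
open Classical in
/-- `E[g(C_z); C_z misses Y]`. -/
noncomputable def ell (g : Set V → ℝ) (Y : Set V) (z : V) : ℝ :=
  Ex q fun ω => if Disjoint (cl G ∅ ω z) Y then g (cl G ∅ ω z) else 0

variable (G q) in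
open Classical in
/-- `E[f(C_x); C_x misses Y and contains z]`. -/
noncomputable def em (f : Set V → ℝ) (x : V) (Y : Set V) (z : V) : ℝ :=
  Ex q fun ω => if Disjoint (cl G ∅ ω x) Y ∧ z ∈ cl G ∅ ω x then f (cl G ∅ ω x) else 0

variable (G q) in
/-- One step of the Gibbs sampler. -/
noncomputable def Pi (f : Set V → ℝ) (x : V) (Y S : Set V) : ℝ :=
  Ex q fun ω => phi G q f x (hullR G S ω Y)

variable {f g : Set V → ℝ} {x : V} {Y : Set V}

theorem Ex_eq_of_zero {F F' H : Set (Sym2 V) → ℝ} (hH : Ex q H = 0) (h : ∀ ω, F ω = F' ω + H ω) :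
    Ex q F = Ex q F' := by
  rw [Ex_congr h, Ex_add, hH, add_zero]

omit [Fintype (Sym2 V)] in
theorem self_mem_cl (ω : Set (Sym2 V)) (x : V) : x ∈ cl G ∅ ω x := conn_refl (notMem_empty x)

theorem ell_split (g : Set V → ℝ) (x : V) (Y : Set V) (z : V) :
    ell G q g Y z = em G q g x Y z + ell G q g (insert x Y) z := by
  classical
  unfold ell em
  rw [← Ex_add]
  refine Ex_congr fun ω => ?_
  by_cases h : z ∈ cl G ∅ ω x
  · have e : cl G ∅ ω x = cl G ∅ ω z := cl_eq_of_conn h
    have hx : x ∈ cl G ∅ ω z := conn.symm h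
    simp [e, hx, self_mem_cl]
  · have hx : x ∉ cl G ∅ ω z := fun h' => h (conn.symm h')
    simp [h, hx]

theorem ell_self (g : Set V → ℝ) (x : V) (Y : Set V) : ell G q g (insert x Y) x = 0 := by
  unfold ell
  simp [self_mem_cl, Ex_const]

theorem Pi_mono (hq : Ok q) (hf : Monotone f) : Monotone (Pi G q f x Y) := fun _ _ h =>
  Ex_mono hq fun ω => phi_anti hq hf (hullR_anti h ω Y)

omit [Fintype (Sym2 V)] in
theorem hullR_off_cl {ω : Set (Sym2 V)} {z : V} (h : Disjoint (cl G ∅ ω z) Y) :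
    hullR G (cl G ∅ ω z) ω Y = hullR G ∅ ω Y := by
  have := hullR_union_of_disjoint (disjoint_hullR_cl (disjoint_cl_iff.1 h))
  rwa [empty_union] at this

open Classical in
theorem em_Pi (z : V) :
    Ex q (fun ω => if Disjoint (cl G ∅ ω x) Y ∧ z ∈ cl G ∅ ω x then
      phi G q f x (hullR G ∅ ω Y) else 0) = em G q (Pi G q f x Y) x Y z := by
  have h := dm_cl (G := G) (q := q) ∅ x
    (fun S ω => if Disjoint S Y ∧ z ∈ S then phi G q f x (hullR G S ω Y) else 0)
    (fun K ω ω' hω => by rw [hullR_congr_off Subset.rfl hω])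
  refine Eq.trans (Ex_congr fun ω => ?_) (h.trans (Ex_congr fun ω => ?_))
  · split_ifs with h1
    · rw [hullR_off_cl h1.1]
    · rfl
  · split_ifs with h1
    · rfl
    · exact Ex_const 0

open Classical in
theorem orth (W : Set V) (h : Set V → ℝ) :
    Ex q (fun ω => h (hullR G W ω Y) * if x ∉ hullR G W ω Y then
      f (cl G W ω x) - phi G q f x (W ∪ hullR G W ω Y) else 0) = 0 := by
  have h1 := dm (G := G) (q := q) W Y
    (fun K ω => h K * if x ∉ K then f (cl G (W ∪ K) ω x) - phi G q f x (W ∪ K) else 0)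
    (fun K ω ω' hω => by rw [cl_congr_off subset_union_right hω])
  refine Eq.trans (Ex_congr fun ω => ?_) (h1.trans ?_)
  · split_ifs with h2
    · rfl
    · rw [cl_union_hullR h2]
  · refine (Ex_congr fun ω => ?_).trans (Ex_const 0)
    rw [Ex_mul]
    split_ifs with h2
    · rw [Ex_const, mul_zero]
    · rw [Ex_sub, Ex_const]
      exact mul_eq_zero_of_right _ (sub_self _)

open Classical in
theorem psi_eq (W : Set V) : psi G q f x Y W = Ex q fun ω =>
    if x ∉ hullR G W ω Y then phi G q f x (hullR G W ω Y) - f (cl G W ω x) else 0 := by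
  have h := orth (G := G) (q := q) (f := f) (x := x) (Y := Y) W fun _ => 1
  refine Ex_eq_of_zero h fun ω => ?_
  split_ifs with h2
  · rw [phi_of_mem h2, phi_of_mem (mem_union_right _ h2)]; ring
  · ring

/-- The basic identity of the Gibbs step. -/
theorem em_eq (z : V) :
    em G q f x Y z = ell G q (psi G q f x Y) (insert x Y) z + em G q (Pi G q f x Y) x Y z := by
  classical
  have h1 := dm_cl (G := G) (q := q) ∅ z
    (fun W ω => if Disjoint W (insert x Y) then
      (if x ∉ hullR G W ω Y then phi G q f x (hullR G W ω Y) - f (cl G W ω x) else 0) else 0)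
    (fun K ω ω' hω => by rw [hullR_congr_off Subset.rfl hω, cl_congr_off Subset.rfl hω])
  have h2 : ell G q (psi G q f x Y) (insert x Y) z = Ex q fun ω =>
      if Disjoint (cl G ∅ ω z) (insert x Y) then (if x ∉ hullR G ∅ ω Y then
        phi G q f x (hullR G ∅ ω Y) - f (cl G ∅ ω x) else 0) else 0 := by
    refine Eq.trans (Ex_congr fun ω => ?_) (h1.symm.trans (Ex_congr fun ω => ?_))
    · split_ifs with h3
      · rw [psi_eq]
      · exact (Ex_const 0).symm
    · by_cases h3 : Disjoint (cl G ∅ ω z) (insert x Y)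
      · have h4 : x ∉ cl G ∅ ω z := (disjoint_insert_right.1 h3).1
        have h5 : cl G (cl G ∅ ω z) ω x = cl G ∅ ω x := by
          have := cl_union_of_disjoint (G := G) (R := ∅) (ω := ω) (x := x) (S := cl G ∅ ω z)
            (Set.disjoint_left.2 fun v hv hv' => h4 (conn.trans hv' (conn.symm hv)))
          rwa [empty_union] at this
        rw [hullR_off_cl (disjoint_insert_right.1 h3).2, h5]
      · simp only [h3, if_false]
  have h3 := orth (G := G) (q := q) (f := f) (x := x) (Y := Y) ∅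
    fun K => if z ∈ K then 0 else 1
  rw [h2, ← em_Pi, ← Ex_add]
  refine Ex_eq_of_zero h3 fun ω => ?_
  simp only [empty_union, disjoint_insert_right]
  simp only [disjoint_cl_iff]
  by_cases hx : x ∈ hullR G ∅ ω Y
  · simp [hx]
  by_cases hz : z ∈ cl G ∅ ω x
  · have hxz : x ∈ cl G ∅ ω z := conn.symm hz
    have hzK : z ∉ hullR G ∅ ω Y := fun ⟨y, hy, h⟩ => hx ⟨y, hy, h.trans hxz⟩
    simp [hx, hz, hxz, hzK]
  · have hxz : x ∉ cl G ∅ ω z := fun h => hz (conn.symm h)
    by_cases hzK : z ∈ hullR G ∅ ω Y <;> simp [hx, hz, hxz, hzK]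

theorem Pi_contract (hq : Ok q) {c r : ℝ}
    (h : ∀ S, x ∈ S → Disjoint S Y → |f S - c| ≤ r) (S : Set V) (hx : x ∈ S) (hS : Disjoint S Y) :
    |Pi G q f x Y S - (wt q ∅ * f {x} + (1 - wt q ∅) * c)| ≤ (1 - wt q ∅) * r := by
  refine abs_Ex_sub_le hq fun ω => ?_
  have hxK : x ∉ hullR G S ω Y := fun ⟨_, _, h⟩ => h.right hx
  have := abs_Ex_contract hq (f := fun ω' => f (cl G (hullR G S ω Y) ω' x)) (c := c) (r := r)
    fun ω' => h _ (conn_refl hxK) (Set.disjoint_left.2 fun y hy hY =>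
      conn.right hy ⟨y, hY, conn_refl (Set.disjoint_right.1 hS hY)⟩)
  rwa [cl_empty_config hxK] at this

theorem abs_em_sub_le (hq : Ok q) {c r : ℝ} (hr : 0 ≤ r)
    (h : ∀ S, x ∈ S → Disjoint S Y → |f S - c| ≤ r) (z : V) :
    |em G q f x Y z - c * em G q (fun _ => 1) x Y z| ≤ r := by
  unfold em
  rw [← Ex_mul, ← Ex_sub, ← sub_zero (Ex _ _)]
  refine abs_Ex_sub_le hq fun ω => ?_
  split_ifs with h1
  · simpa using h _ (self_mem_cl ω x) h1.1
  · simpa using hr

variable [Fintype V]

theorem gibbs (hq : Ok q) (hq1 : ∀ e, q e < 1) (hx : x ∉ Y) (s : V → ℝ)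
    (h0 : ∑ z, s z * em G q (fun _ => 1) x Y z = 0)
    (hpos : ∀ g, Monotone g → (∀ W, 0 ≤ g W) → 0 ≤ ∑ z, s z * ell G q g (insert x Y) z)
    (hf : Monotone f) : 0 ≤ ∑ z, s z * em G q f x Y z := by
  have key : ∀ n : ℕ, ∀ f : Set V → ℝ, Monotone f → ∀ c r : ℝ,
      (∀ S, x ∈ S → Disjoint S Y → |f S - c| ≤ r) →
      -((1 - wt q ∅) ^ n * (r * ∑ z, |s z|)) ≤ ∑ z, s z * em G q f x Y z := by
    intro n
    induction n with
    | zero =>
      intro f _ c r h
      have hr : 0 ≤ r := (abs_nonneg _).trans (h {x} rfl (disjoint_singleton_left.2 hx))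
      have e : ∑ z, s z * em G q f x Y z =
          ∑ z, s z * (em G q f x Y z - c * em G q (fun _ => 1) x Y z) := by
        simp only [mul_sub, Finset.sum_sub_distrib, mul_left_comm _ c, ← Finset.mul_sum, h0,
          mul_zero, sub_zero]
      rw [e, pow_zero, one_mul, Finset.mul_sum, ← Finset.sum_neg_distrib]
      refine Finset.sum_le_sum fun z _ => neg_le_of_abs_le ?_
      rw [abs_mul, mul_comm r]
      exact mul_le_mul_of_nonneg_left (abs_em_sub_le hq hr h z) (abs_nonneg _)
    | succ n ih =>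
      intro f hf c r h
      have h1 := ih _ (Pi_mono (G := G) (x := x) (Y := Y) hq hf) _ _ (Pi_contract hq h)
      have h2 := hpos _ (psi_mono (G := G) (x := x) hq hf Y) (psi_nonneg hq hf Y)
      have e : ∑ z, s z * em G q f x Y z = ∑ z, s z * ell G q (psi G q f x Y) (insert x Y) z +
          ∑ z, s z * em G q (Pi G q f x Y) x Y z := by
        rw [← Finset.sum_add_distrib]
        exact Finset.sum_congr rfl fun z _ => by rw [em_eq (f := f) z, mul_add]
      rw [e, pow_succ]
      linarith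
  have h1 := fun n => key n f hf 0 (∑ S, |f S|) fun S _ _ => by
    rw [sub_zero]
    exact Finset.single_le_sum (f := fun S => |f S|) (fun _ _ => abs_nonneg _) (Finset.mem_univ S)
  have h2 : Tendsto (fun n : ℕ => -((1 - wt q ∅) ^ n * ((∑ S, |f S|) * ∑ z, |s z|))) atTop
      (𝓝 (-(0 * ((∑ S, |f S|) * ∑ z, |s z|)))) :=
    ((tendsto_pow_atTop_nhds_zero_of_lt_one (sub_nonneg.2 (wt_le_one hq ∅))
      (sub_lt_self _ (wt_empty_pos hq1))).mul_const _).neg
  simpa using le_of_tendsto' h2 h1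

end Crest.Agent.R147.KN
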