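import Crest.Agent.R147.KN2

/-! Row 147, module KN (helper5): the downward induction and the finite gluing inequality. -/

set_option autoImplicit false

open Set Filter
open scoped Topology

namespace Crest.Agent.R147.KN

open Crest.Agent.R159

variable {V : Type*} {G : SimpleGraph V} [Fintype (Sym2 V)] {q : Sym2 V → ℝ} [Fintype V]

theorem step (hq : Ok q) (hq1 : ∀ e, q e < 1) {x : V} {Y : Set V} (hx : x ∉ Y) (s : V → ℝ)
    (hs : s x = 0)
    (hpos : ∀ g, Monotone g → (∀ W, 0 ≤ g W) → 0 ≤ ∑ z, s z * ell G q g (insert x Y) z) :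
    ∃ β : ℝ, 0 ≤ β ∧ ∀ g, Monotone g → ∑ z, s z * ell G q g (insert x Y) z ≤
      ∑ z, s z * ell G q g Y z - β * ell G q g Y x := by
  classical
  have hD : ∀ f : Set V → ℝ, (∀ S, 0 ≤ f S) → wt q ∅ * f {x} ≤ em G q f x Y x := fun f hf => by
    have := wt_mul_le_Ex hq (f := fun ω => if Disjoint (cl G ∅ ω x) Y ∧ x ∈ cl G ∅ ω x then
      f (cl G ∅ ω x) else 0) (fun ω => by split_ifs; exacts [hf _, le_rfl]) ∅
    rw [cl_empty_config (notMem_empty x), if_pos ⟨disjoint_singleton_left.2 hx, rfl⟩] at this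
    convert this using 1
    unfold em
    congr
  have hD1 : 0 < em G q (fun _ => 1) x Y x :=
    (wt_empty_pos hq1).trans_le (by simpa using hD (fun _ => 1) fun _ => zero_le_one)
  set β := (∑ z, s z * em G q (fun _ => 1) x Y z) / em G q (fun _ => 1) x Y x with hβ
  have hβ' : β * em G q (fun _ => 1) x Y x = ∑ z, s z * em G q (fun _ => 1) x Y z :=
    div_mul_cancel₀ _ hD1.ne'
  have hsum : ∀ F : V → ℝ, ∑ z, (s z - if z = x then β else 0) * F z =
      ∑ z, s z * F z - β * F x := fun F => by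
    simp [sub_mul, Finset.sum_sub_distrib]
  have hG : ∀ f, Monotone f → 0 ≤ ∑ z, s z * em G q f x Y z - β * em G q f x Y x := fun f hf => by
    rw [← hsum]
    refine gibbs hq hq1 hx _ ?_ (fun g hg hg0 => ?_) hf
    · rw [hsum, hβ', sub_self]
    · rw [hsum, ell_self, mul_zero, sub_zero]
      exact hpos g hg hg0
  refine ⟨β, ?_, fun g hg => ?_⟩
  · have h1 := hG (fun S => if S ⊆ {x} then 0 else 1) fun S T hST => by
      by_cases hT : T ⊆ {x}
      · simp [hT, Subset.trans hST hT]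
      · simp only [hT, if_false]
        split_ifs <;> norm_num
    have h2 : ∑ z, s z * em G q (fun S => if S ⊆ {x} then 0 else 1) x Y z =
        ∑ z, s z * em G q (fun _ => 1) x Y z := Finset.sum_congr rfl fun z _ => by
      by_cases hz : z = x
      · rw [hz, hs, zero_mul, zero_mul]
      · congr 1
        refine Ex_congr fun ω => ?_
        by_cases h : Disjoint (cl G ∅ ω x) Y ∧ z ∈ cl G ∅ ω x
        · rw [if_pos h, if_pos h]
          exact if_neg fun h' => hz (h' h.2)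
        · rw [if_neg h, if_neg h]
    have h3 : em G q (fun _ => 1) x Y x = em G q (fun S => if S ⊆ {x} then 0 else 1) x Y x +
        em G q (fun S => if S ⊆ {x} then 1 else 0) x Y x := by
      unfold em
      rw [← Ex_add]
      refine Ex_congr fun ω => ?_
      beta_reduce
      split_ifs <;> norm_num
    have h4 := hD (fun S => if S ⊆ {x} then 1 else 0) fun S => by split_ifs <;> norm_num
    rw [if_pos Subset.rfl, mul_one] at h4
    rw [h2, ← hβ', h3] at h1
    have h5 := (wt_empty_pos hq1).trans_le h4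
    by_contra hneg
    nlinarith [mul_pos (neg_pos.2 (not_le.1 hneg)) h5]
  · have h1 := hG g hg
    have h2 : ∑ z, s z * ell G q g Y z =
        ∑ z, s z * em G q g x Y z + ∑ z, s z * ell G q g (insert x Y) z := by
      rw [← Finset.sum_add_distrib]
      exact Finset.sum_congr rfl fun z _ => by rw [ell_split g x Y z, mul_add]
    rw [h2, ell_split g x Y x, ell_self]
    linarith

omit [Fintype V] in
theorem ell_nonneg (hq : Ok q) {g : Set V → ℝ} (hg : ∀ W, 0 ≤ g W) (Y : Set V) (z : V) :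
    0 ≤ ell G q g Y z := Ex_nonneg hq fun ω => by split_ifs; exacts [hg _, le_rfl]

/-- The invariant of the downward induction. -/
def Inv (G : SimpleGraph V) (q : Sym2 V → ℝ) (o : V) (A Y : Set V) : Prop :=
  ∃ β : V → ℝ, (∀ z, 0 ≤ β z) ∧ (∀ z, β z ≠ 0 → z ∈ A ∧ z ∉ Y) ∧
    ∀ g, Monotone g → ell G q g A o ≤ ell G q g Y o - ∑ z, β z * ell G q g Y z

theorem inv_step (hq : Ok q) (hq1 : ∀ e, q e < 1) {o x : V} {A Y : Set V} (ho : o ∉ A)
    (hxA : x ∈ A) (hx : x ∉ Y) (h : Inv G q o A (insert x Y)) : Inv G q o A Y := by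
  classical
  obtain ⟨β, h0, hsupp, hle⟩ := h
  have hxo : x ≠ o := fun h => ho (h ▸ hxA)
  have hβx : β x = 0 := by_contra fun h => (hsupp x h).2 (mem_insert x Y)
  have hsum : ∀ F : V → ℝ, ∑ z, ((if z = o then 1 else 0) - β z) * F z =
      F o - ∑ z, β z * F z := fun F => by
    simp [sub_mul, Finset.sum_sub_distrib]
  obtain ⟨b, hb, hb'⟩ := step (G := G) hq hq1 hx (fun z => (if z = o then 1 else 0) - β z)
    (by simp [hxo, hβx]) fun g hg hg0 => by
      rw [hsum]
      exact (ell_nonneg hq hg0 A o).trans (hle g hg)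
  refine ⟨fun z => β z + if z = x then b else 0, fun z => ?_, fun z hz => ?_, fun g hg => ?_⟩
  · have := h0 z
    beta_reduce
    split_ifs <;> linarith
  · by_cases hzx : z = x
    · exact hzx ▸ ⟨hxA, hx⟩
    · have := hsupp z (by simpa [hzx] using hz)
      exact ⟨this.1, fun h => this.2 (mem_insert_of_mem x h)⟩
  · have h1 := hb' g hg
    rw [hsum, hsum] at h1
    have h2 := hle g hg
    have h3 : ∑ z, (β z + if z = x then b else 0) * ell G q g Y z =
        ∑ z, β z * ell G q g Y z + b * ell G q g Y x := by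
      simp [add_mul, Finset.sum_add_distrib]
    rw [h3]
    linarith

theorem inv_empty (hq : Ok q) (hq1 : ∀ e, q e < 1) {o : V} {A : Set V} (ho : o ∉ A) :
    Inv G q o A ∅ := by
  have key : ∀ Y : Set V, Y.Finite → Y ⊆ A → Inv G q o A Y → Inv G q o A ∅ := by
    intro Y hY
    induction Y, hY using Set.Finite.induction_on with
    | empty => exact fun _ h => h
    | @insert x Y hx _ ih =>
      exact fun hA h => ih ((subset_insert x Y).trans hA)
        (inv_step hq hq1 ho (hA (mem_insert x Y)) hx h)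
  exact key A (toFinite A) Subset.rfl ⟨fun _ => 0, fun _ => le_rfl, fun _ h => absurd rfl h,
    fun g _ => by simp⟩

omit [Fintype V] in
theorem ell_empty (g : Set V → ℝ) (z : V) : ell G q g ∅ z = Ex q fun ω => g (cl G ∅ ω z) := by
  unfold ell
  simp

open Classical in
theorem core_lt (hq : Ok q) (hq1 : ∀ e, q e < 1) (o : V) (A : Set V) (𝒢 : Set (Set V))
    (h𝒢 : IsUpperSet 𝒢) (δ : ℝ)
    (hA : ∀ a ∈ A, Ex q (fun ω => if cl G ∅ ω a ∉ 𝒢 then 1 else 0) ≤ δ) :
    Ex q (fun ω => if (∃ a ∈ A, a ∈ cl G ∅ ω o) ∧ cl G ∅ ω o ∉ 𝒢 then 1 else 0) ≤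
      δ * Ex q fun ω => if ∃ a ∈ A, a ∈ cl G ∅ ω o then 1 else 0 := by
  by_cases ho : o ∈ A
  · have h : ∀ ω, ∃ a ∈ A, a ∈ cl G ∅ ω o := fun ω => ⟨o, ho, self_mem_cl ω o⟩
    simpa [h, Ex_const] using hA o ho
  obtain ⟨β, h0, hsupp, hle⟩ := inv_empty (G := G) hq hq1 ho
  have h1 := hle (fun _ => 1) monotone_const
  have h2 := hle (fun S => -(if S ∉ 𝒢 then 1 else 0)) fun S T hST => by
    by_cases hS : S ∈ 𝒢
    · simp [hS, h𝒢 hST hS]
    · simp only [hS, not_false_eq_true, if_true]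
      split_ifs <;> norm_num
  simp only [ell_empty, Ex_const, mul_one, Ex_neg] at h1 h2
  have hd : ∀ ω, Disjoint (cl G ∅ ω o) A ↔ ¬ ∃ a ∈ A, a ∈ cl G ∅ ω o := fun ω => by
    rw [disjoint_right]; simp
  have e1 : Ex q (fun ω => if ∃ a ∈ A, a ∈ cl G ∅ ω o then 1 else 0) =
      1 - ell G q (fun _ => 1) A o := by
    unfold ell
    rw [eq_sub_iff_add_eq, ← Ex_add]
    refine (Ex_congr fun ω => ?_).trans (Ex_const 1)
    rw [hd]
    by_cases h : ∃ a ∈ A, a ∈ cl G ∅ ω o <;> simp only [h] <;> norm_num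
  have e2 : Ex q (fun ω => if (∃ a ∈ A, a ∈ cl G ∅ ω o) ∧ cl G ∅ ω o ∉ 𝒢 then 1 else 0) =
      Ex q (fun ω => if cl G ∅ ω o ∉ 𝒢 then 1 else 0) +
        ell G q (fun S => -(if S ∉ 𝒢 then 1 else 0)) A o := by
    unfold ell
    refine Eq.trans (Ex_congr fun ω => ?_) (Ex_add _ _)
    rw [hd]
    by_cases h : ∃ a ∈ A, a ∈ cl G ∅ ω o <;> by_cases h' : cl G ∅ ω o ∈ 𝒢 <;>
      simp only [h, h'] <;> norm_num
  have h3 : ∑ z, β z * Ex q (fun ω => if cl G ∅ ω z ∉ 𝒢 then 1 else 0) ≤ ∑ z, β z * δ :=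
    Finset.sum_le_sum fun z _ => by
      by_cases hz : β z = 0
      · simp [hz]
      · exact mul_le_mul_of_nonneg_left (hA z (hsupp z hz).1) (h0 z)
  have h4 := hle (fun _ => -1) monotone_const
  have e3 : ell G q (fun _ => -1) A o = - ell G q (fun _ => 1) A o := by
    unfold ell
    rw [← Ex_neg]
    exact Ex_congr fun ω => by split_ifs <;> norm_num
  simp only [ell_empty, Ex_const, e3, mul_neg, mul_one, Finset.sum_neg_distrib] at h2 h4
  rw [← Finset.sum_mul] at h3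
  have e4 : 1 - ell G q (fun _ => 1) A o = ∑ z, β z := by linarith
  rw [e1, e2, e4]
  linarith

open Classical in
theorem core (hq : Ok q) (o : V) (A : Set V) (𝒢 : Set (Set V))
    (h𝒢 : IsUpperSet 𝒢) (δ : ℝ)
    (hA : ∀ a ∈ A, Ex q (fun ω => if cl G ∅ ω a ∉ 𝒢 then 1 else 0) ≤ δ) :
    Ex q (fun ω => if (∃ a ∈ A, a ∈ cl G ∅ ω o) ∧ cl G ∅ ω o ∉ 𝒢 then 1 else 0) ≤
      δ * Ex q fun ω => if ∃ a ∈ A, a ∈ cl G ∅ ω o then 1 else 0 := by
  have hc : ∀ F : Set (Sym2 V) → ℝ, Continuous fun t : ℝ => Ex (fun e => t * q e) F := fun F =>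
    (continuous_Ex F).comp (by fun_prop)
  set F : V → Set (Sym2 V) → ℝ := fun a ω => if cl G ∅ ω a ∉ 𝒢 then 1 else 0 with hF
  have key : ∀ t ∈ Ico (0 : ℝ) 1,
      Ex (fun e => t * q e)
        (fun ω => if (∃ a ∈ A, a ∈ cl G ∅ ω o) ∧ cl G ∅ ω o ∉ 𝒢 then 1 else 0) ≤
      (δ + ∑ a, |Ex (fun e => t * q e) (F a) - Ex q (F a)|) *
        Ex (fun e => t * q e) fun ω => if ∃ a ∈ A, a ∈ cl G ∅ ω o then 1 else 0 := by
    intro t ht
    have h1 : ∀ e, t * q e < 1 := fun e =>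
      (mul_le_of_le_one_right ht.1 (hq e).2).trans_lt ht.2
    refine core_lt (fun e => ⟨mul_nonneg ht.1 (hq e).1, (h1 e).le⟩) h1 o A 𝒢 h𝒢 _ fun a ha => ?_
    have h2 := Finset.single_le_sum (f := fun a => |Ex (fun e => t * q e) (F a) - Ex q (F a)|)
      (fun _ _ => abs_nonneg _) (Finset.mem_univ a)
    have h3 := le_abs_self (Ex (fun e => t * q e) (F a) - Ex q (F a))
    have h4 := hA a ha
    change Ex _ (F a) ≤ _ at h4 ⊢
    linarith
  have h := closure_minimal key (isClosed_le (hc _)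
    ((continuous_const.add (continuous_finsetSum _ fun a _ =>
      ((hc _).sub continuous_const).abs)).mul (hc _)))
    (show (1 : ℝ) ∈ closure (Ico (0 : ℝ) 1) by rw [closure_Ico zero_ne_one]; simp)
  have h' : Ex (fun e => 1 * q e)
        (fun ω => if (∃ a ∈ A, a ∈ cl G ∅ ω o) ∧ cl G ∅ ω o ∉ 𝒢 then 1 else 0) ≤
      (δ + ∑ a, |Ex (fun e => 1 * q e) (F a) - Ex q (F a)|) *
        Ex (fun e => 1 * q e) fun ω => if ∃ a ∈ A, a ∈ cl G ∅ ω o then 1 else 0 := h
  simpa using h'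

end Crest.Agent.R147.KN
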