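import Crest.Agent.R147.KN3

/-! Row 147, module KN (helper5): wiring and restriction to a finite region. -/

set_option autoImplicit false

open MeasureTheory Set
open scoped ENNReal NNReal

namespace Crest.Agent.R147.KN

open Crest.Agent.R159

variable {V : Type*} (G : SimpleGraph V) (S : Finset V) (O : Set V)

/-- Restriction to `S` with `O` wired. -/
def rho (ω : Set (Sym2 V)) : Set (Sym2 S) :=
  {e | (∀ v ∈ e, (v : V) ∈ O) ∨ (Sym2.map Subtype.val e ∈ G.edgeSet ∧ Sym2.map Subtype.val e ∈ ω)}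

open Classical in
/-- The parameters of the restricted configuration. -/
noncomputable def rpi (π : Sym2 V → unitInterval) (e : Sym2 S) : unitInterval :=
  if ∀ v ∈ e, (v : V) ∈ O then 1 else
    if Sym2.map Subtype.val e ∈ G.edgeSet then π (Sym2.map Subtype.val e) else 0

theorem measurable_rho : Measurable (rho G S O) :=
  measurable_set_iff.2 fun _ => measurable_const.or (measurable_const.and (measurable_set_mem _))

theorem map_rho (π : Sym2 V → unitInterval) : (bern π).map (rho G S O) = bern (rpi G S O π) := by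
  classical
  have := Measure.isProbabilityMeasure_map (μ := bern π) (measurable_rho G S O).aemeasurable
  refine ext_avoid fun J => ?_
  rw [Measure.map_apply (measurable_rho G S O) (measurableSet_avoid J), bern_avoid]
  by_cases h : ∃ e ∈ J, ∀ v ∈ e, (v : V) ∈ O
  · obtain ⟨e, he, hO⟩ := h
    have : rho G S O ⁻¹' {ω | ∀ i ∈ J, i ∉ ω} = ∅ :=
      eq_empty_of_forall_notMem fun ω hω => hω e he (Or.inl hO)
    rw [this, measure_empty, Finset.prod_eq_zero he]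
    rw [rpi, if_pos hO, pe_symm, pe_eq_ofReal]
    simp
  · have hinj : Function.Injective (Sym2.map (Subtype.val : S → V)) :=
      Sym2.map.injective Subtype.val_injective
    have : rho G S O ⁻¹' {ω | ∀ i ∈ J, i ∉ ω} = {ω | ∀ i ∈ (J.filter fun e =>
        Sym2.map Subtype.val e ∈ G.edgeSet).image (Sym2.map Subtype.val), i ∉ ω} := by
      ext ω
      simp only [mem_preimage, mem_ofPred_eq, Finset.forall_mem_image, Finset.mem_filter]
      exact ⟨fun h1 e he h2 => h1 e he.1 (Or.inr ⟨he.2, h2⟩),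
        fun h1 e he h2 => h2.elim (fun h3 => h ⟨e, he, h3⟩) fun h3 => h1 ⟨he, h3.1⟩ h3.2⟩
    rw [this, bern_avoid, Finset.prod_image hinj.injOn, Finset.prod_filter]
    refine Finset.prod_congr rfl fun e he => ?_
    rw [rpi, if_neg fun h3 => h ⟨e, he, h3⟩]
    split_ifs
    · rfl
    · simp

variable {G S O}

theorem conn_rho {ω : Set (Sym2 V)} {a : S} {b : V} (h : conn G (↑S)ᶜ ω a b) :
    b ∈ Subtype.val '' cl ⊤ ∅ (rho G S O ω) a := by
  refine h.ind (Q := fun b => b ∈ Subtype.val '' cl ⊤ ∅ (rho G S O ω) a)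
    ⟨a, conn_refl (notMem_empty _), rfl⟩ ?_
  rintro _ v - huv he hv ⟨u, hu, rfl⟩
  have hv' : v ∈ S := by simpa using hv
  refine ⟨⟨v, hv'⟩, conn.tail hu ?_ (Or.inr ⟨huv, he⟩) (notMem_empty _), rfl⟩
  exact fun h' => huv.ne (congrArg Subtype.val h')

theorem cl_rho {ω : Set (Sym2 V)} {o : S} (ho : (o : V) ∈ O) :
    Subtype.val '' cl ⊤ ∅ (rho G S O ω) o = hullR G (↑S)ᶜ ω O := by
  refine Subset.antisymm ?_ ?_
  · rintro _ ⟨z, hz, rfl⟩
    refine conn.ind (Q := fun z : S => (z : V) ∈ hullR G (↑S)ᶜ ω O) hz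
      ⟨o, ho, conn_refl (by simp)⟩ ?_
    rintro u v - - (he | he) - ⟨y, hy, h⟩
    · exact ⟨v, he v (Sym2.mem_mk_right u v), conn_refl (by simp)⟩
    · exact ⟨y, hy, h.tail he.1 he.2 (by simp)⟩
  · rintro z ⟨y, hy, h⟩
    have hyS : y ∈ S := by simpa using h.left
    obtain ⟨z', hz', rfl⟩ := conn_rho (O := O) (a := ⟨y, hyS⟩) h
    refine ⟨z', conn.trans ?_ hz', rfl⟩
    by_cases e : o = ⟨y, hyS⟩
    · rw [e]; exact conn_refl (notMem_empty _)
    · refine (conn_refl (notMem_empty _)).tail e (Or.inl fun v hv => ?_) (notMem_empty _)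
      rcases Sym2.mem_iff.1 hv with rfl | rfl
      exacts [ho, hy]

theorem core_bern {W : Type*} [Finite W] (H : SimpleGraph W) (π : Sym2 W → unitInterval) (o : W)
    (A : Set W) (𝒢 : Set (Set W)) (h𝒢 : IsUpperSet 𝒢) (δ : ℝ≥0∞)
    (hA : ∀ a ∈ A, bern π {ω | cl H ∅ ω a ∉ 𝒢} ≤ δ) :
    bern π {ω | (∃ a ∈ A, a ∈ cl H ∅ ω o) ∧ cl H ∅ ω o ∉ 𝒢} ≤
      δ * bern π {ω | ∃ a ∈ A, a ∈ cl H ∅ ω o} := by
  classical
  by_cases hδ : 1 ≤ δ
  · exact (measure_mono fun ω hω => hω.1).trans (le_mul_of_one_le_left' hδ)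
  have hδ' : δ ≠ ∞ := ne_top_of_lt (not_le.1 hδ)
  have := Fintype.ofFinite W
  have := Fintype.ofFinite (Sym2 W)
  have h := core (G := H) (ok_coe π) o A 𝒢 h𝒢 δ.toReal fun a ha => by
    have := hA a ha
    rw [bern_eq_Ex, ENNReal.ofReal_le_iff_le_toReal hδ'] at this
    convert this using 3
    congr
  rw [bern_eq_Ex, bern_eq_Ex, ← ENNReal.ofReal_toReal hδ',
    ← ENNReal.ofReal_mul ENNReal.toReal_nonneg]
  refine ENNReal.ofReal_le_ofReal ?_
  convert h using 3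
  · congr
  · funext ω
    congr

theorem general (G : SimpleGraph V) (π : Sym2 V → unitInterval) (S : Finset V) (O A : Set V)
    (𝒢 : Set (Set V)) (h𝒢 : IsUpperSet 𝒢) (δ : ℝ≥0∞)
    (hA : ∀ a ∈ A, a ∈ S → bern π {ω | cl G (↑S)ᶜ ω a ∉ 𝒢} ≤ δ) :
    bern π {ω | (∃ a ∈ A, a ∈ hullR G (↑S)ᶜ ω O) ∧ hullR G (↑S)ᶜ ω O ∉ 𝒢} ≤
      δ * bern π {ω | ∃ a ∈ A, a ∈ hullR G (↑S)ᶜ ω O} := by
  by_cases hO : ∃ o : S, (o : V) ∈ O
  swap
  · have : {ω | (∃ a ∈ A, a ∈ hullR G (↑S)ᶜ ω O) ∧ hullR G (↑S)ᶜ ω O ∉ 𝒢} = ∅ :=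
      eq_empty_of_forall_notMem fun ω ⟨⟨a, _, y, hy, h⟩, _⟩ =>
        hO ⟨⟨y, by simpa using h.left⟩, hy⟩
    rw [this, measure_empty]
    exact zero_le
  obtain ⟨o, ho⟩ := hO
  have hm : ∀ E : Set (Set (Sym2 S)), bern (rpi G S O π) E = bern π (rho G S O ⁻¹' E) := fun E => by
    rw [← map_rho, Measure.map_apply (measurable_rho G S O) (toFinite E).measurableSet]
  have h := core_bern (⊤ : SimpleGraph S) (rpi G S O π) o (Subtype.val ⁻¹' A)
    {C | Subtype.val '' C ∈ 𝒢} (fun C D hCD hC => h𝒢 (image_mono hCD) hC) δ fun a ha => by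
      rw [hm]
      refine le_trans (measure_mono ?_) (hA a ha a.2)
      exact fun ω hω h' => hω (h𝒢 (fun b hb => conn_rho hb) h')
  rw [hm, hm] at h
  have e : ∀ ω, (∃ a ∈ A, a ∈ hullR G (↑S)ᶜ ω O) ↔
      ∃ a ∈ Subtype.val ⁻¹' A, a ∈ cl ⊤ ∅ (rho G S O ω) o := fun ω => by
    rw [← cl_rho ho]
    exact ⟨fun ⟨_, ha, b, hb, e⟩ => ⟨b, by rwa [← e] at ha, hb⟩,
      fun ⟨a, ha, h⟩ => ⟨a, ha, a, h, rfl⟩⟩
  convert h using 2
  · ext ω
    simp only [mem_preimage, mem_ofPred_eq, cl_rho ho, e]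
  · congr 1
    ext ω
    simp only [mem_preimage, mem_ofPred_eq, e]

end Crest.Agent.R147.KN
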