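import Crest.Agent.R159.Conn0
import Crest.Agent.R159.Bern0

/-! Row 147, module KN (helper5): definitions for the Kozma-Nitzan gluing inequality. -/

set_option autoImplicit false

open Set

namespace Crest.Agent.R147

open Crest.Agent.R159

variable {V : Type*} (G : SimpleGraph V)

/-- Union of the clusters off `R` of the points of `Y`. -/
def hullR (R : Set V) (ω : Set (Sym2 V)) (Y : Set V) : Set V := {z | ∃ y ∈ Y, conn G R ω y z}

end Crest.Agent.R147
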