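import Crest.Agent.R147.TDefs

/-!
Row 147: the triangle inequality for two-arm probabilities (`lt_fin`).

The cluster of the middle point `b` is explored edge by edge; before an edge `(w, v)` is revealed
one may first *probe* whether `v` lies in a big cluster different from that of `b`.
-/

set_option autoImplicit false

open MeasureTheory ProbabilityTheory Set
open scoped ENNReal NNReal

namespace Crest.Agent.R147.T

open Crest.Agent.R159

/-! ### Two numerical inequalities -/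

theorem lt_num_a {p u0 u1 g0 g1 f0 f1 : ℝ} (hp0 : 0 ≤ p) (hp1 : p ≤ 1) (hu1 : 0 ≤ u1)
    (hu : u1 ≤ u0) (hg0 : 0 ≤ g0) (hg : g0 ≤ g1) (h0 : f0 ≤ √u0 * g0) (h1 : f1 ≤ √u1 * g1) :
    p * f1 + (1 - p) * f0 ≤ √(p * u1 + (1 - p) * u0) * (p * g1 + (1 - p) * g0) := by
  have hq : 0 ≤ 1 - p := by linarith
  have hab : √u1 ≤ √u0 := Real.sqrt_le_sqrt hu
  have ha := Real.sq_sqrt hu1
  have hb := Real.sq_sqrt (hu1.trans hu)
  set a := √u1
  set b := √u0
  have hJ : p * a + (1 - p) * b ≤ √(p * u1 + (1 - p) * u0) := by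
    refine Real.le_sqrt_of_sq_le ?_
    rw [← ha, ← hb]
    nlinarith [mul_nonneg (mul_nonneg hp0 hq) (sq_nonneg (a - b))]
  have hg' : 0 ≤ p * g1 + (1 - p) * g0 :=
    add_nonneg (mul_nonneg hp0 (hg0.trans hg)) (mul_nonneg hq hg0)
  refine le_trans ?_ (mul_le_mul_of_nonneg_right hJ hg')
  nlinarith [mul_nonneg (mul_nonneg hp0 hq) (mul_nonneg (sub_nonneg.2 hab) (sub_nonneg.2 hg)),
    mul_le_mul_of_nonneg_left h1 hp0, mul_le_mul_of_nonneg_left h0 hq]

theorem lt_num_core {p r η y δ a0 a1 : ℝ} (hp0 : 0 ≤ p) (hp1 : p ≤ 1) (hη0 : 0 ≤ η)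
    (hη : η ≤ 1 / 3) (hr : r * (1 - p * η) = p * (1 - η)) (hδ : 3 * η ≤ δ) (hy : y ≤ 1)
    (h0 : y ≤ a0) (h1 : y - δ ≤ a1) (_ha1 : 0 ≤ a1) (hpos : 0 ≤ y - r * δ) :
    (y - r * δ) ^ 2 ≤ p * a1 ^ 2 + (1 - p) * a0 ^ 2 := by
  have hq : 0 ≤ 1 - p := by linarith
  have hpη : p * η ≤ 1 / 3 := by nlinarith
  have hpη0 : 0 ≤ p * η := mul_nonneg hp0 hη0
  have hδ0 : 0 ≤ δ := by linarith
  have hr0 : 0 ≤ r := by
    by_contra h
    have : r * (1 - p * η) < 0 := mul_neg_of_neg_of_pos (not_le.1 h) (by linarith)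
    nlinarith
  have hpr : (p - r) * (1 - p * η) = p * η * (1 - p) := by linear_combination -hr
  have hrp : r ≤ p := by
    by_contra h
    have : (p - r) * (1 - p * η) < 0 := mul_neg_of_neg_of_pos (by linarith) (by linarith)
    nlinarith [mul_nonneg hpη0 hq]
  have hy0 : 0 ≤ y := by nlinarith [mul_nonneg hr0 hδ0]
  have hA0 : y ^ 2 ≤ a0 ^ 2 := pow_le_pow_left₀ hy0 h0 2
  have hA0' := mul_le_mul_of_nonneg_left hA0 hq
  rcases le_total δ y with hc | hc
  · have hA1 : (y - δ) ^ 2 ≤ a1 ^ 2 := pow_le_pow_left₀ (by linarith) h1 2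
    have hA1' := mul_le_mul_of_nonneg_left hA1 hp0
    have e1 : 2 * (p - r) ≤ 3 * (p * η * (1 - p)) := by
      nlinarith [mul_nonneg (sub_nonneg.2 hrp) (sub_nonneg.2 hpη)]
    have e2 : 2 * y * (p - r) ≤ 2 * (p - r) := by nlinarith [sub_nonneg.2 hrp]
    have e3 : 3 * (p * η * (1 - p)) ≤ δ * (p * (1 - p)) := by
      nlinarith [mul_nonneg hp0 hq]
    have e4 : δ * (p * (1 - p)) ≤ δ * (p - r ^ 2) := by
      refine mul_le_mul_of_nonneg_left ?_ hδ0
      nlinarith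
    have e5 : 2 * y * (p - r) * δ ≤ δ * (p - r ^ 2) * δ :=
      mul_le_mul_of_nonneg_right (by linarith) hδ0
    nlinarith
  · have hx : (1 - r) * (1 - p * η) = 1 - p := by linear_combination -hr
    have hx0 : 0 ≤ 1 - r := by linarith
    have hx2 : (1 - r) ^ 2 ≤ 1 - p := by
      have e1 : 1 - r ≤ 1 - p * η := by
        have : p * η ≤ r := by
          by_contra h
          have h' : r * (1 - p * η) ≤ p * η * (1 - p * η) :=
            mul_le_mul_of_nonneg_right (not_le.1 h).le (by linarith)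
          have : p * η * (1 - p * η) ≤ p * η := by nlinarith
          have h3 : r < p * η := not_le.1 h
          nlinarith
        linarith
      calc (1 - r) ^ 2 = (1 - r) * (1 - r) := sq _
        _ ≤ (1 - r) * (1 - p * η) := mul_le_mul_of_nonneg_left e1 hx0
        _ = 1 - p := hx
    have e2 : y - r * δ ≤ y * (1 - r) := by nlinarith [mul_le_mul_of_nonneg_left hc hr0]
    have e3 : (y - r * δ) ^ 2 ≤ (y * (1 - r)) ^ 2 := pow_le_pow_left₀ hpos e2 2
    have e4 : (y * (1 - r)) ^ 2 ≤ y ^ 2 * (1 - p) := by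
      rw [mul_pow]
      exact mul_le_mul_of_nonneg_left hx2 (sq_nonneg y)
    nlinarith [mul_nonneg hp0 (sq_nonneg a1)]

theorem lt_num_b {p u0 u1 s0 A0 s1 A1 D eps : ℝ} (hp0 : 0 ≤ p) (hp1 : p ≤ 1) (hu1 : 0 ≤ u1)
    (hu : u1 ≤ u0) (hs0 : 0 ≤ s0) (hA0 : 0 ≤ A0) (hs1 : 0 ≤ s1) (heA : eps ≤ A0)
    (hD : 2 * eps ≤ D) (hsD : s1 + D ≤ s0) (hg : s0 + A0 ≤ s1 + A1 + eps)
    (h0 : s0 - 2 * A0 ≤ √u0 * (s0 + A0)) (h1 : s1 - 2 * A1 ≤ √u1 * (s1 + A1)) :
    p * (s1 - 2 * A1) + (1 - p) * (s0 - 2 * A0) ≤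
      √(p * u1 + (1 - p) * u0) * (p * (s1 + A1) + (1 - p) * (s0 + A0)) := by
  rcases le_or_gt (s0 + A0) (s1 + A1) with hc | hc
  · exact lt_num_a hp0 hp1 hu1 hu (add_nonneg hs0 hA0) hc h0 h1
  have hq : 0 ≤ 1 - p := by linarith
  set g0 := s0 + A0 with hg0
  set g1 := s1 + A1 with hg1
  have he3 : 3 * (g0 - g1) ≤ g0 := by linarith
  have hg0p : 0 < g0 := by linarith
  have hg1p : 0 < g1 := by linarith
  have hgp : 0 < p * g1 + (1 - p) * g0 := by
    nlinarith [mul_nonneg hq (sub_nonneg.2 hc.le)]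
  set g := p * g1 + (1 - p) * g0 with hgdef
  have key := lt_num_core (p := p) (r := p * g1 / g) (η := (g0 - g1) / g0)
    (y := (s0 - 2 * A0) / g0) (δ := (s0 - 2 * A0) / g0 - (s1 - 2 * A1) / g1)
    (a0 := √u0) (a1 := √u1) hp0 hp1 (div_nonneg (by linarith) hg0p.le)
    ((div_le_iff₀ hg0p).2 (by linarith))
    (by field_simp; rw [hgdef]; ring)
    (by
      have e1 : s0 - 2 * A0 = 3 * s0 - 2 * g0 := by rw [hg0]; ring
      have e2 : s1 - 2 * A1 = 3 * s1 - 2 * g1 := by rw [hg1]; ring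
      rw [e1, e2, div_sub_div _ _ hg0p.ne' hg1p.ne', ← mul_div_assoc,
        div_le_div_iff₀ hg0p (mul_pos hg0p hg1p)]
      have e3 : s0 ≤ g0 := by linarith
      have e4 : 2 * (g0 - g1) ≤ s0 - s1 := by linarith
      have e5 : (g0 - g1) * g1 ≤ s0 * g1 - g0 * s1 := by
        nlinarith [mul_le_mul_of_nonneg_left e4 hg0p.le,
          mul_le_mul_of_nonneg_left e3 (sub_nonneg.2 hc.le),
          mul_nonneg (sub_nonneg.2 hc.le) (sub_nonneg.2 hc.le)]
      nlinarith [mul_le_mul_of_nonneg_right e5 hg0p.le])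
    ((div_le_one hg0p).2 (by linarith)) ((div_le_iff₀ hg0p).2 h0)
    (by rw [sub_sub_cancel]; exact (div_le_iff₀ hg1p).2 h1) (Real.sqrt_nonneg _)
  have eq : (s0 - 2 * A0) / g0 - p * g1 / g * ((s0 - 2 * A0) / g0 - (s1 - 2 * A1) / g1) =
      (p * (s1 - 2 * A1) + (1 - p) * (s0 - 2 * A0)) / g := by
    field_simp
    rw [hgdef]; ring
  rw [eq, Real.sq_sqrt hu1, Real.sq_sqrt (hu1.trans hu)] at key
  rw [← div_le_iff₀ hgp]
  rcases le_total 0 ((p * (s1 - 2 * A1) + (1 - p) * (s0 - 2 * A0)) / g) with h | h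
  · exact Real.le_sqrt_of_sq_le (key h)
  · exact h.trans (Real.sqrt_nonneg _)

/-! ### Partially revealed configurations -/

section Mass
variable {V : Type*} (G : SimpleGraph V) (p : unitInterval)

theorem lt_split {ι : Type*} [DecidableEq ι] (e : ι) (U : Finset ι) (O : Set ι) (X : Set (Set ι)) :
    {ω : Set ι | (ω ∩ ↑(insert e U)) ∪ O ∈ X} =
      ({ω | e ∈ ω} ∩ {ω | (ω ∩ ↑U) ∪ insert e O ∈ X}) ∪
        ({ω | e ∈ ω}ᶜ ∩ {ω | (ω ∩ ↑U) ∪ O ∈ X}) := by
  ext ω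
  by_cases h : e ∈ ω
  · have : (ω ∩ ↑(insert e U)) ∪ O = (ω ∩ ↑U) ∪ insert e O := by
      ext i
      simp only [mem_union, mem_inter_iff, Finset.coe_insert, mem_insert_iff, Finset.mem_coe]
      constructor
      · rintro (⟨h1, rfl | h2⟩ | h2)
        · exact Or.inr (Or.inl rfl)
        · exact Or.inl ⟨h1, h2⟩
        · exact Or.inr (Or.inr h2)
      · rintro (⟨h1, h2⟩ | rfl | h2)
        · exact Or.inl ⟨h1, Or.inr h2⟩
        · exact Or.inl ⟨h, Or.inl rfl⟩
        · exact Or.inr h2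
    rw [mem_ofPred_eq, this]
    simp [h]
  · have : (ω ∩ ↑(insert e U)) ∪ O = (ω ∩ ↑U) ∪ O := by
      ext i
      simp only [mem_union, mem_inter_iff, Finset.coe_insert, mem_insert_iff, Finset.mem_coe]
      constructor
      · rintro (⟨h1, rfl | h2⟩ | h2)
        · exact absurd h1 h
        · exact Or.inl ⟨h1, h2⟩
        · exact Or.inr h2
      · rintro (⟨h1, h2⟩ | h2)
        · exact Or.inl ⟨h1, Or.inr h2⟩
        · exact Or.inr h2
    rw [mem_ofPred_eq, this]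
    simp [h]

theorem lt_meas {ι : Type*} (U : Finset ι) :
    ∀ (O : Set ι) (X : Set (Set ι)), MeasurableSet {ω : Set ι | (ω ∩ ↑U) ∪ O ∈ X} := by
  classical
  induction U using Finset.induction_on with
  | empty => intro O X; simp
  | insert e U _ ih =>
    intro O X
    rw [lt_split]
    exact ((measurableSet_mem' e).inter (ih _ _)).union ((measurableSet_mem' e).compl.inter (ih _ _))

theorem lt_dep {ι : Type*} (U : Finset ι) (O : Set ι) (X : Set (Set ι)) :
    Dep (↑U : Set ι) {ω : Set ι | (ω ∩ ↑U) ∪ O ∈ X} := fun ω ω' h hω => by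
  have : ω' ∩ ↑U = ω ∩ ↑U := by
    ext i
    exact ⟨fun hi => ⟨(h i hi.2).2 hi.1, hi.2⟩, fun hi => ⟨(h i hi.2).1 hi.1, hi.2⟩⟩
  simpa only [mem_ofPred_eq, this] using hω

/-- Mass of `X` when the edges of `U` are random, those of `O` open and all others closed. -/
noncomputable def ms (U : Finset (Sym2 V)) (O : Set (Sym2 V)) (X : Set (Set (Sym2 V))) : ℝ :=
  (P G p).real {ω | (ω ∩ ↑U) ∪ O ∈ X}

variable {G p}

theorem ms_nonneg (U : Finset (Sym2 V)) (O : Set (Sym2 V)) (X : Set (Set (Sym2 V))) :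
    0 ≤ ms G p U O X := measureReal_nonneg

theorem ms_mono {U : Finset (Sym2 V)} {O O' : Set (Sym2 V)} {X Y : Set (Set (Sym2 V))}
    (h : ∀ ω : Set (Sym2 V), (ω ∩ ↑U) ∪ O ∈ X → (ω ∩ ↑U) ∪ O' ∈ Y) :
    ms G p U O X ≤ ms G p U O' Y := measureReal_mono h

theorem ms_add (U : Finset (Sym2 V)) (O : Set (Sym2 V)) (X Y : Set (Set (Sym2 V))) :
    ms G p U O (X ∩ Y) + ms G p U O (X ∩ Yᶜ) = ms G p U O X :=
  measureReal_inter_add_sdiff (μ := P G p) (s := {ω | (ω ∩ ↑U) ∪ O ∈ X}) (lt_meas U O Y)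

theorem ms_univ (U : Finset (Sym2 V)) (O : Set (Sym2 V)) {X : Set (Set (Sym2 V))}
    (h : ∀ ω : Set (Sym2 V), (ω ∩ ↑U) ∪ O ∈ X) : ms G p U O X = 1 := by
  unfold ms
  rw [eq_univ_of_forall (s := {ω : Set (Sym2 V) | (ω ∩ ↑U) ∪ O ∈ X}) h]
  exact probReal_univ

theorem ms_empty (U : Finset (Sym2 V)) (O : Set (Sym2 V)) {X : Set (Set (Sym2 V))}
    (h : ∀ ω : Set (Sym2 V), (ω ∩ ↑U) ∪ O ∉ X) : ms G p U O X = 0 := by
  unfold ms
  rw [eq_empty_of_forall_notMem (s := {ω : Set (Sym2 V) | (ω ∩ ↑U) ∪ O ∈ X}) h]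
  exact measureReal_empty

theorem ms_step [DecidableEq V] {e : Sym2 V} (he : e ∈ G.edgeSet) {U : Finset (Sym2 V)}
    (heU : e ∉ U) (O : Set (Sym2 V)) (X : Set (Set (Sym2 V))) :
    ms G p (insert e U) O X = p * ms G p U (insert e O) X + (1 - p) * ms G p U O X := by
  have hd : Disjoint ({e} : Set (Sym2 V)) ↑U := disjoint_singleton_left.2 heU
  have h1 : (P G p).real {ω | e ∈ ω} = p := by
    rw [measureReal_def, P_mem G p he, pe_eq_ofReal, ENNReal.toReal_ofReal p.2.1]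
  unfold ms
  rw [lt_split, measureReal_union
    (disjoint_compl_right.mono inter_subset_left inter_subset_left)
    ((measurableSet_mem' e).compl.inter (lt_meas _ _ _))]
  congr 1
  · rw [measureReal_def, P_indep G p hd (measurableSet_mem' e) (lt_meas _ _ _) (dep_mem e)
      (lt_dep _ _ _), ENNReal.toReal_mul, ← measureReal_def, h1, measureReal_def]
  · rw [measureReal_def, P_indep G p hd (measurableSet_mem' e).compl (lt_meas _ _ _)
      (dep_mem e).compl (lt_dep _ _ _), ENNReal.toReal_mul, ← measureReal_def,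
      probReal_compl_eq_one_sub (measurableSet_mem' e), h1, measureReal_def]

end Mass

/-! ### Opening an edge at the cluster of `b` -/

section Det
variable {V : Type*} {G : SimpleGraph V} {R : Set V} {n : ℕ}

theorem lt_big_mono {x : V} {ω ω' : Set (Sym2 V)} (h : ω ⊆ ω') (hx : ω ∈ Big G R n x) :
    ω' ∈ Big G R n x :=
  le_trans hx (encard_le_encard fun _ hy => conn.mono hy Subset.rfl h)

theorem lt_big_conn {x y : V} {ω : Set (Sym2 V)} (h : conn G R ω x y) (hx : ω ∈ Big G R n x) :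
    ω ∈ Big G R n y := by
  have : cl G R ω x = cl G R ω y := cl_eq_of_conn h
  simpa only [Big, mem_ofPred_eq, this] using hx

variable {b w v : V} {ω : Set (Sym2 V)}

theorem lt_conn_out (hw : conn G R ω b w) {x y : V} (h1 : ¬ conn G R ω b x)
    (h2 : ¬ conn G R ω v x) (h : conn G R (insert s(w, v) ω) x y) : conn G R ω x y := by
  refine h.ind (Q := fun y => conn G R ω x y) (conn_refl h.1) fun s t _ hst he ht ih => ?_
  rcases he with he | he
  · rcases Sym2.eq_iff.1 he with ⟨rfl, -⟩ | ⟨rfl, -⟩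
    · exact absurd (hw.trans ih.symm) h1
    · exact absurd ih.symm h2
  · exact ih.tail hst he ht

theorem lt_conn_bv (hw : conn G R ω b w) (hadj : G.Adj w v) (hv : v ∉ R) :
    conn G R (insert s(w, v) ω) b v :=
  (hw.mono Subset.rfl (subset_insert _ _)).tail hadj (mem_insert _ _) hv

theorem lt_big_out (hw : conn G R ω b w) (hadj : G.Adj w v) (hv : v ∉ R) {x : V}
    (h : ¬ conn G R (insert s(w, v) ω) b x) (hx : insert s(w, v) ω ∈ Big G R n x) :
    ω ∈ Big G R n x :=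
  le_trans hx (encard_le_encard fun _ hy => lt_conn_out hw
    (fun h' => h (h'.mono Subset.rfl (subset_insert _ _)))
    (fun h' => h ((lt_conn_bv hw hadj hv).trans (h'.mono Subset.rfl (subset_insert _ _)))) hy)

variable (G R n) in
/-- `v` lies in a big cluster different from the cluster of `b`. -/
def Nv (b v : V) : Set (Set (Sym2 V)) := Big G R n v ∩ {ω | ¬ conn G R ω b v}

variable (G R n) in
/-- The two-arm event with negative probes at the points of `L`. -/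
def Wl (a b c : V) (L : Set V) : Set (Set (Sym2 V)) :=
  {ω | ω ∈ Two G R n a c ∧ ∀ x ∈ L, ω ∉ Nv G R n b x}

variable {a c : V} {L : Set V}

theorem lt_F1 (hw : conn G R ω b w) (hadj : G.Adj w v) (hv : v ∉ R) (h : ω ∈ Wl G R n a b c L)
    (hH : ¬ (ω ∈ Big G R n b ∧ ω ∈ Nv G R n b v)) : insert s(w, v) ω ∈ Wl G R n a b c L := by
  obtain ⟨⟨⟨ha, hc⟩, hac⟩, hL⟩ := h
  have hac : ¬ conn G R ω a c := hac
  refine ⟨⟨⟨lt_big_mono (subset_insert _ _) ha, lt_big_mono (subset_insert _ _) hc⟩,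
    fun h' => ?_⟩, fun x hx hN => hL x hx ⟨lt_big_out hw hadj hv hN.2 hN.1,
      fun h' => hN.2 (conn.mono h' Subset.rfl (subset_insert _ _))⟩⟩
  by_cases h1 : conn G R ω b a
  · by_cases h2 : conn G R ω v c
    · exact hH ⟨lt_big_conn h1.symm ha, lt_big_conn h2.symm hc,
        fun h3 => hac (h1.symm.trans (conn.trans h3 h2))⟩
    · exact hac (lt_conn_out hw (fun h3 => hac (h1.symm.trans h3)) h2 (conn.symm h')).symm
  · by_cases h2 : conn G R ω v a
    · by_cases h3 : conn G R ω b c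
      · exact hH ⟨lt_big_conn h3.symm hc, lt_big_conn h2.symm ha,
          fun h4 => h1 (conn.trans h4 h2)⟩
      · exact hac (lt_conn_out hw h3 (fun h4 => hac (h2.symm.trans h4)) (conn.symm h')).symm
    · exact hac (lt_conn_out hw h1 h2 h')

theorem lt_F2 (hw : conn G R ω b w) (hadj : G.Adj w v) (hv : v ∉ R)
    (h : insert s(w, v) ω ∈ Wl G R n a b c L ∩ (Big G R n b)ᶜ) :
    ω ∈ (Wl G R n a b c L ∩ (Big G R n b)ᶜ) ∩ (Nv G R n b v)ᶜ := by
  obtain ⟨⟨⟨⟨ha, hc⟩, hac⟩, hL⟩, hB⟩ := h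
  have key : ∀ x, insert s(w, v) ω ∈ Big G R n x → ¬ conn G R (insert s(w, v) ω) b x :=
    fun x hx h' => hB (lt_big_conn h'.symm hx)
  refine ⟨⟨⟨⟨⟨lt_big_out hw hadj hv (key a ha) ha, lt_big_out hw hadj hv (key c hc) hc⟩,
    fun h' => hac (conn.mono h' Subset.rfl (subset_insert _ _))⟩, fun x hx hN => ?_⟩,
    fun h' => hB (lt_big_mono (subset_insert _ _) h')⟩, fun hN => ?_⟩
  · have := lt_big_mono (subset_insert s(w, v) ω) hN.1
    exact hL x hx ⟨this, key x this⟩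
  · exact key v (lt_big_mono (subset_insert _ _) hN.1) (lt_conn_bv hw hadj hv)

theorem lt_Wl_insert : Wl G R n a b c (insert v L) = Wl G R n a b c L ∩ (Nv G R n b v)ᶜ := by
  ext ω
  simp only [Wl, mem_ofPred_eq, mem_insert_iff, forall_eq_or_imp, mem_inter_iff, mem_compl_iff]
  tauto

end Det

/-! ### The induction -/

section Main
variable {V : Type*} [DecidableEq V] {G : SimpleGraph V} {p : unitInterval} {R : Set V} {n : ℕ}
  {a b c : V}

theorem lt_main (U : Finset (Sym2 V)) : ∀ (O : Set (Sym2 V)) (L : Set V),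
    ms G p U O (Wl G R n a b c L ∩ (Big G R n b)ᶜ) - 2 * ms G p U O (Wl G R n a b c L ∩ Big G R n b)
      ≤ √(ms G p U O (Big G R n b)ᶜ) * (ms G p U O (Wl G R n a b c L ∩ (Big G R n b)ᶜ) +
        ms G p U O (Wl G R n a b c L ∩ Big G R n b)) := by
  induction U using Finset.strongInduction with
  | H U ih =>
  intro O L
  set B := Big G R n b with hB
  by_cases hex : ∃ w v, s(w, v) ∈ U ∧ G.Adj w v ∧ conn G R O b w ∧ v ∉ R
  · obtain ⟨w, v, heU, hadj, hw, hv⟩ := hex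
    obtain ⟨U', heU', rfl⟩ : ∃ U', s(w, v) ∉ U' ∧ U = insert s(w, v) U' :=
      ⟨U.erase s(w, v), Finset.notMem_erase _ _, (Finset.insert_erase heU).symm⟩
    have ih' := ih U' (Finset.ssubset_insert heU')
    have he : s(w, v) ∈ G.edgeSet := hadj
    have hw' : ∀ ω : Set (Sym2 V), conn G R ((ω ∩ ↑U') ∪ O) b w :=
      fun ω => hw.mono Subset.rfl subset_union_right
    have hu : ms G p U' (insert s(w, v) O) Bᶜ ≤ ms G p U' O Bᶜ := ms_mono fun ω h h' =>
      h (lt_big_mono (union_subset_union_right _ (subset_insert _ _)) h')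
    set N := Nv G R n b v with hN
    -- the step with a small hazard
    have step : ∀ L : Set V, 2 * ms G p U' O ((Wl G R n a b c L ∩ B) ∩ N) ≤
        ms G p U' O ((Wl G R n a b c L ∩ Bᶜ) ∩ N) →
        ms G p (insert s(w, v) U') O (Wl G R n a b c L ∩ Bᶜ) -
          2 * ms G p (insert s(w, v) U') O (Wl G R n a b c L ∩ B) ≤
        √(ms G p (insert s(w, v) U') O Bᶜ) *
          (ms G p (insert s(w, v) U') O (Wl G R n a b c L ∩ Bᶜ) +
            ms G p (insert s(w, v) U') O (Wl G R n a b c L ∩ B)) := by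
      intro L hD
      set W := Wl G R n a b c L with hW
      have h1 : ms G p U' (insert s(w, v) O) (W ∩ Bᶜ) ≤ ms G p U' O ((W ∩ Bᶜ) ∩ Nᶜ) :=
        ms_mono fun ω h => lt_F2 (hw' ω) hadj hv (by rwa [union_insert] at h)
      have h2 : ms G p U' O (W ∩ (B ∩ N)ᶜ) ≤ ms G p U' (insert s(w, v) O) W :=
        ms_mono fun ω h => by rw [union_insert]; exact lt_F1 (hw' ω) hadj hv h.1 h.2
      have h3 := ms_add (G := G) (p := p) U' O (W ∩ Bᶜ) N
      have h4 := ms_add (G := G) (p := p) U' O W (B ∩ N)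
      have h5 := ms_add (G := G) (p := p) U' O W B
      have h6 := ms_add (G := G) (p := p) U' (insert s(w, v) O) W B
      have h7 : ms G p U' O ((W ∩ B) ∩ N) ≤ ms G p U' O (W ∩ B) := ms_mono fun _ h => h.1
      rw [← inter_assoc] at h4
      have key := lt_num_b p.2.1 p.2.2 (ms_nonneg _ _ _) hu (ms_nonneg _ _ _) (ms_nonneg _ _ _)
        (ms_nonneg _ _ _) h7 hD (by linarith) (by linarith) (ih' O L) (ih' (insert s(w, v) O) L)
      simp only [ms_step he heU']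
      refine le_trans (le_of_eq (by ring)) (key.trans (le_of_eq (by ring)))
    rcases le_total (2 * ms G p U' O ((Wl G R n a b c L ∩ B) ∩ N))
      (ms G p U' O ((Wl G R n a b c L ∩ Bᶜ) ∩ N)) with hD | hD
    · exact step L hD
    · -- probe `v`
      have z : ∀ X, ms G p U' O ((Wl G R n a b c (insert v L) ∩ X) ∩ N) = 0 := fun X =>
        ms_empty _ _ fun ω h => by
          rw [lt_Wl_insert] at h
          exact h.1.1.2 h.2
      have key := step (insert v L) (by rw [z, z]; simp)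
      set W := Wl G R n a b c L with hW
      have e1 : ∀ X, ms G p (insert s(w, v) U') O (W ∩ X) =
          ms G p (insert s(w, v) U') O (Wl G R n a b c (insert v L) ∩ X) +
            (1 - p) * ms G p U' O ((W ∩ X) ∩ N) := fun X => by
        have a1 := ms_add (G := G) (p := p) (insert s(w, v) U') O (W ∩ X) N
        have a2 : ms G p U' (insert s(w, v) O) ((W ∩ X) ∩ N) = 0 :=
          ms_empty _ _ fun ω h => by
            rw [union_insert] at h
            exact h.2.2 (lt_conn_bv (hw' ω) hadj hv)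
        rw [ms_step he heU' O ((W ∩ X) ∩ N), a2] at a1
        rw [lt_Wl_insert, inter_right_comm]
        linarith
      have hq : 0 ≤ 1 - (p : ℝ) := sub_nonneg.2 p.2.2
      have b1 := mul_le_mul_of_nonneg_left hD hq
      have b2 := mul_nonneg (Real.sqrt_nonneg (ms G p (insert s(w, v) U') O Bᶜ))
        (mul_nonneg hq (add_nonneg (ms_nonneg (G := G) (p := p) U' O ((W ∩ Bᶜ) ∩ N))
          (ms_nonneg (G := G) (p := p) U' O ((W ∩ B) ∩ N))))
      rw [e1 B, e1 Bᶜ]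
      nlinarith
  · have hcl : ∀ ω : Set (Sym2 V), (ω ∩ ↑U) ∪ O ∈ B → O ∈ B := fun ω h =>
      le_trans h (encard_le_encard fun y hy => by
        refine conn.ind (Q := fun y => conn G R O b y) hy (conn_refl hy.1)
          fun s t _ hst he ht ih => ?_
        rcases he with he | he
        · exact absurd ⟨s, t, he.2, hst, ih, ht⟩ hex
        · exact ih.tail hst he ht)
    have n1 := ms_nonneg (G := G) (p := p) U O (Wl G R n a b c L ∩ B)
    have n2 := ms_nonneg (G := G) (p := p) U O (Wl G R n a b c L ∩ Bᶜ)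
    by_cases hO : O ∈ B
    · have : ms G p U O (Wl G R n a b c L ∩ Bᶜ) = 0 :=
        ms_empty _ _ fun ω h => h.2 (lt_big_mono subset_union_right hO)
      rw [this]
      have := mul_nonneg (Real.sqrt_nonneg (ms G p U O Bᶜ)) n1
      linarith
    · rw [ms_univ U O (X := Bᶜ) fun ω h => hO (hcl ω h), Real.sqrt_one]
      linarith

theorem lt_conn_loc (Λ : Finset V) (ω : Set (Sym2 V)) (x y : V) :
    conn G (↑Λ)ᶜ ((ω ∩ ↑Λ.sym2) ∪ ∅) x y ↔ conn G (↑Λ)ᶜ ω x y := by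
  refine ⟨fun h => h.mono Subset.rfl (by simp), fun h => ?_⟩
  refine h.ind (Q := fun y => conn G (↑Λ)ᶜ ((ω ∩ ↑Λ.sym2) ∪ ∅) x y) (conn_refl h.1)
    fun s t hs hst he ht ih => ih.tail hst (Or.inl ⟨he, ?_⟩) ht
  exact Finset.mem_coe.2 (Finset.mk_mem_sym2_iff.2 ⟨by simpa using hs.right, by simpa using ht⟩)

theorem lt_big_loc (Λ : Finset V) (ω : Set (Sym2 V)) (x : V) :
    (ω ∩ ↑Λ.sym2) ∪ ∅ ∈ Big G (↑Λ)ᶜ n x ↔ ω ∈ Big G (↑Λ)ᶜ n x := by
  simp only [Big, cl, mem_ofPred_eq, lt_conn_loc]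

theorem lt_two_loc (Λ : Finset V) (ω : Set (Sym2 V)) (x y : V) :
    (ω ∩ ↑Λ.sym2) ∪ ∅ ∈ Two G (↑Λ)ᶜ n x y ↔ ω ∈ Two G (↑Λ)ᶜ n x y := by
  simp only [Two, mem_inter_iff, lt_big_loc, mem_ofPred_eq, lt_conn_loc]

end Main

/-- The triangle inequality for two-arm probabilities. -/
theorem lt_fin {V : Type*} (G : SimpleGraph V) [DecidableEq V] [G.LocallyFinite] : LTFin G := by
  intro p₀ θ _ hθ
  refine ⟨1 + 6 / θ, le_add_of_nonneg_right (by positivity), fun p _ Λ n a b c hb => ?_⟩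
  have key := lt_main (G := G) (p := p) (R := (↑Λ)ᶜ) (n := n) (a := a) (b := b) (c := c)
    Λ.sym2 ∅ ∅
  set B := Big G (↑Λ)ᶜ n b with hB
  set W := Wl G (↑Λ)ᶜ n a b c ∅ with hW
  have h1 : ms G p Λ.sym2 ∅ W = Dn G p (↑Λ)ᶜ n a c := by
    unfold ms Dn
    congr 1
    ext ω
    simp only [hW, Wl, mem_ofPred_eq, lt_two_loc, mem_empty_iff_false, false_imp_iff, implies_true,
      and_true]
  have h2 : ms G p Λ.sym2 ∅ B = fn G p (↑Λ)ᶜ n b := by
    unfold ms fn
    congr 1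
    ext ω
    exact lt_big_loc Λ ω b
  have h3 := ms_add (G := G) (p := p) Λ.sym2 ∅ univ B
  rw [univ_inter, univ_inter, ms_univ _ _ (X := univ) fun _ => mem_univ _, h2] at h3
  have h4 := ms_add (G := G) (p := p) Λ.sym2 ∅ W B
  have h5 : ms G p Λ.sym2 ∅ (W ∩ B) ≤ Dn G p (↑Λ)ᶜ n a b + Dn G p (↑Λ)ᶜ n b c := by
    refine le_trans (measureReal_mono ?_) (measureReal_union_le _ _)
    rintro ω ⟨⟨hT, -⟩, hb'⟩
    obtain ⟨⟨ha, hc⟩, hac⟩ := (lt_two_loc Λ ω a c).1 hT
    have hb'' := (lt_big_loc Λ ω b).1 hb'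
    by_cases h : conn G (↑Λ)ᶜ ω a b
    · exact Or.inr ⟨⟨hb'', hc⟩, fun h' => hac (h.trans h')⟩
    · exact Or.inl ⟨⟨ha, hb''⟩, h⟩
  have n1 := ms_nonneg (G := G) (p := p) Λ.sym2 ∅ (W ∩ B)
  have n2 := ms_nonneg (G := G) (p := p) Λ.sym2 ∅ (W ∩ Bᶜ)
  have n3 := ms_nonneg (G := G) (p := p) Λ.sym2 ∅ Bᶜ
  have h6 : √(ms G p Λ.sym2 ∅ Bᶜ) ≤ 1 - θ / 2 :=
    Real.sqrt_le_iff.2 ⟨by linarith, by nlinarith⟩
  have h7 := key.trans (mul_le_mul_of_nonneg_right h6 (add_nonneg n2 n1))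
  have h8 : Dn G p (↑Λ)ᶜ n a c ≤ 6 / θ * ms G p Λ.sym2 ∅ (W ∩ B) := by
    rw [div_mul_eq_mul_div, le_div_iff₀ hθ, ← h1, ← h4]
    nlinarith
  have h9 : (0 : ℝ) ≤ 6 / θ := by positivity
  nlinarith [mul_le_mul_of_nonneg_left h5 h9]

end Crest.Agent.R147.T
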