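import Crest.Agent.R147.Defs

/-! Row 147: linear growth implies no percolation below `p = 1`. -/

set_option autoImplicit false

open MeasureTheory ProbabilityTheory Set Filter
open scoped ENNReal NNReal
open Crest.ProbabilityR.Percolation

namespace Crest.Agent.R147

open Crest.Agent.R159

variable {V : Type*} [Countable V] [DecidableEq V] {G : SimpleGraph V} [G.LocallyFinite]

omit [Countable V] [DecidableEq V] [G.LocallyFinite] in
theorem lin_hit (p : unitInterval) (E : ℕ → Finset (Sym2 V)) (M : ℕ) (T : Finset ℕ)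
    (hE : ∀ r, ∀ e ∈ E r, e ∈ G.edgeSet) (hM : ∀ r ∈ T, (E r).card ≤ M)
    (hd : ∀ r s, r ≠ s → Disjoint (E r) (E s)) :
    P G p (⋂ r ∈ T, {ω | ∀ e ∈ E r, e ∉ ω}ᶜ) ≤ (1 - (1 - pe p) ^ M) ^ T.card := by
  induction T using Finset.induction_on with
  | empty => simp
  | insert a T ha ih =>
    have hm : ∀ r, MeasurableSet ({ω : Set (Sym2 V) | ∀ e ∈ E r, e ∉ ω}ᶜ) :=
      fun r => (measurableSet_avoid' (E r)).compl
    have hdep : ∀ r, Dep (↑(E r) : Set (Sym2 V)) ({ω : Set (Sym2 V) | ∀ e ∈ E r, e ∉ ω}ᶜ) :=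
      fun r => Dep.compl fun ω ω' h h' e he hh => h' e he ((h e he).2 hh)
    rw [Finset.set_biInter_insert, Finset.card_insert_of_notMem ha, pow_succ',
      P_indep G p (I := ↑(E a)) (J := ⋃ r ∈ T, ↑(E r)) _ (hm a)
        (Finset.measurableSet_biInter T fun r _ => hm r) (hdep a)
        (Dep.iInter fun r => Dep.iInter fun hr =>
          (hdep r).mono (subset_biUnion_of_mem (u := fun r => (↑(E r) : Set (Sym2 V))) hr))]
    · refine mul_le_mul' ?_ (ih fun r hr => hM r (Finset.mem_insert_of_mem hr))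
      rw [prob_compl_eq_one_sub (measurableSet_avoid' (E a)), P_avoid G p (E a) (hE a)]
      exact tsub_le_tsub_left (pow_le_pow_right_of_le_one' tsub_le_self
        (hM a (Finset.mem_insert_self a T))) 1
    · refine disjoint_iUnion₂_right.2 fun r hr => Finset.disjoint_coe.2 (hd a r ?_)
      rintro rfl
      exact ha hr

omit [Countable V] in
theorem lin_small {x : V} {C : ℕ} (h : ∀ r, vol G x r ≤ C * (r + 1)) (k : ℕ) :
    {r | k ≤ r ∧ vol G x (r + 1) ≤ vol G x r + C}.Infinite := by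
  intro hfin
  obtain ⟨N, hN⟩ := hfin.bddAbove
  have key : ∀ j, j * (C + 1) ≤ vol G x (N + k + 1 + j) := by
    intro j
    induction j with
    | zero => simp
    | succ j ih =>
      have : ¬ (k ≤ N + k + 1 + j ∧ vol G x (N + k + 1 + j + 1) ≤ vol G x (N + k + 1 + j) + C) :=
        fun hh => by have := hN hh; omega
      have h2 : vol G x (N + k + 1 + j) + C < vol G x (N + k + 1 + j + 1) := by
        by_contra hc
        exact this ⟨by omega, not_lt.1 hc⟩
      rw [Nat.succ_mul, ← Nat.add_assoc (N + k + 1) j 1]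
      omega
  have h1 := key (C * (N + k + 2) + 1)
  have h2 := h (N + k + 1 + (C * (N + k + 2) + 1))
  nlinarith

theorem not_perc_of_lin (hconn : G.Connected) (hqt : IsQuasiTransitive G) (hlin : LinGrowth G)
    {p : unitInterval} (hp : p < 1) : ¬ Perc G p := by
  obtain ⟨x, C, hC⟩ := hlin
  obtain ⟨d, -, hd⟩ := exists_degree_bound hqt
  rintro ⟨y, hy⟩
  obtain ⟨w⟩ := hconn.preconnected x y
  have hmono : ∀ {r s : ℕ}, r ≤ s → ball G r {x} ⊆ ball G s {x} := fun h z hz => by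
    obtain ⟨w, hw⟩ := mem_ball_singleton.1 hz
    exact mem_ball_singleton.2 ⟨w, hw.trans h⟩
  obtain ⟨E, hE⟩ : ∃ E : ℕ → Finset (Sym2 V), ∀ r, E r = (ball G (r + 1) {x} \ ball G r {x}).biUnion
      fun b => (G.neighborFinset b ∩ ball G r {x}).image fun a => s(a, b) := ⟨_, fun _ => rfl⟩
  have hmem : ∀ r e, e ∈ E r ↔ ∃ a ∈ ball G r {x}, ∃ b, b ∉ ball G r {x} ∧ G.Adj a b ∧
      e = s(a, b) := by
    intro r e
    simp only [hE, Finset.mem_biUnion, Finset.mem_sdiff, Finset.mem_image, Finset.mem_inter,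
      SimpleGraph.mem_neighborFinset]
    constructor
    · rintro ⟨b, ⟨-, hb⟩, a, ⟨hab, ha⟩, rfl⟩
      exact ⟨a, ha, b, hb, hab.symm, rfl⟩
    · rintro ⟨a, ha, b, hb, hab, rfl⟩
      exact ⟨b, ⟨by rw [ball_succ']; exact mem_nb.2 (Or.inr ⟨a, ha, hab⟩), hb⟩, a,
        ⟨hab.symm, ha⟩, rfl⟩
  have hlt : ∀ r s, r < s → Disjoint (E r) (E s) := by
    intro r s hrs
    refine Finset.disjoint_left.2 fun e h1 h2 => ?_
    obtain ⟨a, ha, b, -, hab, rfl⟩ := (hmem r e).1 h1
    obtain ⟨a', -, b', hb', -, he⟩ := (hmem s _).1 h2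
    have hb : b ∈ ball G (r + 1) {x} := by
      rw [ball_succ']; exact mem_nb.2 (Or.inr ⟨a, ha, hab⟩)
    rcases Sym2.eq_iff.1 he with ⟨-, h⟩ | ⟨h, -⟩
    · exact hb' (h ▸ hmono hrs hb)
    · exact hb' (h ▸ hmono hrs.le ha)
  have hcard : ∀ r, vol G x (r + 1) ≤ vol G x r + C → (E r).card ≤ C * d := by
    intro r hr
    rw [hE]
    refine (Finset.card_biUnion_le_card_mul _ _ d fun b _ => ?_).trans (Nat.mul_le_mul_right d ?_)
    · exact Finset.card_image_le.trans ((Finset.card_le_card Finset.inter_subset_left).trans (hd b))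
    · rw [Finset.card_sdiff_of_subset (hmono (Nat.le_add_right r 1))]
      unfold vol at hr
      omega
  have hρ : 1 - (1 - pe p) ^ (C * d) < 1 := by
    refine ENNReal.sub_lt_self ENNReal.one_ne_top one_ne_zero (pow_ne_zero _ ?_)
    rw [← pe_symm, pe_eq_ofReal]
    exact (ENNReal.ofReal_pos.2 (sub_pos.2 (show (p : ℝ) < 1 from hp))).ne'
  have hb : ∀ n : ℕ, P G p {ω | (cl G ∅ ω y).Infinite} ≤ (1 - (1 - pe p) ^ (C * d)) ^ n := by
    intro n
    obtain ⟨T, hT, rfl⟩ := (lin_small hC w.length).exists_subset_card_eq n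
    refine le_trans (measure_mono fun ω hω => ?_) (lin_hit p E (C * d) T
      (fun r e he => by obtain ⟨a, -, b, -, hab, rfl⟩ := (hmem r e).1 he; exact hab)
      (fun r hr => hcard r (hT hr).2)
      (fun r s hrs => (lt_or_gt_of_ne hrs).elim (hlt r s) fun h => (hlt s r h).symm))
    refine mem_iInter₂.2 fun r hr hav => ?_
    obtain ⟨z, hz, hz'⟩ := Set.Infinite.exists_notMem_finset hω (ball G r {x})
    obtain ⟨a, ha, b, hab, he, -, hb⟩ := conn.last_exit hz (↑(ball G r {x}))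
      (Finset.mem_coe.2 (mem_ball_singleton.2 ⟨w, (hT hr).1⟩)) hz'
    exact hav _ ((hmem r _).2 ⟨a, ha, b, fun h => hb.left (Or.inr h), hab, rfl⟩) he
  exact absurd (ge_of_tendsto' (ENNReal.tendsto_pow_atTop_nhds_zero_of_lt_one hρ) hb) (not_le.2 hy)

end Crest.Agent.R147
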