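import Crest.Agent.R147.NFin

/-! Row 147, module N: no infinite cluster at criticality on nonamenable graphs. -/

set_option autoImplicit false

open Crest.ProbabilityR.Percolation

namespace Crest.Agent.R147

variable {V : Type*} [Countable V] [DecidableEq V] {G : SimpleGraph V} [G.LocallyFinite]

theorem stmtN [Infinite V] (hconn : G.Connected) (hqt : IsQuasiTransitive G) : StmtN G :=
  stmtN' hconn hqt

end Crest.Agent.R147
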