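import Crest.Agent.R147.Defs

/-! Row 147, module N (nonamenable case): big clusters. -/

set_option autoImplicit false

open MeasureTheory ProbabilityTheory Set
open scoped ENNReal NNReal

namespace Crest.Agent.R147.N

open Crest.Agent.R159

variable {V : Type*} {G : SimpleGraph V}

variable (G) in
/-- The cluster of `x` off `R` has at least `n` vertices. -/
def big (R : Set V) (n : ℕ) (x : V) : Set (Set (Sym2 V)) :=
  {ω | ∃ s : Finset V, n ≤ s.card ∧ (↑s : Set V) ⊆ cl G R ω x}

theorem big_anti {R : Set V} {m n : ℕ} (h : m ≤ n) (x : V) : big G R n x ⊆ big G R m x :=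
  fun _ ⟨s, hs, hs'⟩ => ⟨s, h.trans hs, hs'⟩

theorem big_of_subset {R R' : Set V} {n : ℕ} {x y : V} {ω ω' : Set (Sym2 V)}
    (h : ω ∈ big G R n x) (hs : cl G R ω x ⊆ cl G R' ω' y) : ω' ∈ big G R' n y := by
  obtain ⟨s, h1, h2⟩ := h
  exact ⟨s, h1, h2.trans hs⟩

theorem isUpperSet_big (R : Set V) (n : ℕ) (x : V) : IsUpperSet (big G R n x) :=
  fun _ _ hω h => big_of_subset h fun _ hy => conn.mono hy Subset.rfl hω

theorem dep_big (R : Set V) (n : ℕ) (x : V) : Dep (touch G R)ᶜ (big G R n x) :=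
  fun ω ω' hω h => big_of_subset h fun y hy => dep_conn R x y ω ω' hω hy

theorem big_iff_card {R : Set V} {n : ℕ} {x : V} {ω : Set (Sym2 V)} {C : Finset V}
    (h : cl G R ω x = ↑C) : ω ∈ big G R n x ↔ n ≤ C.card := by
  constructor
  · rintro ⟨s, h1, h2⟩
    rw [h] at h2
    exact h1.trans (Finset.card_le_card (Finset.coe_subset.1 h2))
  · intro hn
    exact ⟨C, hn, h.ge⟩

theorem big_of_infinite {R : Set V} {x : V} {ω : Set (Sym2 V)} (h : (cl G R ω x).Infinite)
    (n : ℕ) : ω ∈ big G R n x := by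
  obtain ⟨s, h1, h2⟩ := h.exists_subset_card_eq n
  exact ⟨s, h2.ge, h1⟩

theorem exists_cl_of_not_big {R : Set V} {n : ℕ} {x : V} {ω : Set (Sym2 V)}
    (h : ω ∉ big G R n x) : ∃ C : Finset V, cl G R ω x = ↑C := by
  have hf : (cl G R ω x).Finite := by
    by_contra h'
    exact h (big_of_infinite h' n)
  exact ⟨hf.toFinset, hf.coe_toFinset.symm⟩

theorem infinite_of_big {R : Set V} {x : V} {ω : Set (Sym2 V)} (h : ∀ n, ω ∈ big G R n x) :
    (cl G R ω x).Infinite := by
  intro hf
  have := (big_iff_card hf.coe_toFinset.symm).1 (h (hf.toFinset.card + 1))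
  omega

theorem notMem_of_big {R : Set V} {n : ℕ} (hn : 1 ≤ n) {x : V} {ω : Set (Sym2 V)}
    (h : ω ∈ big G R n x) : x ∉ R := by
  obtain ⟨s, h1, h2⟩ := h
  obtain ⟨y, hy⟩ := Finset.card_pos.1 (hn.trans h1)
  exact conn.left (h2 hy)

theorem measurableSet_big [Countable V] (R : Set V) (n : ℕ) (x : V) :
    MeasurableSet (big G R n x) :=
  measurableSet_setOfPred.2 (Measurable.exists fun _ => Measurable.and measurable_const
    (Measurable.forall fun y => Measurable.imp measurable_const (cn_measurable_conn R x y)))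

/-- An event inside which the cluster is finite is the disjoint union of its pieces. -/
theorem measure_eq_tsum_cl [Countable V] (p : unitInterval) (x : V) {E : Set (Set (Sym2 V))}
    (hE : MeasurableSet E) {n : ℕ} (h : E ⊆ (big G ∅ n x)ᶜ) :
    P G p E = ∑' C : Finset V, P G p (E ∩ {ω | cl G ∅ ω x = ↑C}) := by
  rw [← cn_measure_inter_partition (P G p) (fun ω => cl G ∅ ω x)
    (fun C => measurableSet_cl _ x _) hE, inter_eq_left.2]
  intro ω hω
  exact mem_iUnion.2 (exists_cl_of_not_big (h hω))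

end Crest.Agent.R147.N
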