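import Crest.Agent.R147.N0

/-! Row 147, module N: change of measure for small clusters (Newman's inequality). -/

set_option autoImplicit false

open MeasureTheory ProbabilityTheory Set
open scoped ENNReal NNReal
open Crest.ProbabilityR.Percolation

namespace Crest.Agent.R147.N

open Crest.Agent.R159

variable {V : Type*} [Countable V] [DecidableEq V] {G : SimpleGraph V} [G.LocallyFinite]

omit [Countable V] [G.LocallyFinite] in
theorem P_pattern (s : unitInterval) (T : Finset (Sym2 V)) (hT : ∀ e ∈ T, e ∈ G.edgeSet)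
    {η : Finset (Sym2 V)} (hη : η ⊆ T) : P G s {ω | ω ∩ ↑T = ↑η} =
      ((pn s ^ η.card * pn (unitInterval.symm s) ^ (T \ η).card : ℝ≥0) : ℝ≥0∞) := by
  have e : {ω : Set (Sym2 V) | ω ∩ ↑T = ↑η} =
      {ω | ∀ e ∈ η, e ∈ ω} ∩ {ω | ∀ e ∈ T \ η, e ∉ ω} := by
    ext ω
    simp only [mem_ofPred_eq, mem_inter_iff, Finset.mem_sdiff, Set.ext_iff, Finset.mem_coe]
    constructor
    · exact fun h => ⟨fun e he => ((h e).2 he).1, fun e he h' => he.2 ((h e).1 ⟨h', he.1⟩)⟩
    · refine fun h e => ⟨fun he => ?_, fun he => ⟨h.1 e he, hη he⟩⟩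
      by_contra h'
      exact h.2 e ⟨he.2, h'⟩ he.1
  rw [e, P_indep G s (I := ↑η) (J := ↑(T \ η)) (Finset.disjoint_coe.2 Finset.disjoint_sdiff)
    (measurableSet_contains η) (measurableSet_avoid _)
    (fun ω ω' hω h e he => (hω e he).1 (h e he))
    (fun ω ω' hω h e he h' => h e he ((hω e he).2 h')),
    P_subset G s η fun e he => hT e (hη he),
    P_avoid G s _ fun e he => hT e (Finset.mem_sdiff.1 he).1, ← pe_symm]
  push_cast
  rfl

theorem measurableSet_pattern {ι : Type*} [Countable ι] (T η : Set ι) :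
    MeasurableSet {ω : Set ι | ω ∩ T = η} := by
  simp only [Set.ext_iff]
  exact measurableSet_setOfPred.2 (Measurable.forall fun e => Measurable.iff
    (Measurable.and (measurable_set_mem e) measurable_const) measurable_const)

theorem amgm {a b c : ℝ≥0} (h : a ^ 2 ≤ b * c) : 2 * a ≤ b + c := by
  have h' : (a : ℝ) ^ 2 ≤ b * c := by exact_mod_cast h
  have : 2 * (a : ℝ) ≤ b + c := by
    refine abs_le_of_sq_le_sq' ?_ (by positivity) |>.2
    nlinarith [sq_nonneg ((b : ℝ) - c)]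
  exact_mod_cast this

/-- Change of measure for an event that depends on finitely many edges. -/
theorem cm_dep {p p' r : unitInterval} {Z : ℝ≥0} (h1 : pn p' ^ 2 ≤ Z * pn p * pn r)
    (h2 : pn (unitInterval.symm p') ^ 2 ≤
      Z * pn (unitInterval.symm p) * pn (unitInterval.symm r))
    (T : Finset (Sym2 V)) (hT : ∀ e ∈ T, e ∈ G.edgeSet) {E : Set (Set (Sym2 V))}
    (hE : MeasurableSet E) (dE : Dep ↑T E) :
    2 * P G p' E ≤ P G p E + (Z : ℝ≥0∞) ^ T.card * P G r E := by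
  have hpart : ∀ s, P G s E = ∑' η : Finset (Sym2 V), P G s (E ∩ {ω | ω ∩ ↑T = ↑η}) := fun s =>
    measure_partition (P G s) (fun ω => ω ∩ ↑T) (fun η => measurableSet_pattern _ _)
      (ae_of_all _ fun ω => T.finite_toSet.subset inter_subset_right) hE
  rw [hpart p, hpart p', hpart r, ← ENNReal.tsum_mul_left, ← ENNReal.tsum_mul_left,
    ← ENNReal.tsum_add]
  refine ENNReal.tsum_le_tsum fun η => ?_
  rcases (E ∩ {ω | ω ∩ ↑T = ↑η}).eq_empty_or_nonempty with h0 | ⟨ω₀, h3, h4⟩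
  · rw [h0]
    simp
  have h4' : ω₀ ∩ ↑T = ↑η := h4
  have hη : η ⊆ T := by
    rw [← Finset.coe_subset, ← h4']
    exact inter_subset_right
  have e : E ∩ {ω | ω ∩ ↑T = ↑η} = {ω | ω ∩ ↑T = ↑η} := by
    refine inter_eq_right.2 fun ω hω => dE ω₀ ω (fun i hi => ?_) h3
    have := Set.ext_iff.1 (h4'.trans (show ω ∩ ↑T = ↑η from hω).symm) i
    simpa only [mem_inter_iff, hi, and_true] using this
  rw [e, P_pattern p T hT hη, P_pattern p' T hT hη, P_pattern r T hT hη,
    ← Finset.card_sdiff_add_card_eq_card hη]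
  have h5 := mul_le_mul' (pow_le_pow_left' h1 η.card) (pow_le_pow_left' h2 (T \ η).card)
  have h6 := amgm (a := pn p' ^ η.card * pn (unitInterval.symm p') ^ (T \ η).card)
    (b := pn p ^ η.card * pn (unitInterval.symm p) ^ (T \ η).card)
    (c := Z ^ ((T \ η).card + η.card) *
      (pn r ^ η.card * pn (unitInterval.symm r) ^ (T \ η).card))
    (by convert h5 using 1 <;> ring)
  exact_mod_cast h6

/-- Change of measure for the event that the cluster of `x` has fewer than `n` vertices. -/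
theorem cm {d : ℕ} (hd : ∀ v, G.degree v ≤ d) {p p' r : unitInterval} {Z : ℝ≥0} (hZ : 1 ≤ Z)
    (h1 : pn p' ^ 2 ≤ Z * pn p * pn r)
    (h2 : pn (unitInterval.symm p') ^ 2 ≤
      Z * pn (unitInterval.symm p) * pn (unitInterval.symm r)) (n : ℕ) (x : V) :
    2 * P G p' (big G ∅ n x)ᶜ ≤ P G p (big G ∅ n x)ᶜ + (Z : ℝ≥0∞) ^ (d * n) := by
  have hm := (measurableSet_big (G := G) ∅ n x).compl
  have h3 : (Z : ℝ≥0∞) ^ (d * n) * P G r (big G ∅ n x)ᶜ ≤ (Z : ℝ≥0∞) ^ (d * n) :=
    mul_le_of_le_one_right' prob_le_one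
  refine le_trans ?_ (add_le_add_right h3 _)
  rw [measure_eq_tsum_cl p x hm Subset.rfl, measure_eq_tsum_cl p' x hm Subset.rfl,
    measure_eq_tsum_cl r x hm Subset.rfl, ← ENNReal.tsum_mul_left, ← ENNReal.tsum_mul_left,
    ← ENNReal.tsum_add]
  refine ENNReal.tsum_le_tsum fun C => ?_
  rcases ((big G ∅ n x)ᶜ ∩ {ω | cl G ∅ ω x = ↑C}).eq_empty_or_nonempty with h0 | ⟨ω₀, h4, h5⟩
  · rw [h0]
    simp
  have hC : C.card < n := not_le.1 fun h => h4 ((big_iff_card h5).2 h)
  have e : (big G ∅ n x)ᶜ ∩ {ω | cl G ∅ ω x = ↑C} = {ω | cl G ∅ ω x = ↑C} :=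
    inter_eq_right.2 fun ω hω h => absurd ((big_iff_card hω).1 h) (not_le.2 hC)
  rw [e]
  set T : Finset (Sym2 V) := C.biUnion fun a => G.incidenceFinset a with hT
  have hTc : T.card ≤ d * n := by
    refine Finset.card_biUnion_le.trans ((Finset.sum_le_card_nsmul _ _ d fun a _ => ?_).trans ?_)
    · rw [SimpleGraph.card_incidenceFinset_eq_degree]
      exact hd a
    · rw [smul_eq_mul, mul_comm]
      exact Nat.mul_le_mul_left _ hC.le
  refine (cm_dep h1 h2 T (fun e he => ?_) (measurableSet_cl _ _ _)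
    ((dep_cl ∅ x ↑C).mono ?_)).trans ?_
  · obtain ⟨a, -, ha⟩ := Finset.mem_biUnion.1 he
    exact ((G.mem_incidenceFinset _ _).1 ha).1
  · rintro e ⟨⟨he, a, ha, hae⟩, -⟩
    exact Finset.mem_coe.2 (Finset.mem_biUnion.2 ⟨a, ha, (G.mem_incidenceFinset _ _).2 ⟨he, hae⟩⟩)
  · exact add_le_add_right (mul_le_mul_left (pow_le_pow_right₀ (by exact_mod_cast hZ) hTc) _) _

/-- Real form: lowering the parameter by `K / n` keeps big clusters likely. -/
theorem cm_real {d : ℕ} (hd : ∀ v, G.degree v ≤ d) {p : unitInterval} (hp0 : 0 < p) (hp1 : p < 1)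
    {θ K : ℝ} (hθ : 0 < θ) (hK : 0 < K) :
    ∃ n : ℕ, 1 ≤ n ∧ ∃ p' : unitInterval, (p : ℝ) / 2 ≤ p' ∧ (p' : ℝ) + K / n = p ∧
      ∀ x, θ ≤ (P G p).real (big G ∅ n x) → θ / 4 ≤ (P G p').real (big G ∅ n x) := by
  have hp0' : (0 : ℝ) < p := hp0
  have hp1' : (0 : ℝ) < 1 - p := sub_pos.2 hp1
  set m : ℝ := min (p * (p / 2)) ((1 - p) * (1 - p)) with hm
  have hm0 : 0 < m := lt_min (by positivity) (by positivity)
  have hl : 0 < Real.log (1 + θ / 2) := Real.log_pos (by linarith)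
  obtain ⟨n, hn⟩ := exists_nat_gt (max (4 * K / p) (d * K ^ 2 / (m * Real.log (1 + θ / 2))))
  have hn1 : 4 * K / p < n := (le_max_left _ _).trans_lt hn
  have hn2 : d * K ^ 2 / (m * Real.log (1 + θ / 2)) < n := (le_max_right _ _).trans_lt hn
  have hn0 : (0 : ℝ) < n := lt_trans (by positivity) hn1
  set ε : ℝ := K / n with hε
  have hε0 : 0 < ε := by positivity
  have hε1 : 4 * ε ≤ p := by
    rw [div_lt_iff₀ hp0'] at hn1
    rw [hε, ← mul_div_assoc, div_le_iff₀ hn0]
    linarith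
  have hε2 : d * n * (ε ^ 2 / m) ≤ Real.log (1 + θ / 2) := by
    rw [div_lt_iff₀ (by positivity)] at hn2
    have : d * n * (ε ^ 2 / m) = d * K ^ 2 / (m * n) := by rw [hε]; field_simp
    rw [this, div_le_iff₀ (by positivity)]
    nlinarith
  let p' : unitInterval := ⟨p - ε, by linarith, by linarith⟩
  let r : unitInterval := ⟨p - 2 * ε, by linarith, by linarith⟩
  have hp' : (p' : ℝ) = p - ε := rfl
  have hr : (r : ℝ) = p - 2 * ε := rfl
  have hu : 0 ≤ ε ^ 2 / m := by positivity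
  have hum : ε ^ 2 / m * m = ε ^ 2 := by field_simp
  let Z : ℝ≥0 := ⟨1 + ε ^ 2 / m, by positivity⟩
  have hZ : (Z : ℝ) = 1 + ε ^ 2 / m := rfl
  refine ⟨n, by exact_mod_cast hn0, p', by rw [hp']; linarith, by rw [hp']; ring, fun x hx => ?_⟩
  have h := cm hd (p := p) (p' := p') (r := r) (Z := Z)
    (by rw [← NNReal.coe_le_coe, hZ]; simpa using hu)
    (by
      rw [← NNReal.coe_le_coe]
      simp only [NNReal.coe_pow, NNReal.coe_mul, unitInterval.coe_toNNReal, hZ, hp', hr]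
      have h1 : m ≤ p * (p - 2 * ε) :=
        (min_le_left _ _).trans (mul_le_mul_of_nonneg_left (by linarith) hp0'.le)
      have h2 := mul_le_mul_of_nonneg_left h1 hu
      nlinarith)
    (by
      rw [← NNReal.coe_le_coe]
      simp only [NNReal.coe_pow, NNReal.coe_mul, unitInterval.coe_toNNReal, hZ, hp', hr,
        unitInterval.coe_symm_eq]
      have h1 : m ≤ (1 - p) * (1 - (p - 2 * ε)) :=
        (min_le_right _ _).trans (mul_le_mul_of_nonneg_left (by linarith) hp1'.le)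
      have h2 := mul_le_mul_of_nonneg_left h1 hu
      nlinarith) n x
  have h' := ENNReal.toReal_mono
    (ENNReal.add_ne_top.2 ⟨measure_ne_top _ _, ENNReal.pow_ne_top ENNReal.coe_ne_top⟩) h
  rw [ENNReal.toReal_add (measure_ne_top _ _) (ENNReal.pow_ne_top ENNReal.coe_ne_top),
    ENNReal.toReal_mul, ENNReal.toReal_pow, ENNReal.coe_toReal, hZ, ← measureReal_def,
    ← measureReal_def, probReal_compl_eq_one_sub (measurableSet_big _ _ _),
    probReal_compl_eq_one_sub (measurableSet_big _ _ _), ENNReal.toReal_ofNat] at h'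
  have h3 : (1 + ε ^ 2 / m) ^ (d * n) ≤ 1 + θ / 2 := by
    calc _ ≤ Real.exp (ε ^ 2 / m) ^ (d * n) :=
          pow_le_pow_left₀ (by positivity) (by have := Real.add_one_le_exp (ε ^ 2 / m); linarith) _
      _ = Real.exp (d * n * (ε ^ 2 / m)) := by rw [← Real.exp_nat_mul]; push_cast; rfl
      _ ≤ Real.exp (Real.log (1 + θ / 2)) := Real.exp_le_exp.2 hε2
      _ = _ := Real.exp_log (by positivity)
  linarith

end Crest.Agent.R147.N
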