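import Crest.Agent.R147.N0

/-! Row 147, module N: many boundary points of a finite set have a big cluster off the set. -/

set_option autoImplicit false

open MeasureTheory ProbabilityTheory Set
open scoped ENNReal NNReal
open Crest.ProbabilityR.Percolation

namespace Crest.Agent.R147.N

open Crest.Agent.R159

variable {V : Type*} [Countable V] [DecidableEq V] {G : SimpleGraph V} [G.LocallyFinite]

omit [DecidableEq V] [G.LocallyFinite] in
theorem psi_a {p pb : unitInterval} (hp : p ≤ pb) (n : ℕ) (X : Finset V) (z : V) :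
    (P G p).real (big G ∅ n z) ≤
      (P G p).real (big G ↑X n z) + ∑ a ∈ X, connectProb G pb a z := by
  have hsub : big G ∅ n z ⊆ big G ↑X n z ∪ ⋃ a ∈ X, {ω | conn G ∅ ω a z} := by
    intro ω hω
    by_cases h : Disjoint (cl G ∅ ω z) ↑X
    · left
      refine big_of_subset hω ?_
      have := cl_union_of_disjoint h
      rw [empty_union] at this
      exact this.ge
    · right
      obtain ⟨a, ha, haX⟩ := not_disjoint_iff.1 h
      exact mem_iUnion₂.2 ⟨a, haX, conn.symm ha⟩
  refine (measureReal_mono hsub).trans ((measureReal_union_le _ _).trans ?_)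
  refine add_le_add le_rfl ((measureReal_biUnion_finset_le _ _).trans ?_)
  refine Finset.sum_le_sum fun a _ => ?_
  rw [connectProb_eq]
  exact ENNReal.toReal_mono (measure_ne_top _ _) (tau_mono hp ∅ a z)

omit [Countable V] [G.LocallyFinite] in
theorem psi_b {K : V → V → ℝ} {M : ℝ} (hM : IsEllTwoBoundedBy K M) {t : ℝ} (ht : 0 < t)
    (X B : Finset V) (hB : ∀ z ∈ B, t / 2 ≤ ∑ a ∈ X, K a z) :
    (B.card : ℝ) ≤ 4 * M ^ 2 / t ^ 2 * X.card := by
  have h := hM (X ∪ B) (fun x => if x ∈ X then 1 else 0) (fun y => if y ∈ B then 1 else 0)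
  have e1 : ∑ x ∈ X ∪ B, ∑ y ∈ X ∪ B,
      (if x ∈ X then (1 : ℝ) else 0) * K x y * (if y ∈ B then 1 else 0)
        = ∑ y ∈ B, ∑ x ∈ X, K x y := by
    rw [Finset.sum_comm (s := B)]
    simp only [ite_mul, one_mul, zero_mul, mul_ite, mul_one, mul_zero]
    rw [← Finset.sum_subset (Finset.subset_union_left (s₁ := X) (s₂ := B))]
    · refine Finset.sum_congr rfl fun x hx => ?_
      simp only [hx, if_true]
      rw [Finset.sum_ite_mem, Finset.union_inter_cancel_right]
    · intro x _ hx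
      simp [hx]
  have e2 : ∑ x ∈ X ∪ B, (if x ∈ X then (1 : ℝ) else 0) ^ 2 = X.card := by
    simp only [ite_pow, one_pow, ne_eq, OfNat.ofNat_ne_zero, not_false_eq_true, zero_pow]
    rw [Finset.sum_ite_mem, Finset.union_inter_cancel_left]
    simp
  have e3 : ∑ x ∈ X ∪ B, (if x ∈ B then (1 : ℝ) else 0) ^ 2 = B.card := by
    simp only [ite_pow, one_pow, ne_eq, OfNat.ofNat_ne_zero, not_false_eq_true, zero_pow]
    rw [Finset.sum_ite_mem, Finset.union_inter_cancel_right]
    simp
  rw [e1, e2, e3] at h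
  have h1 : t / 2 * B.card ≤ ∑ y ∈ B, ∑ x ∈ X, K x y := by
    rw [mul_comm, ← nsmul_eq_mul]
    exact Finset.card_nsmul_le_sum _ _ _ hB
  have h2 : t / 2 * B.card ≤ M * Real.sqrt X.card * Real.sqrt B.card :=
    h1.trans ((le_abs_self _).trans h)
  have hx : Real.sqrt X.card ^ 2 = X.card := Real.sq_sqrt (Nat.cast_nonneg _)
  have hb : Real.sqrt B.card ^ 2 = B.card := Real.sq_sqrt (Nat.cast_nonneg _)
  set x := Real.sqrt X.card
  set b := Real.sqrt B.card
  rw [← hx, ← hb] at *
  rw [div_mul_eq_mul_div, le_div_iff₀ (by positivity)]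
  nlinarith [sq_nonneg (t * b - 2 * M * x), mul_le_mul_of_nonneg_left h2 ht.le,
    sq_nonneg (t * b), sq_nonneg (M * x)]

omit [DecidableEq V] [G.LocallyFinite] in
theorem psi_c1 (p : unitInterval) {n : ℕ} (hn : 1 ≤ n) (X : Set V) {y z : V} (hy : y ∉ X)
    (hadj : G.Adj y z) :
    (p : ℝ) * (P G p).real (big G X n z) ≤ (P G p).real (big G X n y) := by
  have h := P_insert G p (measurableSet_big (G := G) X n z) (isUpperSet_big X n z) {s(y, z)}
    (by simpa using hadj)
  have hsub : big G X n z ∩ {ω | ∀ e ∈ ({s(y, z)} : Finset (Sym2 V)), e ∈ ω} ⊆ big G X n y := by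
    rintro ω ⟨h1, h2⟩
    have hc : conn G X ω y z :=
      (conn_refl hy).tail hadj (h2 _ (Finset.mem_singleton_self _)) (notMem_of_big hn h1)
    exact big_of_subset h1 fun w hw => hc.trans hw
  have h' := ENNReal.toReal_mono (measure_ne_top _ _) (h.trans (measure_mono hsub))
  rw [Finset.card_singleton, pow_one, ENNReal.toReal_mul, pe_eq_ofReal,
    ENNReal.toReal_ofReal p.2.1] at h'
  exact h'

theorem psi_c {d : ℕ} (hd : ∀ v, G.degree v ≤ d) {p : unitInterval} {a : ℝ}
    (hap : a ≤ p) {n : ℕ} (hn : 1 ≤ n) (X : Finset V) (j : ℕ) :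
    a * ∑ z ∈ ball G (j + 2) X, (P G p).real (big G ↑X n z) ≤
      (d + 1) * ∑ z ∈ ball G (j + 1) X, (P G p).real (big G ↑X n z) := by
  set u : V → ℝ := fun z => (P G p).real (big G ↑X n z) with hu
  have hu0 : ∀ z, 0 ≤ u z := fun z => measureReal_nonneg
  have h1 : ∀ z ∈ ball G (j + 2) X,
      a * u z ≤ ∑ y ∈ ball G (j + 1) X, if z ∈ nb G {y} then u y else 0 := by
    intro z hz
    have key : ∃ y ∈ ball G (j + 1) X, z ∈ nb G {y} ∧ a * u z ≤ u y := by
      by_cases hz' : z ∈ ball G (j + 1) X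
      · refine ⟨z, hz', subset_nb _ (Finset.mem_singleton_self _), ?_⟩
        have := p.2.2
        nlinarith [hu0 z]
      · rw [ball_succ', mem_nb] at hz
        obtain ⟨y, hy, hadj⟩ := hz.resolve_left hz'
        refine ⟨y, hy, mem_nb.2 (Or.inr ⟨y, Finset.mem_singleton_self _, hadj⟩), ?_⟩
        have hyX : y ∉ (↑X : Set V) := fun hyX => hz' (mem_ball.2
          ⟨y, hyX, hadj.toWalk, by simp⟩)
        exact (mul_le_mul_of_nonneg_right hap (hu0 z)).trans (psi_c1 p hn _ hyX hadj)
    obtain ⟨y, hy, hzy, hle⟩ := key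
    refine hle.trans ?_
    have := Finset.single_le_sum (f := fun y => if z ∈ nb G {y} then u y else 0)
      (fun y _ => by split_ifs; exacts [hu0 y, le_rfl]) hy
    simpa only [hzy, if_true] using this
  rw [Finset.mul_sum, Finset.mul_sum]
  refine (Finset.sum_le_sum h1).trans ?_
  rw [Finset.sum_comm]
  refine Finset.sum_le_sum fun y _ => ?_
  rw [Finset.sum_ite_mem, Finset.sum_const, nsmul_eq_mul]
  refine mul_le_mul_of_nonneg_right ?_ (hu0 y)
  have := (Finset.card_le_card (Finset.inter_subset_right (s₁ := ball G (j + 2) X))).trans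
    (card_nb_le hd {y})
  rw [Finset.card_singleton, mul_one] at this
  exact_mod_cast this

theorem psi_ge {d : ℕ} (hd : ∀ v, G.degree v ≤ d) {h : ℝ} (hh : 0 < h) (hexp : Expands G h)
    {pb : unitInterval} {M : ℝ} (hM : IsEllTwoBoundedBy (connectProb G pb) M) {a t : ℝ}
    (ha : 0 < a) (ht : 0 < t) :
    ∃ c : ℝ, 0 < c ∧ ∀ p : unitInterval, a ≤ p → p ≤ pb → ∀ n : ℕ, 1 ≤ n →
      (∀ z, t ≤ (P G p).real (big G ∅ n z)) → ∀ X : Finset V,
        c * X.card ≤ ∑ b ∈ nb G X, (P G p).real (big G ↑X n b) := by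
  obtain ⟨j, hj⟩ : ∃ j : ℕ, 1 + 4 * M ^ 2 / t ^ 2 ≤ (1 + h) ^ (j + 1) := by
    obtain ⟨j, hj⟩ := pow_unbounded_of_one_lt (1 + 4 * M ^ 2 / t ^ 2) (show 1 < 1 + h by linarith)
    exact ⟨j, hj.le.trans (pow_le_pow_right₀ (by linarith) (Nat.le_succ j))⟩
  refine ⟨(a / (d + 1)) ^ j * (t / 2), by positivity, fun p hap hp n hn hz X => ?_⟩
  set u : V → ℝ := fun z => (P G p).real (big G ↑X n z) with hu
  have hu0 : ∀ z, 0 ≤ u z := fun z => measureReal_nonneg
  have hit : ∀ i : ℕ, (a / (d + 1)) ^ i * ∑ z ∈ ball G (i + 1) X, u z ≤ ∑ z ∈ nb G X, u z := by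
    intro i
    induction i with
    | zero => simp [ball]
    | succ i ih =>
      refine le_trans ?_ ih
      rw [pow_succ, mul_assoc]
      refine mul_le_mul_of_nonneg_left ?_ (by positivity)
      rw [div_mul_eq_mul_div, div_le_iff₀ (by positivity), mul_comm _ ((d : ℝ) + 1)]
      exact psi_c hd hap hn X i
  refine le_trans ?_ (hit j)
  rw [mul_assoc]
  refine mul_le_mul_of_nonneg_left ?_ (by positivity)
  set Q : V → Prop := fun z => t / 2 ≤ ∑ a ∈ X, connectProb G pb a z with hQ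
  classical
  have hB := psi_b hM ht X ((ball G (j + 1) X).filter Q) fun z hz => (Finset.mem_filter.1 hz).2
  have hc := card_ball_ge hh hexp (j + 1) X
  have hsplit : (((ball G (j + 1) X).filter Q).card : ℝ) +
      ((ball G (j + 1) X).filter fun z => ¬ Q z).card = (ball G (j + 1) X).card := by
    exact_mod_cast Finset.card_filter_add_card_filter_not (s := ball G (j + 1) X) Q
  have h1 : (X.card : ℝ) ≤ ((ball G (j + 1) X).filter fun z => ¬ Q z).card := by
    nlinarith [mul_le_mul_of_nonneg_right hj (Nat.cast_nonneg (α := ℝ) X.card)]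
  calc t / 2 * X.card ≤ t / 2 * ((ball G (j + 1) X).filter fun z => ¬ Q z).card := by gcongr
    _ ≤ ∑ z ∈ (ball G (j + 1) X).filter fun z => ¬ Q z, u z := by
      rw [mul_comm, ← nsmul_eq_mul]
      refine Finset.card_nsmul_le_sum _ _ _ fun z hz' => ?_
      have h2 := not_le.1 (Finset.mem_filter.1 hz').2
      have h3 := psi_a (G := G) hp n X z
      have h4 := hz z
      simp only [hu]
      linarith
    _ ≤ _ := Finset.sum_le_sum_of_subset_of_nonneg (Finset.filter_subset _ _) fun z _ _ => hu0 z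

end Crest.Agent.R147.N
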