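import Crest.Agent.R147.N0

/-! Row 147, module N: one sprinkling step. -/

set_option autoImplicit false

open MeasureTheory ProbabilityTheory Set
open scoped ENNReal NNReal
open Crest.ProbabilityR.Percolation

namespace Crest.Agent.R147.N

open Crest.Agent.R159

variable {V : Type*} [Countable V] [DecidableEq V] {G : SimpleGraph V} [G.LocallyFinite]

variable (G) in
/-- The neighbours of `X` with a big cluster off `X`. -/
def good (X : Finset V) (n : ℕ) (ω : Set (Sym2 V)) : Set V :=
  {b | b ∈ nb G X ∧ ω ∈ big G ↑X n b}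

theorem measurableSet_good (X : Finset V) (n : ℕ) (S : Set V) :
    MeasurableSet {ω | good G X n ω = S} := by
  simp only [Set.ext_iff]
  exact measurableSet_setOfPred.2 (Measurable.forall fun b => Measurable.iff
    (Measurable.and measurable_const (measurableSet_setOfPred.1 (measurableSet_big _ _ _)))
    measurable_const)

omit [Countable V] in
theorem dep_good (X : Finset V) (n : ℕ) (S : Set V) :
    Dep (touch G ↑X)ᶜ {ω | good G X n ω = S} := by
  intro ω ω' hω h
  rw [mem_ofPred_eq, ← show good G X n ω = S from h]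
  ext b
  exact and_congr_right fun _ => ⟨dep_big _ _ _ _ _ fun i hi => (hω i hi).symm, dep_big _ _ _ _ _ hω⟩

theorem sum_big_le (p : unitInterval) (X : Finset V) (n : ℕ) :
    ∑ b ∈ nb G X, P G p (big G ↑X n b) ≤
      ∑' S : Finset V, P G p {ω | good G X n ω = ↑S} * S.card := by
  have h1 : ∀ b ∈ nb G X, P G p (big G ↑X n b) ≤
      ∑' S : Finset V, if b ∈ S then P G p {ω | good G X n ω = ↑S} else 0 := by
    intro b hb
    rw [measure_partition (P G p) (good G X n) (fun S => measurableSet_good X n _)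
      (ae_of_all _ fun ω => (nb G X).finite_toSet.subset fun _ h => h.1) (measurableSet_big _ _ _)]
    refine ENNReal.tsum_le_tsum fun S => ?_
    split_ifs with h
    · exact measure_mono inter_subset_right
    · refine le_of_eq (measure_mono_null (t := ∅) ?_ measure_empty)
      rintro ω ⟨ha, hS⟩
      have : b ∈ good G X n ω := ⟨hb, ha⟩
      rw [show good G X n ω = ↑S from hS] at this
      exact h this
  refine (Finset.sum_le_sum h1).trans ?_
  rw [← Summable.tsum_finsetSum fun _ _ => ENNReal.summable]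
  refine ENNReal.tsum_le_tsum fun S => ?_
  rw [← Finset.sum_filter, Finset.sum_const, nsmul_eq_mul, mul_comm]
  refine mul_le_mul_right ?_ _
  exact_mod_cast Finset.card_le_card fun b hb => (Finset.mem_filter.1 hb).2

theorem step_piece {d : ℕ} (hd : ∀ v, G.degree v ≤ d) {p q : unitInterval} {n : ℕ} (hn : 1 ≤ n)
    (hq : pe q * (d * (2 * n) : ℕ) ≤ 1) (x : V) (X : Finset V) (h1 : n ≤ X.card)
    (h2 : X.card < 2 * n) :
    P G p {ω | cl G ∅ ω x = ↑X} * (pe q / 2 * ∑ b ∈ nb G X, P G p (big G ↑X n b)) ≤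
      P2 G p q ((uni ⁻¹' big G ∅ (2 * n) x \ blue ⁻¹' big G ∅ (2 * n) x) ∩
        {ω | cl G ∅ (blue ω) x = ↑X}) := by
  have hBm : MeasurableSet ((uni ⁻¹' big G ∅ (2 * n) x \ blue ⁻¹' big G ∅ (2 * n) x) ∩
      {ω | cl G ∅ (blue ω) x = ↑X}) :=
    ((measurable_uni (measurableSet_big _ _ _)).diff
      (measurable_blue (measurableSet_big _ _ _))).inter (measurable_blue (measurableSet_cl _ x _))
  refine le_trans ?_ (tsum_measure_partition_le _ (fun ω => good G X n (blue ω))
    (fun S => measurable_blue (measurableSet_good X n _)) hBm)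
  refine (mul_le_mul_right (mul_le_mul_right (sum_big_le p X n) _) _).trans ?_
  rw [← ENNReal.tsum_mul_left, ← ENNReal.tsum_mul_left]
  refine ENNReal.tsum_le_tsum fun S => ?_
  rcases {ω | good G X n ω = ↑S}.eq_empty_or_nonempty with h0 | ⟨ω₀, hω₀⟩
  · rw [h0]
    simp
  have hS : ∀ b ∈ S, b ∉ X ∧ ∃ a ∈ X, G.Adj a b := by
    intro b hb
    rw [← Finset.mem_coe, ← show good G X n ω₀ = ↑S from hω₀] at hb
    have := notMem_of_big hn hb.2
    exact ⟨this, (mem_nb.1 hb.1).resolve_left this⟩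
  have hS' : ∀ b, ∃ a, b ∈ S → a ∈ X ∧ G.Adj a b := by
    intro b
    by_cases hb : b ∈ S
    · obtain ⟨a, ha⟩ := (hS b hb).2
      exact ⟨a, fun _ => ha⟩
    · exact ⟨b, fun h => absurd h hb⟩
  choose f hf using hS'
  set J : Finset (Sym2 V) := S.image fun b => s(f b, b) with hJdef
  have hJ : ∀ e ∈ J, e ∈ G.edgeSet := fun e he => by
    obtain ⟨b, hb, rfl⟩ := Finset.mem_image.1 he
    exact (hf b hb).2
  have hJc : J.card = S.card := by
    refine Finset.card_image_of_injOn fun b hb b' hb' h => ?_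
    rcases Sym2.eq_iff.1 h with h | h
    · exact h.2
    · exact absurd (h.2 ▸ (hf b' hb').1) (hS b hb).1
  have hSc : S.card ≤ d * (2 * n) := by
    have : S ⊆ X.biUnion fun a => G.neighborFinset a := fun b hb =>
      Finset.mem_biUnion.2 ⟨f b, (hf b hb).1, (G.mem_neighborFinset _ _).2 (hf b hb).2⟩
    refine (Finset.card_le_card this).trans (Finset.card_biUnion_le.trans ?_)
    refine (Finset.sum_le_card_nsmul _ _ d fun a _ => hd a).trans ?_
    rw [smul_eq_mul, mul_comm]
    exact Nat.mul_le_mul_left _ h2.le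
  have hhit := P_hit G q J hJ (le_trans (mul_le_mul_right (by exact_mod_cast hJc ▸ hSc) _) hq)
  have hHm : MeasurableSet {ω : Set (Sym2 V) | ∃ e ∈ J, e ∈ ω} :=
    measurableSet_setOfPred.2
      (Measurable.exists fun e => Measurable.and measurable_const (measurable_set_mem e))
  have hHd : Dep univ {ω : Set (Sym2 V) | ∃ e ∈ J, e ∈ ω} :=
    fun ω ω' hω ⟨e, he, h⟩ => ⟨e, he, (hω e trivial).1 h⟩
  have hm := (measurableSet_cl (G := G) ∅ x ↑X).inter (measurableSet_good (G := G) X n ↑S)
  have h3 := P2_indep G p q (by simp [Set.disjoint_prod]) (measurable_blue hm)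
    (measurable_red hHm) ((dep_cl ∅ x ↑X).inter (dep_good X n ↑S)).blue hHd.red
  rw [P2_blue G p q hm, P2_red G p q hHm, P_indep G p
    (disjoint_compl_right.mono_left sdiff_subset) (measurableSet_cl _ x _)
    (measurableSet_good X n _) (dep_cl _ x _) (dep_good X n _)] at h3
  calc _ = P G p {ω | cl G ∅ ω x = ↑X} * P G p {ω | good G X n ω = ↑S} *
        (pe q * J.card / 2) := by
        simp only [div_eq_mul_inv, hJc]
        ring
    _ ≤ _ := mul_le_mul_right hhit _
    _ = _ := h3.symm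
    _ ≤ _ := measure_mono ?_
  rintro ω ⟨⟨h4, h5⟩, e, he, h6⟩
  have h4' : cl G ∅ (blue ω) x = ↑X := h4
  have h5' : good G X n (blue ω) = ↑S := h5
  refine ⟨⟨⟨?_, ?_⟩, h4⟩, h5⟩
  · obtain ⟨b, hb, rfl⟩ := Finset.mem_image.1 he
    have hb' := Finset.mem_coe.2 hb
    rw [← h5'] at hb'
    obtain ⟨s, hs1, hs2⟩ := hb'.2
    have hX : ∀ a ∈ X, conn G ∅ (uni ω) x a := fun a ha => by
      have ha' := Finset.mem_coe.2 ha
      rw [← h4'] at ha'
      exact conn.mono ha' Subset.rfl (blue_subset_uni ω)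
    refine ⟨X ∪ s, ?_, fun y hy => ?_⟩
    · rw [Finset.card_union_of_disjoint (Finset.disjoint_right.2 fun y hy => conn.right (hs2 hy))]
      omega
    · rcases Finset.mem_union.1 hy with hy | hy
      · exact hX y hy
      · exact ((hX _ (hf b hb).1).tail (hf b hb).2 (red_subset_uni ω h6) (notMem_empty _)).trans
          (conn.mono (hs2 hy) (empty_subset _) (blue_subset_uni ω))
  · intro h
    have := (big_iff_card h4').1 h
    omega

theorem step_enn {d : ℕ} (hd : ∀ v, G.degree v ≤ d) {p q : unitInterval} {n : ℕ} (hn : 1 ≤ n)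
    (hq : pe q * (d * (2 * n) : ℕ) ≤ 1) {c : ℝ≥0∞}
    (hψ : ∀ X : Finset V, n ≤ X.card → c ≤ ∑ b ∈ nb G X, P G p (big G ↑X n b)) (x : V) :
    P G p (big G ∅ (2 * n) x) + P G p (big G ∅ n x \ big G ∅ (2 * n) x) * (pe q / 2 * c) ≤
      P G (oplus p q) (big G ∅ (2 * n) x) := by
  have hAm := measurableSet_big (G := G) ∅ (2 * n) x
  rw [← P2_uni G p q hAm, ← measure_inter_add_sdiff _ (measurable_blue hAm)]
  refine add_le_add ?_ ?_
  · rw [← P2_blue G p q hAm]
    exact measure_mono fun ω hω => ⟨isUpperSet_big _ _ _ (blue_subset_uni ω) hω, hω⟩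
  refine le_trans ?_ (tsum_measure_partition_le _ (fun ω => cl G ∅ (blue ω) x)
    (fun S => measurable_blue (measurableSet_cl _ x _))
    ((measurable_uni hAm).diff (measurable_blue hAm)))
  rw [measure_eq_tsum_cl p x ((measurableSet_big _ _ _).diff hAm) (sdiff_subset_compl _ _),
    ← ENNReal.tsum_mul_right]
  refine ENNReal.tsum_le_tsum fun X => ?_
  rcases ((big G ∅ n x \ big G ∅ (2 * n) x) ∩ {ω | cl G ∅ ω x = ↑X}).eq_empty_or_nonempty with
    h0 | ⟨ω₀, ⟨h1, h2⟩, h3⟩
  · rw [h0]
    simp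
  rw [big_iff_card h3] at h1 h2
  exact le_trans (mul_le_mul' (measure_mono inter_subset_right)
    (mul_le_mul_right (hψ X h1) _)) (step_piece hd hn hq x X h1 (not_le.1 h2))

theorem step {d : ℕ} (hd : ∀ v, G.degree v ≤ d) {p q : unitInterval} {n : ℕ} (hn : 1 ≤ n)
    (hq : (q : ℝ) * (2 * d * n) ≤ 1) {c : ℝ} (hc : 0 ≤ c)
    (hψ : ∀ X : Finset V, c * X.card ≤ ∑ b ∈ nb G X, (P G p).real (big G ↑X n b)) (x : V) :
    (P G p).real (big G ∅ (2 * n) x) +
      q * c * n / 2 * ((P G p).real (big G ∅ n x) - (P G p).real (big G ∅ (2 * n) x)) ≤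
      (P G (oplus p q)).real (big G ∅ (2 * n) x) := by
  have h := step_enn hd (p := p) (q := q) hn (c := ENNReal.ofReal (c * n)) (by
      rw [pe_eq_ofReal, ← ENNReal.ofReal_natCast, ← ENNReal.ofReal_mul q.2.1,
        ENNReal.ofReal_le_one]
      push_cast
      linarith)
    (fun X hX => by
      rw [ENNReal.ofReal_le_iff_le_toReal (ENNReal.sum_ne_top.2 fun _ _ => measure_ne_top _ _),
        ENNReal.toReal_sum fun _ _ => measure_ne_top _ _]
      exact le_trans (mul_le_mul_of_nonneg_left (by exact_mod_cast hX) hc) (hψ X)) x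
  have h' := ENNReal.toReal_mono (measure_ne_top _ _) h
  rw [ENNReal.toReal_add (measure_ne_top _ _) (ENNReal.mul_ne_top (measure_ne_top _ _)
    (ENNReal.mul_ne_top (ENNReal.div_ne_top ENNReal.coe_ne_top two_ne_zero)
      ENNReal.ofReal_ne_top)), ENNReal.toReal_mul, ENNReal.toReal_mul, ENNReal.toReal_div,
    ENNReal.toReal_ofReal (by positivity), ENNReal.coe_toReal, unitInterval.coe_toNNReal,
    ← measureReal_def, ← measureReal_def, ← measureReal_def,
    measureReal_sdiff (big_anti (by omega) x) (measurableSet_big _ _ _)] at h'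
  refine le_trans (le_of_eq ?_) h'
  simp only [ENNReal.toReal_ofNat]
  ring

end Crest.Agent.R147.N
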