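import Crest.Agent.R147.N0

/-! Row 147, module N: the abstract iteration over dyadic scales. -/

set_option autoImplicit false

open MeasureTheory ProbabilityTheory Set
open scoped ENNReal NNReal
open Crest.ProbabilityR.Percolation

namespace Crest.Agent.R147.N

open Crest.Agent.R159

theorem iter {X : Type*} (F : unitInterval → ℕ → X → ℝ) (h0 : ∀ p n x, 0 ≤ F p n x)
    (h1 : ∀ p n x, F p n x ≤ 1) (hmono : ∀ p p' n x, p ≤ p' → F p n x ≤ F p' n x)
    {γ D t a b : ℝ} (hγ : 0 < γ) (hγ1 : γ ≤ 1) (hD : 0 < D) (ht : 0 < t)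
    (hstep : ∀ (p : unitInterval) (n : ℕ), a ≤ p → (p : ℝ) ≤ b → 1 ≤ n → (∀ z, t ≤ F p n z) →
      ∃ p' : unitInterval, p ≤ p' ∧ (p' : ℝ) ≤ p + 1 / (D * n) ∧
        ∀ x, F p (2 * n) x + γ * (F p n x - F p (2 * n) x) ≤ F p' (2 * n) x) :
    ∃ K : ℝ, 0 < K ∧ ∀ (n : ℕ) (p₀ p₁ : unitInterval), 1 ≤ n → a ≤ p₀ → (p₀ : ℝ) + K / n ≤ p₁ →
      (p₁ : ℝ) ≤ b → (∀ z, 2 * t ≤ F p₀ n z) → ∀ j z, t ≤ F p₁ (2 ^ j * n) z := by
  -- several steps at one scale
  have multi : ∀ (n : ℕ) (p : unitInterval), 1 ≤ n → a ≤ p → (∀ z, t ≤ F p n z) → ∀ k : ℕ,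
      (p : ℝ) + k / (D * n) ≤ b → ∃ p' : unitInterval, p ≤ p' ∧ (p' : ℝ) ≤ p + k / (D * n) ∧
        ∀ x, F p n x - F p' (2 * n) x ≤ (1 - γ) ^ k := by
    intro n p hn ha hp k
    have hn' : (0 : ℝ) < n := by exact_mod_cast hn
    have hDn : 0 < D * n := by positivity
    induction k with
    | zero =>
      intro _
      refine ⟨p, le_rfl, by simp, fun x => ?_⟩
      have := h0 p (2 * n) x
      have := h1 p n x
      rw [pow_zero]
      linarith
    | succ k ih =>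
      intro hb
      have e : ((k + 1 : ℕ) : ℝ) / (D * n) = k / (D * n) + 1 / (D * n) := by
        push_cast; ring
      have hpos : 0 < 1 / (D * n) := by positivity
      rw [e] at hb ⊢
      obtain ⟨s, hs1, hs2, hs3⟩ := ih (by linarith)
      obtain ⟨s', ht1, ht2, ht3⟩ := hstep s n (ha.trans hs1) (by linarith) hn
        fun z => (hp z).trans (hmono _ _ _ _ hs1)
      refine ⟨s', hs1.trans ht1, by linarith, fun x => ?_⟩
      have h3 := mul_le_mul_of_nonneg_left (hs3 x) (sub_nonneg.2 hγ1)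
      have h4 := mul_le_mul_of_nonneg_left (hmono p s n x hs1) hγ.le
      have h5 := ht3 x
      rw [pow_succ]
      nlinarith
  obtain ⟨k₀, hk₀⟩ := exists_pow_lt_of_lt_one (show 0 < min (1 / 2) (t / 2) by positivity)
    (show 1 - γ < 1 by linarith)
  have hr0 : 0 ≤ (1 - γ) ^ k₀ := pow_nonneg (sub_nonneg.2 hγ1) _
  have hloss : ∀ j : ℕ, (1 - γ) ^ (k₀ * (j + 1)) ≤ t / 2 ^ (j + 1) := by
    intro j
    rw [pow_mul, pow_succ, pow_succ]
    calc _ ≤ (1 / 2) ^ j * (t / 2) :=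
          mul_le_mul (pow_le_pow_left₀ hr0 (hk₀.le.trans (min_le_left _ _)) j)
            (hk₀.le.trans (min_le_right _ _)) hr0 (by positivity)
      _ = _ := by rw [one_div, inv_pow]; field_simp
  refine ⟨4 * k₀ / D + 1, by positivity, fun n p₀ p₁ hn ha hp hb hF => ?_⟩
  have hn' : (0 : ℝ) < n := by exact_mod_cast hn
  have hu : 0 ≤ (k₀ : ℝ) / (D * n) := by positivity
  have hp' : (p₀ : ℝ) + k₀ / (D * n) * 4 ≤ p₁ := by
    refine le_trans ?_ hp
    have : (4 * k₀ / D + 1) / n = (k₀ : ℝ) / (D * n) * 4 + 1 / n := by field_simp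
    rw [this]
    have : (0 : ℝ) < 1 / n := by positivity
    linarith
  have key : ∀ j : ℕ, ∃ s : unitInterval, p₀ ≤ s ∧
      (s : ℝ) ≤ p₀ + k₀ / (D * n) * (4 - (2 * j + 4) / 2 ^ j) ∧
      ∀ z, t + t / 2 ^ j ≤ F s (2 ^ j * n) z := by
    intro j
    induction j with
    | zero => exact ⟨p₀, le_rfl, by norm_num, fun z => by have := hF z; norm_num; linarith⟩
    | succ j ih =>
      obtain ⟨s, hs1, hs2, hs3⟩ := ih
      have e : ((k₀ * (j + 1) : ℕ) : ℝ) / (D * (2 ^ j * n : ℕ)) +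
          k₀ / (D * n) * (4 - (2 * j + 4) / 2 ^ j) =
          k₀ / (D * n) * (4 - (2 * (j + 1 : ℕ) + 4) / 2 ^ (j + 1)) := by
        push_cast; field_simp; ring
      have e' : (k₀ : ℝ) / (D * n) * (4 - (2 * (j + 1 : ℕ) + 4) / 2 ^ (j + 1)) ≤
          k₀ / (D * n) * 4 :=
        mul_le_mul_of_nonneg_left (sub_le_self _ (by positivity)) hu
      have htj : 0 ≤ t / 2 ^ j := by positivity
      obtain ⟨s', ht1, ht2, ht3⟩ := multi (2 ^ j * n) s
        (Nat.mul_pos (Nat.two_pow_pos j) hn) (ha.trans hs1)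
        (fun z => by have := hs3 z; linarith) (k₀ * (j + 1)) (by linarith)
      refine ⟨s', hs1.trans ht1, by linarith, fun z => ?_⟩
      have h3 := ht3 z
      have h4 := hs3 z
      have h5 := hloss j
      have e2 : t / 2 ^ j = t / 2 ^ (j + 1) + t / 2 ^ (j + 1) := by field_simp; ring
      rw [show 2 ^ (j + 1) * n = 2 * (2 ^ j * n) by ring]
      linarith
  intro j z
  obtain ⟨s, -, hs2, hs3⟩ := key j
  have e' : (k₀ : ℝ) / (D * n) * (4 - (2 * j + 4) / 2 ^ j) ≤ k₀ / (D * n) * 4 :=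
    mul_le_mul_of_nonneg_left (sub_le_self _ (by positivity)) hu
  have htj : 0 ≤ t / 2 ^ j := by positivity
  have := hmono s p₁ (2 ^ j * n) z (show (s : ℝ) ≤ p₁ by linarith)
  have := hs3 z
  linarith

end Crest.Agent.R147.N
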