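import Crest.Agent.R159.Final

/-! Row 147, module N: change of the parameter for the event that a cluster is large. -/

set_option autoImplicit false
set_option linter.unusedVariables false

open MeasureTheory ProbabilityTheory Set
open scoped ENNReal NNReal
open Crest.ProbabilityR.Percolation Crest.Agent.R159

namespace Crest.Agent.R147

variable {V : Type*} (G : SimpleGraph V)

/-- The cluster of `x` has at least `n` vertices. -/
def nBig (n : ℕ) (x : V) : Set (Set (Sym2 V)) :=
  {ω | ∃ F : Finset V, n ≤ F.card ∧ ∀ y ∈ F, conn G ∅ ω x y}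

/-- The same event after the edges of `S` have been revealed, those of `O` open. -/
def nBigC (n : ℕ) (x : V) (S O : Finset (Sym2 V)) : Set (Set (Sym2 V)) :=
  {ω | (ω \ ↑S) ∪ ↑O ∈ nBig G n x}

/-- The second moment of the likelihood ratio of one edge. -/
noncomputable def nRho (p p' : ℝ) : ℝ := p' ^ 2 / p + (1 - p') ^ 2 / (1 - p)

variable {G}

theorem nRho_eq {p p' : ℝ} (h0 : 0 < p) (h1 : p < 1) :
    nRho p p' = 1 + (p' - p) ^ 2 / (p * (1 - p)) := by
  have : 1 - p ≠ 0 := by linarith
  unfold nRho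
  field_simp
  ring

theorem one_le_nRho {p p' : ℝ} (h0 : 0 < p) (h1 : p < 1) : 1 ≤ nRho p p' := by
  rw [nRho_eq h0 h1]
  have : 0 < 1 - p := by linarith
  have : 0 ≤ (p' - p) ^ 2 / (p * (1 - p)) := by positivity
  linarith

theorem nCS {p p' a0 a1 b0 b1 r : ℝ} (h0 : 0 < p) (h1 : p < 1) (hp0 : 0 ≤ p') (hp1 : p' ≤ 1)
    (hb0 : 0 ≤ b0) (hb1 : 0 ≤ b1) (ha0 : 0 ≤ a0) (ha1 : 0 ≤ a1) (hr : 0 ≤ r)
    (e0 : b0 ^ 2 ≤ a0 * r) (e1 : b1 ^ 2 ≤ a1 * r) :
    (p' * b1 + (1 - p') * b0) ^ 2 ≤ (p * a1 + (1 - p) * a0) * (r * nRho p p') := by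
  have hq : 0 < 1 - p := by linarith
  have hq' : 0 ≤ 1 - p' := by linarith
  -- `(u b1 + v b0)^2 ≤ (p b1^2 + q b0^2) (u^2/p + v^2/q)`
  have key : (p' * b1 + (1 - p') * b0) ^ 2 ≤ (p * b1 ^ 2 + (1 - p) * b0 ^ 2) * nRho p p' := by
    have e : (p * b1 ^ 2 + (1 - p) * b0 ^ 2) * nRho p p' - (p' * b1 + (1 - p') * b0) ^ 2 =
        (p * (1 - p') * b1 - (1 - p) * p' * b0) ^ 2 / (p * (1 - p)) := by
      unfold nRho
      field_simp
      ring
    have : 0 ≤ (p * (1 - p') * b1 - (1 - p) * p' * b0) ^ 2 / (p * (1 - p)) := by positivity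
    linarith
  have hρ : 0 ≤ nRho p p' := zero_le_one.trans (one_le_nRho h0 h1)
  calc _ ≤ (p * b1 ^ 2 + (1 - p) * b0 ^ 2) * nRho p p' := key
    _ ≤ (p * (a1 * r) + (1 - p) * (a0 * r)) * nRho p p' := by gcongr
    _ = _ := by ring

theorem nBig_of_infinite {n : ℕ} {x : V} {ω : Set (Sym2 V)} (h : (cl G ∅ ω x).Infinite) :
    ω ∈ nBig G n x := by
  obtain ⟨F, hF, hc⟩ := h.exists_subset_card_eq n
  exact ⟨F, hc.ge, fun y hy => hF hy⟩

theorem isUpperSet_nBig (n : ℕ) (x : V) : IsUpperSet (nBig G n x) := by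
  rintro ω ω' h ⟨F, hF, hc⟩
  exact ⟨F, hF, fun y hy => (hc y hy).mono subset_rfl h⟩

variable [Countable V]

theorem measurableSet_nBig (n : ℕ) (x : V) : MeasurableSet (nBig G n x) := by
  have h2 : nBig G n x = ⋃ F : Finset V, ({_ω | n ≤ F.card} ∩ ⋂ y ∈ F, {ω | conn G ∅ ω x y}) := by
    ext ω
    simp [nBig]
  rw [h2]
  exact MeasurableSet.iUnion fun F => (MeasurableSet.const _).inter
    (Finset.measurableSet_biInter _ fun y _ => measurableSet_conn _ _ _)

theorem measurableSet_nBigC (n : ℕ) (x : V) (S O : Finset (Sym2 V)) :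
    MeasurableSet (nBigC G n x S O) := by
  have hm : Measurable fun ω : Set (Sym2 V) => (ω \ ↑S) ∪ ↑O := by
    refine measurable_set_iff.2 fun e => ?_
    simp only [mem_union, mem_diff]
    exact ((measurable_set_mem e).and measurable_const).or measurable_const
  exact hm (measurableSet_nBig n x)

/-- Markov's inequality. -/
theorem P_nBig_le (p : unitInterval) (n : ℕ) (x : V) :
    (n : ℝ≥0∞) * P G p (nBig G n x) ≤ chi G p := by
  refine le_trans ?_ (chiAt_le_chi p x)
  have h1 : chiAt G p x = ∫⁻ ω, ∑' y, ({ω | conn G ∅ ω x y} : Set _).indicator 1 ω ∂P G p := by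
    rw [lintegral_tsum fun y => (measurable_one.indicator (measurableSet_conn _ _ _)).aemeasurable]
    simp only [chiAt, tau, lintegral_indicator_one (measurableSet_conn _ _ _)]
  rw [h1, ← lintegral_indicator_const (measurableSet_nBig n x)]
  refine lintegral_mono fun ω => ?_
  by_cases h : ω ∈ nBig G n x
  · rw [indicator_of_mem h]
    obtain ⟨F, hF, hc⟩ := h
    refine le_trans ?_ (ENNReal.sum_le_tsum F)
    rw [Finset.sum_congr rfl fun y hy => indicator_of_mem (show ω ∈ {ω | conn G ∅ ω x y} from hc y hy) _]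
    simpa using hF
  · rw [indicator_of_notMem h]
    exact zero_le

theorem nBigC_split [DecidableEq V] (p : unitInterval) (n : ℕ) (x : V) (S O : Finset (Sym2 V))
    {e : Sym2 V} (he : e ∈ G.edgeSet) (heS : e ∉ S) (hO : O ⊆ S) :
    (P G p).real (nBigC G n x S O) =
      p * (P G p).real (nBigC G n x (insert e S) (insert e O)) +
        (1 - p) * (P G p).real (nBigC G n x (insert e S) O) := by
  have hdep : ∀ O' : Finset (Sym2 V), Dep ({e} : Set (Sym2 V))ᶜ (nBigC G n x (insert e S) O') := by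
    intro O' ω ω' h hω
    have : (ω' \ ↑(insert e S)) ∪ ↑O' = (ω \ ↑(insert e S)) ∪ ↑O' := by
      ext f
      by_cases hf : f = e
      · subst hf; simp
      · simp [h f hf]
    show _ ∈ nBig G n x
    rw [this]; exact hω
  have hm : MeasurableSet {ω : Set (Sym2 V) | e ∈ ω} := measurableSet_mem' e
  have e1 : nBigC G n x S O ∩ {ω | e ∈ ω} =
      {ω | e ∈ ω} ∩ nBigC G n x (insert e S) (insert e O) := by
    ext ω
    simp only [mem_inter_iff, mem_setOf_eq, nBigC]
    have : e ∈ ω → (ω \ ↑(insert e S)) ∪ ↑(insert e O) = (ω \ ↑S) ∪ ↑O := by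
      intro h
      ext f
      by_cases hf : f = e
      · subst hf; simp [h, heS]
      · simp [hf]
    exact ⟨fun h => ⟨h.2, by rw [this h.2]; exact h.1⟩, fun h => ⟨by rw [← this h.1]; exact h.2, h.1⟩⟩
  have e0 : nBigC G n x S O \ {ω | e ∈ ω} =
      {ω | e ∈ ω}ᶜ ∩ nBigC G n x (insert e S) O := by
    ext ω
    simp only [mem_inter_iff, mem_diff, mem_compl_iff, mem_setOf_eq, nBigC]
    have : e ∉ ω → (ω \ ↑(insert e S)) ∪ ↑O = (ω \ ↑S) ∪ ↑O := by
      intro h
      ext f
      by_cases hf : f = e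
      · subst hf; simp [h]
      · simp [hf]
    exact ⟨fun h => ⟨h.2, by rw [this h.2]; exact h.1⟩, fun h => ⟨by rw [← this h.1]; exact h.2, h.1⟩⟩
  have i1 := P_indep G p disjoint_compl_right hm (measurableSet_nBigC n x (insert e S) (insert e O))
    (dep_mem e) (hdep _)
  have i0 := P_indep G p disjoint_compl_right hm.compl (measurableSet_nBigC n x (insert e S) O)
    (dep_mem e).compl (hdep _)
  have hp : (P G p).real {ω | e ∈ ω} = p := by
    rw [measureReal_def, P_mem G p he, pe_eq_ofReal, ENNReal.toReal_ofReal p.2.1]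
  have hq : (P G p).real {ω | e ∈ ω}ᶜ = 1 - p := by
    rw [probReal_compl_eq_one_sub hm, hp]
  rw [← measureReal_inter_add_diff (s := nBigC G n x S O) hm, e1, e0, measureReal_def, i1,
    measureReal_def (s := _ ∩ _), i0, ENNReal.toReal_mul, ENNReal.toReal_mul, ← measureReal_def,
    ← measureReal_def, ← measureReal_def, ← measureReal_def, hp, hq]

theorem nBigC_sq [DecidableEq V] [G.LocallyFinite] {d : ℕ} (hd : ∀ v, G.degree v ≤ d)
    {p p' : unitInterval} (h0 : 0 < (p : ℝ)) (h1 : (p : ℝ) < 1) (n : ℕ) (x : V) (m : ℕ) :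
    ∀ S O : Finset (Sym2 V), O ⊆ S → (↑S ⊆ touch G (cl G ∅ (↑O) x)) → d * n ≤ S.card + m →
      (P G p').real (nBigC G n x S O) ^ 2 ≤ (P G p).real (nBigC G n x S O) * nRho p p' ^ m := by
  have hρ := one_le_nRho (p' := p') h0 h1
  -- the trichotomy
  have tri : ∀ S O : Finset (Sym2 V), O ⊆ S → (↑S ⊆ touch G (cl G ∅ (↑O) x)) →
      nBigC G n x S O = univ ∨ nBigC G n x S O = ∅ ∨
        (S.card < d * n ∧ ∃ e ∈ touch G (cl G ∅ (↑O) x), e ∉ S) := by
    intro S O hO hS
    by_cases hb : (↑O : Set (Sym2 V)) ∈ nBig G n x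
    · exact Or.inl (eq_univ_of_forall fun ω => isUpperSet_nBig n x subset_union_right hb)
    by_cases ht : ∃ e ∈ touch G (cl G ∅ (↑O) x), e ∉ S
    · refine Or.inr (Or.inr ⟨?_, ht⟩)
      obtain ⟨e, he, heS⟩ := ht
      have hfin : (cl G ∅ (↑O) x).Finite := not_infinite.1 fun h => hb (nBig_of_infinite h)
      set W := hfin.toFinset with hW
      have hWn : W.card < n := by
        by_contra hc
        exact hb ⟨W, not_lt.1 hc, fun y hy => hfin.mem_toFinset.1 hy⟩
      have hsub : insert e S ⊆ W.biUnion fun v => G.incidenceFinset v := by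
        intro f hf
        have hf' : f ∈ touch G (cl G ∅ (↑O) x) := by
          rcases Finset.mem_insert.1 hf with rfl | hf
          · exact he
          · exact hS hf
        obtain ⟨hfe, a, ha, haf⟩ := hf'
        exact Finset.mem_biUnion.2 ⟨a, hfin.mem_toFinset.2 ha,
          (G.mem_incidenceFinset a f).2 ⟨hfe, haf⟩⟩
      have h2 := (Finset.card_le_card hsub).trans (Finset.card_biUnion_le.trans
        (Finset.sum_le_card_nsmul _ _ d fun v _ => by
          rw [G.card_incidenceFinset_eq_degree]; exact hd v))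
      rw [Finset.card_insert_of_notMem heS, smul_eq_mul] at h2
      have : W.card * d ≤ d * n := by rw [mul_comm]; exact Nat.mul_le_mul_left _ hWn.le
      omega
    · refine Or.inr (Or.inl (eq_empty_of_forall_notMem fun ω hω => hb ?_))
      push Not at ht
      obtain ⟨F, hF, hc⟩ := hω
      refine ⟨F, hF, fun y hy => ?_⟩
      refine (conn_iff_of_subset (d := cl G ∅ (↑O) x) (R := ∅) (ω := ↑O) subset_rfl
        (fun f hf => ?_) y).2 (hc y hy)
      have := ht f hf.1
      simp [this]
  induction m with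
  | zero =>
    intro S O hO hS hm
    rcases tri S O hO hS with h | h | ⟨h, -⟩
    · simp [h]
    · simp [h]
    · omega
  | succ m ih =>
    intro S O hO hS hm
    rcases tri S O hO hS with h | h | ⟨-, e, he, heS⟩
    · simpa [h] using one_le_pow₀ hρ
    · simp [h]
    · have hc : d * n ≤ (insert e S).card + m := by
        rw [Finset.card_insert_of_notMem heS]; omega
      have hsub : ∀ O' : Finset (Sym2 V), O ⊆ O' →
          (↑(insert e S) : Set (Sym2 V)) ⊆ touch G (cl G ∅ (↑O') x) := by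
        intro O' hO' f hf
        refine touch_mono (A := cl G ∅ (↑O) x)
          (fun y hy => conn.mono hy subset_rfl (Finset.coe_subset.2 hO')) ?_
        rcases Finset.mem_insert.1 (Finset.mem_coe.1 hf) with rfl | hf
        · exact he
        · exact hS hf
      have i1 := ih (insert e S) (insert e O) (Finset.insert_subset_insert _ hO)
        (hsub _ (Finset.subset_insert _ _)) hc
      have i0 := ih (insert e S) O (hO.trans (Finset.subset_insert _ _)) (hsub _ subset_rfl) hc
      rw [nBigC_split p n x S O he.1 heS hO, nBigC_split p' n x S O he.1 heS hO, pow_succ]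
      exact nCS h0 h1 p'.2.1 p'.2.2 measureReal_nonneg measureReal_nonneg measureReal_nonneg
        measureReal_nonneg (pow_nonneg (zero_le_one.trans hρ) _) i0 i1

/-- Change of the parameter: exploring the cluster up to size `n` reveals at most `d n` edges. -/
theorem nBig_sq [DecidableEq V] [G.LocallyFinite] {d : ℕ} (hd : ∀ v, G.degree v ≤ d)
    {p : unitInterval} (p' : unitInterval) (h0 : 0 < (p : ℝ)) (h1 : (p : ℝ) < 1) (n : ℕ) (x : V) :
    (P G p').real (nBig G n x) ^ 2 ≤
      (P G p).real (nBig G n x) * Real.exp (d * n * (((p' : ℝ) - p) ^ 2 / (p * (1 - p)))) := by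
  have h := nBigC_sq hd (p' := p') h0 h1 n x (d * n) ∅ ∅ subset_rfl (by simp) (by simp)
  have e : nBigC G n x ∅ ∅ = nBig G n x := by ext ω; simp [nBigC]
  rw [e] at h
  refine h.trans (mul_le_mul_of_nonneg_left ?_ measureReal_nonneg)
  rw [← Nat.cast_mul, Real.exp_nat_mul]
  refine pow_le_pow_left₀ (zero_le_one.trans (one_le_nRho h0 h1)) ?_ _
  rw [nRho_eq h0 h1, add_comm]
  exact Real.add_one_le_exp _

end Crest.Agent.R147
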