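import Mathlib

/-! Peierls lemma for an adaptive oriented site process on `ℕ × ℕ` (helper72). -/

set_option autoImplicit false
open MeasureTheory
open scoped ENNReal

namespace Crest.Agent.R147

namespace OP

/-- unit vectors: up, right, down, left -/
def dir : Fin 4 → ℤ × ℤ := ![(0, 1), (1, 0), (0, -1), (-1, 0)]

/-- starting corner of the side `d` of a unit square -/
def off : Fin 4 → ℤ × ℤ := ![(0, 0), (0, 1), (1, 1), (1, 0)]

abbrev St := (ℤ × ℤ) × Fin 4

/-- the square on the other side of a directed boundary edge -/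
def nb (e : St) : ℤ × ℤ := e.1 + dir (e.2 + 3)

/-- turn right / go straight / turn left -/
def step (e : St) (t : Fin 3) : St :=
  if t = 0 then (e.1, e.2 + 1) else if t = 1 then (e.1 + dir e.2, e.2)
  else (e.1 + dir e.2 + dir (e.2 + 3), e.2 + 3)

def tr (w : ℕ → Fin 3) : ℕ → St
  | 0 => ((0, 0), 0)
  | n + 1 => step (tr w n) (w n)

def ext {L : ℕ} (w : Fin L → Fin 3) : ℕ → Fin 3 := fun n => if h : n < L then w ⟨n, h⟩ else 0

def sites (L : ℕ) (w : ℕ → Fin 3) : Finset (ℤ × ℤ) :=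
  ((Finset.range L).filter fun i => (tr w i).2 = 1 ∨ (tr w i).2 = 2).image fun i => nb (tr w i)

lemma tr_congr {w w' : ℕ → Fin 3} {L : ℕ} (h : ∀ i < L, w i = w' i) :
    ∀ n ≤ L, tr w n = tr w' n := by
  intro n
  induction n with
  | zero => intro _; rfl
  | succ n ih =>
    intro hn
    simp only [tr]
    rw [ih (by omega), h n (by omega)]

lemma sites_congr {w w' : ℕ → Fin 3} {L : ℕ} (h : ∀ i < L, w i = w' i) :
    sites L w = sites L w' := by
  unfold sites
  have h1 : ((Finset.range L).filter fun i => (tr w i).2 = 1 ∨ (tr w i).2 = 2)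
      = ((Finset.range L).filter fun i => (tr w' i).2 = 1 ∨ (tr w' i).2 = 2) := by
    apply Finset.filter_congr
    intro i hi
    rw [tr_congr h i (Finset.mem_range.1 hi).le]
  rw [h1]
  apply Finset.image_congr
  intro i hi
  have hi' : i < L := Finset.mem_range.1 (Finset.mem_filter.1 (Finset.mem_coe.1 hi)).1
  show nb (tr w i) = nb (tr w' i)
  rw [tr_congr h i hi'.le]

lemma dir_add_two (d : Fin 4) : dir (d + 2) = -dir d := by
  fin_cases d <;> simp [dir]

def pot (e : St) : ℤ := (e.1 + off e.2).1 - (e.1 + off e.2).2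

lemma pot_step (e : St) (t : Fin 3) :
    pot (step e t) = pot e + (if e.2 = 1 ∨ e.2 = 2 then 1 else -1) := by
  obtain ⟨⟨a, b⟩, d⟩ := e
  fin_cases d <;> fin_cases t <;> simp [pot, step, dir, off] <;> ring

section
variable (D : Set (ℤ × ℤ))

def Bd : Set St := {e | e.1 ∈ D ∧ nb e ∉ D}

open Classical in
noncomputable def turn (e : St) : Fin 3 :=
  if e.1 + dir e.2 ∉ D then 0 else if e.1 + dir e.2 + dir (e.2 + 3) ∉ D then 1 else 2

noncomputable def nxt (e : St) : St := step e (turn D e)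

open Classical in
noncomputable def prv (e : St) : St :=
  if e.1 - dir e.2 ∉ D then (e.1, e.2 + 3)
  else if e.1 - dir e.2 + dir (e.2 + 3) ∉ D then (e.1 - dir e.2, e.2)
  else (e.1 - dir e.2 + dir (e.2 + 3), e.2 + 1)

variable {D}

lemma nxt_mem {e : St} (he : e ∈ Bd D) : nxt D e ∈ Bd D := by
  obtain ⟨z, d⟩ := e
  obtain ⟨h1, h2⟩ := he
  simp only [nb] at h1 h2
  unfold nxt turn
  by_cases ha : z + dir d ∈ D
  · by_cases hb : z + dir d + dir (d + 3) ∈ D
    · simp only [ha, hb, not_true, if_false, step]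
      refine ⟨hb, ?_⟩
      have : d + 3 + 3 = d + 2 := by fin_cases d <;> rfl
      simp only [nb]
      simp only [show ((2 : Fin 3) = 0) = False by decide, show ((2 : Fin 3) = 1) = False by decide,
        if_false]
      rw [this, dir_add_two]
      convert h2 using 2
      abel
    · simp only [ha, hb, not_true, if_false, not_false_eq_true, if_true, step]
      simp only [show ((1 : Fin 3) = 0) = False by decide, if_false]
      exact ⟨ha, hb⟩
  · simp only [ha, not_false_eq_true, if_true, step]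
    refine ⟨h1, ?_⟩
    have : d + 1 + 3 = d := by fin_cases d <;> rfl
    simp only [nb]
    rw [this]
    exact ha

lemma prv_nxt {e : St} (he : e ∈ Bd D) : prv D (nxt D e) = e := by
  obtain ⟨z, d⟩ := e
  obtain ⟨h1, h2⟩ := he
  simp only [nb] at h1 h2
  have e1 : d + 3 + 3 = d + 2 := by fin_cases d <;> rfl
  have e2 : d + 1 + 3 = d := by fin_cases d <;> rfl
  have e3 : d + 3 + 1 = d := by fin_cases d <;> rfl
  have e4 : dir (d + 1) = -dir (d + 3) := by
    have : d + 1 = d + 3 + 2 := by fin_cases d <;> rfl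
    rw [this, dir_add_two]
  unfold nxt turn
  by_cases ha : z + dir d ∈ D
  · by_cases hb : z + dir d + dir (d + 3) ∈ D
    · simp only [ha, hb, not_true, if_false, step]
      simp only [show ((2 : Fin 3) = 0) = False by decide, show ((2 : Fin 3) = 1) = False by decide,
        if_false]
      unfold prv
      have a1 : z + dir d + dir (d + 3) - dir (d + 3) = z + dir d := by abel
      have a2 : z + dir d + dir (d + 3 + 3) = z := by rw [e1, dir_add_two]; abel
      simp only [a1, a2, ha, h1, not_true, if_false, e3]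
    · simp only [ha, hb, not_true, if_false, not_false_eq_true, if_true, step]
      simp only [show ((1 : Fin 3) = 0) = False by decide, if_false]
      unfold prv
      have a1 : z + dir d - dir d = z := by abel
      simp only [a1, h1, h2, not_true, if_false, not_false_eq_true, if_true]
  · simp only [ha, not_false_eq_true, if_true, step]
    unfold prv
    have a1 : z - dir (d + 1) = z + dir (d + 3) := by rw [e4]; abel
    simp only [a1, h2, not_false_eq_true, if_true, e2]

lemma bd_finite (hD : D.Finite) : (Bd D).Finite :=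
  (hD.prod (Set.finite_univ (α := Fin 4))).subset fun _ he => ⟨he.1, trivial⟩

end

/-- the contour lemma -/
theorem contour {D : Set (ℤ × ℤ)} (hD : D.Finite) (h0 : ((0 : ℤ), (0 : ℤ)) ∈ D)
    (h1 : ((-1 : ℤ), (0 : ℤ)) ∉ D) :
    ∃ L : ℕ, 0 < L ∧ ∃ w : Fin L → Fin 3, L ≤ 4 * (sites L (ext w)).card ∧
      ∀ s ∈ sites L (ext w), s ∉ D ∧ ∃ z ∈ D, s = (z.1 + 1, z.2) ∨ s = (z.1, z.2 + 1) := by
  classical
  let e0 : St := ((0, 0), 0)
  have he0 : e0 ∈ Bd D := ⟨h0, by simpa [nb, e0, dir] using h1⟩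
  have : Finite (Bd D) := (bd_finite hD).to_subtype
  let f : Bd D → Bd D := fun e => ⟨nxt D e.1, nxt_mem e.2⟩
  have hf : Function.Injective f := by
    intro a b hab
    have : nxt D a.1 = nxt D b.1 := congrArg Subtype.val hab
    apply Subtype.ext
    rw [← prv_nxt a.2, this, prv_nxt b.2]
  let x0 : Bd D := ⟨e0, he0⟩
  have hper : x0 ∈ Function.periodicPts f := hf.mem_periodicPts x0
  set L := Function.minimalPeriod f x0 with hL
  have hLpos : 0 < L := Function.minimalPeriod_pos_of_mem_periodicPts hper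
  let w : ℕ → Fin 3 := fun n => turn D (f^[n] x0).1
  have htr : ∀ n, tr w n = (f^[n] x0).1 := by
    intro n
    induction n with
    | zero => rfl
    | succ n ih =>
      rw [Function.iterate_succ_apply']
      simp only [tr]
      rw [ih]
      rfl
  have hinj : Set.InjOn (tr w) (Set.Iio L) := by
    intro i hi j hj hij
    rw [htr, htr] at hij
    exact Function.iterate_injOn_Iio_minimalPeriod hi hj (Subtype.ext hij)
  have hret : tr w L = tr w 0 := by
    rw [htr, htr, hL, Function.iterate_minimalPeriod]; rfl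
  have hpot : ∀ n, pot (tr w n) = pot (tr w 0) +
      2 * (((Finset.range n).filter fun i => (tr w i).2 = 1 ∨ (tr w i).2 = 2).card : ℤ) - n := by
    intro n
    induction n with
    | zero => simp
    | succ n ih =>
      simp only [tr] at ih ⊢
      rw [pot_step, ih, Finset.range_add_one, Finset.filter_insert]
      split_ifs with h
      · rw [Finset.card_insert_of_notMem (by simp)]
        push_cast; ring
      · push_cast; ring
  have hcard : 2 * ((Finset.range L).filter fun i => (tr w i).2 = 1 ∨ (tr w i).2 = 2).card = L := by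
    have := hpot L
    rw [hret] at this
    omega
  have hs : sites L (ext fun i : Fin L => w i) = sites L w :=
    sites_congr fun i hi => by simp [ext, hi]
  refine ⟨L, hLpos, fun i => w i, ?_, ?_⟩
  · rw [hs]
    have : ((Finset.range L).filter fun i => (tr w i).2 = 1 ∨ (tr w i).2 = 2).card
        ≤ 2 * (sites L w).card := by
      unfold sites
      apply Finset.card_le_mul_card_image
      intro s _
      have : (((Finset.range L).filter fun i => (tr w i).2 = 1 ∨ (tr w i).2 = 2).filter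
          fun i => nb (tr w i) = s).card ≤ ({1, 2} : Finset (Fin 4)).card := by
        apply Finset.card_le_card_of_injOn (fun i => (tr w i).2)
        · intro i hi
          have := (Finset.mem_filter.1 (Finset.mem_filter.1 (Finset.mem_coe.1 hi)).1).2
          simpa using this
        · intro i hi j hj hij
          have hi' := Finset.mem_filter.1 (Finset.mem_coe.1 hi)
          have hj' := Finset.mem_filter.1 (Finset.mem_coe.1 hj)
          apply hinj (Finset.mem_range.1 (Finset.mem_filter.1 hi'.1).1)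
            (Finset.mem_range.1 (Finset.mem_filter.1 hj'.1).1)
          have hij' : (tr w i).2 = (tr w j).2 := hij
          have h3 : nb (tr w i) = nb (tr w j) := hi'.2.trans hj'.2.symm
          unfold nb at h3
          rw [hij'] at h3
          exact Prod.ext (add_right_cancel h3) hij'
      simpa using this
    omega
  · rw [hs]
    intro s hs'
    obtain ⟨i, hi, rfl⟩ := Finset.mem_image.1 hs'
    have hb : tr w i ∈ Bd D := by rw [htr]; exact (f^[i] x0).2
    refine ⟨hb.2, (tr w i).1, hb.1, ?_⟩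
    rcases (Finset.mem_filter.1 hi).2 with h | h
    · right; unfold nb; rw [h]; ext <;> simp [dir]
    · left; unfold nb; rw [h]; ext <;> simp [dir]

end OP

/-- Peierls bound on `ℤ × ℤ`: `R z` = site `z` reached, `F z` = site `z` tested and failed. -/
theorem op_survive_int {Ω : Type*} [MeasurableSpace Ω] (P : Measure Ω) (R F : ℤ × ℤ → Set Ω)
    (hneg : R (-1, 0) = ∅)
    (hch : ∀ ω z, ω ∈ R z → (ω ∈ R (z.1 + 1, z.2) ∨ ω ∈ F (z.1 + 1, z.2)) ∧
      (ω ∈ R (z.1, z.2 + 1) ∨ ω ∈ F (z.1, z.2 + 1)))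
    (hS : ∀ S : Finset (ℤ × ℤ),
      P (R (0, 0) ∩ ⋂ z ∈ S, F z) ≤ ((9 : ℝ≥0∞)⁻¹ ^ 4) ^ S.card * P (R (0, 0))) :
    P {ω | ω ∈ R (0, 0) ∧ {z | ω ∈ R z}.Finite} ≤ P (R (0, 0)) / 2 := by
  classical
  let A : (L : ℕ) → (Fin (L + 1) → Fin 3) → Set Ω := fun L w =>
    if L + 1 ≤ 4 * (OP.sites (L + 1) (OP.ext w)).card then
      R (0, 0) ∩ ⋂ z ∈ OP.sites (L + 1) (OP.ext w), F z else ∅
  have hsub : {ω | ω ∈ R (0, 0) ∧ {z | ω ∈ R z}.Finite} ⊆ ⋃ L, ⋃ w, A L w := by
    rintro ω ⟨h0, hfin⟩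
    obtain ⟨L, hL, w, hw1, hw2⟩ := OP.contour hfin h0 (by
      show ω ∉ R (-1, 0)
      rw [hneg]; exact Set.notMem_empty _)
    obtain ⟨L, rfl⟩ : ∃ L', L = L' + 1 := ⟨L - 1, by omega⟩
    refine Set.mem_iUnion.2 ⟨L, Set.mem_iUnion.2 ⟨w, ?_⟩⟩
    simp only [A, hw1, if_true]
    refine ⟨h0, Set.mem_iInter₂.2 fun s hs => ?_⟩
    obtain ⟨hs1, z, hz, h | h⟩ := hw2 s hs
    · subst h; exact ((hch ω z hz).1).resolve_left hs1
    · subst h; exact ((hch ω z hz).2).resolve_left hs1
  have hA : ∀ L w, P (A L w) ≤ (9 : ℝ≥0∞)⁻¹ ^ (L + 1) * P (R (0, 0)) := by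
    intro L w
    simp only [A]
    split_ifs with h
    · refine (hS _).trans ?_
      rw [← pow_mul]
      gcongr ?_ * _
      exact pow_le_pow_right_of_le_one' (by simp) h
    · simp
  have hL : ∀ L, P (⋃ w, A L w) ≤ (3 : ℝ≥0∞)⁻¹ ^ (L + 1) * P (R (0, 0)) := by
    intro L
    refine (measure_iUnion_fintype_le _ _).trans ?_
    refine (Finset.sum_le_card_nsmul _ _ _ fun w _ => hA L w).trans ?_
    rw [Finset.card_univ, Fintype.card_fun, Fintype.card_fin, Fintype.card_fin, nsmul_eq_mul,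
      ← mul_assoc]
    apply le_of_eq
    congr 1
    push_cast
    rw [← mul_pow]
    congr 1
    have : (9 : ℝ≥0∞) = 3 * 3 := by norm_num
    rw [this, ENNReal.mul_inv (by simp) (by simp), ← mul_assoc, ENNReal.mul_inv_cancel (by simp) (by simp),
      one_mul]
  refine (measure_mono hsub).trans ((measure_iUnion_le _).trans ?_)
  refine (ENNReal.tsum_le_tsum hL).trans ?_
  rw [ENNReal.tsum_mul_right, ENNReal.tsum_geometric_add_one]
  have h3 : (3 : ℝ≥0∞)⁻¹ * (1 - (3 : ℝ≥0∞)⁻¹)⁻¹ = 2⁻¹ := by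
    have h1 : (1 : ℝ≥0∞) - 3⁻¹ = 2 * 3⁻¹ := by
      apply ENNReal.sub_eq_of_eq_add (by simp)
      have : (2 : ℝ≥0∞) * 3⁻¹ + 3⁻¹ = 3 * 3⁻¹ := by ring
      rw [this, ENNReal.mul_inv_cancel (by simp) (by simp)]
    rw [h1, ENNReal.mul_inv (by simp) (by simp), inv_inv, mul_comm, mul_assoc,
      ENNReal.mul_inv_cancel (by simp) (by simp), mul_one]
  rw [h3, mul_comm, div_eq_mul_inv]

/-- Peierls bound on `ℕ × ℕ` with the explicit constant `9⁻⁴`. -/
theorem op_survive_nat {Ω : Type*} [MeasurableSpace Ω] (P : Measure Ω) (R F : ℕ × ℕ → Set Ω)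
    (hch : ∀ ω z, ω ∈ R z → (ω ∈ R (z.1 + 1, z.2) ∨ ω ∈ F (z.1 + 1, z.2)) ∧
      (ω ∈ R (z.1, z.2 + 1) ∨ ω ∈ F (z.1, z.2 + 1)))
    (hS : ∀ S : Finset (ℕ × ℕ),
      P (R (0, 0) ∩ ⋂ z ∈ S, F z) ≤ ((9 : ℝ≥0∞)⁻¹ ^ 4) ^ S.card * P (R (0, 0))) :
    P {ω | ω ∈ R (0, 0) ∧ {z | ω ∈ R z}.Finite} ≤ P (R (0, 0)) / 2 := by
  classical
  let up : (ℕ × ℕ → Set Ω) → ℤ × ℤ → Set Ω := fun X s =>
    {ω | 0 ≤ s.1 ∧ 0 ≤ s.2 ∧ ω ∈ X (s.1.toNat, s.2.toNat)}
  have h00 : up R (0, 0) = R (0, 0) := by ext ω; simp [up]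
  have key := op_survive_int P (up R) (up F) (by ext ω; simp [up]) (by
    rintro ω ⟨a, b⟩ ⟨ha, hb, hω⟩
    simp only at ha hb hω
    have h1 : (a + 1).toNat = a.toNat + 1 := by omega
    have h2 : (b + 1).toNat = b.toNat + 1 := by omega
    have := hch ω _ hω
    simp only [up, Set.mem_ofPred_eq, h1, h2]
    refine ⟨?_, ?_⟩
    · rcases this.1 with h | h
      · exact Or.inl ⟨by omega, hb, h⟩
      · exact Or.inr ⟨by omega, hb, h⟩
    · rcases this.2 with h | h
      · exact Or.inl ⟨ha, by omega, h⟩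
      · exact Or.inr ⟨ha, by omega, h⟩) (by
    intro S
    rw [h00]
    by_cases hpos : ∀ s ∈ S, 0 ≤ s.1 ∧ 0 ≤ s.2
    · have hc : (S.image fun s : ℤ × ℤ => (s.1.toNat, s.2.toNat)).card = S.card := by
        apply Finset.card_image_of_injOn
        intro s hs t ht hst
        have h1 := hpos s hs
        have h2 := hpos t ht
        simp only [Prod.mk.injEq] at hst
        ext <;> omega
      rw [← hc]
      refine le_trans (measure_mono ?_) (hS _)
      rintro ω ⟨h0, hω⟩
      refine ⟨h0, Set.mem_iInter₂.2 fun z hz => ?_⟩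
      obtain ⟨s, hs, rfl⟩ := Finset.mem_image.1 hz
      exact (Set.mem_iInter₂.1 hω s hs).2.2
    · push Not at hpos
      obtain ⟨s, hs, hs'⟩ := hpos
      have : R (0, 0) ∩ ⋂ z ∈ S, up F z = ∅ := by
        apply Set.eq_empty_of_forall_notMem
        rintro ω ⟨_, hω⟩
        have := Set.mem_iInter₂.1 hω s hs
        exact absurd this.2.1 (not_le.2 (hs' this.1))
      rw [this]; simp)
  rw [h00] at key
  refine le_trans (measure_mono ?_) key
  rintro ω ⟨h0, hfin⟩
  refine ⟨h0, (hfin.image fun z : ℕ × ℕ => ((z.1 : ℤ), (z.2 : ℤ))).subset ?_⟩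
  rintro ⟨a, b⟩ ⟨ha, hb, hω⟩
  refine ⟨(a.toNat, b.toNat), hω, ?_⟩
  simp only at ha hb
  ext <;> simp <;> omega

theorem op_survive : ∃ eps : ℝ≥0∞, 0 < eps ∧ ∀ {Ω : Type} [MeasurableSpace Ω] (P : Measure Ω)
    (R F : ℕ × ℕ → Set Ω),
    (∀ ω z, ω ∈ R z → (ω ∈ R (z.1 + 1, z.2) ∨ ω ∈ F (z.1 + 1, z.2)) ∧
      (ω ∈ R (z.1, z.2 + 1) ∨ ω ∈ F (z.1, z.2 + 1))) →
    (∀ S : Finset (ℕ × ℕ), P (R (0, 0) ∩ ⋂ z ∈ S, F z) ≤ eps ^ S.card * P (R (0, 0))) →
    P {ω | ω ∈ R (0, 0) ∧ {z | ω ∈ R z}.Finite} ≤ P (R (0, 0)) / 2 :=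
  ⟨(9 : ℝ≥0∞)⁻¹ ^ 4, ENNReal.pow_pos (by simp) 4, fun P R F h1 h2 => op_survive_nat P R F h1 h2⟩

/-- the bound over finite sets from one-step bounds along an injective ranking of the sites -/
theorem op_of_step {Ω ι κ : Type*} [MeasurableSpace Ω] [LinearOrder κ] (P : Measure Ω)
    (rk : ι → κ) (hrk : Function.Injective rk) (A : Set Ω) (F : ι → Set Ω) (eps : ℝ≥0∞)
    (h : ∀ (z : ι) (S : Finset ι), (∀ w ∈ S, rk w < rk z) →
      P (F z ∩ (A ∩ ⋂ w ∈ S, F w)) ≤ eps * P (A ∩ ⋂ w ∈ S, F w)) (S : Finset ι) :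
    P (A ∩ ⋂ z ∈ S, F z) ≤ eps ^ S.card * P A := by
  classical
  induction S using Finset.induction_on_max_value rk with
  | empty => simp
  | insert z S hz hle ih =>
    have hlt : ∀ w ∈ S, rk w < rk z := fun w hw =>
      lt_of_le_of_ne (hle w hw) fun hh => hz (hrk hh ▸ hw)
    have e : A ∩ ⋂ x ∈ insert z S, F x = F z ∩ (A ∩ ⋂ w ∈ S, F w) := by
      rw [Finset.set_biInter_insert]
      ext ω; simp only [Set.mem_inter_iff]; tauto
    rw [e, Finset.card_insert_of_notMem hz, pow_succ', mul_assoc]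
    exact (h z S hlt).trans (by gcongr)

end Crest.Agent.R147
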