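import Crest.Agent.R147.QDefs
import Crest.Agent.R147.Harris

/-! Row 147, module A2: choice of the parallelogram and of the two moves. -/

set_option autoImplicit false

open MeasureTheory ProbabilityTheory Set Filter
open scoped ENNReal NNReal

namespace Crest.Agent.R147.Q

open Crest.Agent.R159

variable {V : Type*} {G : SimpleGraph V}

section Ex
variable (G)

/-- The seed `O` leaves `I` (inside `B`) through a point of `T`. -/
def ex (B O I T : Set V) : Set (Set (Sym2 V)) :=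
  {ω | ∃ o ∈ O, ∃ u, ∃ t ∈ T, t ∉ I ∧ t ∈ B ∧ conn G (B ∩ I)ᶜ ω o u ∧ G.Adj u t ∧ s(u, t) ∈ ω}

theorem measurableSet_ex [Countable V] (B O I T : Set V) : MeasurableSet (ex G B O I T) :=
  measurableSet_setOfPred.2 (Measurable.exists fun o => Measurable.and measurable_const
    (Measurable.exists fun u => Measurable.exists fun _ => Measurable.and measurable_const
      (Measurable.and measurable_const (Measurable.and measurable_const
        (Measurable.and (cn_measurable_conn _ o u)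
          (Measurable.and measurable_const (measurable_set_mem _)))))))

variable {G} {B O I I' T T' : Set V}

theorem isUpperSet_ex : IsUpperSet (ex G B O I T) :=
  fun _ _ hω ⟨o, ho, u, t, ht, h1, h2, h3, h4, h5⟩ =>
    ⟨o, ho, u, t, ht, h1, h2, h3.mono Subset.rfl hω, h4, hω h5⟩

theorem ex_cover {T₁ T₂ : Set V} (h : ∀ t ∈ T, t ∉ I → t ∈ B → t ∈ T₁ ∨ t ∈ T₂) :
    ex G B O I T ⊆ ex G B O I T₁ ∪ ex G B O I T₂ := by
  rintro ω ⟨o, ho, u, t, ht, h1, h2, h3⟩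
  rcases h t ht h1 h2 with h | h
  · exact Or.inl ⟨o, ho, u, t, h, h1, h2, h3⟩
  · exact Or.inr ⟨o, ho, u, t, h, h1, h2, h3⟩

theorem ex_mono (hI : B ∩ I ⊆ I') (h : ∀ t ∈ T, t ∉ I → t ∈ B → t ∈ T' ∧ t ∉ I') :
    ex G B O I T ⊆ ex G B O I' T' := by
  rintro ω ⟨o, ho, u, t, ht, h1, h2, h3, h4⟩
  exact ⟨o, ho, u, t, (h t ht h1 h2).1, (h t ht h1 h2).2, h2,
    h3.mono (compl_subset_compl.2 fun v hv => ⟨hv.1, hI hv⟩) Subset.rfl, h4⟩

theorem ex_of_conn {U : Set V} {ω : Set (Sym2 V)} {o z : V} (ho : o ∈ O) (hoI : o ∈ I)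
    (hz : z ∉ I) (h : conn G Uᶜ ω o z) (hU : U ⊆ B) : ω ∈ ex G B O I U := by
  obtain ⟨a, b, hb, hab, he, h1, h2⟩ := h.first_entry Iᶜ (not_not.2 hoI) hz
  have hbU : b ∈ U := not_not.1 h2.left
  refine ⟨o, ho, a, b, hbU, hb, hU hbU, h1.mono ?_ Subset.rfl, hab, he⟩
  intro v hv
  by_contra hc
  simp only [mem_union, mem_compl_iff, not_or, not_not] at hc
  exact hv ⟨hU hc.1, hc.2⟩

theorem ex_shrink (hI : I' ⊆ I) (hO : O ⊆ I') :
    ex G B O I T ⊆ ex G B O I' (T \ I) ∪ ex G B O I' I := by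
  rintro ω ⟨o, ho, u, t, ht, h1, h2, h3, h4, h5⟩
  by_cases h : conn G (B ∩ I')ᶜ ω o u
  · exact Or.inl ⟨o, ho, u, t, ⟨ht, h1⟩, fun h' => h1 (hI h'), h2, h, h4, h5⟩
  · right
    by_cases h' : ∃ z, z ∉ I' ∧ conn G (B ∩ I)ᶜ ω o z
    · obtain ⟨z, hz, hc⟩ := h'
      exact ex_mono inter_subset_right (fun t ht h1 _ => ⟨ht.2, h1⟩)
        (ex_of_conn ho (hO ho) hz hc inter_subset_left)
    · refine absurd ((h3.off_of_forall (S := I'ᶜ) fun v hv hv' => h' ⟨v, hv', hv⟩).mono ?_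
        Subset.rfl) h
      intro v hv
      by_contra hc
      simp only [mem_union, mem_compl_iff, not_or, not_not] at hc
      exact hv ⟨hc.1.1, hc.2⟩

theorem ex_subset_hit {U : Set V} (hU : B ∩ I ⊆ U)
    (h : ∀ u ∈ I, ∀ t ∈ T, t ∉ I → t ∈ B → G.Adj u t → t ∈ U ∧ t ∈ T') :
    ex G B O I T ⊆ hit G U O T' := by
  rintro ω ⟨o, ho, u, t, ht, h1, h2, h3, h4, h5⟩
  have hu : u ∈ B ∩ I := not_not.1 h3.right
  obtain ⟨a1, a2⟩ := h u hu.2 t ht h1 h2 h4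
  exact ⟨o, ho, t, a2, (h3.mono (compl_subset_compl.2 hU) Subset.rfl).tail h4 h5 (not_not.2 a1)⟩

end Ex

theorem le_or_le_of_mul_le {a b c : ℝ≥0∞} (h : a * b ≤ c * c) : a ≤ c ∨ b ≤ c := by
  by_contra hc
  simp only [not_or, not_le] at hc
  exact absurd h (not_le.2 (ENNReal.mul_lt_mul hc.1 hc.2))

/-- The square root trick. -/
theorem sqrt_two [Countable V] (p : unitInterval) {B O I₁ I₂ T₁ T₂ : Set V}
    {E : Set (Set (Sym2 V))} {c : ℝ≥0∞} (hE : E ⊆ ex G B O I₁ T₁ ∪ ex G B O I₂ T₂)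
    (h : P G p Eᶜ ≤ c * c) : P G p (ex G B O I₁ T₁)ᶜ ≤ c ∨ P G p (ex G B O I₂ T₂)ᶜ ≤ c := by
  refine le_or_le_of_mul_le (le_trans (harris_P_lower G p (measurableSet_ex G _ _ _ _).compl
    (measurableSet_ex G _ _ _ _).compl isUpperSet_ex.compl isUpperSet_ex.compl) ?_)
  rw [← compl_union]
  exact (measure_mono (compl_subset_compl.2 hE)).trans h

/-- The unit box in the coordinates `X`, `Y`. -/
def bx (B : Set V) (X Y : V → ℝ) : Set V := {w | w ∈ B ∧ |X w| ≤ 13 / 12 ∧ |Y w| ≤ 13 / 12}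

/-- Half of a side of the unit box. -/
def hs (X Y : V → ℝ) : Set V := {w | 11 / 12 ≤ X w ∧ Y w ≤ 1 / 12}

/-- Two transversal half sides are likely. -/
def Pair (G : SimpleGraph V) (p : unitInterval) (δ : ℝ≥0∞) (B O : Set V) (X Y : V → ℝ) : Prop :=
  P G p (hit G (bx B X Y) O (hs X Y))ᶜ ≤ δ ∧
    P G p (hit G (bx B X Y) O (hs Y fun w => -X w))ᶜ ≤ δ

theorem bx_swap (B : Set V) (X Y : V → ℝ) : bx B X Y = bx B Y X := by
  ext w; simp only [bx, mem_ofPred_eq]; tauto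

theorem bx_neg (B : Set V) (X Y : V → ℝ) : bx B X (fun w => -Y w) = bx B X Y := by
  ext w; simp only [bx, mem_ofPred_eq, abs_neg]

theorem exists_split [Countable V] (p : unitInterval) {B O I : Set V} {R : Set V} (y : V → ℝ)
    {M : ℕ} (hM : ∀ w ∈ B, |y w| ≤ M) {c : ℝ≥0∞} (hc : c ≤ 1)
    (h : P G p (ex G B O I R)ᶜ ≤ c * c) :
    ∃ s : ℝ, P G p (ex G B O I (R ∩ {w | s - 1 ≤ y w}))ᶜ ≤ c ∧
      P G p (ex G B O I (R ∩ {w | y w ≤ s}))ᶜ ≤ c := by
  classical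
  have hcc : c * c ≤ c := mul_le_of_le_one_right' hc
  have hex : ∃ k : ℕ, P G p (ex G B O I (R ∩ {w | y w ≤ -(M : ℝ) + k}))ᶜ ≤ c := by
    refine ⟨2 * M, le_trans (measure_mono (compl_subset_compl.2 ?_)) (h.trans hcc)⟩
    refine ex_mono inter_subset_right fun t ht h1 h2 => ⟨⟨ht, ?_⟩, h1⟩
    have := (abs_le.1 (hM t h2)).2
    show y t ≤ _
    push_cast
    linarith
  refine ⟨-(M : ℝ) + Nat.find hex, ?_, Nat.find_spec hex⟩
  rcases Nat.eq_zero_or_pos (Nat.find hex) with h0 | h0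
  · refine le_trans (measure_mono (compl_subset_compl.2 ?_)) (h.trans hcc)
    refine ex_mono inter_subset_right fun t ht h1 h2 => ⟨⟨ht, ?_⟩, h1⟩
    have := (abs_le.1 (hM t h2)).1
    show _ ≤ y t
    rw [h0]
    push_cast
    linarith
  · have h1 := Nat.find_min hex (Nat.sub_lt h0 Nat.one_pos)
    rw [Nat.cast_sub h0, Nat.cast_one, ← add_sub_assoc] at h1
    refine (sqrt_two p (ex_cover fun t ht _ _ => ?_) h).resolve_right h1
    rcases le_total (-(M : ℝ) + Nat.find hex - 1) (y t) with h | h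
    · exact Or.inl ⟨ht, h⟩
    · exact Or.inr ⟨ht, h⟩

theorem exists_height [Countable V] (p : unitInterval) {B O I U D : Set V} (β : V → ℝ)
    {M : ℕ} (hM : ∀ w ∈ B, |β w| ≤ M) {H₀ : ℝ} (hH : 0 ≤ H₀) (hO : ∀ o ∈ O, o ∈ I ∧ |β o| ≤ H₀)
    {c : ℝ≥0∞} (hc : c ≤ 1)
    (hU : P G p (ex G B O I U)ᶜ ≤ c * c) (hD : P G p (ex G B O I D)ᶜ ≤ c * c)
    (hZ : P G p (ex G B O (I ∩ {w | |β w| ≤ H₀}) I)ᶜ ≤ c) :
    ∃ H : ℝ, H₀ + 1 ≤ H ∧ P G p (ex G B O (I ∩ {w | |β w| ≤ H}) (U \ I))ᶜ ≤ c ∧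
      P G p (ex G B O (I ∩ {w | |β w| ≤ H}) (D \ I))ᶜ ≤ c ∧
      P G p (ex G B O (I ∩ {w | |β w| ≤ H - 1}) I)ᶜ ≤ c := by
  classical
  have hcc : c * c ≤ c := mul_le_of_le_one_right' hc
  have hbig : ∀ T : Set V, ex G B O I T ⊆
      ex G B O (I ∩ {w | |β w| ≤ H₀ + 1 + (M : ℕ)}) (T \ I) := fun T =>
    ex_mono (fun w hw => ⟨hw.2, by
      have := hM w hw.1
      show |β w| ≤ _
      linarith⟩) fun t ht h1 _ => ⟨⟨ht, h1⟩, fun h => h1 h.1⟩
  have hex : ∃ k : ℕ, P G p (ex G B O (I ∩ {w | |β w| ≤ H₀ + 1 + k}) (U \ I))ᶜ ≤ c ∧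
      P G p (ex G B O (I ∩ {w | |β w| ≤ H₀ + 1 + k}) (D \ I))ᶜ ≤ c :=
    ⟨M, le_trans (measure_mono (compl_subset_compl.2 (hbig U))) (hU.trans hcc),
      le_trans (measure_mono (compl_subset_compl.2 (hbig D))) (hD.trans hcc)⟩
  have hk : (0 : ℝ) ≤ Nat.find hex := Nat.cast_nonneg _
  refine ⟨H₀ + 1 + Nat.find hex, by linarith, (Nat.find_spec hex).1, (Nat.find_spec hex).2, ?_⟩
  rcases Nat.eq_zero_or_pos (Nat.find hex) with h0 | h0
  · rw [h0]
    simpa using hZ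
  · have h1 := Nat.find_min hex (Nat.sub_lt h0 Nat.one_pos)
    have hk1 : (1 : ℝ) ≤ Nat.find hex := by exact_mod_cast h0
    rw [Nat.cast_sub h0, Nat.cast_one, ← add_sub_assoc, not_and_or] at h1
    have hO' : O ⊆ I ∩ {w | |β w| ≤ H₀ + 1 + Nat.find hex - 1} := fun o ho =>
      ⟨(hO o ho).1, by
        have := (hO o ho).2
        show |β o| ≤ _
        linarith⟩
    rcases h1 with h1 | h1
    · exact (sqrt_two p (ex_shrink inter_subset_left hO') hU).resolve_left h1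
    · exact (sqrt_two p (ex_shrink inter_subset_left hO') hD).resolve_left h1

theorem abs_div_le {a n c : ℝ} (hn : 0 < n) (h : |a| ≤ c * n) : |a / n| ≤ c := by
  rw [abs_div, abs_of_pos hn, div_le_iff₀ hn]; exact h

/-- The geometric core: if the right side of the strip is likely, so is a transversal pair. -/
theorem core [Countable V] (p : unitInterval) {B B₀ O : Set V} (x y : V → ℝ) {L n l : ℝ}
    (hL : 0 ≤ L) (hx : ∀ u v, G.Adj u v → |x u - x v| ≤ L) (hy : ∀ u v, G.Adj u v → |y u - y v| ≤ L)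
    (hl : 12 * (L + 1) ≤ l) (hn : l ≤ n) {M : ℕ} (hM : ∀ w ∈ B, |x w| ≤ M ∧ |y w| ≤ M)
    (hO : ∀ o ∈ O, |x o| ≤ l ∧ |y o| ≤ l) (hB₀ : B₀ ⊆ B) (hB₀' : ∀ w ∈ B₀, |x w| ≤ n)
    {δ : ℝ≥0∞} (hδ : δ ≤ 1)
    (hR : P G p (ex G B O {w | |x w| ≤ n} {w | n < x w})ᶜ ≤ δ ^ 16)
    (hE : ∀ s : ℝ, P G p (hit G B₀ O {w | l * (n + |s|) < |n * y w - s * x w|})ᶜ ≤ δ ^ 4) :
    ∃ s H : ℝ, l * (n + |s|) ≤ H ∧
      (Pair G p δ B O (fun w => x w / n) (fun w => (n * y w - s * x w) / H) ∨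
        Pair G p δ B O (fun w => x w / n) (fun w => -((n * y w - s * x w) / H)) ∨
        Pair G p δ B O (fun w => (n * y w - s * x w) / H) (fun w => x w / n) ∨
        Pair G p δ B O (fun w => -((n * y w - s * x w) / H)) (fun w => x w / n)) := by
  have hl0 : 12 ≤ l := by linarith
  have hn0 : 0 < n := by linarith
  obtain ⟨s, hU, hD⟩ := exists_split p y (fun w hw => (hM w hw).2) (c := δ ^ 8)
    (pow_le_one₀ zero_le hδ) (by rwa [← pow_add])
  set β : V → ℝ := fun w => n * y w - s * x w with hβ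
  have hs0 := abs_nonneg s
  have hβle : ∀ (a b c : ℝ), |a| ≤ c → |b| ≤ c → |n * b - s * a| ≤ c * (n + |s|) := by
    intro a b c ha hb
    have h1 := abs_sub (n * b) (s * a)
    rw [abs_mul, abs_mul, abs_of_pos hn0] at h1
    nlinarith [mul_le_mul_of_nonneg_left ha hs0, mul_le_mul_of_nonneg_left hb hn0.le]
  obtain ⟨M', hM'⟩ := exists_nat_ge ((M : ℝ) * (n + |s|))
  obtain ⟨H, hH, hU', hD', hZ⟩ := exists_height p (B := B) (O := O) (I := {w | |x w| ≤ n}) β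
    (M := M') (fun w hw => (hβle _ _ _ (hM w hw).1 (hM w hw).2).trans hM')
    (H₀ := l * (n + |s|)) (by positivity)
    (fun o ho => ⟨(hO o ho).1.trans hn, hβle _ _ _ (hO o ho).1 (hO o ho).2⟩) (c := δ ^ 4)
    (pow_le_one₀ zero_le hδ) (by rw [← pow_add]; exact hU) (by rw [← pow_add]; exact hD) (by
      refine le_trans (measure_mono (compl_subset_compl.2 ?_)) (hE s)
      rintro ω ⟨o, ho, t, ht, hc⟩
      refine ex_mono inter_subset_right (fun t ht h1 _ => ⟨hB₀' t ht, h1⟩)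
        (ex_of_conn ho ⟨(hO o ho).1.trans hn, hβle _ _ _ (hO o ho).1 (hO o ho).2⟩
          (fun h => absurd (show |β t| ≤ _ from h.2) (not_le.2 ht)) hc hB₀))
  have hH1 : l * (n + |s|) ≤ H := by linarith
  have hH2 : 12 * ((L + 1) * (n + |s|)) ≤ H := by nlinarith
  have hH3 : 12 ≤ H := by nlinarith
  have hH0 : 0 < H := by linarith
  have hδ4 : δ ^ 4 ≤ δ := pow_le_of_le_one zero_le hδ (by norm_num)
  set X : V → ℝ := fun w => x w / n with hX
  set Y : V → ℝ := fun w => β w / H with hY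
  -- inner points and exit points lie in the box
  have hin : ∀ H' : ℝ, H' ≤ H → B ∩ ({w | |x w| ≤ n} ∩ {w | |β w| ≤ H'}) ⊆ bx B X Y := by
    rintro H' hH' w ⟨h1, h2, h3⟩
    have h2' : |x w| ≤ n := h2
    have h3' : |β w| ≤ H' := h3
    exact ⟨h1, abs_div_le hn0 (by linarith), abs_div_le hH0 (by linarith)⟩
  have hout : ∀ H' : ℝ, H' ≤ H → ∀ u ∈ ({w | |x w| ≤ n} ∩ {w | |β w| ≤ H'} : Set V), ∀ t ∈ B,
      G.Adj u t → t ∈ bx B X Y ∧ |x t| ≤ n + L := by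
    rintro H' hH' u ⟨h2, h3⟩ t ht hut
    have h2' : |x u| ≤ n := h2
    have h3' : |β u| ≤ H' := h3
    have a1 := hx _ _ hut.symm
    have a2 := hβle _ _ _ a1 (hy _ _ hut.symm)
    have a3 : |x t| ≤ n + L := by
      have := abs_add_le (x t - x u) (x u)
      rw [sub_add_cancel] at this
      linarith
    have a4 : |β t| ≤ H + L * (n + |s|) := by
      have := abs_add_le (n * (y t - y u) - s * (x t - x u)) (β u)
      rw [show n * (y t - y u) - s * (x t - x u) + β u = β t by simp only [hβ]; ring] at this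
      linarith
    exact ⟨⟨ht, abs_div_le hn0 (by linarith), abs_div_le hH0 (by nlinarith)⟩, a3⟩
  have hside : ∀ t, n < x t → |x t| ≤ n + L → 11 / 12 ≤ X t ∧ |s * (x t - n)| ≤ |s| * L := by
    intro t h1 h2
    refine ⟨(le_div_iff₀ hn0).2 (by linarith), ?_⟩
    rw [abs_mul]
    refine mul_le_mul_of_nonneg_left (abs_le.2 ⟨by linarith, by linarith [(abs_le.1 h2).2]⟩) hs0
  have gU : P G p (hit G (bx B X Y) O (hs X fun w => -Y w))ᶜ ≤ δ := by
    refine le_trans (measure_mono (compl_subset_compl.2 (ex_subset_hit (hin H le_rfl) ?_)))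
      (hU'.trans hδ4)
    rintro u hu t ⟨⟨h1, h2⟩, -⟩ - ht hut
    obtain ⟨a1, a2⟩ := hout H le_rfl u hu t ht hut
    obtain ⟨a3, a4⟩ := hside t h1 a2
    refine ⟨a1, a3, ?_⟩
    have h2' : s - 1 ≤ y t := h2
    show -(β t / H) ≤ 1 / 12
    rw [neg_le, le_div_iff₀ hH0]
    have := (abs_le.1 a4).2
    simp only [hβ]
    nlinarith [mul_le_mul_of_nonneg_left h2' hn0.le, mul_nonneg hL hn0.le]
  have gD : P G p (hit G (bx B X Y) O (hs X Y))ᶜ ≤ δ := by
    refine le_trans (measure_mono (compl_subset_compl.2 (ex_subset_hit (hin H le_rfl) ?_)))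
      (hD'.trans hδ4)
    rintro u hu t ⟨⟨h1, h2⟩, -⟩ - ht hut
    obtain ⟨a1, a2⟩ := hout H le_rfl u hu t ht hut
    obtain ⟨a3, a4⟩ := hside t h1 a2
    refine ⟨a1, a3, ?_⟩
    have h2' : y t ≤ s := h2
    show β t / H ≤ 1 / 12
    rw [div_le_iff₀ hH0]
    have := (abs_le.1 a4).1
    simp only [hβ]
    nlinarith [mul_le_mul_of_nonneg_left h2' hn0.le, mul_nonneg hL hn0.le]
  have hq : ∀ (f g : V → ℝ) (T : Set V), (∀ t ∈ T, t ∈ hs f g) →
      P G p (ex G B O ({w | |x w| ≤ n} ∩ {w | |β w| ≤ H - 1}) T)ᶜ ≤ δ →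
      P G p (hit G (bx B X Y) O (hs f g))ᶜ ≤ δ := fun f g T hT h =>
    le_trans (measure_mono (compl_subset_compl.2 (ex_subset_hit (hin (H - 1) (by linarith))
      fun u hu t ht _ htB hut => ⟨(hout (H - 1) (by linarith) u hu t htB hut).1, hT t ht⟩))) h
  have hYp : ∀ t, H - 1 < β t → 11 / 12 ≤ Y t := fun t h => (le_div_iff₀ hH0).2 (by linarith)
  have hYn : ∀ t, β t < -(H - 1) → 11 / 12 ≤ -Y t := fun t h => by
    show 11 / 12 ≤ -(β t / H)
    rw [le_neg, div_le_iff₀ hH0]; linarith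
  have hXp : ∀ t, 0 ≤ x t → -X t ≤ 1 / 12 := fun t h => by
    have : 0 ≤ X t := div_nonneg h hn0.le
    linarith
  have hXn : ∀ t, x t ≤ 0 → X t ≤ 1 / 12 := fun t h => by
    have : X t ≤ 0 := div_nonpos_of_nonpos_of_nonneg h hn0.le
    linarith
  refine ⟨s, H, hH1, ?_⟩
  have e4 : δ ^ 4 = δ * δ * (δ * δ) := by ring
  rw [e4] at hZ
  rcases sqrt_two p (ex_cover (T₁ := {t | H - 1 < β t}) (T₂ := {t | β t < -(H - 1)})
    fun t ht h1 _ => by
      have : H - 1 < |β t| := not_le.1 fun h => h1 ⟨ht, h⟩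
      rcases lt_abs.1 this with h | h
      · exact Or.inl h
      · exact Or.inr (by show β t < _; linarith)) hZ with h | h
  · rcases sqrt_two p (ex_cover (T₁ := {t | H - 1 < β t ∧ 0 ≤ x t})
      (T₂ := {t | H - 1 < β t ∧ x t ≤ 0}) fun t ht _ _ =>
        (le_total 0 (x t)).imp (fun h => ⟨ht, h⟩) fun h => ⟨ht, h⟩) h with h | h
    · exact Or.inl ⟨gD, hq _ _ _ (fun t ht => ⟨hYp t ht.1, hXp t ht.2⟩) h⟩
    · refine Or.inr (Or.inr (Or.inl ⟨?_, ?_⟩)) <;> rw [bx_swap]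
      · exact hq _ _ _ (fun t ht => ⟨hYp t ht.1, hXn t ht.2⟩) h
      · exact gU
  · rcases sqrt_two p (ex_cover (T₁ := {t | β t < -(H - 1) ∧ 0 ≤ x t})
      (T₂ := {t | β t < -(H - 1) ∧ x t ≤ 0}) fun t ht _ _ =>
        (le_total 0 (x t)).imp (fun h => ⟨ht, h⟩) fun h => ⟨ht, h⟩) h with h | h
    · refine Or.inr (Or.inl ⟨?_, ?_⟩) <;> rw [bx_neg]
      · exact gU
      · exact hq _ _ _ (fun t ht => ⟨hYn t ht.1, hXp t ht.2⟩) h
    · refine Or.inr (Or.inr (Or.inr ⟨?_, ?_⟩)) <;> rw [bx_swap, bx_neg]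
      · exact hq _ _ _ (fun t ht => ⟨hYn t ht.1, hXn t ht.2⟩) h
      · simpa only [neg_neg] using gD

end Crest.Agent.R147.Q
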