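import Crest.Agent.R147.Defs

/-! Row 147, module A2 (static scheme): the two moves. -/

set_option autoImplicit false

open MeasureTheory ProbabilityTheory Set Filter
open scoped ENNReal NNReal

namespace Crest.Agent.R147.Q

open Crest.Agent.R159

variable {V : Type*} (G : SimpleGraph V)

/-- `O` is joined to `T` inside `U`. -/
def hit (U O T : Set V) : Set (Set (Sym2 V)) := {ω | ∃ o ∈ O, ∃ t ∈ T, conn G Uᶜ ω o t}

/-- Landing set of the move of sign `σ` from `v`. -/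
def land (φ τ : V → ℝ) (v : V) (σ : ℝ) : Set V :=
  {w | 2 ≤ φ w - φ v ∧ φ w - φ v ≤ 9 ∧ 2 ≤ σ * (τ w - τ v) ∧ σ * (τ w - τ v) ≤ 9}

variable [DecidableEq V] [G.LocallyFinite]

/-- Region of the moves from `v`. -/
def reg (φ τ : V → ℝ) (ρ : ℕ) (v : V) : Set V :=
  {w | |φ w - φ v| ≤ 9 ∧ |τ w - τ v| ≤ 9 ∧ w ∈ ball G ρ {v}}

/-- Both moves succeed from the seed of every centre, up to probability `δ`. -/
structure MV (q : unitInterval) (δ : ℝ≥0∞) (m R S ρ : ℕ) (C : Set V) (φ τ : V → ℝ) : Prop where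
  lip : ∀ u v, G.Adj u v → (S : ℝ) * |φ u - φ v| ≤ 1 ∧ (S : ℝ) * |τ u - τ v| ≤ 1
  dense : ∀ x, ∃ v ∈ C, v ∈ ball G R {x}
  up : ∀ v ∈ C, P G q (hit G (reg G φ τ ρ v) (ball G m {v}) (land φ τ v 1))ᶜ ≤ δ
  down : ∀ v ∈ C, P G q (hit G (reg G φ τ ρ v) (ball G m {v}) (land φ τ v (-1)))ᶜ ≤ δ

/-- The conclusion of the target lemma. -/
def TargetAt (ε δ : ℝ≥0∞) (p1 p0 : unitInterval) (m R J : ℕ) : Prop :=
  ∀ (π : Sym2 V → unitInterval) (U B : Finset V) (O T S : Set V),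
    (∀ x, ∃ v ∈ S, v ∈ ball G R {x}) → ball G J B ⊆ U → (∀ o ∈ O, o ∉ ball G J B) →
    (∀ e ∈ touch G ↑(ball G J B), p1 ≤ π e ∧ π e ≤ p0) →
    (∀ v ∈ S, v ∈ ball G J B →
      bern π {ω | ¬ ∃ a ∈ ball G m {v}, ∃ t ∈ T, conn G (↑U)ᶜ ω a t} ≤ δ) →
    bern π {ω | (∃ o ∈ O, ∃ b ∈ B, conn G (↑U)ᶜ ω o b) ∧
      ¬ ∃ o ∈ O, ∃ t ∈ T, conn G (↑U)ᶜ ω o t} ≤ ε

omit [DecidableEq V] [G.LocallyFinite] in
theorem measurableSet_hit [Countable V] (U O T : Set V) : MeasurableSet (hit G U O T) :=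
  measurableSet_setOfPred.2 (Measurable.exists fun o => Measurable.and measurable_const
    (Measurable.exists fun t => Measurable.and measurable_const (cn_measurable_conn _ o t)))

variable {G}

omit [DecidableEq V] [G.LocallyFinite] in
theorem hit_mono {U U' O O' T T' : Set V} (hU : U ⊆ U') (hO : O ⊆ O') (hT : T ∩ U ⊆ T') :
    hit G U O T ⊆ hit G U' O' T' := fun _ ⟨o, ho, t, ht, h⟩ =>
  ⟨o, hO ho, t, hT ⟨ht, not_not.1 h.right⟩, h.mono (compl_subset_compl.2 hU) Subset.rfl⟩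

omit [DecidableEq V] [G.LocallyFinite] in
theorem isUpperSet_hit (U O T : Set V) : IsUpperSet (hit G U O T) :=
  fun _ _ hω ⟨o, ho, t, ht, h⟩ => ⟨o, ho, t, ht, h.mono Subset.rfl hω⟩

omit [DecidableEq V] [G.LocallyFinite] in
theorem dep_hit (U O T : Set V) : Dep (touch G Uᶜ)ᶜ (hit G U O T) :=
  fun ω ω' hω ⟨o, ho, t, ht, h⟩ => ⟨o, ho, t, ht, dep_conn _ o t ω ω' hω h⟩

omit [DecidableEq V] [G.LocallyFinite] in
theorem dep_hit' (U O T : Set V) : Dep (touch G U) (hit G U O T) := by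
  rintro ω ω' hω ⟨o, ho, t, ht, h⟩
  refine ⟨o, ho, t, ht, ?_⟩
  exact conn.ind (Q := fun y => conn G Uᶜ ω' o y) h (conn_refl h.1)
    fun _ _ ha hab he hb ih =>
      ih.tail hab ((hω _ (mem_touch_of_adj hab (not_not.1 ha.right))).1 he) hb

theorem ball_trans {r s : ℕ} {x y z : V} (h : y ∈ ball G r {x}) (h' : z ∈ ball G s {y}) :
    z ∈ ball G (r + s) {x} := by
  obtain ⟨w, hw⟩ := mem_ball_singleton.1 h
  obtain ⟨w', hw'⟩ := mem_ball_singleton.1 h'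
  exact mem_ball_singleton.2 ⟨w.append w', by rw [SimpleGraph.Walk.length_append]; omega⟩

theorem ball_symm {r : ℕ} {x y : V} (h : y ∈ ball G r {x}) : x ∈ ball G r {y} := by
  obtain ⟨w, hw⟩ := mem_ball_singleton.1 h
  exact mem_ball_singleton.2 ⟨w.reverse, by simpa using hw⟩

theorem ball_le {r s : ℕ} (hrs : r ≤ s) {x y : V} (h : y ∈ ball G r {x}) : y ∈ ball G s {x} := by
  obtain ⟨w, hw⟩ := mem_ball_singleton.1 h
  exact mem_ball_singleton.2 ⟨w, hw.trans hrs⟩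

theorem mem_ball_self (r : ℕ) (x : V) : x ∈ ball G r {x} :=
  mem_ball_singleton.2 ⟨.nil, Nat.zero_le _⟩

theorem mem_ball_iff {r : ℕ} {B : Finset V} {y : V} :
    y ∈ ball G r B ↔ ∃ b ∈ B, y ∈ ball G r {b} := by
  simp only [mem_ball_singleton]; exact mem_ball

omit [DecidableEq V] [G.LocallyFinite] in
theorem lip_walk {f : V → ℝ} {c : ℝ} (h : ∀ u v, G.Adj u v → |f u - f v| ≤ c) {x y : V}
    (w : G.Walk x y) : |f x - f y| ≤ c * w.length := by
  induction w with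
  | nil => simp
  | @cons a b z hab w ih =>
    have := abs_sub_le (f a) (f b) (f z)
    have h1 := h a b hab
    rw [SimpleGraph.Walk.length_cons]
    push_cast
    linarith

theorem lip_ball {f : V → ℝ} {c : ℝ} (hc : 0 ≤ c) (h : ∀ u v, G.Adj u v → |f u - f v| ≤ c)
    {r : ℕ} {x y : V} (hy : y ∈ ball G r {x}) : |f x - f y| ≤ c * r := by
  obtain ⟨w, hw⟩ := mem_ball_singleton.1 hy
  exact (lip_walk h w).trans (mul_le_mul_of_nonneg_left (by exact_mod_cast hw) hc)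

end Crest.Agent.R147.Q
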