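import Crest.Agent.R147.QDefs
import Crest.Agent.R147.Fix
import Crest.Agent.R147.OP

/-! Row 147, module A2 (static scheme): two likely moves give percolation. -/

set_option autoImplicit false

open MeasureTheory ProbabilityTheory Set Filter
open scoped ENNReal NNReal

namespace Crest.Agent.R147.Q

open Crest.Agent.R159

variable {V : Type*} {G : SimpleGraph V} [DecidableEq V] [G.LocallyFinite]

section Scheme
variable (G) (o : V) (K : ℕ) (φ τ : V → ℝ)

/-- The `i`-th target on the way to the gate of `z`. -/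
def tg (z : ℕ × ℕ) (i : ℕ) : Set V :=
  {w | w ∈ ball G ((21 * (z.1 + z.2) + i) * K) {o} ∧
    20 * ((z.1 : ℝ) + z.2) - 20 + i ≤ φ w ∧ φ w ≤ 20 * ((z.1 : ℝ) + z.2) + 10 ∧
    |τ w - ((z.1 : ℝ) - z.2)| ≤ 11 ∧
    (20 * ((z.1 : ℝ) + z.2) ≤ φ w → |τ w - ((z.1 : ℝ) - z.2)| ≤ 10)}

open Classical in
/-- The region in which `z` has to be reached. -/
noncomputable def past (z : ℕ × ℕ) : Finset V :=
  (ball G ((21 * (z.1 + z.2) + 21) * K) {o}).filter fun w =>
    φ w + 20 * τ w ≤ 40 * z.1 + 480 ∧ φ w - 20 * τ w ≤ 40 * z.2 + 480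

/-- The fresh zone of `z`. -/
def zone (z : ℕ × ℕ) : Set V :=
  {w | |φ w + 20 * τ w - 40 * z.1| ≤ 480 ∧ |φ w - 20 * τ w - 40 * z.2| ≤ 480}

end Scheme

open Classical in
/-- The edge parameters of homogeneous percolation. -/
noncomputable def pi0 {V : Type*} (G : SimpleGraph V) (q : unitInterval) : Sym2 V → unitInterval :=
  fun e => if e ∈ G.edgeSet then q else 0

theorem P_eq_pi0 {V : Type*} (G : SimpleGraph V) (q : unitInterval) : P G q = bern (pi0 G q) := by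
  unfold P pi0
  rw [setBer_eq_bern]
  congr 1
  funext e
  by_cases h : e ∈ G.edgeSet <;> simp only [h, if_true, if_false]

theorem pi0_of_mem {V : Type*} {G : SimpleGraph V} {q : unitInterval} {e : Sym2 V}
    (h : e ∈ G.edgeSet) : pi0 G q e = q := if_pos h

variable {o : V} {K : ℕ} {φ τ : V → ℝ}

theorem mem_past {z : ℕ × ℕ} {w : V} : w ∈ past G o K φ τ z ↔
    w ∈ ball G ((21 * (z.1 + z.2) + 21) * K) {o} ∧
      φ w + 20 * τ w ≤ 40 * z.1 + 480 ∧ φ w - 20 * τ w ≤ 40 * z.2 + 480 := by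
  simp only [past, Finset.mem_filter]

theorem past_mono {z z' : ℕ × ℕ} (h1 : z.1 ≤ z'.1) (h2 : z.2 ≤ z'.2) :
    past G o K φ τ z ⊆ past G o K φ τ z' := fun w hw => by
  rw [mem_past] at hw ⊢
  have a1 : (z.1 : ℝ) ≤ z'.1 := by exact_mod_cast h1
  have a2 : (z.2 : ℝ) ≤ z'.2 := by exact_mod_cast h2
  exact ⟨ball_le (Nat.mul_le_mul_right _ (by omega)) hw.1, by linarith [hw.2.1],
    by linarith [hw.2.2]⟩

theorem gate_subset {z z' : ℕ × ℕ} (h : z' = (z.1 + 1, z.2) ∨ z' = (z.1, z.2 + 1)) :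
    tg G o K φ τ z 20 ⊆ tg G o K φ τ z' 0 := by
  rintro w ⟨h0, h1, h2, -, h4⟩
  have h5 := abs_le.1 (h4 (by push_cast at h1; linarith))
  push_cast at h1
  rcases h with rfl | rfl
  · refine ⟨ball_le (Nat.mul_le_mul_right _ (by simp only; omega)) h0, ?_, ?_, ?_, ?_⟩ <;>
      push_cast
    · linarith
    · linarith
    · rw [abs_le]; constructor <;> linarith [h5.1, h5.2]
    · intro h; linarith
  · refine ⟨ball_le (Nat.mul_le_mul_right _ (by simp only; omega)) h0, ?_, ?_, ?_, ?_⟩ <;>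
      push_cast
    · linarith
    · linarith
    · rw [abs_le]; constructor <;> linarith [h5.1, h5.2]
    · intro h; linarith

theorem zone_past {z w : ℕ × ℕ} (h : w.1 + 25 ≤ z.1 ∨ w.2 + 25 ≤ z.2) :
    zone φ τ z ⊆ (↑(past G o K φ τ w) : Set V)ᶜ := by
  rintro x ⟨h1, h2⟩ hx
  have hx' := mem_past.1 (Finset.mem_coe.1 hx)
  rcases h with h | h
  · have : (w.1 : ℝ) + 25 ≤ z.1 := by exact_mod_cast h
    linarith [(abs_le.1 h1).1, hx'.2.1]
  · have : (w.2 : ℝ) + 25 ≤ z.2 := by exact_mod_cast h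
    linarith [(abs_le.1 h2).1, hx'.2.2]

/-- A point close (in the coordinates) to a target point lies in the zone. -/
theorem near_zone {z : ℕ × ℕ} {i : ℕ} {b w : V} (hb : b ∈ tg G o K φ τ z i)
    (h1 : |φ w - φ b| ≤ 10) (h2 : |τ w - τ b| ≤ 10) : w ∈ zone φ τ z := by
  obtain ⟨-, b1, b2, b3, -⟩ := hb
  have hi : (0 : ℝ) ≤ i := Nat.cast_nonneg i
  rw [abs_le] at h1 h2 b3
  constructor <;> rw [abs_le] <;> constructor <;> linarith [h1.1, h1.2, h2.1, h2.2, b3.1, b3.2]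

theorem near_past {z : ℕ × ℕ} {i : ℕ} (hi : i ≤ 20) {b w : V} (hb : b ∈ tg G o K φ τ z i)
    (h1 : |φ w - φ b| ≤ 10) (h2 : |τ w - τ b| ≤ 10) (h3 : w ∈ ball G K {b}) :
    w ∈ past G o K φ τ z := by
  obtain ⟨c1, c2⟩ := near_zone hb h1 h2
  refine mem_past.2 ⟨ball_le ?_ (ball_trans hb.1 h3), by linarith [(abs_le.1 c1).2],
    by linarith [(abs_le.1 c2).2]⟩
  nlinarith

section Step
variable [Countable V] {q : unitInterval} {δ ε : ℝ≥0∞} {m R J ρ : ℕ} {C : Set V}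

omit [Countable V] in
theorem lip_one {S : ℕ} (hS : 0 < S) {f : V → ℝ} (h : ∀ u v, G.Adj u v → (S : ℝ) * |f u - f v| ≤ 1)
    {x y : V} (hy : y ∈ ball G S {x}) : |f y - f x| ≤ 1 := by
  have hS' : (0 : ℝ) < S := by exact_mod_cast hS
  have := lip_ball (c := 1 / S) (by positivity)
    (fun u v huv => by rw [le_div_iff₀ hS', mul_comm]; exact h u v huv) hy
  rw [abs_sub_comm]
  rwa [div_mul_cancel₀ _ hS'.ne'] at this

/-- One move from a centre close to a point of the `i`-th target. -/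
theorem move_le (hMV : MV G q δ m R (J + m + 1) ρ C φ τ) (hK : J + m + 1 + ρ ≤ K) (z : ℕ × ℕ)
    {i : ℕ} (hi : i < 20) (ξ : Set (Sym2 V)) {b v : V} (hb : b ∈ tg G o K φ τ z i)
    (hb' : φ b < 20 * ((z.1 : ℝ) + z.2)) (hv : v ∈ C) (hvb : v ∈ ball G (J + m + 1) {b}) :
    bern (fixOff (pi0 G q) (touch G (zone φ τ z)) ξ)
      (hit G ↑(past G o K φ τ z) ↑(ball G m {v}) (tg G o K φ τ z (i + 1)))ᶜ ≤ δ := by
  have l1 := abs_le.1 (lip_one (by omega) (fun u v h => (hMV.lip u v h).1) hvb)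
  have l2 := abs_le.1 (lip_one (by omega) (fun u v h => (hMV.lip u v h).2) hvb)
  have hnear : ∀ w ∈ reg G φ τ ρ v, |φ w - φ b| ≤ 10 ∧ |τ w - τ b| ≤ 10 ∧ w ∈ ball G K {b} := by
    rintro w ⟨a1, a2, a3⟩
    rw [abs_le] at a1 a2
    refine ⟨abs_le.2 ⟨by linarith [a1.1], by linarith [a1.2]⟩,
      abs_le.2 ⟨by linarith [a2.1], by linarith [a2.2]⟩, ball_le hK (ball_trans hvb a3)⟩
  have key : ∀ σ : ℝ, (σ = 1 ∧ τ b ≤ (z.1 : ℝ) - z.2 ∨ σ = -1 ∧ (z.1 : ℝ) - z.2 ≤ τ b) →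
      P G q (hit G (reg G φ τ ρ v) (ball G m {v}) (land φ τ v σ))ᶜ ≤ δ →
      bern (fixOff (pi0 G q) (touch G (zone φ τ z)) ξ)
        (hit G ↑(past G o K φ τ z) ↑(ball G m {v}) (tg G o K φ τ z (i + 1)))ᶜ ≤ δ := by
    intro σ hσ hP
    have hsub : hit G (reg G φ τ ρ v) (ball G m {v}) (land φ τ v σ) ⊆
        hit G ↑(past G o K φ τ z) ↑(ball G m {v}) (tg G o K φ τ z (i + 1)) := by
      refine hit_mono (fun w hw => ?_) Subset.rfl ?_
      · obtain ⟨a1, a2, a3⟩ := hnear w hw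
        exact Finset.mem_coe.2 (near_past hi.le hb a1 a2 a3)
      · rintro w ⟨⟨a1, a2, a3, a4⟩, hw⟩
        obtain ⟨b0, b1, b2, b3, -⟩ := hb
        have hτ : |τ w - ((z.1 : ℝ) - z.2)| ≤ 10 := by
          rw [abs_le] at b3 ⊢
          rcases hσ with ⟨rfl, h⟩ | ⟨rfl, h⟩ <;> constructor <;> linarith [b3.1, b3.2]
        refine ⟨ball_le (le_of_eq (by ring)) (ball_trans b0 (hnear w hw).2.2), ?_, by linarith,
          hτ.trans (by norm_num), fun _ => hτ⟩
        push_cast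
        linarith
    refine (measure_mono (compl_subset_compl.2 hsub)).trans ?_
    rw [bern_fixOff_of_dep _ _ _ (measurableSet_hit G _ _ _).compl
      ((dep_hit' _ _ _).compl.mono (touch_mono fun w hw =>
        near_zone hb (hnear w hw).1 (hnear w hw).2.1)), ← P_eq_pi0]
    exact hP
  rcases le_total (τ b) ((z.1 : ℝ) - z.2) with h | h
  · exact key 1 (Or.inl ⟨rfl, h⟩) (hMV.up v hv)
  · exact key (-1) (Or.inr ⟨rfl, h⟩) (hMV.down v hv)

open Classical in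
/-- One step of the chain, whatever the state off the zone. -/
theorem step_le {p1 p0 : unitInterval} (hT : TargetAt G ε δ p1 p0 m R J) (hδ : δ ≤ ε)
    (h1 : p1 ≤ q) (h0 : q ≤ p0) (hMV : MV G q δ m R (J + m + 1) ρ C φ τ) (ho : o ∈ C)
    (hK : J + m + 1 + ρ ≤ K) (z : ℕ × ℕ) {i : ℕ} (hi : i < 20) (ξ : Set (Sym2 V)) :
    bern (fixOff (pi0 G q) (touch G (zone φ τ z)) ξ)
      (hit G ↑(past G o K φ τ z) ↑(ball G m {o}) (tg G o K φ τ z i) \
        hit G ↑(past G o K φ τ z) ↑(ball G m {o}) (tg G o K φ τ z (i + 1))) ≤ ε := by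
  set B : Finset V := (ball G ((21 * (z.1 + z.2) + i) * K) {o}).filter fun w =>
    w ∈ tg G o K φ τ z i ∧ φ w < 20 * ((z.1 : ℝ) + z.2) with hB
  have hBm : ∀ b ∈ B, b ∈ tg G o K φ τ z i ∧ φ b < 20 * ((z.1 : ℝ) + z.2) := fun b hb =>
    (Finset.mem_filter.1 hb).2
  by_cases hnear : ∃ a ∈ ball G m {o}, a ∈ ball G J B
  · obtain ⟨a, ha, haB⟩ := hnear
    obtain ⟨b, hb, hab⟩ := mem_ball_iff.1 haB
    refine le_trans (measure_mono fun ω hω => hω.2) (le_trans ?_ hδ)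
    exact move_le hMV hK z hi ξ (hBm b hb).1 (hBm b hb).2 ho
      (ball_le (by omega) (ball_trans hab (ball_symm ha)))
  · have hclose : ∀ w ∈ ball G J B, ∃ b ∈ B, w ∈ ball G (J + m + 1) {b} ∧ |φ w - φ b| ≤ 10 ∧
        |τ w - τ b| ≤ 10 := fun w hw => by
      obtain ⟨b, hb, hwb⟩ := mem_ball_iff.1 hw
      have h2 : w ∈ ball G (J + m + 1) {b} := ball_le (by omega) hwb
      exact ⟨b, hb, h2, (lip_one (by omega) (fun u v h => (hMV.lip u v h).1) h2).trans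
        (by norm_num), (lip_one (by omega) (fun u v h => (hMV.lip u v h).2) h2).trans
        (by norm_num)⟩
    refine le_trans (measure_mono ?_) (hT _ (past G o K φ τ z) B ↑(ball G m {o})
      (tg G o K φ τ z (i + 1)) C hMV.dense ?_ ?_ ?_ ?_)
    · rintro ω ⟨⟨a, ha, t, ht, hc⟩, hn⟩
      by_cases hφ : φ t < 20 * ((z.1 : ℝ) + z.2)
      · exact ⟨⟨a, ha, t, Finset.mem_filter.2 ⟨ht.1, ht, hφ⟩, hc⟩, hn⟩
      · refine absurd ⟨a, ha, t, ?_, hc⟩ hn
        obtain ⟨b0, -, b2, b3, b4⟩ := ht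
        have : ((i + 1 : ℕ) : ℝ) ≤ 20 := by exact_mod_cast hi
        exact ⟨ball_le (Nat.mul_le_mul_right _ (by omega)) b0, by linarith [not_lt.1 hφ], b2,
          b3, b4⟩
    · intro w hw
      obtain ⟨b, hb, a1, a2, a3⟩ := hclose w hw
      exact near_past hi.le (hBm b hb).1 a2 a3 (ball_le (by omega) a1)
    · exact fun a ha haB => hnear ⟨a, ha, haB⟩
    · intro e he
      have he' : e ∈ touch G (zone φ τ z) := touch_mono (fun w hw => by
        obtain ⟨b, hb, -, a2, a3⟩ := hclose w hw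
        exact near_zone (hBm b hb).1 a2 a3) he
      rw [fixOff_of_mem he', pi0_of_mem he.1]
      exact ⟨h1, h0⟩
    · intro v hv hvB
      obtain ⟨b, hb, a1, -, -⟩ := hclose v hvB
      exact move_le hMV hK z hi ξ (hBm b hb).1 (hBm b hb).2 hv a1

theorem chain_le {Ω : Type*} [MeasurableSpace Ω] (μ : Measure Ω) (A : ℕ → Set Ω) (n : ℕ)
    (h : ∀ i < n, μ (A i \ A (i + 1)) ≤ ε) : μ (A 0 \ A n) ≤ n * ε := by
  induction n with
  | zero => simp
  | succ n ih =>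
    have hsub : A 0 \ A (n + 1) ⊆ (A 0 \ A n) ∪ (A n \ A (n + 1)) := fun ω hω => by
      by_cases hn : ω ∈ A n
      · exact Or.inr ⟨hn, hω.2⟩
      · exact Or.inl ⟨hω.1, hn⟩
    refine (measure_mono hsub).trans ((measure_union_le _ _).trans ?_)
    rw [Nat.cast_succ, add_mul, one_mul]
    exact add_le_add (ih fun i hi => h i (by omega)) (h n (by omega))

theorem exists_class (S : Finset (ℕ × ℕ)) : ∃ c : ℕ × ℕ,
    S.card ≤ 625 * (S.filter fun z => (z.1 % 25, z.2 % 25) = c).card := by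
  classical
  obtain ⟨c, -, hc⟩ := Finset.exists_max_image (Finset.range 25 ×ˢ Finset.range 25)
    (fun c => (S.filter fun z => (z.1 % 25, z.2 % 25) = c).card) (by simp)
  refine ⟨c, ?_⟩
  rw [Finset.card_eq_sum_card_fiberwise (f := fun z : ℕ × ℕ => (z.1 % 25, z.2 % 25))
    (t := Finset.range 25 ×ˢ Finset.range 25) (fun z _ => by
      simp only [Finset.coe_product, Finset.coe_range, mem_prod, mem_Iio]
      omega)]
  refine (Finset.sum_le_card_nsmul _ _ _ hc).trans ?_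
  simp

/-- The static renormalisation. -/
theorem perc_of_target {p1 p0 : unitInterval} (hε : 20 * ε ≤ ((9 : ℝ≥0∞)⁻¹ ^ 4) ^ 625)
    (hT : TargetAt G ε δ p1 p0 m R J) (hδ : δ ≤ ε)
    (h1 : p1 ≤ q) (h0 : q ≤ p0) (hMV : MV G q δ m R (J + m + 1) ρ C φ τ) (ho : o ∈ C)
    (hφ : φ o = 0) (hτ : τ o = 0) : Perc G q := by
  classical
  set K := J + m + 1 + ρ with hK
  set A : ℕ × ℕ → ℕ → Set (Set (Sym2 V)) := fun z i =>
    hit G ↑(past G o K φ τ z) ↑(ball G m {o}) (tg G o K φ τ z i) with hA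
  have mA : ∀ z i, MeasurableSet (A z i) := fun z i => measurableSet_hit G _ _ _
  have hR0 : A (0, 0) 20 = univ := by
    refine eq_univ_of_forall fun ω => ⟨o, mem_ball_self _ _, o, ?_, conn_refl ?_⟩
    · refine ⟨mem_ball_self _ _, ?_, ?_, ?_, ?_⟩ <;> simp [hφ, hτ]
    · refine not_not.2 (Finset.mem_coe.2 (mem_past.2 ⟨mem_ball_self _ _, ?_, ?_⟩)) <;>
        simp [hφ, hτ]
  have hch : ∀ z z' : ℕ × ℕ, (z' = (z.1 + 1, z.2) ∨ z' = (z.1, z.2 + 1)) → ∀ ω ∈ A z 20,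
      ω ∈ A z' 20 ∨ ω ∈ A z' 0 \ A z' 20 := by
    intro z z' h ω hω
    by_cases h' : ω ∈ A z' 20
    · exact Or.inl h'
    · refine Or.inr ⟨hit_mono ?_ Subset.rfl (fun w hw => gate_subset h hw.1) hω, h'⟩
      rcases h with rfl | rfl <;> exact Finset.coe_subset.2 (past_mono (by simp) (by simp))
  have hone : ∀ (z : ℕ × ℕ) (H : Set (Set (Sym2 V))), MeasurableSet H →
      Dep (touch G (zone φ τ z))ᶜ H →
      P G q ((A z 0 \ A z 20) ∩ H) ≤ ((9 : ℝ≥0∞)⁻¹ ^ 4) ^ 625 * P G q H := by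
    intro z H mH dH
    rw [P_eq_pi0]
    refine bern_inter_le_of_fixOff _ _ ((mA z 0).diff (mA z 20)) mH dH fun ξ => ?_
    refine le_trans (chain_le _ (A z) 20 fun i hi => ?_) (by exact_mod_cast hε)
    exact step_le hT hδ h1 h0 hMV ho le_rfl z hi ξ
  have hS : ∀ S : Finset (ℕ × ℕ), P G q (A (0, 0) 20 ∩ ⋂ z ∈ S, A z 0 \ A z 20) ≤
      ((9 : ℝ≥0∞)⁻¹ ^ 4) ^ S.card * P G q (A (0, 0) 20) := by
    intro S
    obtain ⟨c, hc⟩ := exists_class S
    have key := op_of_step (P G q) (fun z : {z : ℕ × ℕ // (z.1 % 25, z.2 % 25) = c} => toLex z.1)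
      (fun a b h => Subtype.ext (toLex.injective h)) univ (fun z => A z.1 0 \ A z.1 20)
      (((9 : ℝ≥0∞)⁻¹ ^ 4) ^ 625) (fun z T hT => by
        refine hone z.1 _ (MeasurableSet.univ.inter
          (T.measurableSet_biInter fun w _ => (mA _ _).diff (mA _ _))) ?_
        rw [univ_inter]
        refine Dep.iInter fun w => Dep.iInter fun hw => ?_
        have hlt := Prod.Lex.toLex_lt_toLex.1 (hT w hw)
        have e1 := z.2
        have e2 := w.2
        have e3 := Prod.ext_iff.1 (e1.trans e2.symm)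
        simp only at e3
        have hz := zone_past (G := G) (o := o) (K := K) (φ := φ) (τ := τ) (z := z.1) (w := w.1)
          (by omega)
        have hd : ∀ i, Dep (touch G (zone φ τ z.1))ᶜ (A w.1 i) := fun i =>
          (dep_hit _ _ _).mono (compl_subset_compl.2 (touch_mono hz))
        exact (hd 0).inter' (hd 20).compl)
      (S.subtype fun z => (z.1 % 25, z.2 % 25) = c)
    rw [Finset.card_subtype, ← pow_mul] at key
    rw [hR0]
    refine le_trans (measure_mono ?_) (key.trans ?_)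
    · refine inter_subset_inter_right _ fun ω hω => mem_iInter₂.2 fun z hz => ?_
      exact mem_iInter₂.1 hω z.1 (Finset.mem_subtype.1 hz)
    · refine mul_le_mul_left (pow_le_pow_right_of_le_one' ?_ hc) _
      exact pow_le_one₀ zero_le (ENNReal.inv_le_one.2 (by norm_num))
  have hmain := op_survive_nat (P G q) (fun z => A z 20) (fun z => A z 0 \ A z 20)
    (fun ω z hω => ⟨hch z _ (Or.inl rfl) ω hω, hch z _ (Or.inr rfl) ω hω⟩) hS
  by_contra hn
  simp only [Perc, not_exists, not_lt, nonpos_iff_eq_zero] at hn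
  have hfin : ∀ᵐ ω ∂P G q, ∀ x, (cl G ∅ ω x).Finite := by
    rw [ae_all_iff]
    intro x
    rw [ae_iff]
    exact hn x
  have hall : P G q {ω | ω ∈ A (0, 0) 20 ∧ {z | ω ∈ A z 20}.Finite} = 1 := by
    rw [← measure_univ (μ := P G q)]
    refine measure_congr ?_
    filter_upwards [hfin] with ω hω
    refine propext ⟨fun _ => trivial, fun _ => ⟨hR0 ▸ mem_univ ω, ?_⟩⟩
    have hf : (⋃ a ∈ ball G m {o}, cl G ∅ ω a).Finite :=
      (ball G m {o}).finite_toSet.biUnion fun a _ => hω a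
    obtain ⟨M, hM⟩ := (hf.image φ).bddAbove
    obtain ⟨N, hN⟩ := exists_nat_ge M
    refine ((finite_Iic N).prod (finite_Iic N)).subset ?_
    rintro z ⟨a, ha, t, ht, hc⟩
    have h2 : φ t ≤ M := hM ⟨t, mem_iUnion₂.2 ⟨a, ha, hc.mono (empty_subset _) Subset.rfl⟩, rfl⟩
    have h3 := ht.2.1
    have h4 : (0 : ℝ) ≤ z.1 := Nat.cast_nonneg _
    have h5 : (0 : ℝ) ≤ z.2 := Nat.cast_nonneg _
    push_cast at h3
    constructor
    · have : (z.1 : ℝ) ≤ N := by linarith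
      exact_mod_cast this
    · have : (z.2 : ℝ) ≤ N := by linarith
      exact_mod_cast this
  rw [hall, hR0, measure_univ] at hmain
  exact absurd hmain (by norm_num)

end Step

theorem MV.shift {q : unitInterval} {δ : ℝ≥0∞} {m R S ρ : ℕ} {C : Set V}
    (h : MV G q δ m R S ρ C φ τ) (a b : ℝ) :
    MV G q δ m R S ρ C (fun v => φ v - a) (fun v => τ v - b) := by
  have e1 : ∀ v, reg G (fun v => φ v - a) (fun v => τ v - b) ρ v = reg G φ τ ρ v := fun v => by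
    simp only [reg, sub_sub_sub_cancel_right]
  have e2 : ∀ v σ, land (fun v => φ v - a) (fun v => τ v - b) v σ = land φ τ v σ := fun v σ => by
    simp only [land, sub_sub_sub_cancel_right]
  refine ⟨fun u v huv => by simpa only [sub_sub_sub_cancel_right] using h.lip u v huv, h.dense,
    fun v hv => ?_, fun v hv => ?_⟩
  · rw [e1, e2]; exact h.up v hv
  · rw [e1, e2]; exact h.down v hv

theorem MV.mono {q : unitInterval} {δ δ' : ℝ≥0∞} {m R S ρ : ℕ} {C : Set V}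
    (h : MV G q δ m R S ρ C φ τ) (hδ : δ ≤ δ') : MV G q δ' m R S ρ C φ τ :=
  ⟨h.lip, h.dense, fun v hv => (h.up v hv).trans hδ, fun v hv => (h.down v hv).trans hδ⟩

/-- RENORM from the target lemma. -/
theorem renorm_of_target [Countable V] [Nonempty V]
    (hT : ∀ ε : ℝ≥0∞, 0 < ε → ∃ δ : ℝ≥0∞, 0 < δ ∧ ∀ p1 p0 : unitInterval, 0 < p1 → p0 < 1 →
      ∀ m R : ℕ, ∃ J : ℕ, TargetAt G ε δ p1 p0 m R J) :
    ∃ δ : ℝ≥0∞, 0 < δ ∧ ∀ p1 p0 : unitInterval, 0 < p1 → p0 < 1 → ∀ m R : ℕ, ∃ S : ℕ,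
      ∀ q : unitInterval, p1 ≤ q → q ≤ p0 → ∀ (ρ : ℕ) (C : Set V) (φ τ : V → ℝ),
        MV G q δ m R S ρ C φ τ → Perc G q := by
  set ε : ℝ≥0∞ := ((9 : ℝ≥0∞)⁻¹ ^ 4) ^ 625 / 20 with hε
  have hε0 : 0 < ε := ENNReal.div_pos (pow_ne_zero _ (pow_ne_zero _ (by simp))) (by simp)
  have hε1 : 20 * ε ≤ ((9 : ℝ≥0∞)⁻¹ ^ 4) ^ 625 := ENNReal.mul_div_le
  obtain ⟨δ, hδ, h⟩ := hT ε hε0
  refine ⟨min δ ε, lt_min hδ hε0, fun p1 p0 h1 h0 m R => ?_⟩
  obtain ⟨J, hJ⟩ := h p1 p0 h1 h0 m R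
  refine ⟨J + m + 1, fun q hq1 hq0 ρ C φ τ hMV => ?_⟩
  obtain ⟨o, ho, -⟩ := hMV.dense (Classical.arbitrary V)
  refine perc_of_target (o := o) hε1 (fun π U B O T S a1 a2 a3 a4 a5 =>
    hJ π U B O T S a1 a2 a3 a4 fun v hv hvB => (a5 v hv hvB).trans (min_le_left _ _))
    (min_le_right _ _) hq1 hq0 (hMV.shift (φ o) (τ o)) ho (sub_self _) (sub_self _)

end Crest.Agent.R147.Q
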