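import Crest.Agent.R147.Defs
import Crest.Agent.R147.Harris

/-! Row 147, module A2: the zero-one law for seeds and the uniform exit lemma (helper46). -/

set_option autoImplicit false

open MeasureTheory ProbabilityTheory Set Filter
open scoped ENNReal NNReal symmDiff

namespace Crest.Agent.R147

open Crest.Agent.R159

variable {V : Type*} [DecidableEq V] {G : SimpleGraph V}

theorem ex_cl_sdiff (J : Finset (Sym2 V)) {ω : Set (Sym2 V)} {x : V}
    (h : ∀ y, (cl G ∅ (ω \ ↑J) y).Finite) : (cl G ∅ ω x).Finite := by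
  have hsub : cl G ∅ ω x ⊆ cl G ∅ (ω \ ↑J) x ∪
      ⋃ v ∈ J.biUnion Sym2.toFinset, cl G ∅ (ω \ ↑J) v := by
    intro y hy
    refine conn.ind (Q := fun y => y ∈ cl G ∅ (ω \ ↑J) x ∪
      ⋃ v ∈ J.biUnion Sym2.toFinset, cl G ∅ (ω \ ↑J) v) hy
      (Or.inl (conn_refl (notMem_empty x))) ?_
    intro a b _ hab he hb ih
    by_cases hJ : s(a, b) ∈ J
    · refine Or.inr (mem_iUnion₂.2 ⟨b, Finset.mem_biUnion.2 ⟨_, hJ, by simp⟩, ?_⟩)
      exact conn_refl (notMem_empty b)
    · rcases ih with ih | ih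
      · exact Or.inl (conn.tail ih hab ⟨he, hJ⟩ hb)
      · obtain ⟨v, hv, hva⟩ := mem_iUnion₂.1 ih
        exact Or.inr (mem_iUnion₂.2 ⟨v, hv, conn.tail hva hab ⟨he, hJ⟩ hb⟩)
  exact ((h x).union (Set.Finite.biUnion (Finset.finite_toSet _) fun v _ => h v)).subset hsub

theorem ex_dep_inf (J : Finset (Sym2 V)) :
    Dep (↑J : Set (Sym2 V))ᶜ {ω | ∃ x, (cl G ∅ ω x).Infinite} := by
  rintro ω ω' hω ⟨x, hx⟩
  by_contra hc
  simp only [mem_ofPred_eq, not_exists, Set.not_infinite] at hc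
  refine hx (ex_cl_sdiff J fun y => (hc y).subset fun z hz => conn.mono hz Subset.rfl ?_)
  exact fun e he => (hω e he.2).1 he.1

/-- Zero-one law. -/
theorem ex_zero_one [Countable V] {p : unitInterval} (hθ : Perc G p) :
    P G p {ω | ∃ x, (cl G ∅ ω x).Infinite}ᶜ = 0 := by
  set I : Set (Set (Sym2 V)) := {ω | ∃ x, (cl G ∅ ω x).Infinite} with hI
  have hm : MeasurableSet I := by
    have : I = ⋃ x, {ω | (cl G ∅ ω x).Infinite} := by ext ω; simp [hI]
    rw [this]
    exact MeasurableSet.iUnion fun x => measurableSet_cl_infinite (G := G) ∅ x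
  have hpos : P G p I ≠ 0 := by
    obtain ⟨x, hx⟩ := hθ
    exact (hx.trans_le (measure_mono fun ω hω => (⟨x, hω⟩ : ω ∈ I))).ne'
  have key : P G p Iᶜ * P G p I = 0 := by
    refine le_antisymm (ENNReal.le_of_forall_pos_le_add fun ε hε _ => ?_) bot_le
    have hε2 : (0 : ℝ≥0∞) < ε / 2 := ENNReal.half_pos (by exact_mod_cast hε.ne')
    obtain ⟨E, mE, ⟨J, dE⟩, hE⟩ := exists_dep_approx (P G p) hm hε2
    have h1 : P G p Eᶜ * P G p I ≤ ε / 2 := by
      rw [← P_indep G p disjoint_compl_right mE.compl hm dE.compl (ex_dep_inf J)]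
      exact le_trans (measure_mono fun ω hω => Or.inr ⟨hω.2, hω.1⟩) hE.le
    have h2 : P G p Iᶜ ≤ P G p Eᶜ + ε / 2 := by
      refine le_trans (measure_mono fun ω hω => ?_) ((measure_union_le Eᶜ (E ∆ I)).trans
        (add_le_add le_rfl hE.le))
      by_cases h : ω ∈ E
      · exact Or.inr (Or.inl ⟨h, hω⟩)
      · exact Or.inl h
    calc P G p Iᶜ * P G p I ≤ (P G p Eᶜ + ε / 2) * P G p I := mul_le_mul' h2 le_rfl
      _ = P G p Eᶜ * P G p I + ε / 2 * P G p I := add_mul _ _ _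
      _ ≤ ε / 2 + ε / 2 * 1 := add_le_add h1 (mul_le_mul' le_rfl prob_le_one)
      _ = 0 + ε := by rw [mul_one, ENNReal.add_halves, zero_add]
  exact (mul_eq_zero.1 key).resolve_right hpos

theorem ex_ball_mono [G.LocallyFinite] {a : V} {r s : ℕ} (h : r ≤ s) :
    ball G r {a} ⊆ ball G s {a} := fun _ hz => by
  obtain ⟨w, hw⟩ := mem_ball_singleton.1 hz
  exact mem_ball_singleton.2 ⟨w, hw.trans h⟩

/-- Large seeds meet an infinite cluster with high probability. -/
theorem seed_inf [Countable V] [G.LocallyFinite] (hconn : G.Connected) {p : unitInterval}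
    (hθ : Perc G p) (a : V) {δ : ℝ≥0∞} (hδ : 0 < δ) :
    ∃ m : ℕ, P G p {ω | ∀ b ∈ ball G m {a}, (cl G ∅ ω b).Finite} ≤ δ := by
  set A : ℕ → Set (Set (Sym2 V)) := fun m => {ω | ∀ b ∈ ball G m {a}, (cl G ∅ ω b).Finite}
    with hA
  have hm : ∀ m, MeasurableSet (A m) := fun m => by
    have : A m = ⋂ b ∈ ball G m {a}, {ω | (cl G ∅ ω b).Infinite}ᶜ := by
      ext ω; simp [hA]
    rw [this]
    exact Finset.measurableSet_biInter _ fun b _ => (measurableSet_cl_infinite (G := G) ∅ b).compl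
  have hanti : Antitone A := fun r s h ω hω b hb => hω b (ex_ball_mono h hb)
  have ht := tendsto_measure_iInter_atTop (μ := P G p) (fun m => (hm m).nullMeasurableSet) hanti
    ⟨0, measure_ne_top _ _⟩
  have h0 : P G p (⋂ m, A m) = 0 := by
    refine measure_mono_null (fun ω hω => ?_) (ex_zero_one hθ)
    rintro ⟨x, hx⟩
    obtain ⟨w⟩ := hconn.preconnected a x
    exact hx (mem_iInter.1 hω w.length x (mem_ball_singleton.2 ⟨w, le_rfl⟩))
  rw [h0] at ht
  exact (ht.eventually (ge_mem_nhds hδ)).exists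

theorem ex_conn_support {R : Set V} {ω : Set (Sym2 V)} {x y v : V} (w : G.Walk x y)
    (hw : ∀ e ∈ w.edges, e ∈ ω) (hR : ∀ v ∈ w.support, v ∉ R) (hv : v ∈ w.support) :
    conn G R ω v y :=
  conn_of_walk (w.dropUntil v hv) (fun e he => hw e (w.edges_dropUntil_subset_edges hv he))
    fun z hz => hR z (w.support_dropUntil_subset_support hv hz)

/-- Either the connection avoids the edges of `w`, or it meets `w` without them. -/
theorem ex_meet {R : Set V} {ω : Set (Sym2 V)} {b z x y : V} (w : G.Walk x y)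
    (h : conn G R ω b z) :
    (∃ v ∈ w.support, conn G R (ω \ ↑w.edges.toFinset) b v) ∨
      conn G R (ω \ ↑w.edges.toFinset) b z := by
  refine h.ind (Q := fun z => (∃ v ∈ w.support, conn G R (ω \ ↑w.edges.toFinset) b v) ∨
      conn G R (ω \ ↑w.edges.toFinset) b z) (Or.inr (conn_refl h.1)) ?_
  intro s t _ hst he ht ih
  rcases ih with ih | ih
  · exact Or.inl ih
  · by_cases hF : s(s, t) ∈ w.edges
    · exact Or.inl ⟨s, w.fst_mem_support_of_mem_edges hF, ih⟩
    · exact Or.inr (ih.tail hst ⟨he, by simpa using hF⟩ ht)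

/-- The event of the exit lemma. -/
def exPsi (G : SimpleGraph V) (R W : Set V) (b : V) {x y : V} (w : G.Walk x y) :
    Set (Set (Sym2 V)) :=
  {ω | (∀ z, conn G R (ω \ ↑w.edges.toFinset) b z → z ∈ W) ∧
    ∃ v ∈ w.support, conn G R (ω \ ↑w.edges.toFinset) b v}

theorem exPsi_dep (R W : Set V) (b : V) {x y : V} (w : G.Walk x y) :
    Dep (↑w.edges.toFinset : Set (Sym2 V))ᶜ (exPsi G R W b w) := by
  intro ω ω' hω h
  have : ω' \ ↑w.edges.toFinset = ω \ ↑w.edges.toFinset :=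
    Set.ext fun e => and_congr_left fun he => (hω e he).symm
  unfold exPsi at h ⊢
  simpa only [mem_ofPred_eq, this] using h

theorem exPsi_meas [Countable V] (R W : Set V) (b : V) {x y : V} (w : G.Walk x y) :
    MeasurableSet (exPsi G R W b w) := by
  have hm : Measurable fun ω : Set (Sym2 V) => ω \ (↑w.edges.toFinset : Set (Sym2 V)) :=
    measurable_set_iff.2 fun a => (measurable_set_mem a).and measurable_const
  refine measurableSet_setOfPred.2 (Measurable.and ?_ ?_)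
  · exact Measurable.forall fun z =>
      Measurable.imp ((cn_measurable_conn (G := G) R b z).comp hm) measurable_const
  · exact Measurable.exists fun v =>
      Measurable.and measurable_const ((cn_measurable_conn (G := G) R b v).comp hm)

theorem exPsi_not_disjoint {R W : Set V} {b x y x' y' : V} (w : G.Walk x y) (w' : G.Walk x' y')
    (hy : y ∉ W) (hy' : y' ∉ W) (hR : ∀ v ∈ w.support, v ∉ R) (hR' : ∀ v ∈ w'.support, v ∉ R)
    {ω : Set (Sym2 V)} (h : ω ∈ exPsi G R W b w) (h' : ω ∈ exPsi G R W b w')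
    (ho : ∀ e ∈ w.edges.toFinset, e ∈ ω) (ho' : ∀ e ∈ w'.edges.toFinset, e ∈ ω) :
    ∃ v ∈ w.support, v ∈ w'.support := by
  by_contra hc
  have hd : ∀ e, e ∈ w.edges → e ∈ w'.edges → False := by
    intro e
    induction e using Sym2.ind with
    | _ s t =>
      exact fun h1 h2 => hc ⟨s, w.fst_mem_support_of_mem_edges h1,
        w'.fst_mem_support_of_mem_edges h2⟩
  obtain ⟨v, hv, hbv⟩ := h.2
  rcases ex_meet w' hbv with ⟨v', hv', h2⟩ | h2
  · refine hy' (h.1 y' ((h2.mono Subset.rfl sdiff_subset).trans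
      (ex_conn_support w' (fun e he => ⟨ho' e (by simpa using he), ?_⟩) hR' hv')))
    exact fun h3 => hd e (by simpa using h3) he
  · refine hy (h'.1 y ((h2.mono Subset.rfl fun e he => (mem_sdiff e).2 ⟨he.1.1, he.2⟩).trans
      (ex_conn_support w (fun e he => ⟨ho e (by simpa using he), ?_⟩) hR hv)))
    exact fun h3 => hd e he (by simpa using h3)

theorem ex_support_mem_ball [G.LocallyFinite] {x y v : V} (w : G.Walk x y) (hv : v ∈ w.support)
    {c : ℕ} (hc : w.length ≤ c) : v ∈ ball G c {x} :=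
  mem_ball_singleton.2 ⟨w.takeUntil v hv, (w.length_takeUntil_le_length hv).trans hc⟩

/-- The expected number of points of a cluster that stays in `W` is bounded. -/
theorem ex_sum_le [Countable V] [G.LocallyFinite] {d : ℕ} (hd : ∀ v, G.degree v ≤ d)
    (p : unitInterval) {c : ℕ} (R W : Set V) (b : V) (T : Finset V)
    (hW : ∀ v ∈ T, ∃ u, u ∉ W ∧ ∃ w : G.Walk v u, w.length ≤ c ∧ ∀ z ∈ w.support, z ∉ R) :
    pe p ^ c * ∑ u ∈ T, P G p {ω | conn G R ω b u ∧ ∀ z, conn G R ω b z → z ∈ W} ≤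
      ((d + 1) ^ (2 * c) : ℕ) := by
  classical
  choose e he w hw hwR using fun v : T => hW v v.2
  set Φ : T → Set (Set (Sym2 V)) := fun u =>
    exPsi G R W b (w u) ∩ {ω | ∀ e ∈ (w u).edges.toFinset, e ∈ ω} with hΦ
  have mΦ : ∀ u, MeasurableSet (Φ u) := fun u =>
    (exPsi_meas R W b (w u)).inter (measurableSet_subset' _)
  have h1 : ∀ u : T, pe p ^ c * P G p {ω | conn G R ω b u ∧ ∀ z, conn G R ω b z → z ∈ W} ≤
      P G p (Φ u) := by
    intro u
    rw [hΦ, P_indep G p disjoint_compl_left (exPsi_meas R W b (w u)) (measurableSet_subset' _)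
      (exPsi_dep R W b (w u)) (fun ω ω' h hω e he => (h e he).1 (hω e he)),
      P_subset G p _ (fun e he => (w u).edges_subset_edgeSet (by simpa using he)), mul_comm]
    refine mul_le_mul' (measure_mono fun ω hω => ⟨fun z hz => hω.2 z
      (hz.mono Subset.rfl sdiff_subset), ?_⟩) (cn_pe_pow_anti p ?_)
    · rcases ex_meet (w u) hω.1 with h | h
      · exact h
      · exact ⟨u, (w u).start_mem_support, h⟩
    · exact (List.toFinset_card_le _).trans (by rw [(w u).length_edges]; exact hw u)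
  have h2 : ∀ ω, ∑ u : T, (Φ u).indicator (fun _ => (1 : ℝ≥0∞)) ω ≤ ((d + 1) ^ (2 * c) : ℕ) := by
    intro ω
    have : ∑ u : T, (Φ u).indicator (fun _ => (1 : ℝ≥0∞)) ω =
        ((Finset.univ.filter fun u : T => ω ∈ Φ u).card : ℝ≥0∞) := by
      rw [← Finset.sum_boole]
      exact Finset.sum_congr rfl fun u _ => by rw [indicator_apply]
    rw [this]
    refine Nat.cast_le.2 ?_
    rcases (Finset.univ.filter fun u : T => ω ∈ Φ u).eq_empty_or_nonempty with h | ⟨u₀, h₀⟩
    · rw [h]; exact Nat.zero_le _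
    · have h₀' := (Finset.mem_filter.1 h₀).2
      refine le_trans (Finset.card_le_card_of_injOn (t := ball G (2 * c) {(u₀ : V)})
        (fun u : T => (u : V)) (fun u hu => ?_) Subtype.val_injective.injOn)
        (by simpa using card_ball_le hd (2 * c) {(u₀ : V)})
      have hu' := (Finset.mem_filter.1 (Finset.mem_coe.1 hu)).2
      obtain ⟨v, hv, hv'⟩ := exPsi_not_disjoint (w u₀) (w u) (he u₀) (he u) (hwR u₀) (hwR u)
        h₀'.1 hu'.1 h₀'.2 hu'.2
      refine Finset.mem_coe.2 (mem_ball_singleton.2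
        ⟨((w u₀).takeUntil v hv).append ((w u).takeUntil v hv').reverse, ?_⟩)
      have a1 := ((w u₀).length_takeUntil_le_length hv).trans (hw u₀)
      have a2 := ((w u).length_takeUntil_le_length hv').trans (hw u)
      rw [SimpleGraph.Walk.length_append, SimpleGraph.Walk.length_reverse]
      omega
  rw [← Finset.sum_coe_sort, Finset.mul_sum]
  refine (Finset.sum_le_sum fun u _ => h1 u).trans ?_
  calc ∑ u : T, P G p (Φ u) = ∑ u : T, ∫⁻ ω, (Φ u).indicator (fun _ => (1 : ℝ≥0∞)) ω ∂P G p :=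
        Finset.sum_congr rfl fun u _ => by rw [lintegral_indicator_const (mΦ u), one_mul]
    _ = ∫⁻ ω, ∑ u : T, (Φ u).indicator (fun _ => (1 : ℝ≥0∞)) ω ∂P G p :=
        (lintegral_finsetSum _ fun u _ => measurable_const.indicator (mΦ u)).symm
    _ ≤ ∫⁻ _, (((d + 1) ^ (2 * c) : ℕ) : ℝ≥0∞) ∂P G p := lintegral_mono h2
    _ = _ := by rw [lintegral_const, measure_univ, mul_one]

open Classical in
/-- An infinite cluster has many points in its trace on a ball. -/
theorem ex_card_ge [G.LocallyFinite] {ω : Set (Sym2 V)} {a b : V} {m : ℕ}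
    (hb : b ∈ ball G m {a}) (h : (cl G ∅ ω b).Infinite) (n : ℕ) :
    n ≤ ((ball G (m + n) {a}).filter fun u => conn G (↑(ball G (m + n) {a}))ᶜ ω b u).card := by
  induction n with
  | zero => exact Nat.zero_le _
  | succ n ih =>
    refine Nat.succ_le_of_lt (ih.trans_lt (Finset.card_lt_card ?_))
    have hle : ball G (m + n) {a} ⊆ ball G (m + (n + 1)) {a} := ex_ball_mono (by omega)
    have hc : (↑(ball G (m + (n + 1)) {a}) : Set V)ᶜ ⊆ (↑(ball G (m + n) {a}))ᶜ :=
      compl_subset_compl.2 (Finset.coe_subset.2 hle)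
    refine (Finset.ssubset_iff_of_subset fun u hu => ?_).2 ?_
    · obtain ⟨h1, h2⟩ := Finset.mem_filter.1 hu
      exact Finset.mem_filter.2 ⟨hle h1, h2.mono hc Subset.rfl⟩
    · obtain ⟨z, hz, hz'⟩ := h.exists_notMem_finset (ball G (m + n) {a})
      obtain ⟨s, t, ht, hst, he, h1, -⟩ := conn.first_entry hz (↑(ball G (m + n) {a}) : Set V)ᶜ
        (fun h' => h' (ex_ball_mono (Nat.le_add_right m n) hb)) hz'
      rw [empty_union] at h1
      have hs : s ∈ ball G (m + n) {a} := by simpa using h1.right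
      have ht' : t ∈ ball G (m + (n + 1)) {a} := by
        rw [← Nat.add_assoc, ball_succ']
        exact mem_nb.2 (Or.inr ⟨s, hs, hst⟩)
      exact ⟨t, Finset.mem_filter.2 ⟨ht', (h1.mono hc Subset.rfl).tail hst he fun h' => h' ht'⟩,
        fun h' => ht (Finset.mem_filter.1 h').1⟩

/-- Uniform exit: if every point of `W` is within `c` of the complement, an infinite cluster of
the seed leaves `W` inside a ball whose radius does not depend on `W`. -/
theorem exit_unif [Countable V] [G.LocallyFinite] {d : ℕ} (hd : ∀ v, G.degree v ≤ d)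
    {p : unitInterval} (hp : 0 < p) (c m : ℕ) {δ : ℝ≥0∞} (hδ : 0 < δ) :
    ∃ ρ : ℕ, ∀ (a : V) (W : Set V), (∀ v ∈ W, ∃ u, u ∉ W ∧ ∃ w : G.Walk v u, w.length ≤ c) →
      P G p {ω | (∃ b ∈ ball G m {a}, (cl G ∅ ω b).Infinite) ∧
        ¬ ∃ b ∈ ball G m {a}, ∃ u, u ∉ W ∧ conn G (↑(ball G ρ {a}))ᶜ ω b u} ≤ δ := by
  classical
  have hp' : pe p ^ c ≠ 0 := by
    refine pow_ne_zero _ ?_
    rw [pe_eq_ofReal]
    exact (ENNReal.ofReal_pos.2 (show (0 : ℝ) < p from hp)).ne'
  have hpt : pe p ^ c ≠ ∞ := ENNReal.pow_ne_top (ne_top_of_le_ne_top ENNReal.one_ne_top (pe_le_one p))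
  obtain ⟨n, hn0, hn⟩ := ENNReal.exists_nat_pos_mul_gt
    (b := (((d + 1) ^ m * (d + 1) ^ (2 * c) : ℕ) : ℝ≥0∞)) (a := pe p ^ c * δ)
    (mul_ne_zero hp' hδ.ne') (ENNReal.natCast_ne_top _)
  refine ⟨m + n + c, fun a W hW => ?_⟩
  set R : Set V := (↑(ball G (m + n + c) {a}))ᶜ with hR
  set T := ball G (m + n) {a} with hT
  have hW' : ∀ v ∈ T, ∃ u, u ∉ W ∧ ∃ w : G.Walk v u, w.length ≤ c ∧ ∀ z ∈ w.support, z ∉ R := by
    intro v hv
    obtain ⟨u, hu, w, hw⟩ : ∃ u, u ∉ W ∧ ∃ w : G.Walk v u, w.length ≤ c := by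
      by_cases h : v ∈ W
      · exact hW v h
      · exact ⟨v, h, .nil, Nat.zero_le _⟩
    refine ⟨u, hu, w, hw, fun z hz h' => h' ?_⟩
    obtain ⟨w1, h1⟩ := mem_ball_singleton.1 hv
    obtain ⟨w2, h2⟩ := mem_ball_singleton.1 (ex_support_mem_ball w hz hw)
    exact Finset.mem_coe.2 (mem_ball_singleton.2
      ⟨w1.append w2, by rw [SimpleGraph.Walk.length_append]; omega⟩)
  set E : V → Set (Set (Sym2 V)) := fun b =>
    {ω | (cl G ∅ ω b).Infinite ∧ ∀ z, conn G R ω b z → z ∈ W} with hE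
  have mE : ∀ b, MeasurableSet (E b) := fun b => (measurableSet_cl_infinite (G := G) ∅ b).inter
    (measurableSet_setOfPred.2 (Measurable.forall fun z =>
      Measurable.imp (cn_measurable_conn (G := G) R b z) measurable_const))
  have hb : ∀ b ∈ ball G m {a}, pe p ^ c * (n * P G p (E b)) ≤ ((d + 1) ^ (2 * c) : ℕ) := by
    intro b hb
    refine le_trans (mul_le_mul' le_rfl ?_) (ex_sum_le hd p R W b T hW')
    have mA : ∀ u, MeasurableSet {ω | conn G R ω b u ∧ ∀ z, conn G R ω b z → z ∈ W} := fun u =>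
      (measurableSet_conn (G := G) R b u).inter (measurableSet_setOfPred.2 (Measurable.forall
        fun z => Measurable.imp (cn_measurable_conn (G := G) R b z) measurable_const))
    rw [← lintegral_indicator_const (mE b)]
    simp only [← lintegral_indicator_one (mA _)]
    rw [← lintegral_finsetSum _ fun u _ => measurable_one.indicator (mA u)]
    refine lintegral_mono fun ω => ?_
    by_cases hω : ω ∈ E b
    · simp only [indicator_of_mem hω, indicator_apply, Pi.one_apply, Finset.sum_boole]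
      refine Nat.cast_le.2 ((ex_card_ge hb hω.1 n).trans (Finset.card_le_card fun u hu => ?_))
      obtain ⟨h1, h2⟩ := Finset.mem_filter.1 hu
      exact Finset.mem_filter.2 ⟨h1, h2.mono (compl_subset_compl.2 (Finset.coe_subset.2
        (ex_ball_mono (Nat.le_add_right _ c)))) Subset.rfl, hω.2⟩
    · simp only [indicator_of_notMem hω, zero_le]
  have hsub : {ω | (∃ b ∈ ball G m {a}, (cl G ∅ ω b).Infinite) ∧
      ¬ ∃ b ∈ ball G m {a}, ∃ u, u ∉ W ∧ conn G R ω b u} ⊆ ⋃ b ∈ ball G m {a}, E b := by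
    rintro ω ⟨⟨b, hb, h1⟩, h2⟩
    refine mem_iUnion₂.2 ⟨b, hb, h1, fun z hz => ?_⟩
    by_contra hzW
    exact h2 ⟨b, hb, z, hzW, hz⟩
  refine (measure_mono hsub).trans ((measure_biUnion_finset_le _ _).trans ?_)
  have hn' : (n : ℝ≥0∞) ≠ 0 := by exact_mod_cast hn0.ne'
  refine (ENNReal.mul_le_mul_iff_right (mul_ne_zero hp' hn')
    (ENNReal.mul_ne_top hpt (ENNReal.natCast_ne_top n))).1 ?_
  calc pe p ^ c * n * ∑ b ∈ ball G m {a}, P G p (E b)
      = ∑ b ∈ ball G m {a}, pe p ^ c * (n * P G p (E b)) := by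
        rw [Finset.mul_sum]; exact Finset.sum_congr rfl fun b _ => mul_assoc _ _ _
    _ ≤ (ball G m {a}).card • (((d + 1) ^ (2 * c) : ℕ) : ℝ≥0∞) :=
        Finset.sum_le_card_nsmul _ _ _ hb
    _ ≤ (((d + 1) ^ m * (d + 1) ^ (2 * c) : ℕ) : ℝ≥0∞) := by
        rw [nsmul_eq_mul, ← Nat.cast_mul]
        exact Nat.cast_le.2 (Nat.mul_le_mul_right _ (by simpa using card_ball_le hd m {a}))
    _ ≤ n * (pe p ^ c * δ) := hn.le
    _ = pe p ^ c * n * δ := by ring

/-- Seed and exit combined: the seed leaves `W` inside the ball, up to probability `δ`. -/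
theorem seed_exit [Countable V] [G.LocallyFinite] (hconn : G.Connected) {d : ℕ}
    (hd : ∀ v, G.degree v ≤ d) {p : unitInterval} (hθ : Perc G p) (a : V) {δ : ℝ≥0∞}
    (hδ : 0 < δ) : ∃ m : ℕ, ∀ c : ℕ, ∃ ρ : ℕ, ∀ W : Set V,
      (∀ v ∈ W, ∃ u, u ∉ W ∧ ∃ w : G.Walk v u, w.length ≤ c) →
      P G p {ω | ¬ ∃ b ∈ ball G m {a}, ∃ u, u ∉ W ∧ conn G (↑(ball G ρ {a}))ᶜ ω b u} ≤ δ := by
  have hδ2 : 0 < δ / 2 := ENNReal.half_pos hδ.ne'
  have hp : 0 < p := by
    refine lt_of_le_of_ne bot_le fun h => ?_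
    obtain ⟨x, hx⟩ := hθ
    have h1 := ae_cl_finite (G := G) (p := p) (by
      rw [← h]; exact ne_top_of_le_ne_top ENNReal.one_ne_top chi_zero_le)
    refine hx.ne' (measure_mono_null (fun ω hω => ?_) (ae_iff.1 h1))
    exact fun h' => hω (h' ∅ x)
  obtain ⟨m, hm⟩ := seed_inf hconn hθ a hδ2
  refine ⟨m, fun c => ?_⟩
  obtain ⟨ρ, hρ⟩ := exit_unif hd hp c m hδ2
  refine ⟨ρ, fun W hW => ?_⟩
  rw [← ENNReal.add_halves δ]
  refine le_trans (measure_mono fun ω hω => ?_) ((measure_union_le _ _).trans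
    (add_le_add hm (hρ a W hW)))
  by_cases h : ∃ b ∈ ball G m {a}, (cl G ∅ ω b).Infinite
  · exact Or.inr ⟨h, hω⟩
  · exact Or.inl fun b hb => Set.not_infinite.1 fun h' => h ⟨b, hb, h'⟩

end Crest.Agent.R147
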