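import Crest.Agent.R147.StCond
import Crest.Agent.R147.KN
import Crest.Agent.R159.Graph

/-! Row 147, module A2 (helper10): the target lemma in difference form. -/

set_option autoImplicit false

open MeasureTheory ProbabilityTheory Set
open scoped ENNReal NNReal

namespace Crest.Agent.R147

open Crest.Agent.R159

namespace Tg

/-- Greedy choice of unrelated points of prescribed total weight. -/
theorem greedy {α : Type*} [DecidableEq α] (nbh : α → Finset α) {M : ℕ} (hM0 : 0 < M)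
    (hM : ∀ x, (nbh x).card ≤ M) (hself : ∀ x, x ∈ nbh x) (hsymm : ∀ x y, y ∈ nbh x → x ∈ nbh y)
    (a : α → ℝ≥0∞) (a0 : ℝ≥0∞) (k : ℕ) :
    ∀ (n : Finset α) (lam : ℝ≥0∞), (∀ x ∈ n, a0 ≤ a x ∧ a x ≤ 1) → k * M ≤ n.card →
      lam ≤ k * a0 → ∃ n' ⊆ n, (∀ x ∈ n', ∀ y ∈ n', x ≠ y → y ∉ nbh x) ∧
        lam ≤ ∑ x ∈ n', a x ∧ ∑ x ∈ n', a x ≤ lam + 1 := by
  induction k with
  | zero =>
    intro n lam _ _ h
    exact ⟨∅, by simp, by simp, by simpa using h, by simp⟩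
  | succ k ih =>
    intro n lam ha hc hl
    obtain ⟨x, hx⟩ : n.Nonempty := Finset.card_pos.1 (lt_of_lt_of_le (by positivity) hc)
    by_cases h1 : lam ≤ a x
    · exact ⟨{x}, by simpa using hx, by simp, by simpa using h1,
        by simpa using (ha x hx).2.trans le_add_self⟩
    obtain ⟨l', rfl⟩ := le_iff_exists_add.1 (not_le.1 h1).le
    have hax : a x ≠ ∞ := ne_top_of_le_ne_top ENNReal.one_ne_top (ha x hx).2
    have h2 : l' ≤ k * a0 := by
      refine ENNReal.le_of_add_le_add_left hax (hl.trans ?_)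
      push_cast
      rw [add_mul, one_mul, add_comm]
      exact add_le_add (ha x hx).1 le_rfl
    have h3 : k * M ≤ (n \ nbh x).card := by
      have := Finset.le_card_sdiff (nbh x) n
      have := hM x
      rw [add_mul] at hc
      omega
    obtain ⟨n', hn', hp, h4, h5⟩ := ih (n \ nbh x) l'
      (fun y hy => ha y (Finset.mem_sdiff.1 hy).1) h3 h2
    have hxn : x ∉ n' := fun h => (Finset.mem_sdiff.1 (hn' h)).2 (hself x)
    refine ⟨insert x n', Finset.insert_subset hx (hn'.trans Finset.sdiff_subset), ?_, ?_, ?_⟩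
    · intro y hy z hz hyz
      rcases Finset.mem_insert.1 hy with rfl | hy'
      · rcases Finset.mem_insert.1 hz with rfl | hz'
        · exact absurd rfl hyz
        · exact (Finset.mem_sdiff.1 (hn' hz')).2
      · rcases Finset.mem_insert.1 hz with rfl | hz'
        · exact fun h => (Finset.mem_sdiff.1 (hn' hy')).2 (hsymm _ _ h)
        · exact hp y hy' z hz' hyz
    · rw [Finset.sum_insert hxn]
      exact add_le_add le_rfl h4
    · rw [Finset.sum_insert hxn, add_assoc]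
      exact add_le_add le_rfl h5

/-- No seed of a disjoint family is open. -/
theorem no_seed {α ι : Type*} [DecidableEq α] [DecidableEq ι] (π : ι → unitInterval)
    (F : α → Finset ι) (n : Finset α) (hd : ∀ x ∈ n, ∀ y ∈ n, x ≠ y → Disjoint (F x) (F y)) :
    bern π {ω | ∀ x ∈ n, ¬ ∀ e ∈ F x, e ∈ ω} *
      (1 + ∑ x ∈ n, bern π {ω | ∀ e ∈ F x, e ∈ ω}) ≤ 1 := by
  induction n using Finset.induction_on with
  | empty => simp
  | insert x n hx ih =>
    have ih' := ih fun y hy z hz => hd y (Finset.mem_insert_of_mem hy) z (Finset.mem_insert_of_mem hz)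
    have d1 : Dep (↑(F x)) {ω : Set ι | ∀ e ∈ F x, e ∈ ω}ᶜ :=
      Dep.compl fun ω ω' h h' e he => (h e he).1 (h' e he)
    have d2 : Dep (↑(n.biUnion F)) {ω : Set ι | ∀ x ∈ n, ¬ ∀ e ∈ F x, e ∈ ω} :=
      fun ω ω' h h' y hy hh => h' y hy fun e he =>
        (h e (Finset.mem_coe.2 (Finset.mem_biUnion.2 ⟨y, hy, he⟩))).2 (hh e he)
    have e1 : {ω : Set ι | ∀ y ∈ insert x n, ¬ ∀ e ∈ F y, e ∈ ω} =
        {ω : Set ι | ∀ e ∈ F x, e ∈ ω}ᶜ ∩ {ω : Set ι | ∀ x ∈ n, ¬ ∀ e ∈ F x, e ∈ ω} := by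
      ext ω
      simp only [Finset.forall_mem_insert, mem_ofPred_eq, mem_inter_iff, mem_compl_iff]
    have hdis : Disjoint (↑(F x) : Set ι) ↑(n.biUnion F) := by
      rw [Finset.disjoint_coe, Finset.disjoint_biUnion_right]
      exact fun y hy => hd x (Finset.mem_insert_self _ _) y (Finset.mem_insert_of_mem hy)
        fun h => hx (h ▸ hy)
    rw [e1, bern_indep π hdis (measurableSet_of_dep _ d1) (measurableSet_of_dep _ d2) d1 d2,
      Finset.sum_insert hx]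
    have h1 := prob_add_prob_compl (μ := bern π) (measurableSet_contains (F x))
    generalize bern π {ω : Set ι | ∀ e ∈ F x, e ∈ ω}ᶜ = u at h1 ⊢
    generalize bern π {ω : Set ι | ∀ e ∈ F x, e ∈ ω} = a at h1 ⊢
    generalize bern π {ω : Set ι | ∀ x ∈ n, ¬ ∀ e ∈ F x, e ∈ ω} = P at ih' ⊢
    generalize ∑ x ∈ n, bern π {ω | ∀ e ∈ F x, e ∈ ω} = s at ih' ⊢
    have hu : u ≤ 1 := h1 ▸ le_add_self
    refine le_trans ?_ ih'
    calc u * P * (1 + (a + s)) = P * (u * a + u + u * s) := by ring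
      _ ≤ P * (a + u + s) := by
        gcongr
        · exact mul_le_of_le_one_left' hu
        · exact mul_le_of_le_one_left' hu
      _ = P * (1 + s) := by rw [h1]

variable {V : Type*} {G : SimpleGraph V} [DecidableEq V] [G.LocallyFinite]

theorem ball_add (a b : ℕ) (A : Finset V) : ball G (a + b) A = ball G a (ball G b A) :=
  Function.iterate_add_apply _ _ _ _

theorem ball_mono_right (k : ℕ) {A B : Finset V} (h : A ⊆ B) : ball G k A ⊆ ball G k B :=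
  fun _ hy => by
    obtain ⟨a, ha, w⟩ := mem_ball.1 hy
    exact mem_ball.2 ⟨a, h ha, w⟩

theorem ball_mono_left {k l : ℕ} (h : k ≤ l) (A : Finset V) : ball G k A ⊆ ball G l A :=
  fun _ hy => by
    obtain ⟨a, ha, w, hw⟩ := mem_ball.1 hy
    exact mem_ball.2 ⟨a, ha, w, hw.trans h⟩

theorem ball_trans {k l : ℕ} {A : Finset V} {y : V} (hy : y ∈ ball G l A) :
    ball G k {y} ⊆ ball G (k + l) A := by
  rw [ball_add]
  exact ball_mono_right k (Finset.singleton_subset_iff.2 hy)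

theorem ball_symm {k : ℕ} {x y : V} (h : y ∈ ball G k {x}) : x ∈ ball G k {y} := by
  obtain ⟨a, ha, w, hw⟩ := mem_ball.1 h
  rw [Finset.mem_singleton] at ha
  subst ha
  exact mem_ball.2 ⟨y, Finset.mem_singleton_self _, w.reverse, by simpa using hw⟩

theorem self_mem_ball (k : ℕ) (x : V) : x ∈ ball G k {x} :=
  mem_ball.2 ⟨x, Finset.mem_singleton_self _, SimpleGraph.Walk.nil, Nat.zero_le _⟩

theorem subset_ball (k : ℕ) (A : Finset V) : A ⊆ ball G k A := fun x hx =>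
  mem_ball.2 ⟨x, hx, SimpleGraph.Walk.nil, Nat.zero_le _⟩

/-- A ball all of whose edges are open is joined to its centre. -/
theorem conn_ball {R : Set V} {ω : Set (Sym2 V)} {y : V} (k : ℕ)
    (hR : ∀ z ∈ ball G k {y}, z ∉ R)
    (hω : ∀ a ∈ ball G k {y}, ∀ b ∈ ball G k {y}, G.Adj a b → s(a, b) ∈ ω) :
    ∀ z ∈ ball G k {y}, conn G R ω y z := by
  induction k with
  | zero =>
    intro z hz
    have : z = y := Finset.mem_singleton.1 hz
    subst this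
    exact conn_refl (hR z hz)
  | succ k ih =>
    have hs : ball G k {y} ⊆ ball G (k + 1) {y} := ball_mono_left k.le_succ _
    have ih' := ih (fun z hz => hR z (hs hz)) fun a ha b hb => hω a (hs ha) b (hs hb)
    intro z hz
    have hz' := hz
    rw [ball_succ', mem_nb] at hz'
    rcases hz' with h | ⟨a, ha, h⟩
    · exact ih' z h
    · exact (ih' a ha).tail h (hω a (hs ha) z hz h) (hR z hz)

/-- The seed attached to a vertex next to the ball of radius `j` around `B`. -/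
theorem exists_seed {D : ℕ} (hD : ∀ v, G.degree v ≤ D) {m R j : ℕ} (hj : m + R ≤ j)
    {S : Set V} (hS : ∀ x, ∃ v ∈ S, v ∈ ball G R {x}) (B : Finset V) (x : V) :
    ∃ (v : V) (F : Finset (Sym2 V)), (∃ b ∈ ball G j B, G.Adj b x) →
      v ∈ S ∧ v ∈ ball G j B ∧ F.card ≤ ((D + 1) ^ (m + R) + 1).choose 2 + 1 ∧
      (∀ e ∈ F, e ∈ touch G ↑(ball G j B) ∧ ∀ z ∈ e, z ∈ ball G (2 * (m + R) + 1) {x}) ∧
      ∀ (Q : Set V) (ω : Set (Sym2 V)), x ∉ Q → (∀ z ∈ ball G j B, z ∉ Q) → (∀ e ∈ F, e ∈ ω) →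
        ∀ a ∈ ball G m {v}, conn G Q ω x a := by
  classical
  by_cases h : ∃ b ∈ ball G j B, G.Adj b x
  swap
  · exact ⟨x, ∅, fun h' => absurd h' h⟩
  obtain ⟨b, hb, hbx⟩ := h
  obtain ⟨i, rfl⟩ : ∃ i, j = m + R + i := ⟨j - (m + R), by omega⟩
  have hb' := hb
  rw [ball_add] at hb'
  obtain ⟨y, hy, w, hw⟩ := mem_ball.1 hb'
  have hby : b ∈ ball G (m + R) {y} := mem_ball.2 ⟨y, Finset.mem_singleton_self _, w, hw⟩
  obtain ⟨v, hv, hvy⟩ := hS y
  have hC : ball G (m + R) {y} ⊆ ball G (m + R + i) B := ball_trans hy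
  have hvm : ball G m {v} ⊆ ball G (m + R) {y} := ball_trans hvy
  have hbx' : b ∈ ball G 1 {x} := by
    rw [ball_succ', mem_nb]
    exact Or.inr ⟨x, self_mem_ball 0 x, hbx.symm⟩
  have hyx : y ∈ ball G (m + R + 1) {x} := ball_trans hbx' (ball_symm hby)
  have hCx : ball G (m + R) {y} ⊆ ball G (2 * (m + R) + 1) {x} := by
    refine (ball_trans hyx).trans (ball_mono_left (by omega) _)
  refine ⟨v, insert s(x, b) ((ball G (m + R) {y}).sym2.filter (· ∈ G.edgeSet)), fun _ =>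
    ⟨hv, hC (hvm (self_mem_ball m v)), ?_, ?_, ?_⟩⟩
  · refine (Finset.card_insert_le _ _).trans (Nat.succ_le_succ ((Finset.card_filter_le _ _).trans ?_))
    rw [Finset.card_sym2]
    refine Nat.choose_le_choose _ (Nat.succ_le_succ ?_)
    simpa using card_ball_le hD (m + R) {y}
  · intro e he
    rcases Finset.mem_insert.1 he with rfl | he
    · refine ⟨⟨hbx.symm, b, Finset.mem_coe.2 hb, by simp⟩, fun z hz => ?_⟩
      rcases Sym2.mem_iff.1 hz with rfl | rfl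
      · exact self_mem_ball _ _
      · exact hCx hby
    · obtain ⟨h1, h2⟩ := Finset.mem_filter.1 he
      rw [Finset.mem_sym2_iff] at h1
      exact ⟨⟨h2, e.out.1, Finset.mem_coe.2 (hC (h1 _ (Sym2.out_fst_mem e))), Sym2.out_fst_mem e⟩,
        fun z hz => hCx (h1 z hz)⟩
  · intro Q ω hx hQ hω a ha
    have hc := conn_ball (R := Q) (ω := ω) (m + R) (fun z hz => hQ z (hC hz))
      fun a ha b hb hab => hω _ (Finset.mem_insert_of_mem (Finset.mem_filter.2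
        ⟨Finset.mk_mem_sym2_iff.2 ⟨ha, hb⟩, hab⟩))
    exact (((conn_refl hx).tail hbx.symm (hω _ (Finset.mem_insert_self _ _)) (hQ b hb)).trans
      (hc b hby).symm).trans (hc a (hvm ha))

open Classical in
/-- The neighbours of `A` joined to `O` inside `U` and off `A`. -/
noncomputable def Ent (G : SimpleGraph V) [G.LocallyFinite] (U : Finset V) (O : Set V)
    (A : Finset V) (ω : Set (Sym2 V)) : Finset V :=
  (nb G A).filter fun x => ∃ o ∈ O, conn G ((↑U)ᶜ ∪ ↑A) ω o x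

variable {U A : Finset V} {O : Set V}

theorem mem_Ent {ω : Set (Sym2 V)} {x : V} :
    x ∈ Ent G U O A ω ↔ x ∈ nb G A ∧ ∃ o ∈ O, conn G ((↑U)ᶜ ∪ ↑A) ω o x := by
  classical
  exact Finset.mem_filter

theorem Ent_congr {I : Set (Sym2 V)} (h : ∀ x y, Dep I {ω | conn G ((↑U)ᶜ ∪ ↑A) ω x y})
    {ω ω' : Set (Sym2 V)} (hω : ∀ e ∈ I, e ∈ ω ↔ e ∈ ω') : Ent G U O A ω = Ent G U O A ω' := by
  ext x
  rw [mem_Ent, mem_Ent]
  exact and_congr_right fun _ => ⟨fun ⟨o, ho, hc⟩ => ⟨o, ho, h o x ω ω' hω hc⟩,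
    fun ⟨o, ho, hc⟩ => ⟨o, ho, h o x ω' ω (fun e he => (hω e he).symm) hc⟩⟩

theorem Ent_out {ω ω' : Set (Sym2 V)} (hω : ∀ e ∈ (touch G (↑A : Set V))ᶜ, e ∈ ω ↔ e ∈ ω') :
    Ent G U O A ω = Ent G U O A ω' :=
  Ent_congr (fun x y => (dep_conn _ x y).mono
    (compl_subset_compl.2 (touch_mono subset_union_right))) hω

theorem Ent_in {ω ω' : Set (Sym2 V)} (hω : ∀ e ∈ (↑U.sym2 : Set (Sym2 V)), e ∈ ω ↔ e ∈ ω') :
    Ent G U O A ω = Ent G U O A ω' :=
  Ent_congr (fun x y => dep_conn_in G U subset_union_left x y) hω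

theorem Ent_prop {ω : Set (Sym2 V)} {x : V} (h : x ∈ Ent G U O A ω) :
    x ∈ U ∧ (∃ b ∈ A, G.Adj b x) ∧ ∃ o ∈ O, conn G (↑U)ᶜ ω o x := by
  obtain ⟨h1, o, ho, hc⟩ := mem_Ent.1 h
  have h2 := hc.right
  refine ⟨by_contra fun h' => h2 (Or.inl h'), (mem_nb.1 h1).resolve_left fun h' => h2 (Or.inr h'),
    o, ho, hc.mono subset_union_left Subset.rfl⟩

theorem Ent_entry (hO : ∀ o ∈ O, o ∉ A) {ω : Set (Sym2 V)} (h : ω ∈ Lk G (↑U)ᶜ O ↑A) :
    ∃ x ∈ Ent G U O A ω, ∃ b ∈ A, G.Adj x b ∧ s(x, b) ∈ ω := by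
  obtain ⟨o, ho, a, ha, hc⟩ := h
  obtain ⟨x, b, hb, hxb, he, h1, -⟩ := hc.first_entry (↑A) (hO o ho) ha
  exact ⟨x, mem_Ent.2 ⟨mem_nb.2 (Or.inr ⟨b, hb, hxb.symm⟩), o, ho, h1⟩, b, hb, hxb, he⟩

theorem touch_subset (hU : nb G A ⊆ U) : touch G (↑A : Set V) ⊆ ↑U.sym2 := by
  rintro e ⟨he, a, ha, hae⟩
  induction e using Sym2.ind with
  | h x y =>
    have hxy : G.Adj x y := he
    refine Finset.mem_coe.2 (Finset.mk_mem_sym2_iff.2 ?_)
    rcases Sym2.mem_iff.1 hae with rfl | rfl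
    · exact ⟨hU (subset_nb A ha), hU (mem_nb.2 (Or.inr ⟨a, ha, hxy⟩))⟩
    · exact ⟨hU (mem_nb.2 (Or.inr ⟨a, ha, hxy.symm⟩)), hU (subset_nb A ha)⟩

/-- Few entrance points can be cut off. -/
theorem shell {D : ℕ} (hD : ∀ v, G.degree v ≤ D) (π : Sym2 V → unitInterval) {p0 : unitInterval}
    (hU : A ⊆ U) (hO : ∀ o ∈ O, o ∉ A) (hπ : ∀ e ∈ touch G (↑A : Set V), π e ≤ p0) (N : ℕ) :
    pe (unitInterval.symm p0) ^ (N * D) *
        bern π {ω | (Ent G U O A ω).Nonempty ∧ (Ent G U O A ω).card ≤ N} ≤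
      bern π (Lk G (↑U)ᶜ O ↑(nb G A) \ Lk G (↑U)ᶜ O ↑A) := by
  have mH : MeasurableSet {ω | (Ent G U O A ω).Nonempty ∧ (Ent G U O A ω).card ≤ N} :=
    measurableSet_of_dep U.sym2 fun ω ω' h h' => by
      rw [mem_ofPred_eq, ← Ent_in h]; exact h'
  have mC : MeasurableSet {ω | ∀ x ∈ Ent G U O A ω, ∀ b ∈ A, G.Adj x b → s(x, b) ∉ ω} :=
    measurableSet_of_dep U.sym2 fun ω ω' h h' => by
      rw [mem_ofPred_eq, ← Ent_in h]
      exact fun x hx b hb hxb he => h' x hx b hb hxb ((h _ (Finset.mem_coe.2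
        (Finset.mk_mem_sym2_iff.2 ⟨(Ent_prop hx).1, hU hb⟩))).2 he)
  refine (le_bern_inter π (I := (touch G (↑A : Set V))ᶜ) mH mC (fun ω ω' h h' => by
    rw [mem_ofPred_eq, ← Ent_out h]; exact h') fun ξ hξ => ?_).trans (measure_mono ?_)
  · rw [bern_fix _ _ _ mC]
    set F : Finset (Sym2 V) := (Ent G U O A ξ).biUnion fun x =>
      ((G.neighborFinset x).filter (· ∈ A)).image fun b => s(x, b) with hF
    have hFt : ∀ e ∈ F, e ∈ touch G (↑A : Set V) := fun e he => by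
      obtain ⟨x, -, he⟩ := Finset.mem_biUnion.1 he
      obtain ⟨b, hb, rfl⟩ := Finset.mem_image.1 he
      obtain ⟨h1, h2⟩ := Finset.mem_filter.1 hb
      exact ⟨(G.mem_neighborFinset x b).1 h1, b, h2, by simp⟩
    have hFc : F.card ≤ N * D :=
      (Finset.card_biUnion_le_card_mul _ _ D fun x _ =>
        Finset.card_image_le.trans ((Finset.card_filter_le _ _).trans (hD x))).trans
        (Nat.mul_le_mul_right _ hξ.2)
    calc pe (unitInterval.symm p0) ^ (N * D) ≤ pe (unitInterval.symm p0) ^ F.card :=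
          pow_le_pow_right_of_le_one' (pe_le_one _) hFc
      _ ≤ bern π {ω | ∀ e ∈ F, e ∉ ω} := by
          rw [bern_avoid]
          refine Finset.pow_card_le_prod _ _ _ fun e he => ?_
          rw [pe_eq_ofReal, pe_eq_ofReal]
          exact ENNReal.ofReal_le_ofReal (unitInterval.symm_le_symm.2 (hπ e (hFt e he)))
      _ ≤ _ := by
          refine measure_mono fun ω hω => ?_
          have e1 : Ent G U O A (spl (touch G (↑A : Set V))ᶜ ξ ω) = Ent G U O A ξ :=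
            Ent_out fun e he => mem_spl_of_mem he
          simp only [mem_ofPred_eq, e1]
          intro x hx b hb hxb he
          have hm : s(x, b) ∈ F := Finset.mem_biUnion.2 ⟨x, hx, Finset.mem_image.2
            ⟨b, Finset.mem_filter.2 ⟨(G.mem_neighborFinset x b).2 hxb, hb⟩, rfl⟩⟩
          exact hω _ hm ((mem_spl_of_notMem (not_not.2 (hFt _ hm))).1 he)
  · rintro ω ⟨⟨⟨x, hx⟩, -⟩, h2⟩
    obtain ⟨o, ho, hc⟩ := (Ent_prop hx).2.2
    refine ⟨⟨o, ho, x, (mem_Ent.1 hx).1, hc⟩, fun h => ?_⟩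
    obtain ⟨y, hy, b, hb, hyb, he⟩ := Ent_entry hO h
    exact h2 y hy b hb hyb he

/-- The estimate at one shell. -/
theorem seeds {D : ℕ} (hD : ∀ v, G.degree v ≤ D) (π : Sym2 V → unitInterval) {p1 : unitInterval}
    {m R j L k : ℕ} (hj : m + R ≤ j) {S T : Set V} (hS : ∀ x, ∃ v ∈ S, v ∈ ball G R {x})
    {B : Finset V} (hU : nb G (ball G j B) ⊆ U)
    (hπ : ∀ e ∈ touch G (↑(ball G j B) : Set V), p1 ≤ π e)
    (hk : (L : ℝ≥0∞) ≤ k * pe p1 ^ (((D + 1) ^ (m + R) + 1).choose 2 + 1))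
    {d : ℝ≥0∞} (hd0 : d ≠ 0) (hd1 : d ≠ ∞)
    (hT : ∀ v ∈ S, v ∈ ball G j B → bern π (Lk G (↑U)ᶜ ↑(ball G m {v}) T)ᶜ ≤ d * d) :
    bern π ({ω | k * (D + 1) ^ (2 * (2 * (m + R) + 1)) < (Ent G U O (ball G j B) ω).card} ∩
      (Lk G (↑U)ᶜ O T)ᶜ) ≤ (L : ℝ≥0∞)⁻¹ + (L + 1) * d + d := by
  classical
  choose v F hF using exists_seed hD hj hS B
  set A := ball G j B with hA
  set I : Set (Sym2 V) := touch G (↑A : Set V) with hI
  have hIU : I ⊆ ↑U.sym2 := touch_subset hU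
  have hAU : ∀ z ∈ A, z ∉ (↑U : Set V)ᶜ := fun z hz h => h (hU (subset_nb A hz))
  have mL : ∀ X Y : Set V, MeasurableSet (Lk G (↑U)ᶜ X Y) :=
    measurableSet_Lk G U Subset.rfl
  obtain ⟨Bad, hBad⟩ : ∃ Bad : V → Set (Set (Sym2 V)), ∀ x ξ, ξ ∈ Bad x ↔
      d < bern (fixπ π I ξ) (Lk G (↑U)ᶜ ↑(ball G m {v x}) T)ᶜ :=
    ⟨fun x => {ξ | d < bern (fixπ π I ξ) (Lk G (↑U)ᶜ ↑(ball G m {v x}) T)ᶜ}, fun _ _ => Iff.rfl⟩
  have dBad : ∀ x, Dep I (Bad x) := fun x ξ ξ' h h' => by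
    rw [hBad, bern_fix _ _ _ (mL _ _).compl] at h' ⊢
    rwa [← spl_congr_left h]
  have mBad : ∀ x, MeasurableSet (Bad x) := fun x =>
    measurableSet_of_dep U.sym2 ((dBad x).mono hIU)
  have lBad : ∀ x, IsLowerSet (Bad x) := fun x ξ ξ' h h' => by
    rw [hBad, bern_fix _ _ _ (mL _ _).compl] at h' ⊢
    exact h'.trans_le (measure_mono fun ω hω hh =>
      hω (isUpperSet_Lk G _ _ _ (spl_mono_left I h ω) hh))
  have pBad : ∀ x, (∃ b ∈ A, G.Adj b x) → bern π (Bad x) ≤ d := fun x hx => by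
    have h1 := mul_meas_ge_le_lintegral₀ (μ := bern π)
      (measurable_fix π I (mL ↑(ball G m {v x}) T).compl).aemeasurable d
    rw [← bern_cond π I (mL _ _).compl] at h1
    have h2 : d * bern π (Bad x) ≤ d * d :=
      (mul_le_mul_right (measure_mono fun ξ hξ => ((hBad x ξ).1 hξ).le) d).trans
        (h1.trans (hT _ (hF x hx).1 (hF x hx).2.1))
    exact (ENNReal.mul_le_mul_iff_right hd0 hd1).1 h2
  obtain ⟨Gd, hGd⟩ : ∃ Gd : Set (Set (Sym2 V)), ∀ ω, ω ∈ Gd ↔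
      ∃ x ∈ Ent G U O A ω, (∀ e ∈ F x, e ∈ ω) ∧ ω ∉ Bad x := ⟨{ω | _}, fun _ => Iff.rfl⟩
  have hFI : ∀ {x ω}, x ∈ Ent G U O A ω → ∀ e ∈ F x, e ∈ I := fun hx e he =>
    ((hF _ (Ent_prop hx).2.1).2.2.2.1 e he).1
  have mGd : MeasurableSet Gd := measurableSet_of_dep U.sym2 fun ω ω' h h' => by
    obtain ⟨x, hx, h1, h2⟩ := (hGd ω).1 h'
    exact (hGd ω').2 ⟨x, Ent_in (G := G) (O := O) (A := A) h ▸ hx, fun e he => (h e (hIU (hFI hx e he))).1 (h1 e he),
      (dBad x).compl _ _ (fun e he => h e (hIU he)) h2⟩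
  set N := k * (D + 1) ^ (2 * (2 * (m + R) + 1)) with hN
  have mN : MeasurableSet {ω | N < (Ent G U O A ω).card} :=
    measurableSet_of_dep U.sym2 fun ω ω' h h' => by
      rw [mem_ofPred_eq, ← Ent_in h]; exact h'
  have hW : bern π ({ω | N < (Ent G U O A ω).card} ∩ Gdᶜ) ≤ (L : ℝ≥0∞)⁻¹ + (L + 1) * d := by
    refine bern_le_of_fix π Iᶜ (mN.inter mGd.compl) fun ξ => ?_
    rw [bern_fix _ _ _ (mN.inter mGd.compl)]
    have e1 : ∀ ω, Ent G U O A (spl Iᶜ ξ ω) = Ent G U O A ξ := fun ω =>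
      Ent_out fun e he => mem_spl_of_mem he
    have e2 : ∀ ω, ∀ e ∈ I, e ∈ ω ↔ e ∈ spl Iᶜ ξ ω := fun ω e he =>
      (mem_spl_of_notMem (not_not.2 he)).symm
    by_cases hc : N < (Ent G U O A ξ).card
    swap
    · have : {ω | spl Iᶜ ξ ω ∈ {ω | N < (Ent G U O A ω).card} ∩ Gdᶜ} = ∅ :=
        eq_empty_of_forall_notMem fun ω hω => hc (e1 ω ▸ hω.1)
      rw [this, measure_empty]
      exact zero_le
    obtain ⟨n, hn, hp, h1, h2⟩ := greedy (fun x => ball G (2 * (2 * (m + R) + 1)) {x})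
      (M := (D + 1) ^ (2 * (2 * (m + R) + 1))) (by positivity)
      (fun x => by simpa using card_ball_le hD _ {x}) (self_mem_ball _) (fun _ _ => ball_symm)
      (fun x => bern π {ω | ∀ e ∈ F x, e ∈ ω})
      (pe p1 ^ (((D + 1) ^ (m + R) + 1).choose 2 + 1)) k (Ent G U O A ξ) L
      (fun x hx => ⟨by
        rw [bern_subset]
        refine (pow_le_pow_right_of_le_one' (pe_le_one _)
          (hF x (Ent_prop hx).2.1).2.2.1).trans (Finset.pow_card_le_prod _ _ _ fun e he => ?_)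
        rw [pe_eq_ofReal, pe_eq_ofReal]
        exact ENNReal.ofReal_le_ofReal (hπ e (hFI hx e he)), prob_le_one⟩) hc.le hk
    have h3 := no_seed π F n fun x hx y hy hxy => Finset.disjoint_left.2 fun e he he' => by
      have a1 := ((hF _ (Ent_prop (hn hx)).2.1).2.2.2.1 e he).2 _ (Sym2.out_fst_mem e)
      have a2 := ((hF _ (Ent_prop (hn hy)).2.1).2.2.2.1 e he').2 _ (Sym2.out_fst_mem e)
      refine hp x hx y hy hxy ?_
      rw [two_mul (2 * (m + R) + 1)]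
      exact ball_trans a1 (ball_symm a2)
    calc bern π {ω | spl Iᶜ ξ ω ∈ {ω | N < (Ent G U O A ω).card} ∩ Gdᶜ}
        ≤ bern π ({ω | ∀ x ∈ n, ¬ ∀ e ∈ F x, e ∈ ω} ∪
            ⋃ x ∈ n, ({ω | ∀ e ∈ F x, e ∈ ω} ∩ Bad x)) := by
          refine measure_mono fun ω hω => ?_
          by_contra hh
          simp only [mem_union, mem_ofPred_eq, mem_iUnion, mem_inter_iff, not_or, not_forall,
            not_not, not_exists, not_and] at hh
          obtain ⟨⟨x, hx, h4⟩, h5⟩ := hh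
          exact hω.2 ((hGd _).2 ⟨x, e1 ω ▸ hn hx, fun e he => (e2 ω e (hFI (hn hx) e he)).1 (h4 e he),
            (dBad x).compl _ _ (e2 ω) (h5 x hx h4)⟩)
      _ ≤ (L : ℝ≥0∞)⁻¹ + ∑ x ∈ n, bern π {ω | ∀ e ∈ F x, e ∈ ω} * d := by
          refine (measure_union_le _ _).trans (add_le_add ?_ ((measure_biUnion_finset_le _ _).trans
            (Finset.sum_le_sum fun x hx => ?_)))
          · exact ENNReal.le_inv_iff_mul_le.2 ((mul_le_mul_right (h1.trans le_add_self) _).trans h3)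
          · exact (harris_bern_anti π (measurableSet_contains _) (mBad x)
              (fun _ _ h h' e he => h (h' e he)) (lBad x)).trans
              (mul_le_mul_right (pBad x (Ent_prop (hn hx)).2.1) _)
      _ ≤ _ := by
          rw [← Finset.sum_mul]
          exact add_le_add le_rfl (mul_le_mul_left h2 _)
  have hZ : bern π (Gd ∩ (Lk G (↑U)ᶜ O T)ᶜ) ≤ d := by
    refine bern_le_of_fix π I (mGd.inter (mL _ _).compl) fun ξ => ?_
    have h1 := kn G (fixπ π I ξ) U O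
      {x | (∃ b ∈ A, G.Adj b x) ∧ (∀ e ∈ F x, e ∈ ξ) ∧ ξ ∉ Bad x} T d fun a ha haU => by
        refine le_trans ?_ (not_lt.1 fun h => ha.2.2 ((hBad a ξ).2 h))
        have e3 : {ω | ¬ ∃ b ∈ T, conn G (↑U)ᶜ ω a b} = (Lk G (↑U)ᶜ {a} T)ᶜ := by
          ext ω; simp [Lk]
        rw [e3, bern_fix _ _ _ (mL _ _).compl, bern_fix _ _ _ (mL _ _).compl]
        refine measure_mono fun ω hω hh => hω ?_
        obtain ⟨a', ha', t, ht, hc⟩ := hh
        exact ⟨a, rfl, t, ht, ((hF a ha.1).2.2.2.2 (↑U)ᶜ _ (fun h => h haU) hAU (fun e he =>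
          (mem_spl_of_mem ((hF a ha.1).2.2.2.1 e he).1).2 (ha.2.1 e he)) a' ha').trans hc⟩
    refine le_trans ?_ (h1.trans (mul_le_of_le_one_right' prob_le_one))
    have m2 := (mL O {x | (∃ b ∈ A, G.Adj b x) ∧ (∀ e ∈ F x, e ∈ ξ) ∧ ξ ∉ Bad x}).inter
      (mL O T).compl
    refine le_trans ?_ (bern_fix π I ξ m2).ge
    rw [bern_fix _ _ _ (mGd.inter (mL _ _).compl)]
    refine measure_mono fun ω hω => ⟨?_, hω.2⟩
    obtain ⟨x, hx, h2, h3⟩ := (hGd _).1 hω.1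
    obtain ⟨-, h4, o, ho, hc⟩ := Ent_prop hx
    exact ⟨o, ho, x, ⟨h4, fun e he => (mem_spl_of_mem (hFI hx e he)).1 (h2 e he),
      (dBad x).compl _ _ (fun e he => mem_spl_of_mem he) h3⟩, hc⟩
  refine le_trans (measure_mono fun ω hω => ?_) ((measure_union_le _ _).trans (add_le_add hW hZ))
  by_cases h : ω ∈ Gd
  · exact Or.inr ⟨h, hω.2⟩
  · exact Or.inl ⟨hω.1, h⟩

end Tg

variable {V : Type*} {G : SimpleGraph V} [DecidableEq V] [G.LocallyFinite]

/-- The target lemma. -/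
theorem target {D : ℕ} (hD : ∀ v, G.degree v ≤ D) {ε : ℝ≥0∞} (hε : 0 < ε) :
    ∃ δ : ℝ≥0∞, 0 < δ ∧ ∀ p1 p0 : unitInterval, 0 < p1 → p0 < 1 → ∀ m R : ℕ, ∃ J : ℕ,
      ∀ (π : Sym2 V → unitInterval) (U B : Finset V) (O T S : Set V),
        (∀ x, ∃ v ∈ S, v ∈ ball G R {x}) → ball G J B ⊆ U → (∀ o ∈ O, o ∉ ball G J B) →
        (∀ e ∈ touch G ↑(ball G J B), p1 ≤ π e ∧ π e ≤ p0) →
        (∀ v ∈ S, v ∈ ball G J B →
          bern π {ω | ¬ ∃ a ∈ ball G m {v}, ∃ t ∈ T, conn G (↑U)ᶜ ω a t} ≤ δ) →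
        bern π {ω | (∃ o ∈ O, ∃ b ∈ B, conn G (↑U)ᶜ ω o b) ∧
          ¬ ∃ o ∈ O, ∃ t ∈ T, conn G (↑U)ᶜ ω o t} ≤ ε := by
  obtain ⟨L, hL⟩ := ENNReal.exists_inv_nat_lt (a := ε / 3) (ENNReal.div_pos hε.ne' (by simp)).ne'
  have hL0 : (L : ℝ≥0∞) ≠ 0 := fun h => by simp [h] at hL
  have hu0 : (L : ℝ≥0∞)⁻¹ ≠ 0 := by simp
  have hu1 : (L : ℝ≥0∞)⁻¹ ≠ ∞ := by simpa using hL0
  obtain ⟨d, hd0, hd1, hd⟩ : ∃ d : ℝ≥0∞, d ≠ 0 ∧ d ≠ ∞ ∧ (L + 2) * d = (L : ℝ≥0∞)⁻¹ :=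
    ⟨(L : ℝ≥0∞)⁻¹ / (L + 2), (ENNReal.div_pos hu0 (by simp)).ne',
      ENNReal.div_ne_top hu1 (by simp), ENNReal.mul_div_cancel (by simp) (by simp)⟩
  refine ⟨d * d, ENNReal.mul_pos hd0 hd0, fun p1 p0 h1 h0 m R => ?_⟩
  have hp1 : pe p1 ≠ 0 := by
    rw [pe_eq_ofReal]
    exact (ENNReal.ofReal_pos.2 h1).ne'
  have hp0 : pe (unitInterval.symm p0) ≠ 0 := by
    rw [pe_eq_ofReal]
    exact (ENNReal.ofReal_pos.2 (sub_pos.2 h0)).ne'
  obtain ⟨k, hk⟩ := ENNReal.exists_nat_mul_gt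
    (pow_ne_zero (((D + 1) ^ (m + R) + 1).choose 2 + 1) hp1) (ENNReal.natCast_ne_top L)
  obtain ⟨N, hN⟩ : ∃ N, N = k * (D + 1) ^ (2 * (2 * (m + R) + 1)) := ⟨_, rfl⟩
  obtain ⟨K, hK⟩ := ENNReal.exists_nat_mul_gt
    (mul_ne_zero (pow_ne_zero (N * D) hp0) hu0) ENNReal.one_ne_top
  refine ⟨m + R + K, fun π U B O T S hS hU hO hπ hT => ?_⟩
  have hs : ∀ i, i ≤ K → ball G (m + R + i) B ⊆ ball G (m + R + K) B := fun i hi =>
    Tg.ball_mono_left (by omega) B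
  obtain ⟨i, hi, hH⟩ : ∃ i, i < K ∧ bern π {ω | (Tg.Ent G U O (ball G (m + R + i) B) ω).Nonempty ∧
      (Tg.Ent G U O (ball G (m + R + i) B) ω).card ≤ N} ≤ (L : ℝ≥0∞)⁻¹ := by
    by_contra hh
    simp only [not_exists, not_and, not_le] at hh
    have key : ∀ i : ℕ, i ≤ K → i * (pe (unitInterval.symm p0) ^ (N * D) * (L : ℝ≥0∞)⁻¹) ≤
        bern π (Lk G (↑U)ᶜ O ↑(ball G (m + R + i) B)) := by
      intro i
      induction i with
      | zero => simp
      | succ i ih =>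
        intro hi
        have h2 := Tg.shell (U := U) (O := O) hD π ((hs i (by omega)).trans hU)
          (fun o ho h => hO o ho (hs i (by omega) h))
          (fun e he => (hπ e (touch_mono (Finset.coe_subset.2 (hs i (by omega))) he)).2) N
        push_cast
        rw [add_mul, one_mul, ← add_assoc, ball_succ']
        refine (add_le_add (ih (by omega))
          ((mul_le_mul_right (hh i (by omega)).le _).trans h2)).trans ?_
        rw [measure_add_sdiff (measurableSet_Lk G U Subset.rfl _ _).nullMeasurableSet]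
        refine measure_mono (union_subset ?_ Subset.rfl)
        exact fun ω ⟨o, ho, a, ha, hc⟩ => ⟨o, ho, a, subset_nb _ ha, hc⟩
    exact absurd ((key K le_rfl).trans prob_le_one) (not_le.2 hK)
  have h2 := Tg.seeds (U := U) (O := O) (T := T) (L := L) (k := k) hD π (Nat.le_add_right _ i) hS
    (B := B) (by rw [← ball_succ']; exact (hs (i + 1) hi).trans hU)
    (fun e he => (hπ e (touch_mono (Finset.coe_subset.2 (hs i hi.le)) he)).1) hk.le hd0 hd1
    fun v hv hv' => hT v hv (hs i hi.le hv')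
  rw [← hN] at h2
  refine le_trans (measure_mono fun ω hω => ?_)
    ((measure_union_le _ _).trans ((add_le_add hH h2).trans ?_))
  · by_cases h : N < (Tg.Ent G U O (ball G (m + R + i) B) ω).card
    · exact Or.inr ⟨h, hω.2⟩
    · obtain ⟨o, ho, b, hb, hc⟩ := hω.1
      obtain ⟨x, hx, -⟩ := Tg.Ent_entry (U := U) (A := ball G (m + R + i) B)
        (fun o ho h => hO o ho (hs i hi.le h)) ⟨o, ho, b, Tg.subset_ball _ _ hb, hc⟩
      exact Or.inl ⟨⟨x, hx⟩, not_lt.1 h⟩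
  · calc (L : ℝ≥0∞)⁻¹ + ((L : ℝ≥0∞)⁻¹ + (L + 1) * d + d)
        = (L : ℝ≥0∞)⁻¹ + (L : ℝ≥0∞)⁻¹ + (L + 2) * d := by ring
      _ = 3 * (L : ℝ≥0∞)⁻¹ := by rw [hd]; ring
      _ ≤ 3 * (ε / 3) := mul_le_mul_right hL.le _
      _ = ε := ENNReal.mul_div_cancel (by simp) (by simp)

end Crest.Agent.R147
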