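import Crest.Agent.R147.TD2

/-! Row 147, module A1: from the percolation measure to finite sums. -/

set_option autoImplicit false

open MeasureTheory ProbabilityTheory Set Filter
open scoped ENNReal NNReal
open Crest.ProbabilityR.Percolation

namespace Crest.Agent.R147.T

open Crest.Agent.R159

variable {V : Type*} [DecidableEq V] {G : SimpleGraph V}

omit [DecidableEq V] in
theorem P_real_eq_cyl [DecidableEq (Sym2 V)] (p : unitInterval) (I : Finset (Sym2 V))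
    (hI : ∀ e ∈ I, e ∈ G.edgeSet) {J : Finset (Sym2 V)} (hJ : J ⊆ I) :
    (P G p).real ({ω | ∀ e ∈ J, e ∈ ω} ∩ {ω | ∀ e ∈ I \ J, e ∉ ω}) =
      wt (fun _ => (p : ℝ)) I J := by
  have hd : Disjoint (↑J : Set (Sym2 V)) ↑(I \ J) := by
    rw [Finset.disjoint_coe]; exact Finset.disjoint_sdiff
  have d1 : Dep (↑J : Set (Sym2 V)) {ω | ∀ e ∈ J, e ∈ ω} :=
    fun ω ω' h hω e he => (h e he).1 (hω e he)
  have d2 : Dep (↑(I \ J) : Set (Sym2 V)) {ω | ∀ e ∈ I \ J, e ∉ ω} :=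
    fun ω ω' h hω e he he' => hω e he ((h e he).2 he')
  rw [Measure.real, P_indep G p hd (measurableSet_contains J) (measurableSet_avoid _) d1 d2,
    P_subset G p J (fun e he => hI e (hJ he)),
    P_avoid G p _ (fun e he => hI e (Finset.mem_sdiff.1 he).1), ← pe_symm]
  unfold wt
  rw [Finset.prod_const, Finset.prod_const, ENNReal.toReal_mul, ENNReal.toReal_pow,
    ENNReal.toReal_pow]
  rfl

omit [DecidableEq V] in
open Classical in
theorem P_real_eq_aux [DecidableEq (Sym2 V)] (p : unitInterval) (I : Finset (Sym2 V))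
    (hI : ∀ e ∈ I, e ∈ G.edgeSet) {E : Set (Set (Sym2 V))} (hE : Dep (↑I) E) :
    (P G p).real E =
      Ex (fun _ => (p : ℝ)) I (fun J => if (↑J : Set (Sym2 V)) ∈ E then 1 else 0) := by
  have hEq : E = ⋃ J ∈ I.powerset.filter (fun J : Finset (Sym2 V) => (↑J : Set (Sym2 V)) ∈ E),
      ({ω | ∀ e ∈ J, e ∈ ω} ∩ {ω | ∀ e ∈ I \ J, e ∉ ω}) := by
    ext ω
    simp only [mem_iUnion, Finset.mem_filter, Finset.mem_powerset, exists_prop]
    constructor
    · intro hω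
      refine ⟨I.filter (· ∈ ω), ⟨Finset.filter_subset _ _, ?_⟩, ?_, ?_⟩
      · refine hE ω _ (fun i hi => ?_) hω
        rw [Finset.mem_coe, Finset.mem_filter]
        exact ⟨fun h => ⟨hi, h⟩, fun h => h.2⟩
      · intro e he
        exact (Finset.mem_filter.1 he).2
      · intro e he he'
        rw [Finset.mem_sdiff, Finset.mem_filter] at he
        exact he.2 ⟨he.1, he'⟩
    · rintro ⟨J, ⟨hJ, hJE⟩, h1, h2⟩
      refine hE _ ω (fun i hi => ⟨fun h => h1 i h, fun h => ?_⟩) hJE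
      by_contra h'
      exact h2 i (Finset.mem_sdiff.2 ⟨hi, h'⟩) h
  have hdis : Set.PairwiseDisjoint
      (↑(I.powerset.filter (fun J : Finset (Sym2 V) => (↑J : Set (Sym2 V)) ∈ E)) : Set (Finset (Sym2 V)))
      (fun J => ({ω | ∀ e ∈ J, e ∈ ω} ∩ {ω | ∀ e ∈ I \ J, e ∉ ω} : Set (Set (Sym2 V)))) := by
    intro J hJ K hK hne
    have hJ' := Finset.mem_powerset.1 (Finset.mem_filter.1 hJ).1
    have hK' := Finset.mem_powerset.1 (Finset.mem_filter.1 hK).1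
    rw [Function.onFun, Set.disjoint_left]
    rintro ω ⟨h1, h2⟩ ⟨h3, h4⟩
    apply hne
    ext e
    constructor
    · intro he
      by_contra h'
      exact h4 e (Finset.mem_sdiff.2 ⟨hJ' he, h'⟩) (h1 e he)
    · intro he
      by_contra h'
      exact h2 e (Finset.mem_sdiff.2 ⟨hK' he, h'⟩) (h3 e he)
  conv_lhs => rw [hEq]
  rw [measureReal_biUnion_finset hdis
    (fun J _ => (measurableSet_contains J).inter (measurableSet_avoid _))
    (fun J _ => measure_ne_top _ _), Finset.sum_filter]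
  unfold Ex
  refine Finset.sum_congr rfl fun J hJ => ?_
  rw [P_real_eq_cyl p I hI (Finset.mem_powerset.1 hJ)]
  by_cases h : (↑J : Set (Sym2 V)) ∈ E <;> simp [h]

open Classical in
/-- An event that depends on finitely many edges. -/
theorem P_real_eq (p : unitInterval) (I : Finset (Sym2 V)) (hI : ∀ e ∈ I, e ∈ G.edgeSet)
    {E : Set (Set (Sym2 V))} (hE : Dep (↑I) E) :
    (P G p).real E =
      Ex (fun _ => (p : ℝ)) I (fun J => if (↑J : Set (Sym2 V)) ∈ E then 1 else 0) :=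
  P_real_eq_aux p I hI hE

theorem mem_eIn {Λ : Finset V} {u v : V} :
    s(u, v) ∈ eIn G Λ ↔ u ∈ Λ ∧ v ∈ Λ ∧ G.Adj u v := by
  classical
  unfold eIn
  rw [Finset.mem_filter, Finset.mk_mem_sym2_iff, SimpleGraph.mem_edgeSet, and_assoc]

theorem eIn_edge {Λ : Finset V} : ∀ e ∈ eIn G Λ, e ∈ G.edgeSet := by
  classical
  intro e he
  unfold eIn at he
  rw [Finset.mem_filter] at he
  exact he.2

theorem dep_conn_in (Λ : Finset V) (x y : V) :
    Dep (↑(eIn G Λ)) {ω | conn G (↑Λ)ᶜ ω x y} := by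
  intro ω ω' h hω
  have hω' : conn G (↑Λ)ᶜ ω x y := hω
  show conn G (↑Λ)ᶜ ω' x y
  refine hω'.ind (Q := fun v => conn G (↑Λ)ᶜ ω' x v) (conn_refl hω'.left) ?_
  intro a b ha hab he hb hq
  refine hq.tail hab ((h _ ?_).1 he) hb
  rw [Finset.mem_coe, mem_eIn]
  exact ⟨not_not.1 ha.right, not_not.1 hb, hab⟩

theorem dep_two_in_cl (Λ : Finset V) {ω ω' : Set (Sym2 V)}
    (h : ∀ i ∈ (↑(eIn G Λ) : Set (Sym2 V)), i ∈ ω ↔ i ∈ ω') (x : V) :
    cl G (↑Λ)ᶜ ω x = cl G (↑Λ)ᶜ ω' x := by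
  ext y
  exact ⟨fun hy => dep_conn_in Λ x y ω ω' h hy,
    fun hy => dep_conn_in Λ x y ω' ω (fun i hi => (h i hi).symm) hy⟩

theorem dep_two_in (Λ : Finset V) (n : ℕ) (x z : V) :
    Dep (↑(eIn G Λ)) (Two G (↑Λ)ᶜ n x z) := by
  rintro ω ω' h ⟨⟨h1, h2⟩, h3⟩
  refine ⟨⟨?_, ?_⟩, ?_⟩
  · show (n : ℕ∞) ≤ (cl G (↑Λ)ᶜ ω' x).encard
    rw [← dep_two_in_cl Λ h x]; exact h1
  · show (n : ℕ∞) ≤ (cl G (↑Λ)ᶜ ω' z).encard
    rw [← dep_two_in_cl Λ h z]; exact h2
  · exact fun h' => h3 (dep_conn_in Λ x z ω' ω (fun i hi => (h i hi).symm) h')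

theorem coe_clF (Λ : Finset V) (J : Finset (Sym2 V)) (x : V) :
    (↑(clF G Λ J x) : Set V) = cl G (↑Λ)ᶜ (↑J) x := by
  classical
  ext y
  unfold clF
  rw [Finset.mem_coe, Finset.mem_filter]
  exact ⟨fun h => h.2, fun h => ⟨not_not.1 (conn.right h), h⟩⟩

theorem mem_big_iff (Λ : Finset V) (J : Finset (Sym2 V)) (n : ℕ) (x : V) :
    (↑J : Set (Sym2 V)) ∈ Big G (↑Λ)ᶜ n x ↔ n ≤ (clF G Λ J x).card := by
  show (n : ℕ∞) ≤ (cl G (↑Λ)ᶜ (↑J) x).encard ↔ _
  rw [← coe_clF, Set.encard_coe_eq_coe_finsetCard, Nat.cast_le]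

end Crest.Agent.R147.T
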