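import Crest.Agent.R147.TD2

/-! Row 147, module A1: Følner sets, locality, measurability, invariance. -/

set_option autoImplicit false

open MeasureTheory ProbabilityTheory Set Filter
open scoped ENNReal NNReal
open Crest.ProbabilityR.Percolation

namespace Crest.Agent.R147.T

open Crest.Agent.R159

variable {V : Type*} {G : SimpleGraph V}

theorem big_anti {R R' : Set V} (h : R' ⊆ R) (n : ℕ) (x : V) : Big G R n x ⊆ Big G R' n x :=
  fun _ hω => le_trans hω (encard_le_encard fun _ hy => conn.mono hy h subset_rfl)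

theorem big_anti_n (R : Set V) {n n' : ℕ} (h : n ≤ n') (x : V) :
    Big G R n' x ⊆ Big G R n x :=
  fun _ hω => le_trans (a := (n : ℕ∞)) (Nat.cast_le.2 h) hω

theorem isUpperSet_big (R : Set V) (n : ℕ) (x : V) : IsUpperSet (Big G R n x) :=
  fun _ _ h hω => le_trans hω (encard_le_encard fun _ hy => conn.mono hy subset_rfl h)

theorem measurableSet_big [Countable V] (R : Set V) (n : ℕ) (x : V) :
    MeasurableSet (Big G R n x) := by
  have h : Measurable fun ω => cl G R ω x :=
    measurable_setOfPred.comp (measurable_pi_lambda _ fun y => cn_measurable_conn R x y)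
  exact (measurable_encard.comp h) (MeasurableSet.of_discrete (s := Ici (n : ℕ∞)))

theorem measurableSet_two [Countable V] (R : Set V) (n : ℕ) (x z : V) :
    MeasurableSet (Two G R n x z) :=
  ((measurableSet_big R n x).inter (measurableSet_big R n z)).inter
    (measurableSet_conn R x z).compl

theorem dep_big (R : Set V) (n : ℕ) (x : V) : Dep (touch G R)ᶜ (Big G R n x) :=
  fun ω ω' h hω => le_trans hω (encard_le_encard fun y hy => dep_conn R x y ω ω' h hy)

theorem Dn_nonneg (p : unitInterval) (R : Set V) (n : ℕ) (x z : V) : 0 ≤ Dn G p R n x z :=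
  measureReal_nonneg

theorem Dn_self (p : unitInterval) (n : ℕ) (x : V) : Dn G p ∅ n x x = 0 := by
  have e : Two G ∅ n x x = ∅ :=
    eq_empty_of_forall_notMem fun ω hω => hω.2 (conn_refl (notMem_empty x))
  rw [Dn, e, measureReal_empty]

theorem Dn_iso [Countable V] (p : unitInterval) (φ : G ≃g G) (n : ℕ) (x z : V) :
    Dn G p ∅ n (φ x) (φ z) = Dn G p ∅ n x z := by
  have e : ∀ ω, conn G ∅ (Sym2.map φ '' ω) (φ x) (φ z) ↔ conn G ∅ ω x z := fun ω => by
    simpa only [image_empty] using conn_image_iso φ (R := ∅) (ω := ω) (x := x) (y := z)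
  rw [Dn, Dn, Measure.real, Measure.real, cn_P_iso p φ (measurableSet_two _ _ _ _)]
  simp only [Two, Big, mem_inter_iff, mem_ofPred_eq, cn_cl_image_iso, e,
    φ.injective.encard_image]
  rfl

variable [DecidableEq V] [G.LocallyFinite]

theorem big_local_aux (ω : Set (Sym2 V)) (x : V) (k : ℕ) :
    cl G ∅ ω x ⊆ cl G (↑(ball G k {x}))ᶜ ω x ∨
      ((k + 1 : ℕ) : ℕ∞) ≤ (cl G (↑(ball G k {x}))ᶜ ω x).encard := by
  have h0 : ∀ k, x ∈ cl G (↑(ball G k {x}))ᶜ ω x := fun k =>
    conn_refl fun h => h (mem_ball.2 ⟨x, Finset.mem_singleton_self x, .nil, Nat.zero_le _⟩)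
  induction k with
  | zero => exact Or.inr (by simpa using Set.one_le_encard_iff_nonempty.2 ⟨x, h0 0⟩)
  | succ k ih =>
    have hsub : cl G (↑(ball G k {x}))ᶜ ω x ⊆ cl G (↑(ball G (k + 1) {x}))ᶜ ω x := fun y hy =>
      conn.mono hy (compl_subset_compl.2 (by rw [ball_succ']; exact subset_nb _)) subset_rfl
    by_cases h : cl G ∅ ω x ⊆ cl G (↑(ball G k {x}))ᶜ ω x
    · exact Or.inl (h.trans hsub)
    refine Or.inr ?_
    obtain ⟨y, hy, hy'⟩ := not_subset.1 h
    obtain ⟨a, ha, b, hab, he, -, hb⟩ := conn.last_exit hy _ (h0 k) hy'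
    have hb1 : b ∉ cl G (↑(ball G k {x}))ᶜ ω x := fun h => hb.left (Or.inr h)
    have hb2 : b ∈ cl G (↑(ball G (k + 1) {x}))ᶜ ω x := by
      refine conn.tail (hsub ha) hab he fun h => h ?_
      rw [ball_succ']
      exact mem_nb.2 (Or.inr ⟨a, not_not.1 (conn.right ha), hab⟩)
    have h1 := Set.encard_le_encard (insert_subset hb2 hsub)
    rw [Set.encard_insert_of_notMem hb1] at h1
    refine le_trans ?_ h1
    rw [Nat.cast_add (k + 1), Nat.cast_one]
    exact add_le_add_left (ih.resolve_left h) 1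

/-- A big cluster is seen inside a ball. -/
theorem big_local {Λ : Finset V} {n : ℕ} {x : V} (h : ball G n {x} ⊆ Λ) :
    Big G ∅ n x ⊆ Big G (↑Λ)ᶜ n x := by
  intro ω hω
  have hsub : cl G (↑(ball G n {x}))ᶜ ω x ⊆ cl G (↑Λ)ᶜ ω x := fun y hy =>
    conn.mono hy (compl_subset_compl.2 h) subset_rfl
  refine le_trans ?_ (Set.encard_le_encard hsub)
  rcases big_local_aux (G := G) ω x n with h1 | h1
  · exact le_trans hω (Set.encard_le_encard h1)
  · exact le_trans (by exact_mod_cast Nat.le_succ n) h1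

theorem fn_local (p : unitInterval) {Λ : Finset V} {n : ℕ} {x : V} (h : ball G n {x} ⊆ Λ) :
    fn G p (↑Λ)ᶜ n x = fn G p ∅ n x := by
  unfold fn
  rw [(big_anti (empty_subset _) n x).antisymm (big_local h)]

theorem Dn_le_local (p : unitInterval) {Λ : Finset V} {n : ℕ} {x z : V}
    (hx : ball G n {x} ⊆ Λ) (hz : ball G n {z} ⊆ Λ) :
    Dn G p ∅ n x z ≤ Dn G p (↑Λ)ᶜ n x z := by
  refine measureReal_mono ?_ (measure_ne_top _ _)
  rintro ω ⟨⟨h1, h2⟩, h3⟩
  exact ⟨⟨big_local hx h1, big_local hz h2⟩, fun h => h3 (conn.mono h (empty_subset _) subset_rfl)⟩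

theorem folner_aux (A : Finset V) (r : ℕ) : ball G r A ⊆ A ∪ ball G r (nb G A \ A) := by
  induction r with
  | zero => exact Finset.subset_union_left
  | succ r ih =>
    intro y hy
    rw [ball_succ'] at hy
    by_cases h : y ∈ A
    · exact Finset.mem_union_left _ h
    refine Finset.mem_union_right _ ?_
    rcases mem_nb.1 hy with h1 | ⟨a, ha, hay⟩
    · rw [ball_succ']
      exact subset_nb _ ((Finset.mem_union.1 (ih h1)).resolve_left h)
    · rcases Finset.mem_union.1 (ih ha) with h2 | h2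
      · exact mem_ball.2 ⟨y, Finset.mem_sdiff.2 ⟨mem_nb.2 (Or.inr ⟨a, h2, hay⟩), h⟩, .nil,
          Nat.zero_le _⟩
      · rw [ball_succ']
        exact mem_nb.2 (Or.inr ⟨a, h2, hay⟩)

/-- Følner sets. -/
theorem folner {d : ℕ} (hd : ∀ v, G.degree v ≤ d) (ha : ¬ IsVertexNonamenable G) (r : ℕ) :
    ∃ F : Finset V, F.Nonempty ∧ (ball G r F).card ≤ 2 * F.card := by
  unfold IsVertexNonamenable at ha
  push Not at ha
  have hpos : (0 : ℝ) < (d + 1) ^ r := by positivity
  obtain ⟨A, -, h1⟩ := ha (1 / (d + 1) ^ r) (by positivity)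
  have e : outerVertexBoundary G A = ↑(nb G A \ A) := by
    ext v
    simp only [Finset.coe_sdiff, Set.mem_sdiff, Finset.mem_coe, mem_nb]
    constructor
    · rintro ⟨h1, a, ha, h2⟩
      exact ⟨Or.inr ⟨a, ha, h2.symm⟩, h1⟩
    · rintro ⟨h1 | ⟨a, ha, h2⟩, h3⟩
      · exact absurd h1 h3
      · exact ⟨h3, a, ha, h2.symm⟩
  rw [e, ncard_coe_finset, one_div, inv_mul_eq_div, lt_div_iff₀ hpos] at h1
  have h2 : (nb G A \ A).card * (d + 1) ^ r < A.card := by exact_mod_cast h1
  refine ⟨A, Finset.card_pos.1 (by omega), ?_⟩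
  have h3 := (Finset.card_le_card (folner_aux (G := G) A r)).trans (Finset.card_union_le _ _)
  have h4 := card_ball_le hd r (nb G A \ A)
  rw [mul_comm] at h4
  omega

end Crest.Agent.R147.T
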