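import Crest.Agent.R147.T0
import Crest.Agent.R147.T0b
import Crest.Agent.R147.T1

/-! Row 147, module A1: continuity in the parameter and passage to infinite clusters. -/

set_option autoImplicit false

open MeasureTheory ProbabilityTheory Set Filter
open scoped ENNReal NNReal
open Crest.ProbabilityR.Percolation

namespace Crest.Agent.R147.T

open Crest.Agent.R159

variable {V : Type*} [Countable V] [DecidableEq V] {G : SimpleGraph V} [G.LocallyFinite]

omit [DecidableEq V] [G.LocallyFinite] in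
theorem perc_pos {p : unitInterval} (h : Perc G p) : 0 < (p : ℝ) := by
  obtain ⟨x, hx⟩ := h
  rcases p.2.1.lt_or_eq with h0 | h0
  · exact h0
  exfalso
  have hp : p = 0 := Subtype.ext h0.symm
  subst hp
  have h1 := ae_cl_finite (G := G) (p := 0) (ne_top_of_le_ne_top ENNReal.one_ne_top chi_zero_le)
  have h3 := ae_iff.1 h1
  have h2 : P G 0 {ω | (cl G ∅ ω x).Infinite} = 0 := by
    refine measure_mono_null ?_ h3
    intro ω hω hf
    exact hω (hf ∅ x)
  exact hx.ne' h2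

omit [DecidableEq V] [G.LocallyFinite] in
theorem theta_pos {R : ℕ} (hR : Near G R) {p : unitInterval} (h : Perc G p) :
    ∃ θ : ℝ, 0 < θ ∧ ∀ (n : ℕ) (y : V), θ ≤ fn G p ∅ n y := by
  have hp := perc_pos h
  obtain ⟨x, hx⟩ := h
  have hpe : pe p ≠ 0 := by
    intro h0
    have h1 : pn p = 0 := ENNReal.coe_eq_zero.1 h0
    have h2 : ((pn p : ℝ≥0) : ℝ) = (p : ℝ) := rfl
    rw [h1] at h2
    exact hp.ne (by simpa using h2)
  refine ⟨(pe p ^ R * P G p {ω | (cl G ∅ ω x).Infinite}).toReal, ?_, fun n y => ?_⟩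
  · refine ENNReal.toReal_pos (mul_ne_zero (pow_ne_zero _ hpe) hx.ne') ?_
    exact ENNReal.mul_ne_top (ENNReal.pow_ne_top ENNReal.coe_ne_top) (measure_ne_top _ _)
  · refine ENNReal.toReal_mono (measure_ne_top _ _) ((theta_near hR p y x).trans ?_)
    refine measure_mono fun ω hω => ?_
    show (n : ℕ∞) ≤ (cl G ∅ ω y).encard
    rw [Set.Infinite.encard_eq hω]
    exact le_top

theorem fn_cont_Ex {ι : Type*} [DecidableEq ι] {p q : ℝ} (hq : 0 ≤ q) (hqp : q ≤ p) (hp : p ≤ 1)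
    (I : Finset ι) : ∀ F : Finset ι → ℝ, (∀ J, 0 ≤ F J ∧ F J ≤ 1) →
      Ex (fun _ => p) I F - Ex (fun _ => q) I F ≤ I.card * (p - q) := by
  induction I using Finset.induction_on with
  | empty => intro F _; simp [Ex, wt]
  | insert e I he ih =>
    intro F hF
    rw [Ex_insert he, Ex_insert he, Finset.card_insert_of_notMem he]
    have h1 := ih (fun J => F (insert e J)) fun J => hF _
    have h2 := ih F hF
    have hπ : ∀ e ∈ I, 0 ≤ (fun _ : ι => q) e ∧ (fun _ : ι => q) e ≤ 1 :=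
      fun _ _ => ⟨hq, hqp.trans hp⟩
    have h3 : Ex (fun _ => q) I (fun J => F (insert e J)) ≤ 1 :=
      (Ex_mono hπ fun J _ => (hF (insert e J)).2).trans_eq (Ex_const 1)
    have h4 : 0 ≤ Ex (fun _ => q) I F :=
      (Ex_const (π := fun _ => q) (I := I) 0).symm.trans_le (Ex_mono hπ fun J _ => (hF J).1)
    push_cast
    have h5 := mul_le_mul_of_nonneg_left h1 (hq.trans hqp)
    have h6 := mul_le_mul_of_nonneg_left h2 (sub_nonneg.2 hp)
    have h7 : (p - q) * (Ex (fun _ => q) I (fun J => F (insert e J)) - Ex (fun _ => q) I F) ≤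
        (p - q) * 1 := mul_le_mul_of_nonneg_left (by linarith) (sub_nonneg.2 hqp)
    nlinarith

omit [Countable V] [G.LocallyFinite] in
theorem fn_cont_dep (Λ : Finset V) (n : ℕ) (y : V) :
    Dep (↑(eIn G Λ)) (Big G (↑Λ)ᶜ n y) := by
  intro ω ω' hω h
  have h1 : cl G (↑Λ)ᶜ ω y ⊆ cl G (↑Λ)ᶜ ω' y := fun z hz => dep_conn_in Λ y z ω ω' hω hz
  exact le_trans (show (n : ℕ∞) ≤ (cl G (↑Λ)ᶜ ω y).encard from h) (Set.encard_le_encard h1)

omit [Countable V] [DecidableEq V] [G.LocallyFinite] in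
theorem fn_cont_card (Λ : Finset V) : (eIn G Λ).card ≤ Λ.card ^ 2 := by
  classical
  have h1 : eIn G Λ ⊆ (Λ ×ˢ Λ).image fun z => s(z.1, z.2) := by
    intro e he
    induction e using Sym2.ind with
    | _ u v =>
      obtain ⟨hu, hv, -⟩ := mem_eIn.1 he
      exact Finset.mem_image.2 ⟨(u, v), Finset.mem_product.2 ⟨hu, hv⟩, rfl⟩
  refine (Finset.card_le_card h1).trans (Finset.card_image_le.trans ?_)
  rw [Finset.card_product, sq]

theorem fn_cont {d : ℕ} (hd : ∀ v, G.degree v ≤ d) {p : unitInterval} (hp : 0 < (p : ℝ)) (n : ℕ)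
    {ε : ℝ} (hε : 0 < ε) :
    ∃ q : unitInterval, q < p ∧ (p : ℝ) / 2 ≤ q ∧ ∀ y, fn G p ∅ n y - ε ≤ fn G q ∅ n y := by
  set N : ℕ := ((d + 1) ^ n) ^ 2 with hN
  set δ : ℝ := min ((p : ℝ) / 2) (ε / (N + 1)) with hδ
  have hδ0 : 0 < δ := lt_min (by linarith) (by positivity)
  have hδ1 : δ ≤ (p : ℝ) / 2 := min_le_left _ _
  have hδ2 : δ ≤ ε / (N + 1) := min_le_right _ _
  have hp1 : (p : ℝ) ≤ 1 := p.2.2
  refine ⟨⟨p - δ, by linarith, by linarith⟩, ?_, ?_, fun y => ?_⟩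
  · show (p : ℝ) - δ < p
    linarith
  · show (p : ℝ) / 2 ≤ p - δ
    linarith
  rw [← fn_local p (Λ := ball G n {y}) subset_rfl, ← fn_local _ (Λ := ball G n {y}) subset_rfl]
  unfold fn
  rw [P_real_eq p _ eIn_edge (fn_cont_dep _ n y), P_real_eq _ _ eIn_edge (fn_cont_dep _ n y)]
  have h1 := fn_cont_Ex (p := (p : ℝ)) (q := p - δ) (by linarith) (by linarith) hp1
    (eIn G (ball G n {y}))
    (fun J => by
      classical
      exact if (↑J : Set (Sym2 V)) ∈ Big G (↑(ball G n {y}))ᶜ n y then 1 else 0)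
    (fun J => by split_ifs <;> norm_num)
  have h2 : ((eIn G (ball G n {y})).card : ℝ) ≤ N := by
    have h3 := card_ball_le hd n {y}
    rw [Finset.card_singleton, mul_one] at h3
    exact_mod_cast (fn_cont_card _).trans (Nat.pow_le_pow_left h3 2)
  have h4 : (N : ℝ) * δ ≤ ε := by
    have h5 : δ * (N + 1) ≤ ε := (le_div_iff₀ (by positivity)).1 hδ2
    nlinarith
  have h6 : ((eIn G (ball G n {y})).card : ℝ) * ((p : ℝ) - (p - δ)) ≤ ε := by
    rw [sub_sub_cancel]
    exact (mul_le_mul_of_nonneg_right h2 hδ0.le).trans h4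
  have h7 := h1.trans h6
  show _ - ε ≤ Ex (fun _ => (p : ℝ) - δ) _ _
  convert sub_le_comm.1 h7

omit [DecidableEq V] [G.LocallyFinite] in
theorem perc_of_fn {q : unitInterval} {θ : ℝ} (hθ : 0 < θ) (x : V) (i₀ : ℕ)
    (h : ∀ i, i₀ ≤ i → θ ≤ fn G q ∅ (2 ^ i) x) : Perc G q := by
  refine ⟨x, ?_⟩
  have hanti : Antitone fun i : ℕ => Big G ∅ (2 ^ i) x := fun i j hij =>
    big_anti_n ∅ (Nat.pow_le_pow_right (by norm_num) hij) x
  have ht := tendsto_measure_iInter_atTop (μ := P G q) (s := fun i : ℕ => Big G ∅ (2 ^ i) x)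
    (fun i => (measurableSet_big ∅ _ x).nullMeasurableSet) hanti ⟨0, measure_ne_top _ _⟩
  have h1 : ENNReal.ofReal θ ≤ P G q (⋂ i : ℕ, Big G ∅ (2 ^ i) x) := by
    refine ge_of_tendsto ht (eventually_atTop.2 ⟨i₀, fun i hi => ?_⟩)
    exact (ENNReal.ofReal_le_iff_le_toReal (measure_ne_top _ _)).2 (h i hi)
  refine (ENNReal.ofReal_pos.2 hθ).trans_le (h1.trans (measure_mono fun ω hω => ?_))
  intro hf
  have h2 : ((2 ^ hf.toFinset.card : ℕ) : ℕ∞) ≤ (cl G ∅ ω x).encard :=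
    mem_iInter.1 hω hf.toFinset.card
  rw [hf.encard_eq_coe_toFinset_card, Nat.cast_le] at h2
  exact absurd h2 (not_le.2 Nat.lt_two_pow_self)

end Crest.Agent.R147.T
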