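import Crest.Agent.R147.QCore
import Crest.Agent.R147.QRen
import Crest.Agent.R147.StTarget
import Crest.Agent.R147.StExit
import Crest.Agent.R147.T8a

/-! Row 147, module A2: steering, and the statement of the module. -/

set_option autoImplicit false

open MeasureTheory ProbabilityTheory Set Filter
open scoped ENNReal NNReal
open Crest.ProbabilityR.Percolation

namespace Crest.Agent.R147.Q

open Crest.Agent.R159

variable {V : Type*} {G : SimpleGraph V} [DecidableEq V] [G.LocallyFinite]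

section Pi
variable {π : V → ℤ × ℤ} {F : Finset V}

/-- A real linear functional of `π`. -/
noncomputable def lin (π : V → ℤ × ℤ) (α β : ℝ) (v : V) : ℝ := α * (π v).1 + β * (π v).2

omit [DecidableEq V] [G.LocallyFinite] in
theorem lin_shift {φ : G ≃g G} {t : ℤ × ℤ} (h : Shifts G π φ t) (α β : ℝ) (v : V) :
    lin π α β (φ v) = lin π α β v + (α * t.1 + β * t.2) := by
  simp only [lin, h v, Prod.fst_add, Prod.snd_add]
  push_cast
  ring

omit [DecidableEq V] in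
theorem exists_lip (hF : ∀ v, ∃ (φ : G ≃g G) (t : ℤ × ℤ), Shifts G π φ t ∧ φ v ∈ F) :
    ∃ L : ℕ, ∀ u v, G.Adj u v → |((π u).1 : ℝ) - (π v).1| ≤ L ∧ |((π u).2 : ℝ) - (π v).2| ≤ L := by
  classical
  have hfin : (⋃ u ∈ F, (fun v => |((π u).1 : ℝ) - (π v).1| + |((π u).2 : ℝ) - (π v).2|) ''
      G.neighborSet u).Finite :=
    F.finite_toSet.biUnion fun u _ => (G.neighborSet u).toFinite.image _
  obtain ⟨M, hM⟩ := hfin.bddAbove
  obtain ⟨L, hL⟩ := exists_nat_ge M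
  refine ⟨L, fun u v huv => ?_⟩
  obtain ⟨φ, t, h, hu⟩ := hF u
  have h1 := hM (mem_iUnion₂.2 ⟨φ u, hu, φ v, φ.map_adj_iff.2 huv, rfl⟩)
  simp only [h u, h v, Prod.fst_add, Prod.snd_add] at h1
  push_cast at h1
  rw [add_sub_add_right_eq_sub, add_sub_add_right_eq_sub] at h1
  have a1 := abs_nonneg (((π u).1 : ℝ) - (π v).1)
  have a2 := abs_nonneg (((π u).2 : ℝ) - (π v).2)
  constructor <;> linarith

theorem mem_ball_iso (φ : G ≃g G) {r : ℕ} {x y : V} (h : y ∈ ball G r {x}) :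
    φ y ∈ ball G r {φ x} := by
  obtain ⟨w, hw⟩ := mem_ball_singleton.1 h
  exact mem_ball_singleton.2 ⟨w.map φ.toHom, by simpa using hw⟩

theorem exists_radius (hconn : G.Connected) (F : Finset V) (f : V → V) :
    ∃ c : ℕ, ∀ u ∈ F, f u ∈ ball G c {u} := by
  refine ⟨F.sup fun u => G.dist u (f u), fun u hu => ?_⟩
  obtain ⟨w, hw⟩ := (hconn u (f u)).exists_walk_length_eq_dist
  exact mem_ball_singleton.2 ⟨w, hw ▸ Finset.le_sup (f := fun u => G.dist u (f u)) hu⟩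

theorem exists_step (hconn : G.Connected)
    (hF : ∀ v, ∃ (φ : G ≃g G) (t : ℤ × ℤ), Shifts G π φ t ∧ φ v ∈ F) {ψ : G ≃g G} {e : ℤ × ℤ}
    (hψ : Shifts G π ψ e) :
    ∃ c : ℕ, ∀ (k : ℕ) (v : V), ∃ u ∈ ball G (c * k) {v}, π u = π v + k • e := by
  obtain ⟨c, hc⟩ := exists_radius hconn F ψ
  have one : ∀ v, ∃ u ∈ ball G c {v}, π u = π v + e := fun v => by
    obtain ⟨φ, t, h, hv⟩ := hF v
    refine ⟨φ.symm (ψ (φ v)), ?_, ?_⟩
    · simpa using mem_ball_iso φ.symm (hc _ hv)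
    · rw [h.symm, hψ, h]; abel
  refine ⟨c, fun k v => ?_⟩
  induction k with
  | zero => exact ⟨v, mem_ball_self _ _, by simp⟩
  | succ k ih =>
    obtain ⟨u, hu, h1⟩ := ih
    obtain ⟨u', hu', h2⟩ := one u
    exact ⟨u', ball_trans hu hu', by rw [h2, h1, succ_nsmul, add_assoc]⟩

/-- Every point of a strip is close to its complement, uniformly in the direction. -/
theorem exists_escape (hconn : G.Connected)
    (hF : ∀ v, ∃ (φ : G ≃g G) (t : ℤ × ℤ), Shifts G π φ t ∧ φ v ∈ F)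
    (hs : ∀ t : ℤ × ℤ, ∃ φ : G ≃g G, Shifts G π φ t) (l : ℕ) :
    ∃ c : ℕ, ∀ α β γ : ℝ, 0 < |α| + |β| → ∀ v, |lin π α β v - γ| ≤ l * (|α| + |β|) →
      ∃ u, ¬ |lin π α β u - γ| ≤ l * (|α| + |β|) ∧ ∃ w : G.Walk v u, w.length ≤ c := by
  obtain ⟨ψ₁, h1⟩ := hs (1, 0)
  obtain ⟨ψ₂, h2⟩ := hs (0, 1)
  obtain ⟨c₁, hc₁⟩ := exists_step hconn hF h1
  obtain ⟨c₂, hc₂⟩ := exists_step hconn hF h2
  refine ⟨(c₁ + c₂) * (4 * l + 1), fun α β γ h0 v hv => ?_⟩
  have hl : (0 : ℝ) ≤ l := Nat.cast_nonneg _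
  have key : ∀ (u : V) (a : ℝ), lin π α β u = lin π α β v + a * (4 * l + 1) →
      |α| + |β| ≤ 2 * |a| → ¬ |lin π α β u - γ| ≤ l * (|α| + |β|) := by
    intro u a hu ha hc
    have e : a * (4 * l + 1) = (lin π α β u - γ) - (lin π α β v - γ) := by rw [hu]; ring
    have h3 := abs_sub (lin π α β u - γ) (lin π α β v - γ)
    rw [← e, abs_mul, abs_of_pos (show (0 : ℝ) < 4 * l + 1 by positivity)] at h3
    nlinarith [mul_le_mul_of_nonneg_left ha hl]
  rcases le_total |α| |β| with h | h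
  · obtain ⟨u, hu, h3⟩ := hc₂ (4 * l + 1) v
    refine ⟨u, key u β ?_ (by linarith), mem_ball_singleton.1 (ball_le (by nlinarith) hu)⟩
    simp only [lin, h3, Prod.fst_add, Prod.snd_add, Prod.smul_mk, smul_zero, nsmul_eq_mul]
    push_cast
    ring
  · obtain ⟨u, hu, h3⟩ := hc₁ (4 * l + 1) v
    refine ⟨u, key u α ?_ (by linarith), mem_ball_singleton.1 (ball_le (by nlinarith) hu)⟩
    simp only [lin, h3, Prod.fst_add, Prod.snd_add, Prod.smul_mk, smul_zero, nsmul_eq_mul]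
    push_cast
    ring

end Pi

variable [Countable V]

omit [DecidableEq V] [G.LocallyFinite] in
theorem P_hit_iso (q : unitInterval) (φ : G ≃g G) {U O T U' O' T' : Set V}
    (hU : ∀ w ∈ U, φ w ∈ U') (hO : ∀ w ∈ O, φ w ∈ O') (hT : ∀ w ∈ T, φ w ∈ T') :
    P G q (hit G U' O' T')ᶜ ≤ P G q (hit G U O T)ᶜ := by
  rw [cn_P_iso q φ (measurableSet_hit G U' O' T').compl]
  refine measure_mono ?_
  rintro ω hω ⟨o, ho, t, ht, hc⟩
  refine hω ⟨φ o, hO o ho, φ t, hT t ht, (hc.image_iso φ).mono ?_ Subset.rfl⟩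
  intro v hv
  obtain ⟨w, rfl⟩ := φ.surjective v
  exact ⟨w, fun hw => hv (hU w hw), rfl⟩

omit [G.LocallyFinite] in
theorem P_hit_cont {p q : unitInterval} (hqp : q ≤ p) (Λ : Finset V) {U : Set V} (hU : U ⊆ ↑Λ)
    (O T' : Set V) : P G q (hit G U O T')ᶜ ≤
      P G p (hit G U O T')ᶜ + ENNReal.ofReal ((Λ.card : ℝ) ^ 2 * (p - q)) := by
  classical
  have hd : Dep (↑(T.eIn G Λ)) (hit G U O T') := by
    rintro ω ω' hω ⟨o, ho, t, ht, h⟩
    refine ⟨o, ho, t, ht, ?_⟩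
    exact conn.ind (Q := fun y => conn G Uᶜ ω' o y) h (conn_refl h.1)
      fun _ _ ha hab he hb ih => ih.tail hab ((hω _ (Finset.mem_coe.2
        (T.mem_eIn.2 ⟨hU (not_not.1 ha.right), hU (not_not.1 hb), hab⟩))).1 he) hb
  have h1 := T.fn_cont_Ex (p := (p : ℝ)) (q := q) q.2.1 hqp p.2.2 (T.eIn G Λ)
    (fun J => if (↑J : Set (Sym2 V)) ∈ hit G U O T' then 1 else 0)
    (fun J => by split_ifs <;> norm_num)
  have h2 : (P G p).real (hit G U O T') - (P G q).real (hit G U O T') ≤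
      (T.eIn G Λ).card * ((p : ℝ) - q) := by
    rw [T.P_real_eq p _ T.eIn_edge hd, T.P_real_eq q _ T.eIn_edge hd]
    convert h1
  have h3 : ((T.eIn G Λ).card : ℝ) ≤ (Λ.card : ℝ) ^ 2 := by exact_mod_cast T.fn_cont_card Λ
  have h4 : (0 : ℝ) ≤ (p : ℝ) - q := sub_nonneg.2 hqp
  have h5 := mul_le_mul_of_nonneg_right h3 h4
  have m := measurableSet_hit G U O T'
  rw [← ofReal_measureReal (μ := P G q), ← ofReal_measureReal (μ := P G p),
    ← ENNReal.ofReal_add measureReal_nonneg (by positivity), probReal_compl_eq_one_sub m,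
    probReal_compl_eq_one_sub m]
  exact ENNReal.ofReal_le_ofReal (by linarith)

omit [Countable V] in
theorem pair_moves {p : unitInterval} {δ : ℝ≥0∞} {O : Set V} {a : V} {ρ : ℕ} {X Y φ τ : V → ℝ}
    (h : Pair G p δ (ball G ρ {a}) O X Y) (hφ : ∀ w, φ w - φ a = 8 / 3 * (2 * X w + Y w))
    (hτ : ∀ w, τ w - τ a = 8 / 3 * (2 * Y w - X w)) :
    P G p (hit G (reg G φ τ ρ a) O (land φ τ a 1))ᶜ ≤ δ ∧
      P G p (hit G (reg G φ τ ρ a) O (land φ τ a (-1)))ᶜ ≤ δ := by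
  have hU : bx (↑(ball G ρ {a})) X Y ⊆ reg G φ τ ρ a := by
    rintro w ⟨h0, h1, h2⟩
    rw [abs_le] at h1 h2
    refine ⟨?_, ?_, h0⟩
    · rw [hφ, abs_le]; constructor <;> linarith [h1.1, h1.2, h2.1, h2.2]
    · rw [hτ, abs_le]; constructor <;> linarith [h1.1, h1.2, h2.1, h2.2]
  constructor
  · refine le_trans (measure_mono (compl_subset_compl.2 (hit_mono hU Subset.rfl ?_))) h.2
    rintro w ⟨⟨a1, a2⟩, -, h1, h2⟩
    rw [abs_le] at h1 h2
    refine ⟨?_, ?_, ?_, ?_⟩ <;> simp only [hφ, hτ] <;> linarith [h1.1, h1.2, h2.1, h2.2]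
  · refine le_trans (measure_mono (compl_subset_compl.2 (hit_mono hU Subset.rfl ?_))) h.1
    rintro w ⟨⟨a1, a2⟩, -, h1, h2⟩
    rw [abs_le] at h1 h2
    refine ⟨?_, ?_, ?_, ?_⟩ <;> simp only [hφ, hτ] <;> linarith [h1.1, h1.2, h2.1, h2.2]

/-- From a pair of linear coordinates at the base point to `MV` at a smaller parameter. -/
theorem mv_of_pair {π : V → ℤ × ℤ} {a : V} {p : unitInterval} (hp : 0 < (p : ℝ)) {δ : ℝ≥0∞}
    (hδ : 0 < δ) {m R S ρ : ℕ}
    (hR : ∀ x, ∃ v ∈ {v | ∃ (φ : G ≃g G) (t : ℤ × ℤ), Shifts G π φ t ∧ φ a = v}, v ∈ ball G R {x})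
    {X Y : V → ℝ} {x₁ x₂ y₁ y₂ : ℝ} (hX : ∀ w, X w = lin π x₁ x₂ w - lin π x₁ x₂ a)
    (hY : ∀ w, Y w = lin π y₁ y₂ w - lin π y₁ y₂ a)
    (lX : ∀ u v, G.Adj u v → 8 * S * |X u - X v| ≤ 1)
    (lY : ∀ u v, G.Adj u v → 8 * S * |Y u - Y v| ≤ 1)
    (h : Pair G p δ (ball G ρ {a}) (ball G m {a}) X Y) :
    ∃ q : unitInterval, q < p ∧ (p : ℝ) / 2 ≤ q ∧ ∃ (C : Set V) (φ τ : V → ℝ),
      MV G q (δ + δ) m R S ρ C φ τ := by
  set f : V → ℝ := lin π (8 / 3 * (2 * x₁ + y₁)) (8 / 3 * (2 * x₂ + y₂)) with hf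
  set g : V → ℝ := lin π (8 / 3 * (2 * y₁ - x₁)) (8 / 3 * (2 * y₂ - x₂)) with hg
  have hf' : ∀ w, f w - f a = 8 / 3 * (2 * X w + Y w) := fun w => by
    simp only [hf, hX, hY, lin]; ring
  have hg' : ∀ w, g w - g a = 8 / 3 * (2 * Y w - X w) := fun w => by
    simp only [hg, hX, hY, lin]; ring
  obtain ⟨h1, h2⟩ := pair_moves h hf' hg'
  obtain ⟨η, hη, hη'⟩ : ∃ η : ℝ, 0 < η ∧ ENNReal.ofReal η ≤ δ := by
    obtain ⟨r, hr0, hr⟩ := ENNReal.lt_iff_exists_nnreal_btwn.1 hδ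
    exact ⟨r, by exact_mod_cast hr0, by rw [ENNReal.ofReal_coe_nnreal]; exact hr.le⟩
  set N : ℝ := ((ball G ρ {a}).card : ℝ) ^ 2 with hN
  have hN0 : 0 ≤ N := by positivity
  set κ : ℝ := min ((p : ℝ) / 2) (η / (N + 1)) with hκ
  have k0 : 0 < κ := lt_min (by linarith) (by positivity)
  have k1 : κ ≤ (p : ℝ) / 2 := min_le_left _ _
  have k2 : κ * (N + 1) ≤ η := (le_div_iff₀ (by positivity)).1 (min_le_right _ _)
  have hp1 : (p : ℝ) ≤ 1 := p.2.2
  let q : unitInterval := ⟨p - κ, by linarith, by linarith⟩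
  have hqp : q < p := show (p : ℝ) - κ < p by linarith
  have hcont : ∀ T : Set V, P G p (hit G (reg G f g ρ a) (ball G m {a}) T)ᶜ ≤ δ →
      P G q (hit G (reg G f g ρ a) (ball G m {a}) T)ᶜ ≤ δ + δ := fun T hT => by
    refine (P_hit_cont hqp.le (ball G ρ {a}) (fun w hw => hw.2.2) _ _).trans
      (add_le_add hT (le_trans (ENNReal.ofReal_le_ofReal ?_) hη'))
    show N * ((p : ℝ) - (p - κ)) ≤ η
    nlinarith
  have htr : ∀ (σ : ℝ) (φ : G ≃g G) (t : ℤ × ℤ), Shifts G π φ t →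
      P G q (hit G (reg G f g ρ (φ a)) (ball G m {φ a}) (land f g (φ a) σ))ᶜ ≤
        P G q (hit G (reg G f g ρ a) (ball G m {a}) (land f g a σ))ᶜ := by
    intro σ φ t ht
    have e1 : ∀ w, f (φ w) - f (φ a) = f w - f a := fun w => by
      simp only [hf, lin_shift ht]; ring
    have e2 : ∀ w, g (φ w) - g (φ a) = g w - g a := fun w => by
      simp only [hg, lin_shift ht]; ring
    refine P_hit_iso q φ (fun w hw => ?_) (fun w hw => mem_ball_iso φ hw) (fun w hw => ?_)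
    · exact ⟨by rw [e1]; exact hw.1, by rw [e2]; exact hw.2.1, mem_ball_iso φ hw.2.2⟩
    · simpa only [land, mem_ofPred_eq, e1, e2] using hw
  refine ⟨q, hqp, show (p : ℝ) / 2 ≤ p - κ by linarith, _, f, g, fun u v huv => ?_, hR, ?_, ?_⟩
  · have a1 := lX u v huv
    have a2 := lY u v huv
    have hS : (0 : ℝ) ≤ S := Nat.cast_nonneg _
    have b1 : |f u - f v| ≤ 8 / 3 * (2 * |X u - X v| + |Y u - Y v|) := by
      rw [show f u - f v = 8 / 3 * (2 * (X u - X v) + (Y u - Y v)) by linarith [hf' u, hf' v],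
        abs_le]
      constructor <;> linarith [le_abs_self (X u - X v), neg_abs_le (X u - X v),
        le_abs_self (Y u - Y v), neg_abs_le (Y u - Y v)]
    have b2 : |g u - g v| ≤ 8 / 3 * (2 * |Y u - Y v| + |X u - X v|) := by
      rw [show g u - g v = 8 / 3 * (2 * (Y u - Y v) - (X u - X v)) by linarith [hg' u, hg' v],
        abs_le]
      constructor <;> linarith [le_abs_self (X u - X v), neg_abs_le (X u - X v),
        le_abs_self (Y u - Y v), neg_abs_le (Y u - Y v)]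
    constructor
    · nlinarith [mul_le_mul_of_nonneg_left b1 hS]
    · nlinarith [mul_le_mul_of_nonneg_left b2 hS]
  · rintro _ ⟨φ, t, ht, rfl⟩
    exact (htr 1 φ t ht).trans (hcont _ h1)
  · rintro _ ⟨φ, t, ht, rfl⟩
    exact (htr (-1) φ t ht).trans (hcont _ h2)

/-- STEER. -/
theorem steer (hconn : G.Connected) {d : ℕ} (hd : ∀ v, G.degree v ≤ d) (hπ : HasPi G)
    {p : unitInterval} (hθ : Perc G p) {δ : ℝ≥0∞} (hδ : 0 < δ) (hδ1 : δ ≤ 1) :
    ∃ m R : ℕ, ∀ S : ℕ, ∃ q : unitInterval, q < p ∧ (p : ℝ) / 2 ≤ q ∧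
      ∃ (ρ : ℕ) (C : Set V) (φ τ : V → ℝ), MV G q (δ + δ) m R S ρ C φ τ := by
  obtain ⟨π, F, hF, hs⟩ := hπ
  obtain ⟨a⟩ := hconn.nonempty
  obtain ⟨L, hL⟩ := exists_lip hF
  obtain ⟨R, hR⟩ := exists_radius hconn F fun _ => a
  have hdense : ∀ x, ∃ v ∈ {v | ∃ (φ : G ≃g G) (t : ℤ × ℤ), Shifts G π φ t ∧ φ a = v},
      v ∈ ball G R {x} := fun x => by
    obtain ⟨φ, t, h, hx⟩ := hF x
    exact ⟨φ.symm a, ⟨φ.symm, -t, h.symm, rfl⟩, by simpa using mem_ball_iso φ.symm (hR _ hx)⟩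
  obtain ⟨m, hm⟩ := seed_exit hconn hd hθ a (δ := δ ^ 32) (ENNReal.pow_pos hδ _)
  refine ⟨m, R, fun S => ?_⟩
  set l : ℕ := 12 * (L + 1) * (S + 1) + L * m with hl
  obtain ⟨c₀, hc₀⟩ := exists_escape hconn hF hs l
  obtain ⟨ρ₀, hρ₀⟩ := hm c₀
  set n : ℕ := l + L * ρ₀ with hn
  obtain ⟨c₁, hc₁⟩ := exists_escape hconn hF hs n
  obtain ⟨ρ₁, hρ₁⟩ := hm c₁
  have hL0 : (0 : ℝ) ≤ L := Nat.cast_nonneg _
  have hS0 : (0 : ℝ) ≤ S := Nat.cast_nonneg _
  have hm0 : (0 : ℝ) ≤ m := Nat.cast_nonneg _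
  have hρ0 : (0 : ℝ) ≤ ρ₀ := Nat.cast_nonneg _
  have hl' : (l : ℝ) = 12 * (L + 1) * (S + 1) + L * m := by rw [hl]; push_cast; ring
  have hn' : (n : ℝ) = l + L * ρ₀ := by rw [hn]; push_cast; ring
  have hl1 : 12 * ((L : ℝ) + 1) ≤ l := by nlinarith [mul_nonneg hL0 hm0, mul_nonneg hL0 hS0]
  have hl2 : (L : ℝ) * m ≤ l := by nlinarith [mul_nonneg hL0 hS0]
  have hl3 : 8 * S * (L : ℝ) ≤ l := by nlinarith [mul_nonneg hL0 hm0, mul_nonneg hL0 hS0]
  have hln : (l : ℝ) ≤ n := by nlinarith [mul_nonneg hL0 hρ0]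
  have hn0 : (0 : ℝ) < n := by linarith
  have hl0 : (0 : ℝ) < l := by linarith
  -- the side
  have main : ∀ ε : ℝ, |ε| = 1 →
      P G p (ex G ↑(ball G (ρ₀ + ρ₁) {a}) ↑(ball G m {a})
        {w | |lin π ε 0 w - lin π ε 0 a| ≤ n} {w | n < lin π ε 0 w - lin π ε 0 a})ᶜ ≤ δ ^ 16 →
      ∃ q : unitInterval, q < p ∧ (p : ℝ) / 2 ≤ q ∧
        ∃ (ρ : ℕ) (C : Set V) (φ τ : V → ℝ), MV G q (δ + δ) m R S ρ C φ τ := by
    intro ε hε hside
    set x : V → ℝ := fun w => lin π ε 0 w - lin π ε 0 a with hx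
    set y : V → ℝ := fun w => lin π 0 1 w - lin π 0 1 a with hy
    have lx : ∀ u v, G.Adj u v → |x u - x v| ≤ L := fun u v huv => by
      rw [show x u - x v = ε * (((π u).1 : ℝ) - (π v).1) by simp only [hx, lin]; ring, abs_mul,
        hε, one_mul]
      exact (hL u v huv).1
    have ly : ∀ u v, G.Adj u v → |y u - y v| ≤ L := fun u v huv => by
      rw [show y u - y v = ((π u).2 : ℝ) - (π v).2 by simp only [hy, lin]; ring]
      exact (hL u v huv).2
    have bxy : ∀ (r : ℕ) (w : V), w ∈ ball G r {a} → |x w| ≤ L * r ∧ |y w| ≤ L * r := by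
      intro r w hw
      have a1 := lip_ball hL0 lx hw
      have a2 := lip_ball hL0 ly hw
      rw [abs_sub_comm, show x a = 0 from sub_self _, sub_zero] at a1
      rw [abs_sub_comm, show y a = 0 from sub_self _, sub_zero] at a2
      exact ⟨a1, a2⟩
    obtain ⟨s, H, hH, hpair⟩ := core p (B := ↑(ball G (ρ₀ + ρ₁) {a})) (B₀ := ↑(ball G ρ₀ {a}))
      (O := ↑(ball G m {a})) x y hL0 lx ly hl1 hln (M := L * (ρ₀ + ρ₁))
      (fun w hw => by exact_mod_cast bxy _ w hw)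
      (fun o ho => ⟨(bxy _ o ho).1.trans hl2, (bxy _ o ho).2.trans hl2⟩)
      (fun w hw => ball_le (by omega) hw)
      (fun w hw => (bxy _ w hw).1.trans (by linarith)) hδ1 hside (fun s => by
        have e : ∀ w, n * y w - s * x w = lin π (-(s * ε)) n w - lin π (-(s * ε)) n a :=
          fun w => by simp only [hx, hy, lin]; ring
        have e' : |-(s * ε)| + |(n : ℝ)| = n + |s| := by
          rw [abs_neg, abs_mul, hε, mul_one, abs_of_pos hn0, add_comm]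
        have h1 := hρ₀ {w | |lin π (-(s * ε)) n w - lin π (-(s * ε)) n a| ≤ l * (n + |s|)}
          fun v hv => by
            have := hc₀ (-(s * ε)) n (lin π (-(s * ε)) n a)
              (by rw [e']; positivity) v (by rw [e']; exact hv)
            rwa [e'] at this
        refine le_trans (le_of_eq ?_) (h1.trans (pow_le_pow_right_of_le_one' hδ1 (by norm_num)))
        congr 1
        ext ω
        simp only [hit, mem_compl_iff, mem_ofPred_eq, e, not_le, Finset.mem_coe])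
    have hs0 := abs_nonneg s
    have hH0 : 0 < H := lt_of_lt_of_le (by positivity) hH
    have eX : ∀ w, x w / n = lin π (ε / n) 0 w - lin π (ε / n) 0 a := fun w => by
      simp only [hx, lin]; ring
    have eY : ∀ w, (n * y w - s * x w) / H =
        lin π (-(s * ε) / H) (n / H) w - lin π (-(s * ε) / H) (n / H) a := fun w => by
      simp only [hx, hy, lin]; ring
    have eY' : ∀ w, -((n * y w - s * x w) / H) =
        lin π ((s * ε) / H) (-n / H) w - lin π ((s * ε) / H) (-n / H) a := fun w => by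
      simp only [hx, hy, lin]; ring
    have lX : ∀ u v, G.Adj u v → 8 * S * |x u / n - x v / n| ≤ 1 := fun u v huv => by
      rw [← sub_div, abs_div, abs_of_pos hn0, ← mul_div_assoc, div_le_one hn0]
      nlinarith [mul_le_mul_of_nonneg_left (lx u v huv) hS0]
    have lY : ∀ u v, G.Adj u v →
        8 * S * |(n * y u - s * x u) / H - (n * y v - s * x v) / H| ≤ 1 := fun u v huv => by
      rw [← sub_div, abs_div, abs_of_pos hH0, ← mul_div_assoc, div_le_one hH0,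
        show n * y u - s * x u - (n * y v - s * x v) = n * (y u - y v) - s * (x u - x v) by ring]
      have h1 := abs_sub (n * (y u - y v)) (s * (x u - x v))
      rw [abs_mul, abs_mul, abs_of_pos hn0] at h1
      have h2 : |n * (y u - y v) - s * (x u - x v)| ≤ L * (n + |s|) := by
        nlinarith [mul_le_mul_of_nonneg_left (lx u v huv) hs0,
          mul_le_mul_of_nonneg_left (ly u v huv) hn0.le]
      have h3 := mul_le_mul_of_nonneg_left h2 (show (0 : ℝ) ≤ 8 * S by positivity)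
      have h4 := mul_le_mul_of_nonneg_right hl3 (show (0 : ℝ) ≤ n + |s| by positivity)
      linarith
    have lY' : ∀ u v, G.Adj u v →
        8 * S * |-((n * y u - s * x u) / H) - -((n * y v - s * x v) / H)| ≤ 1 := fun u v huv => by
      rw [neg_sub_neg, abs_sub_comm]; exact lY u v huv
    have hp := T.perc_pos hθ
    rcases hpair with h | h | h | h
    · obtain ⟨q, h1, h2, h3⟩ := mv_of_pair hp hδ hdense eX eY lX lY h
      exact ⟨q, h1, h2, _, h3⟩
    · obtain ⟨q, h1, h2, h3⟩ := mv_of_pair hp hδ hdense eX eY' lX lY' h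
      exact ⟨q, h1, h2, _, h3⟩
    · obtain ⟨q, h1, h2, h3⟩ := mv_of_pair hp hδ hdense eY eX lY lX h
      exact ⟨q, h1, h2, _, h3⟩
    · obtain ⟨q, h1, h2, h3⟩ := mv_of_pair hp hδ hdense eY' eX lY' lX h
      exact ⟨q, h1, h2, _, h3⟩
  have h1 := hρ₁ {w | |lin π 1 0 w - lin π 1 0 a| ≤ n} fun v hv => by
    simpa using hc₁ 1 0 (lin π 1 0 a) (by simp) v (by simpa using hv)
  have eneg : ∀ w, lin π (-1) 0 w - lin π (-1) 0 a = -(lin π 1 0 w - lin π 1 0 a) := fun w => by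
    simp only [lin]; ring
  have h2 := sqrt_two p (B := ↑(ball G (ρ₀ + ρ₁) {a})) (O := ↑(ball G m {a}))
    (I₁ := {w | |lin π 1 0 w - lin π 1 0 a| ≤ n}) (I₂ := {w | |lin π 1 0 w - lin π 1 0 a| ≤ n})
    (T₁ := {w | n < lin π 1 0 w - lin π 1 0 a}) (T₂ := {w | n < -(lin π 1 0 w - lin π 1 0 a)})
    (E := {ω | ∃ b ∈ ball G m {a}, ∃ u, u ∉ {w | |lin π 1 0 w - lin π 1 0 a| ≤ n} ∧
      conn G (↑(ball G ρ₁ {a}))ᶜ ω b u}) (c := δ ^ 16) (by
      rintro ω ⟨b, hb, u, hu, hc⟩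
      have hbI : |lin π 1 0 b - lin π 1 0 a| ≤ n := by
        have := lip_ball (f := lin π 1 0) hL0 (fun u v huv => by
          simpa [lin] using (hL u v huv).1) hb
        rw [abs_sub_comm]
        linarith
      have h3 := ex_of_conn (B := ↑(ball G (ρ₀ + ρ₁) {a})) (O := ↑(ball G m {a}))
        (I := {w | |lin π 1 0 w - lin π 1 0 a| ≤ n}) (Finset.mem_coe.2 hb) hbI hu hc
        fun w hw => ball_le (by omega) hw
      refine ex_cover (fun t _ ht _ => ?_) h3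
      have ht' : (n : ℝ) < |lin π 1 0 t - lin π 1 0 a| := not_le.1 ht
      exact lt_abs.1 ht')
    (by rw [← pow_add]; exact h1)
  rcases h2 with h | h
  · exact main 1 abs_one h
  · refine main (-1) (by simp) ?_
    simpa only [eneg, abs_neg] using h

end Crest.Agent.R147.Q

namespace Crest.Agent.R147

open Crest.Agent.R159

/-- Module A2. -/
theorem stmtA2q {V : Type*} [Countable V] [DecidableEq V] {G : SimpleGraph V} [G.LocallyFinite]
    (hconn : G.Connected) (hqt : IsQuasiTransitive G) : StmtA2 G := by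
  intro hπ p hp1 hθ _
  have := hconn.nonempty
  obtain ⟨d, -, hd⟩ := exists_degree_bound hqt
  obtain ⟨δ, hδ, h⟩ := Q.renorm_of_target (G := G) fun ε hε => target hd hε
  have hp := T.perc_pos hθ
  have hδ' : 0 < min (δ / 2) 1 := lt_min (ENNReal.half_pos hδ.ne') one_pos
  obtain ⟨m, R, hS⟩ := Q.steer hconn hd hπ hθ hδ' (min_le_right _ _)
  let p1 : unitInterval := ⟨p / 2, by linarith, by linarith [p.2.2]⟩
  obtain ⟨S, hS'⟩ := h p1 p (show (0 : ℝ) < p / 2 by linarith) hp1 m R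
  obtain ⟨q, h1, h2, ρ, C, φ, τ, hMV⟩ := hS S
  refine ⟨q, h1, hS' q h2 h1.le ρ C φ τ (hMV.mono ?_)⟩
  exact (add_le_add (min_le_left _ _) (min_le_left _ _)).trans (ENNReal.add_halves δ).le

end Crest.Agent.R147
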