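import Crest.Agent.R147.StDefs

/-! Row 147, module A2: finite approximation of connection events. -/

set_option autoImplicit false

open MeasureTheory ProbabilityTheory Set Filter
open scoped ENNReal NNReal

namespace Crest.Agent.R147.St

open Crest.Agent.R159

variable {V : Type*} [Countable V] {G : SimpleGraph V}

theorem exists_finset_hit (μ : Measure (Set (Sym2 V))) [IsFiniteMeasure μ] (D A B : Set V)
    {c : ℝ≥0∞} (h : μ (hit G D A B)ᶜ < c) :
    ∃ S : Finset V, ↑S ⊆ D ∧ μ (hit G ↑S A B)ᶜ < c := by
  sorry

end Crest.Agent.R147.St
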