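import Crest.Agent.R147.StNav
import Crest.Agent.R147.StKN
import Crest.Agent.R147.QDefs

/-! Row 147, module A2: from the equivariant map to moves from every seed. -/

set_option autoImplicit false

open MeasureTheory ProbabilityTheory Set Filter
open scoped ENNReal NNReal

namespace Crest.Agent.R147.St

open Crest.Agent.R159

variable {V : Type*} [Countable V] {G : SimpleGraph V} [G.LocallyFinite]
  {π : V → ℤ × ℤ}

omit [Countable V] [G.LocallyFinite] in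
theorem exists_dat_iso (φ : G ≃g G) {r : ℕ} {u v : V} (h : v ∈ nbh G r {u}) :
    φ v ∈ nbh G r {φ u} := by
  obtain ⟨w, hw⟩ := mem_nbh_singleton.1 h
  exact mem_nbh_singleton.2 ⟨w.map φ.toHom, by simpa using hw⟩

omit [Countable V] [G.LocallyFinite] in
theorem exists_dat_dist (hconn : G.Connected) {r : ℕ} {u v : V} (h : G.dist u v ≤ r) :
    v ∈ nbh G r {u} := by
  obtain ⟨w, hw⟩ := hconn.exists_walk_length_eq_dist u v
  exact mem_nbh_singleton.2 ⟨w, hw.trans_le h⟩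

theorem exists_dat (hconn : G.Connected) {F : Finset V}
    (h₁ : ∀ v, ∃ (φ : G ≃g G) (t : ℤ × ℤ), Shifts G π φ t ∧ φ v ∈ F)
    (h₂ : ∀ t : ℤ × ℤ, ∃ φ : G ≃g G, Shifts G π φ t) : ∃ l C, Dat G π l C := by
  classical
  choose ψ hψ using h₂
  let U : Finset (ℤ × ℤ) := {(1, 0), (-1, 0), (0, 1), (0, -1)}
  refine ⟨max 1 (F.sup fun f => (G.neighborFinset f).sup fun g =>
      max ((π g).1 - (π f).1).natAbs ((π g).2 - (π f).2).natAbs),
    max 1 (F.sup fun f => U.sup fun z => G.dist f (ψ z f)), le_max_left _ _, le_max_left _ _,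
    fun u v huv => ?_, fun v z hz => ?_⟩
  · obtain ⟨φ, t, hφ, hF⟩ := h₁ u
    have h1 := (Finset.le_sup (f := fun g => max ((π g).1 - (π (φ u)).1).natAbs
      ((π g).2 - (π (φ u)).2).natAbs) ((G.mem_neighborFinset _ _).2 (φ.map_adj_iff.2 huv))).trans
      ((Finset.le_sup (f := fun f => (G.neighborFinset f).sup fun g =>
        max ((π g).1 - (π f).1).natAbs ((π g).2 - (π f).2).natAbs) hF).trans (le_max_right 1 _))
    rw [hφ, hφ, Prod.fst_add, Prod.fst_add, Prod.snd_add, Prod.snd_add, add_sub_add_right_eq_sub,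
      add_sub_add_right_eq_sub, max_le_iff] at h1
    rw [← Int.natCast_natAbs, ← Int.natCast_natAbs]
    exact ⟨Int.ofNat_le.2 h1.1, Int.ofNat_le.2 h1.2⟩
  · obtain ⟨φ, t, hφ, hF⟩ := h₁ v
    have hU : z ∈ U := by
      obtain ⟨x, y⟩ := z
      simp only [U, Finset.mem_insert, Finset.mem_singleton, Prod.mk.injEq]
      simp only at hz
      rcases abs_cases x with h | h <;> rcases abs_cases y with h' | h' <;> omega
    have h1 := exists_dat_iso φ.symm (exists_dat_dist hconn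
      ((Finset.le_sup (f := fun z => G.dist (φ v) (ψ z (φ v))) hU).trans
        ((Finset.le_sup (f := fun f => U.sup fun z => G.dist f (ψ z f)) hF).trans
          (le_max_right 1 _))))
    rw [φ.symm_apply_apply] at h1
    refine ⟨_, h1, ?_⟩
    rw [hφ.symm, hψ, hφ]
    abel

theorem exists_orbit (hconn : G.Connected) {F : Finset V}
    (h₁ : ∀ v, ∃ (φ : G ≃g G) (t : ℤ × ℤ), Shifts G π φ t ∧ φ v ∈ F) (o : V) :
    ∃ r : ℕ, ∀ a, ∃ (φ : G ≃g G) (t : ℤ × ℤ), Shifts G π φ t ∧ φ o ∈ nbh G r {a} := by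
  refine ⟨F.sup fun f => G.dist f o, fun a => ?_⟩
  obtain ⟨φ, t, hφ, hF⟩ := h₁ a
  have h1 := exists_dat_iso φ.symm
    (exists_dat_dist hconn (Finset.le_sup (f := fun f => G.dist f o) hF))
  rw [φ.symm_apply_apply] at h1
  exact ⟨φ.symm, -t, hφ.symm, h1⟩

theorem P_hit_iso (q : unitInterval) (φ : G ≃g G) (D A B : Set V) :
    P G q (hit G (φ '' D) (φ '' A) (φ '' B))ᶜ = P G q (hit G D A B)ᶜ := by
  rw [cn_P_iso q φ (measurableSet_hit _ _ _).compl]
  congr 1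
  ext ω
  simp only [hit, mem_compl_iff, mem_ofPred_eq, exists_mem_image,
    ← image_compl_eq φ.bijective, conn_image_iso]

theorem image_nbh (φ : G ≃g G) (m : ℕ) (o : V) : φ '' nbh G m {o} = nbh G m {φ o} := by
  ext v
  constructor
  · rintro ⟨u, hu, rfl⟩
    obtain ⟨w, hw⟩ := mem_nbh_singleton.1 hu
    exact mem_nbh_singleton.2 ⟨w.map φ.toHom, by simpa using hw⟩
  · intro hv
    obtain ⟨w, hw⟩ := mem_nbh_singleton.1 hv
    refine ⟨φ.symm v, mem_nbh_singleton.2 ⟨(w.map φ.symm.toHom).copy (by simp) rfl, ?_⟩, by simp⟩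
    simpa using hw

/-- Finite truncation of the domain. -/
theorem exists_radius (hconn : G.Connected) (q : unitInterval) (o : V) (D A B : Set V) {δ : ℝ≥0∞}
    (hδ : δ ≠ 0) (h : P G q (hit G D A B)ᶜ ≤ δ) :
    ∃ ρ₀ : ℕ, ∀ ρ, ρ₀ ≤ ρ → P G q (hit G (D ∩ nbh G ρ {o}) A B)ᶜ ≤ 2 * δ := by
  by_cases htop : δ = ⊤
  · exact ⟨0, fun ρ _ => by simp [htop]⟩
  have hlt : δ < 2 * δ := by
    rw [two_mul]
    exact ENNReal.lt_add_right htop hδ
  have : IsProbabilityMeasure (P G q) := by rw [P_eq_hom]; infer_instance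
  obtain ⟨S, hSD, hS⟩ := exists_finset_hit (G := G) (P G q) D A B (h.trans_lt hlt)
  refine ⟨S.sup fun v => G.dist o v, fun ρ hρ => ?_⟩
  refine le_trans (measure_mono (compl_subset_compl.2 (hit_mono ?_ Subset.rfl Subset.rfl))) hS.le
  intro v hv
  refine ⟨hSD hv, mem_nbh_singleton.2 ?_⟩
  obtain ⟨w, hw⟩ := hconn.exists_walk_length_eq_dist o v
  exact ⟨w, hw.le.trans ((Finset.le_sup (f := fun v => G.dist o v) hv).trans hρ)⟩

omit [Countable V] [G.LocallyFinite] in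
theorem mv_of_en_lin {φ : G ≃g G} {t : ℤ × ℤ} (h : Shifts G π φ t) (o : V) (a b : ℝ) (v : V) :
    lin π o a b (φ v) = lin π o a b v + lin π o a b (φ o) := by
  simp only [lin, h v, h o, Prod.fst_add, Prod.snd_add]
  push_cast
  ring

theorem mv_of_en_move (q : unitInterval) (φ : G ≃g G) (m : ℕ) (o : V) {D B D' B' : Set V}
    {δ : ℝ≥0∞} (hD : ∀ u ∈ D, φ u ∈ D') (hB : ∀ u ∈ B, φ u ∈ B')
    (h : P G q (hit G D (nbh G m {o}) B)ᶜ ≤ δ) :
    P G q (hit G D' (nbh G m {φ o}) B')ᶜ ≤ δ := by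
  rw [← P_hit_iso q φ, image_nbh] at h
  exact (measure_mono (compl_subset_compl.2
    (hit_mono (image_subset_iff.2 hD) Subset.rfl (image_subset_iff.2 hB)))).trans h

theorem mv_of_en [DecidableEq V] (hconn : G.Connected) {l C r m S : ℕ} (h : Dat G π l C) {o : V}
    (hr : ∀ a, ∃ (φ : G ≃g G) (t : ℤ × ℤ), Shifts G π φ t ∧ φ o ∈ nbh G r {a})
    {q : unitInterval} {δ : ℝ≥0∞} (hδ : δ ≠ 0) {κ a b a' b' : ℝ} (hab : |a| + |b| ≤ κ)
    (hab' : |a'| + |b'| ≤ κ) (hκ : 5 * κ * l * S ≤ 1)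
    (H : EN G q δ (nbh G m {o}) (1 / 20) (lin π o a b) (lin π o a' b')) :
    ∃ ρ : ℕ, Q.MV G q (2 * δ) m r S ρ {c | ∃ (φ : G ≃g G) (t : ℤ × ℤ), Shifts G π φ t ∧ φ o = c}
      (fun v => 9 / 4 * (lin π o a b v + lin π o a' b' v))
      (fun v => 9 / 4 * (lin π o a b v - lin π o a' b' v)) := by
  obtain ⟨ρ₁, h₁⟩ := exists_radius hconn q o _ _ _ hδ H.east
  obtain ⟨ρ₂, h₂⟩ := exists_radius hconn q o _ _ _ hδ H.north
  have hreg : ∀ (φ : G ≃g G) (t : ℤ × ℤ), Shifts G π φ t →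
      ∀ u ∈ bx (lin π o a b) (lin π o a' b') (-2) 2 (-2) 2 ∩ nbh G (max ρ₁ ρ₂) {o},
      φ u ∈ Q.reg G (fun v => 9 / 4 * (lin π o a b v + lin π o a' b' v))
        (fun v => 9 / 4 * (lin π o a b v - lin π o a' b' v)) (max ρ₁ ρ₂) (φ o) := by
    rintro φ t hφ u ⟨⟨u1, u2, u3, u4⟩, hu⟩
    refine ⟨?_, ?_, ?_⟩
    · simp only [mv_of_en_lin hφ o _ _ u]
      rw [abs_le]
      constructor <;> linarith
    · simp only [mv_of_en_lin hφ o _ _ u]
      rw [abs_le]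
      constructor <;> linarith
    · rw [← Finset.mem_coe, ← nbh_eq_ball, ← image_nbh]
      exact mem_image_of_mem _ hu
  refine ⟨max ρ₁ ρ₂, fun u v huv => ?_, fun x => ?_, ?_, ?_⟩
  · have hl : (0 : ℝ) ≤ l := Nat.cast_nonneg l
    have hS : (0 : ℝ) ≤ S := Nat.cast_nonneg S
    have e1 := abs_le.1 ((h.lin_adj o a b huv).trans (mul_le_mul_of_nonneg_right hab hl))
    have e2 := abs_le.1 ((h.lin_adj o a' b' huv).trans (mul_le_mul_of_nonneg_right hab' hl))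
    have key : ∀ z : ℝ, |z| ≤ 5 * (κ * l) → (S : ℝ) * |z| ≤ 1 := fun z hz =>
      (mul_le_mul_of_nonneg_left hz hS).trans (by linarith)
    constructor <;> refine key _ (abs_le.2 ⟨?_, ?_⟩) <;> linarith [e1.1, e1.2, e2.1, e2.2]
  · obtain ⟨φ, t, hφ, hx⟩ := hr x
    exact ⟨φ o, ⟨φ, t, hφ, rfl⟩, by rwa [← Finset.mem_coe, ← nbh_eq_ball]⟩
  · rintro _ ⟨φ, t, hφ, rfl⟩
    rw [← nbh_eq_ball]
    refine mv_of_en_move q φ m o (hreg φ t hφ) ?_ (h₁ _ (le_max_left _ _))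
    rintro u ⟨u1, u2, u3, u4⟩
    simp only [Q.land, mem_ofPred_eq, mv_of_en_lin hφ o _ _ u]
    refine ⟨?_, ?_, ?_, ?_⟩ <;> linarith
  · rintro _ ⟨φ, t, hφ, rfl⟩
    rw [← nbh_eq_ball]
    refine mv_of_en_move q φ m o (hreg φ t hφ) ?_ (h₂ _ (le_max_right _ _))
    rintro u ⟨u1, u2, u3, u4⟩
    simp only [Q.land, mem_ofPred_eq, mv_of_en_lin hφ o _ _ u]
    refine ⟨?_, ?_, ?_, ?_⟩ <;> linarith

end Crest.Agent.R147.St
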