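import Crest.Agent.R147.StDefs

/-! Row 147, module A2: two precise moves from the three moves. -/

set_option autoImplicit false

open MeasureTheory ProbabilityTheory Set Filter
open scoped ENNReal NNReal

namespace Crest.Agent.R147.St

open Crest.Agent.R159

variable {V : Type*} [Countable V] {G : SimpleGraph V}
  {p : unitInterval}

theorem piece {D S T : Set V} {k : ℕ} (hk : 1 ≤ k) (T' : ℕ → Set V)
    (hT : T ⊆ ⋃ i ∈ Finset.range k, T' i) {ε : ℝ≥0∞} (h : P G p (hit G D S T)ᶜ ≤ ε ^ k) :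
    ∃ i < k, P G p (hit G D S (T' i))ᶜ ≤ ε := by
  obtain ⟨i, hi, h'⟩ := sqrt_trick_P (G := G) (p := p) (s := Finset.range k)
    (Finset.nonempty_range_iff.2 (by omega)) (A := fun i => hit G D S (T' i))
    (fun i _ => measurableSet_hit _ _ _) fun i _ => isUpperSet_hit _ _ _
  refine ⟨i, Finset.mem_range.1 hi, (ENNReal.pow_le_pow_left_iff (n := k) (by omega)).1 ?_⟩
  rw [Finset.card_range] at h'
  refine h'.trans (le_trans (measure_mono (compl_subset_compl.2 ?_)) h)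
  rintro ω ⟨a, ha, b, hb, hc⟩
  obtain ⟨j, hj, hb'⟩ := mem_iUnion₂.1 (hT hb)
  exact mem_iUnion₂.2 ⟨j, hj, a, ha, b, hb', hc⟩

theorem refine_en_cov {k : ℕ} (hk : 1 ≤ k) {x : ℝ} (h0 : 0 ≤ x) (h1 : x ≤ 1) :
    ∃ i < k, (i : ℝ) * (1 / k) ≤ x ∧ x ≤ (i + 1) * (1 / k) := by
  have hk' : (0 : ℝ) < k := by exact_mod_cast hk
  simp only [mul_one_div, div_le_iff₀ hk', le_div_iff₀ hk']
  rcases h1.eq_or_lt with rfl | h1
  · obtain ⟨j, rfl⟩ := Nat.exists_eq_add_of_le' hk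
    exact ⟨j, j.lt_succ_self, by push_cast; linarith, by push_cast; linarith⟩
  · exact ⟨⌊x * k⌋₊, (Nat.floor_lt (by positivity)).2 (by nlinarith), Nat.floor_le (by positivity),
      (Nat.lt_floor_add_one _).le⟩

theorem refine_en_cov' {k : ℕ} (hk : 1 ≤ k) {x κ : ℝ} (hκ : 0 ≤ κ) (h0 : -κ ≤ x) (h1 : x ≤ 1) :
    ∃ i < k, (i : ℝ) * (1 / k) - (1 / k + κ) ≤ x ∧ x ≤ i * (1 / k) + (1 / k + κ) := by
  have he : (0 : ℝ) ≤ 1 / k := by positivity
  rcases le_total x 0 with h | h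
  · exact ⟨0, hk, by push_cast; linarith, by push_cast; linarith⟩
  · obtain ⟨i, hi, a, b⟩ := refine_en_cov hk h h1
    exact ⟨i, hi, by linarith, by linarith⟩

theorem refine_en_div {a n d t u v τ s : ℝ} (hd : 1 ≤ d) (hτ : |τ| ≤ 1) (e : n - a * d = u + τ * v)
    (hu : -s ≤ u ∧ u ≤ s) (hv : -s ≤ v ∧ v ≤ s) (ht : t = 2 * s) :
    a - t ≤ n / d ∧ n / d ≤ a + t := by
  have h1 : |τ * v| ≤ s := by
    rw [abs_mul]
    exact (mul_le_of_le_one_left (abs_nonneg _) hτ).trans (abs_le.2 hv)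
  have hs : 0 ≤ s := (abs_nonneg _).trans h1
  rw [abs_le] at h1
  rw [le_div_iff₀ (by linarith), div_le_iff₀ (by linarith)]
  constructor <;> nlinarith [mul_le_mul_of_nonneg_left hd hs]

omit [Countable V] in
theorem refine_en_of {S : Set V} {X Y : V → ℝ} {κ e τ y : ℝ} (hκ : 0 ≤ κ) (he : 0 ≤ e) {ε : ℝ≥0∞}
    (hτ : |τ| ≤ 1) (hy : |y| ≤ 1) (hτy : τ * y ≤ 0)
    (hN : P G p (hit G (bx X Y (-1) 1 (-1) 1) S (bx X Y (τ - e) (τ + e) (1 - κ) 1))ᶜ ≤ ε)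
    (hE : P G p (hit G (bx X Y (-1) 1 (-1) 1) S
      (bx X Y (1 - κ) 1 (y - (e + κ)) (y + (e + κ))))ᶜ ≤ ε) :
    EN G p ε S (2 * (e + κ)) (fun v => (X v - τ * Y v) / (1 - τ * y))
      (fun v => (Y v - y * X v) / (1 - τ * y)) := by
  have hd : 1 ≤ 1 - τ * y := by linarith
  have hD : bx X Y (-1) 1 (-1) 1 ⊆ bx (fun v => (X v - τ * Y v) / (1 - τ * y))
      (fun v => (Y v - y * X v) / (1 - τ * y)) (-2) 2 (-2) 2 := by
    rintro v ⟨h1, h2, h3, h4⟩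
    obtain ⟨a1, a2⟩ := refine_en_div (a := 0) (n := X v - τ * Y v) (u := X v) (v := -Y v) (s := 1)
      hd hτ (by ring) ⟨h1, h2⟩ ⟨by linarith, by linarith⟩ rfl
    obtain ⟨b1, b2⟩ := refine_en_div (a := 0) (n := Y v - y * X v) (u := Y v) (v := -X v) (s := 1)
      hd hy (by ring) ⟨h3, h4⟩ ⟨by linarith, by linarith⟩ rfl
    exact ⟨by linarith, by linarith, by linarith, by linarith⟩
  constructor
  · refine le_trans (measure_mono (compl_subset_compl.2 (hit_mono hD Subset.rfl ?_))) hE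
    rintro v ⟨h1, h2, h3, h4⟩
    obtain ⟨a1, a2⟩ := refine_en_div (a := 1) (n := X v - τ * Y v) (u := X v - 1) (v := y - Y v)
      (s := e + κ) hd hτ (by ring) ⟨by linarith, by linarith⟩ ⟨by linarith, by linarith⟩ rfl
    obtain ⟨b1, b2⟩ := refine_en_div (a := 0) (n := Y v - y * X v) (u := Y v - y) (v := 1 - X v)
      (s := e + κ) hd hy (by ring) ⟨by linarith, by linarith⟩ ⟨by linarith, by linarith⟩ rfl
    exact ⟨a1, a2, by linarith, by linarith⟩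
  · refine le_trans (measure_mono (compl_subset_compl.2 (hit_mono hD Subset.rfl ?_))) hN
    rintro v ⟨h1, h2, h3, h4⟩
    obtain ⟨a1, a2⟩ := refine_en_div (a := 0) (n := X v - τ * Y v) (u := X v - τ) (v := 1 - Y v)
      (s := e + κ) hd hτ (by ring) ⟨by linarith, by linarith⟩ ⟨by linarith, by linarith⟩ rfl
    obtain ⟨b1, b2⟩ := refine_en_div (a := 1) (n := Y v - y * X v) (u := Y v - 1) (v := τ - X v)
      (s := e + κ) hd hy (by ring) ⟨by linarith, by linarith⟩ ⟨by linarith, by linarith⟩ rfl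
    exact ⟨by linarith, by linarith, b1, b2⟩

theorem refine_en {S : Set V} {X Y : V → ℝ} {κ : ℝ} (hκ : 0 ≤ κ) {k : ℕ} (hk : 1 ≤ k) {ε : ℝ≥0∞}
    (h : UDT G p (ε ^ k) S κ X Y) : ∃ τ y : ℝ, |τ| ≤ 1 ∧ |y| ≤ 1 ∧ τ * y ≤ 0 ∧
      EN G p ε S (2 * (1 / k + κ)) (fun v => (X v - τ * Y v) / (1 - τ * y))
        (fun v => (Y v - y * X v) / (1 - τ * y)) := by
  have hk' : (0 : ℝ) < k := by exact_mod_cast hk
  have he : (0 : ℝ) ≤ 1 / k := by positivity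
  have hb : ∀ i < k, 0 ≤ (i : ℝ) * (1 / k) ∧ (i : ℝ) * (1 / k) + 1 / k ≤ 1 := fun i hi => by
    refine ⟨by positivity, ?_⟩
    rw [mul_one_div, ← add_div, div_le_one hk']
    exact_mod_cast hi
  obtain ⟨i, hi, hN⟩ := piece hk (T := bx X Y (-1) 1 (1 - κ) 1) (fun i => bx X Y (-1 + 2 * (i * (1 / k)) + 1 / k - 1 / k)
    (-1 + 2 * (i * (1 / k)) + 1 / k + 1 / k) (1 - κ) 1) (by
      rintro v ⟨h1, h2, h3, h4⟩
      obtain ⟨i, hi, a, b⟩ := refine_en_cov hk (x := (X v + 1) / 2) (by linarith) (by linarith)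
      exact mem_iUnion₂.2 ⟨i, Finset.mem_range.2 hi, by linarith, by linarith, h3, h4⟩) h.top
  have hτ : |-1 + 2 * ((i : ℝ) * (1 / k)) + 1 / k| ≤ 1 :=
    abs_le.2 ⟨by linarith [hb i hi], by linarith [hb i hi]⟩
  generalize -1 + 2 * ((i : ℝ) * (1 / k)) + 1 / k = τ at hN hτ
  rcases le_total 0 τ with h0 | h0
  · obtain ⟨j, hj, hE⟩ := piece hk (T := bx X Y (1 - κ) 1 (-1) κ)
      (fun j => bx X Y (1 - κ) 1 (-(j * (1 / k)) - (1 / k + κ))
      (-(j * (1 / k)) + (1 / k + κ))) (by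
        rintro v ⟨h1, h2, h3, h4⟩
        obtain ⟨i, hi, a, b⟩ := refine_en_cov' hk hκ (x := -Y v) (by linarith) (by linarith)
        exact mem_iUnion₂.2 ⟨i, Finset.mem_range.2 hi, h1, h2, by linarith, by linarith⟩) h.down
    have hy : |-((j : ℝ) * (1 / k))| ≤ 1 := abs_le.2 ⟨by linarith [hb j hj], by linarith [hb j hj]⟩
    have hs : τ * -((j : ℝ) * (1 / k)) ≤ 0 :=
      mul_nonpos_of_nonneg_of_nonpos h0 (neg_nonpos.2 (hb j hj).1)
    exact ⟨_, _, hτ, hy, hs, refine_en_of hκ he hτ hy hs hN hE⟩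
  · obtain ⟨j, hj, hE⟩ := piece hk (T := bx X Y (1 - κ) 1 (-κ) 1)
      (fun j => bx X Y (1 - κ) 1 (j * (1 / k) - (1 / k + κ))
      (j * (1 / k) + (1 / k + κ))) (by
        rintro v ⟨h1, h2, h3, h4⟩
        obtain ⟨i, hi, a, b⟩ := refine_en_cov' hk hκ h3 h4
        exact mem_iUnion₂.2 ⟨i, Finset.mem_range.2 hi, h1, h2, a, b⟩) h.up
    have hy : |(j : ℝ) * (1 / k)| ≤ 1 := abs_le.2 ⟨by linarith [hb j hj], by linarith [hb j hj]⟩
    have hs : τ * ((j : ℝ) * (1 / k)) ≤ 0 := mul_nonpos_of_nonpos_of_nonneg h0 (hb j hj).1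
    exact ⟨_, _, hτ, hy, hs, refine_en_of hκ he hτ hy hs hN hE⟩

end Crest.Agent.R147.St
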