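import Crest.Agent.R147.StU2
import Crest.Agent.R147.StRef

/-! Row 147, module A2: two precise moves from the base seed. -/

set_option autoImplicit false

open MeasureTheory ProbabilityTheory Set Filter
open scoped ENNReal NNReal

namespace Crest.Agent.R147.St

open Crest.Agent.R159

variable {V : Type*} [Countable V] {G : SimpleGraph V} [G.LocallyFinite]
  {π : V → ℤ × ℤ} {l C d : ℕ} {p : unitInterval}

omit [Countable V] [G.LocallyFinite] in
theorem en_mono {δ δ' : ℝ≥0∞} {S : Set V} {t t' : ℝ} {X Y : V → ℝ} (h : EN G p δ S t X Y)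
    (hδ : δ ≤ δ') (ht : t ≤ t') : EN G p δ' S t' X Y :=
  ⟨(measure_mono (compl_subset_compl.2 (hit_mono Subset.rfl Subset.rfl
      (bx_mono X Y (by linarith) (by linarith) (by linarith) (by linarith))))).trans
      (h.east.trans hδ),
    (measure_mono (compl_subset_compl.2 (hit_mono Subset.rfl Subset.rfl
      (bx_mono X Y (by linarith) (by linarith) (by linarith) (by linarith))))).trans
      (h.north.trans hδ)⟩

theorem en_coef {a b a' b' τ D κ : ℝ} (h1 : |a| + |b| ≤ κ) (h2 : |a'| + |b'| ≤ κ) (hτ : |τ| ≤ 1)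
    (hD : 1 ≤ D) : |(a - τ * a') / D| + |(b - τ * b') / D| ≤ 2 * κ := by
  have key : ∀ x x' : ℝ, |(x - τ * x') / D| ≤ |x| + |x'| := by
    intro x x'
    rw [abs_div, abs_of_pos (by linarith : 0 < D)]
    refine (div_le_self (abs_nonneg _) hD).trans ((abs_sub _ _).trans ?_)
    rw [abs_mul]
    have := mul_le_mul_of_nonneg_right hτ (abs_nonneg x')
    linarith
  have := key a a'
  have := key b b'
  linarith

omit [Countable V] in
theorem en_lin (o : V) (a b a' b' τ D : ℝ) :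
    (fun v => (lin π o a b v - τ * lin π o a' b' v) / D)
      = lin π o ((a - τ * a') / D) ((b - τ * b') / D) := by
  funext v
  simp only [lin]
  ring

theorem en (hconn : G.Connected) (hd : ∀ v, G.degree v ≤ d) (h : Dat G π l C) (hp : Perc G p)
    (o : V) {δ : ℝ≥0∞} (hδ : δ ≠ 0) {t : ℝ} (ht : 0 < t) : ∃ m : ℕ, ∀ κ : ℝ, 0 < κ →
      ∃ a b a' b' : ℝ, |a| + |b| ≤ κ ∧ |a'| + |b'| ≤ κ ∧
        EN G p δ (nbh G m {o}) t (lin π o a b) (lin π o a' b') := by
  obtain ⟨k, hk⟩ := exists_nat_ge (max 1 (4 / t))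
  have hk1 : (1 : ℝ) ≤ k := (le_max_left _ _).trans hk
  have hk1' : 1 ≤ k := by exact_mod_cast hk1
  have hk2 : 1 / (k : ℝ) ≤ t / 4 := by
    have h4 : 4 / t ≤ k := (le_max_right _ _).trans hk
    rw [div_le_iff₀ ht] at h4
    rw [div_le_div_iff₀ (by linarith) (by norm_num)]
    linarith
  set ε0 : ℝ≥0∞ := min δ 2⁻¹ with hε0
  have h00 : ε0 ≠ 0 := (lt_min (pos_iff_ne_zero.2 hδ) (by simp)).ne'
  have h01 : ε0 < 1 := (min_le_right _ _).trans_lt (by simp)
  have h0 : ε0 ^ k ≠ 0 := pow_ne_zero _ h00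
  have h1 : ε0 ^ k < 1 := pow_lt_one' h01 (by omega)
  obtain ⟨m, hm⟩ := zero_one hconn hp o (pow_ne_zero 16 h0)
  refine ⟨m, fun κ hκ => ?_⟩
  have hκ' : 0 < min (κ / 2) (t / 4) := lt_min (by linarith) (by linarith)
  obtain ⟨a, b, a', b', hab, hab', hU⟩ := udt hd h (pos_of_perc hp) o h0 h1 hm hκ'
  obtain ⟨τ, y, hτ, hy, hτy, hE⟩ := refine_en hκ'.le hk1' hU
  rw [en_lin, en_lin] at hE
  have hD : 1 ≤ 1 - τ * y := by linarith
  have hl := min_le_left (κ / 2) (t / 4)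
  have hr := min_le_right (κ / 2) (t / 4)
  refine ⟨_, _, _, _, (en_coef hab hab' hτ hD).trans (by linarith),
    (en_coef hab' hab hy hD).trans (by linarith), en_mono hE (min_le_left _ _) (by linarith)⟩

theorem EN.open (h₀ : 0 < p) (h₁ : p < 1) {δ : ℝ≥0∞} (hδ : δ ≠ 0) {S : Set V} {t : ℝ}
    {X Y : V → ℝ} (h : EN G p δ S t X Y) :
    ∃ q₀ : unitInterval, q₀ < p ∧ ∀ q, q₀ ≤ q → EN G q (2 * δ) S t X Y := by
  obtain ⟨q₁, hq₁, H₁⟩ := open_hit h₀ h₁ _ _ _ hδ h.east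
  obtain ⟨q₂, hq₂, H₂⟩ := open_hit h₀ h₁ _ _ _ hδ h.north
  exact ⟨max q₁ q₂, max_lt hq₁ hq₂, fun q hq =>
    ⟨H₁ q ((le_max_left _ _).trans hq), H₂ q ((le_max_right _ _).trans hq)⟩⟩

end Crest.Agent.R147.St
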