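import Crest.Agent.R147.StTarget
import Crest.Agent.R147.QRen
import Crest.Agent.R147.StEN
import Crest.Agent.R147.StDat

/-! Row 147, module A2: the final statement. -/

set_option autoImplicit false

open MeasureTheory ProbabilityTheory Set Filter
open scoped ENNReal NNReal
open Crest.ProbabilityR.Percolation

namespace Crest.Agent.R147

open Crest.Agent.R159 St

theorem stmtA2 {V : Type*} [Infinite V] [Countable V] [DecidableEq V] {G : SimpleGraph V}
    [G.LocallyFinite] (hconn : G.Connected) (hqt : IsQuasiTransitive G) : StmtA2 G := by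
  rintro ⟨π, F, h₁, h₂⟩ p hp1 hp -
  have hp0 : 0 < p := pos_of_perc hp
  obtain ⟨d, -, hd⟩ := exists_degree_bound hqt
  obtain ⟨l, C, hD⟩ := exists_dat hconn h₁ h₂
  obtain ⟨o⟩ : Nonempty V := inferInstance
  obtain ⟨r, hr⟩ := exists_orbit hconn h₁ o
  obtain ⟨p₀, hp₀, hp₀'⟩ := exists_between hp0
  obtain ⟨δ, hδ, hG⟩ := Q.renorm_of_target (G := G) fun ε hε => Crest.Agent.R147.target hd hε
  have hδ' : δ / 2 / 2 ≠ 0 := by simp [hδ.ne']
  obtain ⟨m, hm⟩ := en hconn hd hD hp o hδ' (t := 1 / 20) (by norm_num)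
  obtain ⟨S, hG⟩ := hG p₀ p hp₀ hp1 m r
  have hpos : (0 : ℝ) < 5 * l * S + 1 := by positivity
  obtain ⟨a, b, a', b', hab, hab', H⟩ := hm (1 / (5 * l * S + 1)) (by positivity)
  obtain ⟨q₀, hq₀, H⟩ := H.open hp0 hp1 hδ'
  refine ⟨max q₀ p₀, max_lt hq₀ hp₀', ?_⟩
  have H' := H _ (le_max_left q₀ p₀)
  rw [ENNReal.mul_div_cancel (by simp) (by simp)] at H'
  obtain ⟨ρ, hS⟩ := mv_of_en (S := S) hconn hD hr (by simp [hδ.ne']) hab hab' (by
    rw [show 5 * (1 / (5 * (l : ℝ) * S + 1)) * l * S = 5 * l * S / (5 * l * S + 1) by ring,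
      div_le_one hpos]
    linarith) H'
  rw [ENNReal.mul_div_cancel (by simp) (by simp)] at hS
  exact hG _ (le_max_right _ _) (max_lt hq₀ hp₀').le ρ _ _ _ hS

end Crest.Agent.R147
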