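import Crest.Agent.R147.StRen
import Crest.Agent.R147.StEN
import Crest.Agent.R147.StDat

/-! Row 147, module A2: from the two precise moves at the base point to `Moves` (helper29). -/

set_option autoImplicit false

open MeasureTheory ProbabilityTheory Set Filter
open scoped ENNReal NNReal
open Crest.ProbabilityR.Percolation

namespace Crest.Agent.R147

open Crest.Agent.R159 St

variable {V : Type*} [Countable V] [DecidableEq V] {G : SimpleGraph V} [G.LocallyFinite]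

omit [Countable V] in
theorem br_radius (q : unitInterval) (o : V) (m : ℕ) (D T : Set V) {δ : ℝ≥0∞} (hδ : δ ≠ 0)
    (h : P G q (hit G D (nbh G m {o}) T)ᶜ ≤ δ) :
    ∀ᶠ R in atTop, P G q (hit G (D ∩ nbh G R {o}) (nbh G m {o}) T)ᶜ ≤ 2 * δ := by
  classical
  by_cases ht : δ = ⊤
  · simp [ht]
  have hm : ∀ R : ℕ, MeasurableSet (hit G (D ∩ nbh G R {o}) (nbh G m {o}) T) := fun R =>
    measurableSet_Lk G (ball G R {o}) (R := (D ∩ nbh G R {o})ᶜ)
      (compl_subset_compl.2 (by rw [nbh_eq_ball]; exact inter_subset_right)) _ _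
  have hanti : Antitone fun R : ℕ => (hit G (D ∩ nbh G R {o}) (nbh G m {o}) T)ᶜ :=
    fun R R' hR => compl_subset_compl.2 (Lk_mono (compl_subset_compl.2
      (inter_subset_inter_right _ (nbh_mono hR Subset.rfl))) Subset.rfl fun _ h _ => h)
  have hlim := tendsto_measure_iInter_atTop (μ := P G q)
    (fun R => (hm R).compl.nullMeasurableSet) hanti ⟨0, measure_ne_top _ _⟩
  have hsub : ⋂ R : ℕ, (hit G (D ∩ nbh G R {o}) (nbh G m {o}) T)ᶜ ⊆
      (hit G D (nbh G m {o}) T)ᶜ := by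
    rintro ω hω ⟨a, ha, b, hb, hab⟩
    have key : ∃ R : ℕ, conn G (D ∩ nbh G R {o})ᶜ ω a b ∧ b ∈ nbh G R {o} := by
      refine hab.ind (Q := fun y => ∃ R : ℕ, conn G (D ∩ nbh G R {o})ᶜ ω a y ∧ y ∈ nbh G R {o})
        ⟨m, conn_refl (not_not.2 ⟨not_not.1 hab.left, ha⟩), ha⟩ ?_
      rintro x y - hxy he hy ⟨R, h1, h2⟩
      have h3 := nbh_succ_of_adj h2 hxy
      refine ⟨R + 1, (h1.mono (compl_subset_compl.2 (inter_subset_inter_right _
        (nbh_mono (Nat.le_succ R) Subset.rfl))) Subset.rfl).tail hxy he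
        (not_not.2 ⟨not_not.1 hy, h3⟩), h3⟩
    obtain ⟨R, hR, -⟩ := key
    exact mem_iInter.1 hω R ⟨a, ha, b, hb, hR⟩
  have hlt : P G q (⋂ R : ℕ, (hit G (D ∩ nbh G R {o}) (nbh G m {o}) T)ᶜ) < 2 * δ := by
    refine ((measure_mono hsub).trans h).trans_lt ?_
    rw [two_mul]
    exact ENNReal.lt_add_right ht hδ
  exact (hlim.eventually_lt_const hlt).mono fun R hR => hR.le

omit [Countable V] [DecidableEq V] [G.LocallyFinite] in
theorem br_lin_shift {π : V → ℤ × ℤ} {φ : G ≃g G} {t : ℤ × ℤ} (h : Shifts G π φ t) (o v : V)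
    (a b : ℝ) : lin π o a b (φ v) = lin π o a b (φ o) + lin π o a b v := by
  simp only [lin, h v, h o, Prod.fst_add, Prod.snd_add]
  push_cast
  ring

omit [Countable V] [DecidableEq V] [G.LocallyFinite] in
theorem br_lin_lip {π : V → ℤ × ℤ} {l C : ℕ} (h : Dat G π l C) (o : V) {a b κ : ℝ}
    (hab : |a| + |b| ≤ κ) {x y : V} (hxy : G.Adj x y) :
    |lin π o a b x - lin π o a b y| ≤ κ * l := by
  obtain ⟨h1, h2⟩ := h.lip y x hxy.symm
  have h1' : |((π x).1 : ℝ) - (π y).1| ≤ l := by exact_mod_cast h1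
  have h2' : |((π x).2 : ℝ) - (π y).2| ≤ l := by exact_mod_cast h2
  have e : lin π o a b x - lin π o a b y =
      a * (((π x).1 : ℝ) - (π y).1) + b * (((π x).2 : ℝ) - (π y).2) := by
    simp only [lin]; ring
  rw [e]
  refine (abs_add_le _ _).trans ?_
  rw [abs_mul, abs_mul]
  have := mul_le_mul_of_nonneg_left h1' (abs_nonneg a)
  have := mul_le_mul_of_nonneg_left h2' (abs_nonneg b)
  have := mul_le_mul_of_nonneg_right hab (Nat.cast_nonneg (α := ℝ) l)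
  linarith

theorem br_floor_le {x y : ℝ} {n : ℤ} (h : x - y + 1 ≤ n) : ⌊x⌋ - ⌊y⌋ ≤ n := by
  have h1 := Int.floor_le x
  have h2 := Int.lt_floor_add_one y
  have : ((⌊x⌋ - ⌊y⌋ : ℤ) : ℝ) ≤ n := by push_cast; linarith
  exact_mod_cast this

theorem br_le_floor {x y : ℝ} {n : ℤ} (h : (n : ℝ) + 1 ≤ x - y) : n ≤ ⌊x⌋ - ⌊y⌋ := by
  have h1 := Int.floor_le y
  have h2 := Int.lt_floor_add_one x
  have : (n : ℝ) ≤ ((⌊x⌋ - ⌊y⌋ : ℤ) : ℝ) := by push_cast; linarith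
  exact_mod_cast this

theorem moves_of_en {π : V → ℤ × ℤ} {l C r m : ℕ} (h : Dat G π l C) {o : V}
    (hr : ∀ a, ∃ (φ : G ≃g G) (t : ℤ × ℤ), Shifts G π φ t ∧ φ o ∈ nbh G r {a})
    {q : unitInterval} {δ : ℝ≥0∞} (hδ : δ ≠ 0) {κ a b a' b' : ℝ} (hab : |a| + |b| ≤ κ)
    (hab' : |a'| + |b'| ≤ κ) {k : ℕ} (hk : 1 ≤ k) (hκ : 300 * k * (κ * l) ≤ 1)
    (H : EN G q δ (nbh G m {o}) (1 / 10) (lin π o a b) (lin π o a' b')) :
    ∃ (R : ℕ) (al be : V → ℤ), Moves G q (2 * δ) m r R al be (68 * k) 2 := by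
  set X := lin π o a b with hX
  set Y := lin π o a' b' with hY
  have hk' : (1 : ℝ) ≤ k := by exact_mod_cast hk
  obtain ⟨R, hR1, hR2⟩ := ((br_radius q o m _ _ hδ H.east).and
    (br_radius q o m _ _ hδ H.north)).exists
  refine ⟨R, fun x => ⌊100 * k * (2 * X x - Y x)⌋, fun x => ⌊100 * k * (2 * Y x - X x)⌋,
    fun x y hxy => ?_, {c | ∃ (φ : G ≃g G) (t : ℤ × ℤ), Shifts G π φ t ∧ c = φ o},
    fun x => ?_, ?_⟩
  · have a1 := abs_le.1 (br_lin_lip h o hab hxy)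
    have a2 := abs_le.1 (br_lin_lip h o hab' hxy)
    rw [← hX] at a1
    rw [← hY] at a2
    have b1 := mul_le_mul_of_nonneg_left a1.1 (show (0 : ℝ) ≤ k by linarith)
    have b2 := mul_le_mul_of_nonneg_left a1.2 (show (0 : ℝ) ≤ k by linarith)
    have b3 := mul_le_mul_of_nonneg_left a2.1 (show (0 : ℝ) ≤ k by linarith)
    have b4 := mul_le_mul_of_nonneg_left a2.2 (show (0 : ℝ) ≤ k by linarith)
    refine ⟨abs_le.2 ⟨br_le_floor ?_, br_floor_le ?_⟩, abs_le.2 ⟨br_le_floor ?_, br_floor_le ?_⟩⟩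
      <;> push_cast <;> linarith
  · obtain ⟨φ, t, h1, h2⟩ := hr x
    exact ⟨φ o, ⟨φ, t, h1, rfl⟩, by rwa [nbh_eq_ball] at h2⟩
  · rintro c ⟨φ, t, hφ, rfl⟩
    have eX : ∀ v, X (φ v) = X (φ o) + X v := fun v => br_lin_shift hφ o v a b
    have eY : ∀ v, Y (φ v) = Y (φ o) + Y v := fun v => br_lin_shift hφ o v a' b'
    have key : ∀ T L : Set V,
        P G q (hit G (bx X Y (-2) 2 (-2) 2 ∩ nbh G R {o}) (nbh G m {o}) T)ᶜ ≤ 2 * δ →
        (∀ v ∈ T, φ v ∈ L) → P G q (Miss G m (φ o) L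
          (Box G (fun x => ⌊100 * k * (2 * X x - Y x)⌋) (fun x => ⌊100 * k * (2 * Y x - X x)⌋)
            (φ o) (68 * k) R)) ≤ 2 * δ := by
      intro T L h1 h2
      rw [← P_hit_iso q φ, image_nbh, nbh_eq_ball m] at h1
      refine le_trans (measure_mono ?_) h1
      rw [miss_eq]
      refine compl_subset_compl.2 (Lk_mono (compl_subset_compl.2 ?_) Subset.rfl ?_)
      · rintro _ ⟨v, ⟨⟨c1, c2, c3, c4⟩, c5⟩, rfl⟩
        have c6 : φ v ∈ nbh G R {φ o} := by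
          rw [← image_nbh]; exact mem_image_of_mem _ c5
        rw [nbh_eq_ball] at c6
        have b1 := mul_le_mul_of_nonneg_left c1 (show (0 : ℝ) ≤ k by linarith)
        have b2 := mul_le_mul_of_nonneg_left c2 (show (0 : ℝ) ≤ k by linarith)
        have b3 := mul_le_mul_of_nonneg_left c3 (show (0 : ℝ) ≤ k by linarith)
        have b4 := mul_le_mul_of_nonneg_left c4 (show (0 : ℝ) ≤ k by linarith)
        refine Finset.mem_coe.2 (Finset.mem_filter.2 ⟨c6,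
          abs_le.2 ⟨br_le_floor ?_, br_floor_le ?_⟩, abs_le.2 ⟨br_le_floor ?_, br_floor_le ?_⟩⟩)
          <;> rw [eX v, eY v] <;> push_cast <;> linarith
      · rintro _ ⟨v, hv, rfl⟩ -
        exact h2 v hv
    have sum2 : ∀ {x y x' y' : ℝ} {n : ℤ}, (n : ℝ) + 2 ≤ (x - y) + (x' - y') →
        n ≤ (⌊x⌋ - ⌊y⌋) + (⌊x'⌋ - ⌊y'⌋) := by
      intro x y x' y' n hn
      have h1 := Int.floor_le y
      have h2 := Int.lt_floor_add_one x
      have h3 := Int.floor_le y'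
      have h4 := Int.lt_floor_add_one x'
      have : (n : ℝ) ≤ (((⌊x⌋ - ⌊y⌋) + (⌊x'⌋ - ⌊y'⌋) : ℤ) : ℝ) := by push_cast; linarith
      exact_mod_cast this
    refine ⟨key _ _ hR1 ?_, key _ _ hR2 ?_⟩ <;>
    · rintro v ⟨c1, c2, c3, c4⟩
      have b1 := mul_le_mul_of_nonneg_left c1 (show (0 : ℝ) ≤ k by linarith)
      have b2 := mul_le_mul_of_nonneg_left c2 (show (0 : ℝ) ≤ k by linarith)
      have b3 := mul_le_mul_of_nonneg_left c3 (show (0 : ℝ) ≤ k by linarith)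
      have b4 := mul_le_mul_of_nonneg_left c4 (show (0 : ℝ) ≤ k by linarith)
      refine ⟨br_le_floor ?_, br_floor_le ?_, sum2 ?_⟩ <;> rw [eX v, eY v] <;> push_cast <;>
        linarith

omit [DecidableEq V] in
theorem stmtA2_bridge [DecidableEq V] [Infinite V] (hconn : G.Connected)
    (hqt : IsQuasiTransitive G) : StmtA2 G := by
  rintro ⟨π, F, h₁, h₂⟩ p hp1 hp -
  have hp0 : 0 < p := pos_of_perc hp
  obtain ⟨d, -, hd⟩ := exists_degree_bound hqt
  obtain ⟨l, C, hD⟩ := exists_dat hconn h₁ h₂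
  obtain ⟨o⟩ : Nonempty V := inferInstance
  obtain ⟨r, hr⟩ := exists_orbit hconn h₁ o
  obtain ⟨p₀, hp₀, hp₀'⟩ := exists_between hp0
  obtain ⟨δ, hδ, hG⟩ := renorm (G := G) hd
  have hδ' : δ / 2 / 2 ≠ 0 := by simp [hδ.ne']
  obtain ⟨m, hm⟩ := en hconn hd hD hp o hδ' (t := 1 / 10) (by norm_num)
  obtain ⟨J, hJ⟩ := hG p₀ p hp₀ hp1 m r
  have hl : (1 : ℝ) ≤ l := by exact_mod_cast hD.one_le_l
  have hpos : (0 : ℝ) < 300 * (J + 1) * l := by positivity
  obtain ⟨a, b, a', b', hab, hab', H⟩ := hm (1 / (300 * (J + 1) * l)) (by positivity)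
  obtain ⟨q₀, hq₀, H⟩ := H.open hp0 hp1 hδ'
  refine ⟨max q₀ p₀, max_lt hq₀ hp₀', ?_⟩
  have H' := H _ (le_max_left q₀ p₀)
  rw [ENNReal.mul_div_cancel (by simp) (by simp)] at H'
  obtain ⟨R, al, be, hM⟩ := moves_of_en (k := J + 1) hD hr (by simp [hδ.ne']) hab hab'
    (Nat.le_add_left 1 J) (le_of_eq (by push_cast; field_simp)) H'
  rw [ENNReal.mul_div_cancel (by simp) (by simp)] at hM
  exact hJ _ (le_max_right _ _) (max_lt hq₀ hp₀').le R al be _ 2 (by omega) (by omega) hM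

end Crest.Agent.R147
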