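import Crest.Agent.R147.Harris
import Crest.Agent.R159.Conn0

/-! Row 147, module A2 (helper10): conditioning a product Bernoulli law on the state of a set of
slots. -/

set_option autoImplicit false

open MeasureTheory ProbabilityTheory Set
open scoped ENNReal NNReal

namespace Crest.Agent.R147

open Crest.Agent.R159

variable {ι : Type*}

/-- The configuration equal to `ξ` on `I` and to `ω` off `I`. -/
def spl (I ξ ω : Set ι) : Set ι := (ξ ∩ I) ∪ (ω ∩ Iᶜ)

open Classical in
/-- The parameters with the slots of `I` frozen in the state `ξ`. -/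
noncomputable def fixπ (π : ι → unitInterval) (I ξ : Set ι) : ι → unitInterval :=
  fun i => if i ∈ I then (if i ∈ ξ then 1 else 0) else π i

theorem fixπ_of_notMem (π : ι → unitInterval) {I : Set ι} (ξ : Set ι) {i : ι} (hi : i ∉ I) :
    fixπ π I ξ i = π i := if_neg hi

theorem mem_spl_of_mem {I ξ ω : Set ι} {i : ι} (hi : i ∈ I) : i ∈ spl I ξ ω ↔ i ∈ ξ := by
  simp [spl, hi]

theorem mem_spl_of_notMem {I ξ ω : Set ι} {i : ι} (hi : i ∉ I) : i ∈ spl I ξ ω ↔ i ∈ ω := by
  simp [spl, hi]

theorem spl_mono_left (I : Set ι) {ξ ξ' : Set ι} (h : ξ ⊆ ξ') (ω : Set ι) :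
    spl I ξ ω ⊆ spl I ξ' ω := union_subset_union_left _ (inter_subset_inter_left _ h)

theorem spl_congr_left {I ξ ξ' : Set ι} (h : ∀ i ∈ I, i ∈ ξ ↔ i ∈ ξ') :
    spl I ξ = spl I ξ' := by
  funext ω
  ext i
  by_cases hi : i ∈ I
  · rw [mem_spl_of_mem hi, mem_spl_of_mem hi, h i hi]
  · rw [mem_spl_of_notMem hi, mem_spl_of_notMem hi]

theorem measurable_spl (I ξ : Set ι) : Measurable (spl I ξ) :=
  (measurable_splice I).comp measurable_prodMk_left

theorem map_fix (π : ι → unitInterval) (I ξ : Set ι) :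
    (bern π).map (spl I ξ) = bern (fixπ π I ξ) := by
  classical
  have := Measure.isProbabilityMeasure_map (μ := bern π) (measurable_spl I ξ).aemeasurable
  refine ext_avoid fun J => ?_
  rw [Measure.map_apply (measurable_spl I ξ) (measurableSet_avoid J), bern_avoid]
  by_cases h : ∃ i ∈ J, i ∈ I ∧ i ∈ ξ
  · obtain ⟨i, hJ, hI, hξ⟩ := h
    have : spl I ξ ⁻¹' {ω | ∀ i ∈ J, i ∉ ω} = ∅ :=
      eq_empty_of_forall_notMem fun ω hω => hω i hJ ((mem_spl_of_mem hI).2 hξ)
    rw [this, measure_empty]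
    refine (Finset.prod_eq_zero hJ ?_).symm
    simp [fixπ, hI, hξ]
  · have : spl I ξ ⁻¹' {ω | ∀ i ∈ J, i ∉ ω} = {ω | ∀ i ∈ J.filter (¬ · ∈ I), i ∉ ω} := by
      ext ω
      simp only [mem_preimage, mem_ofPred_eq, Finset.mem_filter]
      refine ⟨fun h' i hi hω => h' i hi.1 ((mem_spl_of_notMem hi.2).2 hω), fun h' i hi hω => ?_⟩
      by_cases hI : i ∈ I
      · exact h ⟨i, hi, hI, (mem_spl_of_mem hI).1 hω⟩
      · exact h' i ⟨hi, hI⟩ ((mem_spl_of_notMem hI).1 hω)
    rw [this, bern_avoid, Finset.prod_filter]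
    refine Finset.prod_congr rfl fun i hi => ?_
    by_cases hI : i ∈ I
    · have : i ∉ ξ := fun h' => h ⟨i, hi, hI, h'⟩
      simp [fixπ, hI, this]
    · simp [fixπ, hI]

theorem bern_fix (π : ι → unitInterval) (I ξ : Set ι) {E : Set (Set ι)} (hE : MeasurableSet E) :
    bern (fixπ π I ξ) E = bern π {ω | spl I ξ ω ∈ E} := by
  rw [← map_fix, Measure.map_apply (measurable_spl I ξ) hE]
  rfl

theorem measurable_fix (π : ι → unitInterval) (I : Set ι) {E : Set (Set ι)}
    (hE : MeasurableSet E) : Measurable fun ξ => bern (fixπ π I ξ) E := by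
  simp only [bern_fix π I _ hE]
  exact measurable_measure_prodMk_left (ν := bern π) (measurable_splice I hE)

/-- Conditioning on the state of the slots of `I`. -/
theorem bern_cond (π : ι → unitInterval) (I : Set ι) {E : Set (Set ι)} (hE : MeasurableSet E) :
    bern π E = ∫⁻ ξ, bern (fixπ π I ξ) E ∂bern π := by
  simp only [bern_fix π I _ hE]
  conv_lhs => rw [← map_splice π I]
  rw [Measure.map_apply (measurable_splice _) hE, Measure.prod_apply (measurable_splice _ hE)]
  rfl

/-- A bound for every state of the slots of `I` is a conditional bound. -/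
theorem bern_inter_le (π : ι → unitInterval) {I : Set ι} {H E : Set (Set ι)}
    (hH : MeasurableSet H) (hE : MeasurableSet E) (dH : Dep I H) {c : ℝ≥0∞}
    (hc : ∀ ξ ∈ H, bern (fixπ π I ξ) E ≤ c) : bern π (H ∩ E) ≤ c * bern π H := by
  rw [bern_cond π I (hH.inter hE), ← lintegral_indicator_const hH]
  refine lintegral_mono fun ξ => ?_
  by_cases h : ξ ∈ H
  · rw [indicator_of_mem h]
    exact (measure_mono inter_subset_right).trans (hc ξ h)
  · rw [indicator_of_notMem h, bern_fix π I ξ (hH.inter hE)]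
    have : {ω | spl I ξ ω ∈ H ∩ E} = ∅ :=
      eq_empty_of_forall_notMem fun ω hω => h (dH _ _ (fun i hi => mem_spl_of_mem hi) hω.1)
    rw [this, measure_empty]

/-- The same as a lower bound. -/
theorem le_bern_inter (π : ι → unitInterval) {I : Set ι} {H E : Set (Set ι)}
    (hH : MeasurableSet H) (hE : MeasurableSet E) (dH : Dep I H) {c : ℝ≥0∞}
    (hc : ∀ ξ ∈ H, c ≤ bern (fixπ π I ξ) E) : c * bern π H ≤ bern π (H ∩ E) := by
  rw [bern_cond π I (hH.inter hE), ← lintegral_indicator_const hH]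
  refine lintegral_mono fun ξ => ?_
  by_cases h : ξ ∈ H
  · rw [indicator_of_mem h]
    refine (hc ξ h).trans ?_
    rw [bern_fix π I ξ (hH.inter hE), bern_fix π I ξ hE]
    exact measure_mono fun ω hω => ⟨dH _ _ (fun i hi => (mem_spl_of_mem hi).symm) h, hω⟩
  · rw [indicator_of_notMem h]
    exact zero_le

/-- A bound for every state of the slots of `I` is a bound. -/
theorem bern_le_of_fix (π : ι → unitInterval) (I : Set ι) {E : Set (Set ι)}
    (hE : MeasurableSet E) {c : ℝ≥0∞} (hc : ∀ ξ, bern (fixπ π I ξ) E ≤ c) : bern π E ≤ c := by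
  have := bern_inter_le π (I := I) MeasurableSet.univ hE (fun _ _ _ h => h) fun ξ _ => hc ξ
  simpa using this

/-- Freezing slots on which the event does not depend changes nothing. -/
theorem bern_fix_of_dep (π : ι → unitInterval) {I : Set ι} (ξ : Set ι) {E : Set (Set ι)}
    (hE : MeasurableSet E) (dE : Dep Iᶜ E) : bern (fixπ π I ξ) E = bern π E := by
  rw [bern_fix π I ξ hE]
  congr 1
  ext ω
  exact ⟨fun h => dE _ _ (fun i hi => mem_spl_of_notMem hi) h,
    fun h => dE _ _ (fun i hi => (mem_spl_of_notMem hi).symm) h⟩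

/-- An event depending on finitely many slots is measurable. -/
theorem measurableSet_of_dep (I : Finset ι) :
    ∀ {E : Set (Set ι)}, Dep (↑I) E → MeasurableSet E := by
  classical
  induction I using Finset.induction_on with
  | empty =>
    intro E h
    by_cases hE : E = ∅
    · rw [hE]; exact MeasurableSet.empty
    · obtain ⟨ω, hω⟩ := nonempty_iff_ne_empty.2 hE
      rw [eq_univ_of_forall fun ω' => h ω ω' (by simp) hω]
      exact MeasurableSet.univ
  | insert e I _ ih =>
    intro E h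
    have h1 : Dep (↑I) {ω | insert e ω ∈ E} := fun ω ω' hω hE => h _ _ (fun i hi => by
      rcases Finset.mem_insert.1 (Finset.mem_coe.1 hi) with rfl | hi
      · simp
      · simp [hω i hi]) hE
    have h2 : Dep (↑I) {ω | ω \ {e} ∈ E} := fun ω ω' hω hE => h _ _ (fun i hi => by
      rcases Finset.mem_insert.1 (Finset.mem_coe.1 hi) with rfl | hi
      · simp
      · simp [hω i hi]) hE
    have : E = ({ω | e ∈ ω} ∩ {ω | insert e ω ∈ E}) ∪ ({ω | e ∈ ω}ᶜ ∩ {ω | ω \ {e} ∈ E}) := by
      ext ω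
      by_cases he : e ∈ ω
      · simp [he]
      · simp [he]
    rw [this]
    exact ((measurableSet_mem' e).inter (ih h1)).union ((measurableSet_mem' e).compl.inter (ih h2))

/-- Connections inside a finite region depend on finitely many edges. -/
theorem dep_conn_in {V : Type*} [DecidableEq V] (G : SimpleGraph V) (U : Finset V) {R : Set V}
    (hR : (↑U)ᶜ ⊆ R) (x y : V) : Dep (↑U.sym2) {ω | conn G R ω x y} := fun ω ω' hω h => by
  have hU : ∀ v, v ∉ R → v ∈ U := fun v hv => by
    by_contra h'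
    exact hv (hR h')
  refine conn.ind (Q := fun y => conn G R ω' x y) h (conn_refl h.1) fun s t hs hst he ht ih =>
    ih.tail hst ((hω _ ?_).1 he) ht
  exact Finset.mem_coe.2 (Finset.mk_mem_sym2_iff.2 ⟨hU _ hs.right, hU _ ht⟩)

/-- The event that `A` is joined to `B` off `R`. -/
def Lk {V : Type*} (G : SimpleGraph V) (R A B : Set V) : Set (Set (Sym2 V)) :=
  {ω | ∃ a ∈ A, ∃ b ∈ B, conn G R ω a b}

theorem dep_Lk {V : Type*} {G : SimpleGraph V} {R : Set V} {I : Set (Sym2 V)}
    (h : ∀ x y, Dep I {ω | conn G R ω x y}) (A B : Set V) : Dep I (Lk G R A B) :=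
  fun ω ω' hω ⟨a, ha, b, hb, hc⟩ => ⟨a, ha, b, hb, h a b ω ω' hω hc⟩

theorem measurableSet_Lk {V : Type*} [DecidableEq V] (G : SimpleGraph V) (U : Finset V)
    {R : Set V} (hR : (↑U)ᶜ ⊆ R) (A B : Set V) : MeasurableSet (Lk G R A B) :=
  measurableSet_of_dep U.sym2 (dep_Lk (dep_conn_in G U hR) A B)

theorem isUpperSet_Lk {V : Type*} (G : SimpleGraph V) (R A B : Set V) :
    IsUpperSet (Lk G R A B) :=
  fun _ _ hω ⟨a, ha, b, hb, hc⟩ => ⟨a, ha, b, hb, hc.mono Subset.rfl hω⟩

end Crest.Agent.R147
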