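import Crest.Agent.R147.Defs
import Crest.Agent.R147.Harris

/-!
Row 147, module A2 (owner helper82): steering and renormalisation. Shared definitions.
-/

set_option autoImplicit false

open MeasureTheory ProbabilityTheory Set Filter
open scoped ENNReal NNReal

namespace Crest.Agent.R147.St

open Crest.Agent.R159

open Classical in
/-- The weights `π` with the slots of `F` frozen in the state `ξ`. -/
noncomputable def frz {ι : Type*} (π : ι → unitInterval) (F ξ : Set ι) : ι → unitInterval :=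
  fun i => if i ∈ F then (if i ∈ ξ then 1 else 0) else π i

variable {V : Type*} (G : SimpleGraph V)

open Classical in
/-- The weights of homogeneous percolation: `P G q = bern (hom G q)`. -/
noncomputable def hom (q : unitInterval) : Sym2 V → unitInterval :=
  fun e => if e ∈ G.edgeSet then q else 0

/-- `A` is joined to `B` by an open path inside the domain `D`. -/
def hit (D A B : Set V) : Set (Set (Sym2 V)) := {ω | ∃ a ∈ A, ∃ b ∈ B, conn G Dᶜ ω a b}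

/-- The `r`-neighbourhood of `A` for the graph distance. -/
def nbh (r : ℕ) (A : Set V) : Set V := {v | ∃ a ∈ A, ∃ w : G.Walk a v, w.length ≤ r}

/-- Pairs with both endpoints in `W`. -/
def pin (W : Set V) : Set (Sym2 V) := {e | ∀ v ∈ e, v ∈ W}

/-- The edges of `G` inside `Φ` have weight `q`. -/
def Fresh (π : Sym2 V → unitInterval) (q : unitInterval) (Φ : Set V) : Prop :=
  ∀ u ∈ Φ, ∀ v ∈ Φ, G.Adj u v → π s(u, v) = q

/-- Contact edges into `W` of the cluster of `O` in `D \ W`. -/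
def cts (D O W : Set V) (ω : Set (Sym2 V)) : Set (V × V) :=
  {z | G.Adj z.1 z.2 ∧ z.2 ∈ W ∧ ω ∈ hit G (D \ W) O {z.1}}

/-- The gluing property. -/
def Glue (q : unitInterval) (δ η : ℝ≥0∞) (m L : ℕ) : Prop :=
  ∀ (π : Sym2 V → unitInterval) (D O A T : Set V), Fresh G π q (nbh G L A) → nbh G L A ⊆ D →
    Disjoint O (nbh G L A) → (∀ a ∈ nbh G L A, bern π (hit G D (nbh G m {a}) T)ᶜ ≤ δ) →
    bern π (hit G D O A \ hit G D O T) ≤ η

/-- A box in the coordinates `X, Y`. -/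
def bx (X Y : V → ℝ) (x₀ x₁ y₀ y₁ : ℝ) : Set V := {v | x₀ ≤ X v ∧ X v ≤ x₁ ∧ y₀ ≤ Y v ∧ Y v ≤ y₁}

/-- Two precise moves from every seed, east and north. -/
structure Sys (q : unitInterval) (δ : ℝ≥0∞) (m L : ℕ) (t : ℝ) (X Y : V → ℝ) : Prop where
  lip : ∀ u v, v ∈ nbh G L {u} → |X v - X u| ≤ t ∧ |Y v - Y u| ≤ t
  east : ∀ a, P G q (hit G (bx X Y (X a - 3) (X a + 3) (Y a - 3) (Y a + 3)) (nbh G m {a})
    (bx X Y (X a + 1 - t) (X a + 1 + t) (Y a - t) (Y a + t)))ᶜ ≤ δ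
  north : ∀ a, P G q (hit G (bx X Y (X a - 3) (X a + 3) (Y a - 3) (Y a + 3)) (nbh G m {a})
    (bx X Y (X a - t) (X a + t) (Y a + 1 - t) (Y a + 1 + t)))ᶜ ≤ δ

/-- A Lipschitz map to `ℤ²` along which one can navigate. -/
structure Dat (π : V → ℤ × ℤ) (l C : ℕ) : Prop where
  one_le_l : 1 ≤ l
  one_le_C : 1 ≤ C
  lip : ∀ u v, G.Adj u v → |(π v).1 - (π u).1| ≤ l ∧ |(π v).2 - (π u).2| ≤ l
  nav : ∀ v, ∀ z : ℤ × ℤ, |z.1| + |z.2| = 1 → ∃ v' ∈ nbh G C {v}, π v' = π v + z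

/-- The real coordinate `a x + b y`, relative to the base point `o`. -/
noncomputable def lin (π : V → ℤ × ℤ) (o : V) (a b : ℝ) : V → ℝ :=
  fun v => a * (((π v).1 : ℝ) - (π o).1) + b * (((π v).2 : ℝ) - (π o).2)

/-- The part of `D` where `|f| ≤ h`. -/
def par (D : Set V) (f : V → ℝ) (h : ℝ) : Set V := D ∩ {v | |f v| ≤ h}

/-- The boundary layer of `par D f h`. -/
def lay (D : Set V) (f : V → ℝ) (h lam : ℝ) : Set V := D ∩ {v | h - lam < |f v| ∧ |f v| ≤ h}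

/-- No point of `S` lies in an infinite cluster. -/
def noinf (S : Set V) : Set (Set (Sym2 V)) := {ω | ∀ a ∈ S, (cl G ∅ ω a).Finite}

/-- Given the state of the pairs that meet `W`, the point `a` misses `T` with probability `≤ δ`. -/
def ok (π : Sym2 V → unitInterval) (D W T : Set V) (δ : ℝ≥0∞) (a : V) : Set (Set (Sym2 V)) :=
  {ξ | bern (frz π (pin Wᶜ)ᶜ ξ) (hit G D {a} T)ᶜ ≤ δ}

/-- The source `O` is joined to a point that is `ok`. -/
def gd (π : Sym2 V → unitInterval) (D O W T : Set V) (δ : ℝ≥0∞) : Set (Set (Sym2 V)) :=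
  ⋃ a, ok G π D W T δ a ∩ hit G D O {a}

/-- The moves `U`, `D`, `T` from the seed `S` in the unit square. -/
structure UDT (p : unitInterval) (ε : ℝ≥0∞) (S : Set V) (κ : ℝ) (X Y : V → ℝ) : Prop where
  up : P G p (hit G (bx X Y (-1) 1 (-1) 1) S (bx X Y (1 - κ) 1 (-κ) 1))ᶜ ≤ ε
  down : P G p (hit G (bx X Y (-1) 1 (-1) 1) S (bx X Y (1 - κ) 1 (-1) κ))ᶜ ≤ ε
  top : P G p (hit G (bx X Y (-1) 1 (-1) 1) S (bx X Y (-1) 1 (1 - κ) 1))ᶜ ≤ ε

/-- The moves east and north from the seed `S`. -/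
structure EN (p : unitInterval) (δ : ℝ≥0∞) (S : Set V) (t : ℝ) (X Y : V → ℝ) : Prop where
  east : P G p (hit G (bx X Y (-2) 2 (-2) 2) S (bx X Y (1 - t) (1 + t) (-t) t))ᶜ ≤ δ
  north : P G p (hit G (bx X Y (-2) 2 (-2) 2) S (bx X Y (-t) t (1 - t) (1 + t)))ᶜ ≤ δ

/-- The error of one gluing step. -/
noncomputable def eta0 : ℝ≥0∞ := (10 : ℝ≥0∞)⁻¹ ^ 12

/-- The threshold for conditional failure probabilities. -/
noncomputable def thr : ℝ≥0∞ := (9 : ℝ≥0∞)⁻¹ ^ 4 / 2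

/-- Macroscopic cell of a point; `(cx, cy)` is the centre of the cell `(0, 0)`, the centre of the
cell `(i, j)` is `(cx + 40 i + 2 j, cy + 2 i + 40 j)`. -/
noncomputable def cell (X Y : V → ℝ) (cx cy : ℝ) (v : V) : ℤ × ℤ :=
  (⌊(40 * (X v - cx) - 2 * (Y v - cy)) / 1596 + 1 / 2⌋,
    ⌊(40 * (Y v - cy) - 2 * (X v - cx)) / 1596 + 1 / 2⌋)

/-- The vertices of the cell `z`. -/
def zone (X Y : V → ℝ) (cx cy : ℝ) (z : ℕ × ℕ) : Set V :=
  {v | cell X Y cx cy v = ((z.1 : ℤ), (z.2 : ℤ))}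

/-- The gate of the cell `z`. -/
def gate (X Y : V → ℝ) (cx cy : ℝ) (z : ℕ × ℕ) : Set V :=
  bx X Y (cx + 40 * z.1 + 2 * z.2 - 1) (cx + 40 * z.1 + 2 * z.2 + 1)
    (cy + 2 * z.1 + 40 * z.2 - 1) (cy + 2 * z.1 + 40 * z.2 + 1)

/-- The order in which the cells are revealed. -/
def rk (z : ℕ × ℕ) : ℕ ×ₗ ℕ := toLex (z.1 + z.2, z.1)

/-- The cells revealed before `z`. -/
def past (X Y : V → ℝ) (cx cy : ℝ) (z : ℕ × ℕ) : Set V := ⋃ w ∈ {w | rk w < rk z}, zone X Y cx cy w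

/-- The cells revealed up to `z`. -/
def upto (X Y : V → ℝ) (cx cy : ℝ) (z : ℕ × ℕ) : Set V := past X Y cx cy z ∪ zone X Y cx cy z

/-- Given the state of `W`, the gate of `z` is missed in `W ∪ zone z` with probability `≤ thr`. -/
def prom (q : unitInterval) (X Y : V → ℝ) (cx cy : ℝ) (O W : Set V) (z : ℕ × ℕ) :
    Set (Set (Sym2 V)) :=
  {ξ | bern (frz (hom G q) (pin W) ξ)
    (hit G (W ∪ zone X Y cx cy z) O (gate X Y cx cy z))ᶜ ≤ thr}

/-- The cell `z` is good. -/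
def good (q : unitInterval) (X Y : V → ℝ) (cx cy : ℝ) (O : Set V) (z : ℕ × ℕ) :
    Set (Set (Sym2 V)) :=
  hit G (upto X Y cx cy z) O (gate X Y cx cy z) ∩
    (prom G q X Y cx cy O (upto X Y cx cy z) (z.1 + 1, z.2) ∩
      prom G q X Y cx cy O (upto X Y cx cy z) (z.1, z.2 + 1))

/-- The cell `z` was promised and failed. -/
def fail (q : unitInterval) (X Y : V → ℝ) (cx cy : ℝ) (O : Set V) (z : ℕ × ℕ) :
    Set (Set (Sym2 V)) :=
  prom G q X Y cx cy O (past X Y cx cy z) z \ good G q X Y cx cy O z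

/-! ## Basic API -/

variable {G}

theorem P_eq_hom (q : unitInterval) : P G q = bern (hom G q) := by
  rw [P, setBer_eq_bern]
  congr 1
  funext e
  by_cases h : e ∈ G.edgeSet <;> simp [hom, h]

theorem fresh_hom (q : unitInterval) (Φ : Set V) : Fresh G (hom G q) q Φ := fun _ _ _ _ h => by
  simp [hom, h]

theorem Fresh.mono {π : Sym2 V → unitInterval} {q : unitInterval} {Φ Φ' : Set V}
    (h : Fresh G π q Φ) (hΦ : Φ' ⊆ Φ) : Fresh G π q Φ' :=
  fun u hu v hv => h u (hΦ hu) v (hΦ hv)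

theorem mk_mem_pin {W : Set V} {u v : V} : s(u, v) ∈ pin W ↔ u ∈ W ∧ v ∈ W := by
  simp [pin]

theorem pin_mono {W W' : Set V} (h : W ⊆ W') : pin W ⊆ pin W' := fun _ he v hv => h (he v hv)

theorem Fresh.frz {π : Sym2 V → unitInterval} {q : unitInterval} {Φ W : Set V}
    (h : Fresh G π q Φ) (hW : Disjoint Φ W) (ξ : Set (Sym2 V)) :
    Fresh G (frz π (pin W) ξ) q Φ := fun u hu v hv huv => by
  have : s(u, v) ∉ pin W := fun h' => hW.notMem_of_mem_left hu (mk_mem_pin.1 h').1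
  simp [St.frz, this, h u hu v hv huv]

theorem hit_mono {D D' A A' B B' : Set V} (hD : D ⊆ D') (hA : A ⊆ A') (hB : B ⊆ B') :
    hit G D A B ⊆ hit G D' A' B' := fun _ ⟨a, ha, b, hb, h⟩ =>
  ⟨a, hA ha, b, hB hb, h.mono (compl_subset_compl.2 hD) Subset.rfl⟩

theorem isUpperSet_hit (D A B : Set V) : IsUpperSet (hit G D A B) :=
  fun _ _ hω ⟨a, ha, b, hb, h⟩ => ⟨a, ha, b, hb, h.mono Subset.rfl hω⟩

theorem measurableSet_hit [Countable V] (D A B : Set V) : MeasurableSet (hit G D A B) := by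
  have : hit G D A B = ⋃ a ∈ A, ⋃ b ∈ B, {ω | conn G Dᶜ ω a b} := by
    ext ω; simp [hit]
  rw [this]
  exact MeasurableSet.biUnion (to_countable _) fun a _ =>
    MeasurableSet.biUnion (to_countable _) fun b _ => measurableSet_conn _ _ _

theorem dep_hit (D A B : Set V) : Dep (pin D ∩ G.edgeSet) (hit G D A B) := by
  rintro ω ω' hω ⟨a, ha, b, hb, h⟩
  refine ⟨a, ha, b, hb, h.ind (Q := fun y => conn G Dᶜ ω' a y) (conn_refl h.left) ?_⟩
  intro x y hx hxy he hy hQ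
  exact hQ.tail hxy ((hω _ ⟨mk_mem_pin.2 ⟨not_not.1 hx.right, not_not.1 hy⟩, hxy⟩).1 he) hy

theorem hit_union (D A B B' : Set V) : hit G D A (B ∪ B') = hit G D A B ∪ hit G D A B' := by
  ext ω
  constructor
  · rintro ⟨a, ha, b, hb | hb, h⟩
    · exact Or.inl ⟨a, ha, b, hb, h⟩
    · exact Or.inr ⟨a, ha, b, hb, h⟩
  · rintro (h | h)
    · exact hit_mono Subset.rfl Subset.rfl subset_union_left h
    · exact hit_mono Subset.rfl Subset.rfl subset_union_right h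

theorem hit_inter (D A B : Set V) : hit G D A (B ∩ D) = hit G D A B :=
  Subset.antisymm (hit_mono Subset.rfl Subset.rfl inter_subset_left)
    fun _ ⟨a, ha, b, hb, h⟩ => ⟨a, ha, b, ⟨hb, not_not.1 h.right⟩, h⟩

theorem mem_hit_of_mem {D A B : Set V} {a : V} (hD : a ∈ D) (hA : a ∈ A) (hB : a ∈ B)
    (ω : Set (Sym2 V)) : ω ∈ hit G D A B := ⟨a, hA, a, hB, conn_refl (not_not.2 hD)⟩

theorem subset_nbh (r : ℕ) (A : Set V) : A ⊆ nbh G r A :=
  fun a ha => ⟨a, ha, SimpleGraph.Walk.nil, Nat.zero_le _⟩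

theorem self_mem_nbh (r : ℕ) (a : V) : a ∈ nbh G r {a} := subset_nbh r _ rfl

theorem nbh_mono {r r' : ℕ} {A A' : Set V} (hr : r ≤ r') (hA : A ⊆ A') :
    nbh G r A ⊆ nbh G r' A' := fun _ ⟨a, ha, w, hw⟩ => ⟨a, hA ha, w, hw.trans hr⟩

theorem mem_nbh_singleton {r : ℕ} {a v : V} :
    v ∈ nbh G r {a} ↔ ∃ w : G.Walk a v, w.length ≤ r := by
  simp [nbh]

theorem mem_nbh_iff {r : ℕ} {A : Set V} {v : V} : v ∈ nbh G r A ↔ ∃ a ∈ A, v ∈ nbh G r {a} := by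
  simp [nbh]

theorem nbh_symm {r : ℕ} {a v : V} (h : v ∈ nbh G r {a}) : a ∈ nbh G r {v} := by
  obtain ⟨w, hw⟩ := mem_nbh_singleton.1 h
  exact mem_nbh_singleton.2 ⟨w.reverse, by simpa using hw⟩

theorem nbh_trans {r s : ℕ} {A : Set V} {u v : V} (hu : u ∈ nbh G r A) (hv : v ∈ nbh G s {u}) :
    v ∈ nbh G (r + s) A := by
  obtain ⟨a, ha, w, hw⟩ := hu
  obtain ⟨w', hw'⟩ := mem_nbh_singleton.1 hv
  exact ⟨a, ha, w.append w', by rw [SimpleGraph.Walk.length_append]; omega⟩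

theorem mem_nbh_of_adj {u v : V} (h : G.Adj u v) : v ∈ nbh G 1 {u} :=
  mem_nbh_singleton.2 ⟨h.toWalk, le_rfl⟩

theorem nbh_succ_of_adj {r : ℕ} {A : Set V} {u v : V} (hu : u ∈ nbh G r A) (h : G.Adj u v) :
    v ∈ nbh G (r + 1) A := nbh_trans hu (mem_nbh_of_adj h)

theorem coe_ball [DecidableEq V] [G.LocallyFinite] (r : ℕ) (A : Finset V) :
    (↑(ball G r A) : Set V) = nbh G r ↑A := by
  ext v; simp [mem_ball, nbh]

theorem nbh_eq_ball [DecidableEq V] [G.LocallyFinite] (r : ℕ) (a : V) :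
    nbh G r {a} = ↑(ball G r {a}) := by
  rw [coe_ball]; simp

theorem nbh_finite [G.LocallyFinite] (r : ℕ) (a : V) : (nbh G r {a}).Finite := by
  classical
  rw [nbh_eq_ball]; exact Finset.finite_toSet _

theorem bx_swap (X Y : V → ℝ) (x₀ x₁ y₀ y₁ : ℝ) : bx Y X y₀ y₁ x₀ x₁ = bx X Y x₀ x₁ y₀ y₁ := by
  ext v; simp only [bx, mem_ofPred_eq]; tauto

theorem bx_mono (X Y : V → ℝ) {x₀ x₁ y₀ y₁ x₀' x₁' y₀' y₁' : ℝ} (h₁ : x₀' ≤ x₀) (h₂ : x₁ ≤ x₁')
    (h₃ : y₀' ≤ y₀) (h₄ : y₁ ≤ y₁') : bx X Y x₀ x₁ y₀ y₁ ⊆ bx X Y x₀' x₁' y₀' y₁' :=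
  fun _ ⟨a, b, c, d⟩ => ⟨h₁.trans a, b.trans h₂, h₃.trans c, d.trans h₄⟩

theorem Glue.mono {q : unitInterval} {δ δ' η : ℝ≥0∞} {m L : ℕ} (h : Glue G q δ η m L)
    (hδ : δ' ≤ δ) : Glue G q δ' η m L :=
  fun π D O A T h₁ h₂ h₃ h₄ => h π D O A T h₁ h₂ h₃ fun a ha => (h₄ a ha).trans hδ

theorem Sys.swap {q : unitInterval} {δ : ℝ≥0∞} {m L : ℕ} {t : ℝ} {X Y : V → ℝ}
    (h : Sys G q δ m L t X Y) : Sys G q δ m L t Y X where
  lip := fun u v hv => (h.lip u v hv).symm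
  east := fun a => by rw [bx_swap X Y, bx_swap X Y]; exact h.north a
  north := fun a => by rw [bx_swap X Y, bx_swap X Y]; exact h.east a

end Crest.Agent.R147.St
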