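import Crest.Agent.R147.StDefs
import Crest.Agent.R147.StExit

/-! Row 147, module A2: a cluster that stays in a thin set is small. -/

set_option autoImplicit false

open MeasureTheory ProbabilityTheory Set Filter
open scoped ENNReal NNReal

namespace Crest.Agent.R147.St

open Crest.Agent.R159

variable {V : Type*} [Countable V] {G : SimpleGraph V} [G.LocallyFinite]

theorem esc_sum {d : ℕ} (hd : ∀ v, G.degree v ≤ d) (p : unitInterval) {D W : Set V} (S : Finset V)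
    {C : ℕ} (hS : ∀ u ∈ S, ∃ v, v ∉ W ∧ ∃ w : G.Walk u v, w.length ≤ C ∧ ∀ y ∈ w.support, y ∈ D)
    (x : V) : pe p ^ C * ∑ u ∈ S, P G p {ω | cl G Dᶜ ω x ⊆ W ∧ u ∈ cl G Dᶜ ω x} ≤
      ((d + 1) ^ (2 * C) : ℕ) := by
  classical
  have h := ex_sum_le hd p (c := C) Dᶜ W x S fun v hv => by
    obtain ⟨u, hu, w, hw, hw'⟩ := hS v hv
    exact ⟨u, hu, w, hw, fun z hz => not_not.2 (hw' z hz)⟩
  refine le_trans (le_of_eq ?_) h
  congr 1
  refine Finset.sum_congr rfl fun u _ => ?_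
  congr 1
  ext ω
  exact and_comm

theorem esc {d : ℕ} (hd : ∀ v, G.degree v ≤ d) (p : unitInterval) {D W S : Set V}
    {C : ℕ} (hS : ∀ u ∈ S, ∃ v, v ∉ W ∧ ∃ w : G.Walk u v, w.length ≤ C ∧ ∀ y ∈ w.support, y ∈ D)
    (x : V) (n : ℕ) :
    n * (pe p ^ C * P G p {ω | cl G Dᶜ ω x ⊆ W ∧ (n : ℕ∞) ≤ (cl G Dᶜ ω x ∩ S).encard}) ≤
      ((d + 1) ^ (2 * C) : ℕ) := by
  classical
  obtain ⟨B, hB⟩ : ∃ B : V → Set (Set (Sym2 V)),
      B = fun u => {ω | u ∈ S ∧ cl G Dᶜ ω x ⊆ W ∧ u ∈ cl G Dᶜ ω x} := ⟨_, rfl⟩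
  have hm : ∀ u, MeasurableSet (B u) := fun u => by
    rw [hB]
    exact (MeasurableSet.const (u ∈ S)).inter
      ((inf_measurableSet_sub (G := G) Dᶜ x W).inter (measurableSet_conn (G := G) Dᶜ x u))
  have hf : Measurable fun ω => ∑' u, (B u).indicator (1 : Set (Sym2 V) → ℝ≥0∞) ω :=
    Measurable.ennreal_tsum fun u => measurable_one.indicator (hm u)
  have h1 : {ω | cl G Dᶜ ω x ⊆ W ∧ (n : ℕ∞) ≤ (cl G Dᶜ ω x ∩ S).encard} ⊆
      {ω | (n : ℝ≥0∞) ≤ ∑' u, (B u).indicator (1 : Set (Sym2 V) → ℝ≥0∞) ω} := by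
    rintro ω ⟨hW, hn⟩
    obtain ⟨T, hT, hTn⟩ := Set.exists_subset_encard_eq hn
    have hfin : T.Finite := Set.finite_of_encard_eq_coe hTn
    have hc : hfin.toFinset.card = n := by
      have := hfin.encard_eq_coe_toFinset_card
      rw [hTn] at this
      exact_mod_cast this.symm
    refine le_trans ?_ (ENNReal.sum_le_tsum hfin.toFinset)
    rw [Finset.sum_congr rfl (g := fun _ => (1 : ℝ≥0∞))]
    · simp [hc]
    · intro u hu
      have hu' := hT (hfin.mem_toFinset.1 hu)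
      have : ω ∈ B u := by rw [hB]; exact ⟨hu'.2, hW, hu'.1⟩
      rw [Set.indicator_of_mem this]; rfl
  have h2 := mul_meas_ge_le_lintegral (μ := P G p) hf (n : ℝ≥0∞)
  rw [lintegral_tsum fun u => (measurable_one.indicator (hm u)).aemeasurable] at h2
  simp only [lintegral_indicator_one (hm _)] at h2
  have h3 : pe p ^ C * ∑' u, P G p (B u) ≤ ((d + 1) ^ (2 * C) : ℕ) := by
    rw [ENNReal.tsum_eq_iSup_sum, ENNReal.mul_iSup]
    refine iSup_le fun s => ?_
    refine le_trans (le_of_eq ?_) (esc_sum hd p (D := D) (W := W) (s.filter (· ∈ S))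
      (fun u hu => hS u (Finset.mem_filter.1 hu).2) x)
    congr 1
    rw [Finset.sum_filter]
    refine Finset.sum_congr rfl fun u _ => ?_
    rw [hB]
    split_ifs with hu
    · simp only [hu, true_and]
    · simp [hu]
  refine le_trans ?_ h3
  rw [mul_left_comm]
  gcongr
  exact le_trans (by gcongr) h2

end Crest.Agent.R147.St
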