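import Crest.Agent.R147.StRen1
import Crest.Agent.R147.StTarget
import Crest.Agent.R147.OP

/-! Row 147, module A2: the static renormalisation scheme (helper29). -/

set_option autoImplicit false

open MeasureTheory ProbabilityTheory Set
open scoped ENNReal NNReal

namespace Crest.Agent.R147
open Crest.Agent.R159

/-- From one-step bounds inside one parity class to the bound for all finite sets. -/
theorem parity_bound {Ω : Type*} [MeasurableSpace Ω] (μ : Measure Ω) [IsProbabilityMeasure μ]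
    (F : ℕ × ℕ → Set Ω) (η : ℝ≥0∞) (hη : η ≤ 1)
    (h : ∀ (z : ℕ × ℕ) (S : Finset (ℕ × ℕ)), (∀ w ∈ S, w.1 + 2 ≤ z.1 ∨ w.2 + 2 ≤ z.2) →
      μ (F z ∩ ⋂ w ∈ S, F w) ≤ η ^ 4 * μ (⋂ w ∈ S, F w)) (S : Finset (ℕ × ℕ)) :
    μ (⋂ z ∈ S, F z) ≤ η ^ S.card := by
  classical
  let par : ℕ × ℕ → ℕ × ℕ := fun z => (z.1 % 2, z.2 % 2)
  have hmaps : ∀ z ∈ S, par z ∈ Finset.range 2 ×ˢ Finset.range 2 := fun z _ => by
    simp only [par, Finset.mem_product, Finset.mem_range]
    omega
  obtain ⟨r, -, hr⟩ : ∃ r ∈ Finset.range 2 ×ˢ Finset.range 2,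
      S.card ≤ 4 * (S.filter fun z => par z = r).card := by
    by_contra hc
    push Not at hc
    have h1 := Finset.card_eq_sum_card_fiberwise hmaps
    have h2 : ∑ r ∈ Finset.range 2 ×ˢ Finset.range 2, 4 * (S.filter fun z => par z = r).card <
        ∑ _r ∈ Finset.range 2 ×ˢ Finset.range 2, S.card :=
      Finset.sum_lt_sum_of_nonempty (by simp) hc
    rw [← Finset.mul_sum, ← h1] at h2
    simp at h2
  let F' : ℕ × ℕ → Set Ω := fun z => {ω | ω ∈ F z ∧ par z = r}
  have key := op_of_step μ (fun z : ℕ × ℕ => toLex z) toLex.injective univ F' (η ^ 4)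
    (fun z T hT => by
      rw [univ_inter]
      by_cases hz : par z = r ∧ ∀ w ∈ T, par w = r
      · have e : ⋂ w ∈ T, F' w = ⋂ w ∈ T, F w := by
          refine iInter₂_congr fun w hw => ?_
          ext ω
          simp [F', hz.2 w hw]
        rw [e]
        refine le_trans (measure_mono (inter_subset_inter_left _ fun ω hω => hω.1))
          (h z T fun w hw => ?_)
        have a1 := hT w hw
        have a2 := (hz.2 w hw).trans hz.1.symm
        simp only [par, Prod.mk.injEq] at a2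
        rw [Prod.Lex.toLex_lt_toLex] at a1
        omega
      · have e : F' z ∩ ⋂ w ∈ T, F' w = ∅ := by
          refine eq_empty_of_forall_notMem fun ω hω => hz ⟨hω.1.2, fun w hw => ?_⟩
          exact (mem_iInter₂.1 hω.2 w hw).2
        rw [e, measure_empty]
        exact zero_le) (S.filter fun z => par z = r)
  rw [univ_inter, measure_univ, mul_one, ← pow_mul] at key
  refine le_trans (measure_mono fun ω hω => ?_) (key.trans (pow_le_pow_right_of_le_one' hη hr))
  refine mem_iInter₂.2 fun w hw => ?_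
  obtain ⟨a1, a2⟩ := Finset.mem_filter.1 hw
  exact ⟨mem_iInter₂.1 hω w a1, a2⟩

variable {V : Type*} {G : SimpleGraph V} [DecidableEq V] [G.LocallyFinite]

theorem gate_swap (al be : V → ℤ) (u : ℕ) (o : V) (ρ : ℕ) :
    Gate G al be u o ρ = Gate G be al u o ρ := by
  unfold Gate
  refine Finset.filter_congr fun x _ => ?_
  rw [add_comm (al x)]
  tauto

variable (G)

/-- Radius of the macroscopic site `z`. -/
def rad (R L : ℕ) (z : ℕ × ℕ) : ℕ := R + (z.1 + z.2) * L

/-- The gate of the macroscopic site `z`. -/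
def GateZ (al be : V → ℤ) (u : ℕ) (o : V) (R L : ℕ) (z : ℕ × ℕ) : Finset V :=
  Gate G (fun x => al x - 60 * u * z.1) (fun x => be x - 60 * u * z.2) u o (rad R L z)

/-- The region of the macroscopic site `z`. -/
def RegZ (al be : V → ℤ) (u : ℕ) (o : V) (R L : ℕ) (z : ℕ × ℕ) : Finset V :=
  (ball G (rad R L z) {o}).filter fun x =>
    al x - 60 * u * z.1 ≤ 20 * (u : ℤ) ∧ be x - 60 * u * z.2 ≤ 20 * (u : ℤ)

/-- The zone of the macroscopic site `z`. -/
def ZoneZ (al be : V → ℤ) (u : ℕ) (z : ℕ × ℕ) : Set V :=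
  {x | -90 * (u : ℤ) ≤ al x - 60 * u * z.1 ∧ -90 * (u : ℤ) ≤ be x - 60 * u * z.2}

/-- Success at `z`. -/
def RZ (al be : V → ℤ) (u : ℕ) (o : V) (R L : ℕ) (O : Set V) (z : ℕ × ℕ) : Set (Set (Sym2 V)) :=
  Lk G (↑(RegZ G al be u o R L z))ᶜ O ↑(GateZ G al be u o R L z)

/-- Failure at `z`. -/
def FZ (al be : V → ℤ) (u : ℕ) (o : V) (R L : ℕ) (O : Set V) (z : ℕ × ℕ) : Set (Set (Sym2 V)) :=
  ((⋃ y, ⋃ _ : z = (y.1 + 1, y.2), Lk G (↑(RegZ G al be u o R L z))ᶜ O ↑(GateZ G al be u o R L y)) ∪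
    (⋃ y, ⋃ _ : z = (y.1, y.2 + 1),
      Lk G (↑(RegZ G al be u o R L z))ᶜ O ↑(GateZ G al be u o R L y))) ∩
    (RZ G al be u o R L O z)ᶜ

variable {G}

theorem dep_FZ (al be : V → ℤ) (u : ℕ) (o : V) (R L : ℕ) (O : Set V) (z : ℕ × ℕ) :
    Dep ↑(RegZ G al be u o R L z).sym2 (FZ G al be u o R L O z) := by
  have h := fun B : Set V => dep_Lk (dep_conn_in G (RegZ G al be u o R L z) Subset.rfl) O B
  exact ((Dep.iUnion fun _ => Dep.iUnion fun _ => h _).union
    (Dep.iUnion fun _ => Dep.iUnion fun _ => h _)).inter' (h _).compl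

theorem regZ_mono (al be : V → ℤ) (u : ℕ) (o : V) (R L : ℕ) {y z : ℕ × ℕ} (h1 : y.1 ≤ z.1)
    (h2 : y.2 ≤ z.2) : RegZ G al be u o R L y ⊆ RegZ G al be u o R L z := by
  intro x hx
  obtain ⟨c1, c2, c3⟩ := Finset.mem_filter.1 hx
  have a1 : 60 * (u : ℤ) * y.1 ≤ 60 * u * z.1 :=
    mul_le_mul_of_nonneg_left (by exact_mod_cast h1) (by positivity)
  have a2 : 60 * (u : ℤ) * y.2 ≤ 60 * u * z.2 :=
    mul_le_mul_of_nonneg_left (by exact_mod_cast h2) (by positivity)
  refine Finset.mem_filter.2 ⟨ball_mono_rad c1 ?_, by linarith, by linarith⟩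
  unfold rad
  gcongr

theorem FZ_le {δ κ : ℝ≥0∞} {p1 p0 q : unitInterval} {m R0 J R : ℕ} {al be : V → ℤ}
    {u lam : ℕ} (ht : Tgt G δ κ p1 p0 m R0 J) (h1 : p1 ≤ q) (h0 : q ≤ p0)
    (hJ : 4 * (lam * J) ≤ u) (hM : Moves G q δ m R0 R al be u lam) (hu : 0 < u)
    (O : Set V) (o : V) (hO : ∀ x ∈ O, 2 * (al x + be x) < -21 * (u : ℤ)) (z : ℕ × ℕ)
    (π : Sym2 V → unitInterval) (hπ : ∀ e ∈ touch G (ZoneZ al be u z), π e = q) :
    bern π (FZ G al be u o R (160 * (J + R)) O z) ≤ 320 * κ := by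
  have hu' : (0 : ℤ) < u := by exact_mod_cast hu
  have e320 : (320 : ℝ≥0∞) * κ = 160 * κ + 160 * κ := by
    rw [← add_mul]; norm_num
  unfold FZ
  rw [union_inter_distrib_right, e320]
  refine (measure_union_le _ _).trans (add_le_add ?_ ?_)
  · by_cases hz : ∃ y : ℕ × ℕ, z = (y.1 + 1, y.2)
    · obtain ⟨y, rfl⟩ := hz
      have p1' : (0 : ℤ) ≤ 60 * u * y.1 := by positivity
      have p2' : (0 : ℤ) ≤ 60 * u * y.2 := by positivity
      have hc := corridor ht h1 h0 hJ (hM.shift (60 * u * y.1) (60 * u * y.2)) π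
        (RegZ G al be u o R (160 * (J + R)) (y.1 + 1, y.2)) O o (rad R (160 * (J + R)) y)
        (rad R (160 * (J + R)) (y.1 + 1, y.2))
        (fun x hx => by have := hO x hx; linarith)
        (fun x hx a1 a2 => Finset.mem_filter.2 ⟨hx, by push_cast; linarith, by linarith⟩)
        (fun e he => hπ e (touch_mono (fun x hx => by
          obtain ⟨a1, a2⟩ := hx
          constructor <;> push_cast <;> linarith) he))
        (by unfold rad; nlinarith) hu
      refine le_trans (measure_mono (inter_subset_inter ?_ ?_)) hc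
      · refine iUnion₂_subset fun y' hy' => ?_
        obtain rfl : y = y' := by
          simp only [Prod.mk.injEq] at hy'
          exact Prod.ext (by omega) hy'.2
        exact Subset.rfl
      · refine subset_of_eq ?_
        unfold RZ GateZ
        congr 4
        funext x
        push_cast
        ring
    · rw [iUnion_eq_empty.2 fun y => iUnion_eq_empty.2 fun hy => (hz ⟨y, hy⟩).elim, empty_inter,
        measure_empty]
      exact zero_le
  · by_cases hz : ∃ y : ℕ × ℕ, z = (y.1, y.2 + 1)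
    · obtain ⟨y, rfl⟩ := hz
      have p1' : (0 : ℤ) ≤ 60 * u * y.1 := by positivity
      have p2' : (0 : ℤ) ≤ 60 * u * y.2 := by positivity
      have hc := corridor ht h1 h0 hJ (hM.swap.shift (60 * u * y.2) (60 * u * y.1)) π
        (RegZ G al be u o R (160 * (J + R)) (y.1, y.2 + 1)) O o (rad R (160 * (J + R)) y)
        (rad R (160 * (J + R)) (y.1, y.2 + 1))
        (fun x hx => by have := hO x hx; linarith)
        (fun x hx a1 a2 => Finset.mem_filter.2 ⟨hx, by linarith, by push_cast; linarith⟩)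
        (fun e he => hπ e (touch_mono (fun x hx => by
          obtain ⟨a1, a2⟩ := hx
          constructor <;> push_cast <;> linarith) he))
        (by unfold rad; nlinarith) hu
      refine le_trans (measure_mono (inter_subset_inter ?_ ?_)) hc
      · refine iUnion₂_subset fun y' hy' => ?_
        obtain rfl : y = y' := by
          simp only [Prod.mk.injEq] at hy'
          exact Prod.ext hy'.1 (by omega)
        unfold GateZ
        rw [gate_swap]
      · refine subset_of_eq ?_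
        unfold RZ GateZ
        rw [gate_swap]
        congr 4
        funext x
        push_cast
        ring
    · rw [iUnion_eq_empty.2 fun y => iUnion_eq_empty.2 fun hy => (hz ⟨y, hy⟩).elim, empty_inter,
        measure_empty]
      exact zero_le

theorem gateZ_inj (al be : V → ℤ) {u : ℕ} (hu : 0 < u) (o : V) (R L : ℕ) {y z : ℕ × ℕ} {x : V}
    (hy : x ∈ GateZ G al be u o R L y) (hz : x ∈ GateZ G al be u o R L z) : y = z := by
  have hu' : (0 : ℤ) < u := by exact_mod_cast hu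
  obtain ⟨-, a1, a2, -⟩ := Finset.mem_filter.1 hy
  obtain ⟨-, b1, b2, -⟩ := Finset.mem_filter.1 hz
  have aux : ∀ (t : ℤ) (i j : ℕ), |t - 60 * u * i| ≤ 10 * (u : ℤ) →
      |t - 60 * u * j| ≤ 10 * (u : ℤ) → i ≤ j := by
    intro t i j h1 h2
    by_contra hc
    have h3 : (j : ℤ) + 1 ≤ i := by exact_mod_cast not_le.1 hc
    have h4 := mul_le_mul_of_nonneg_left h3 hu'.le
    have := abs_le.1 h1
    have := abs_le.1 h2
    nlinarith
  exact Prod.ext (le_antisymm (aux _ _ _ a1 b1) (aux _ _ _ b1 a1))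
    (le_antisymm (aux _ _ _ a2 b2) (aux _ _ _ b2 a2))

theorem static {δ κ : ℝ≥0∞} {p1 p0 q : unitInterval} {m R0 J R : ℕ} {al be : V → ℤ}
    {u lam : ℕ} (ht : Tgt G δ κ p1 p0 m R0 J) (h1 : p1 ≤ q) (h0 : q ≤ p0)
    (hJ : 4 * (lam * J) ≤ u) (hM : Moves G q δ m R0 R al be u lam) (hu : 0 < u)
    (O : Finset V) (o : V) (hO : ∀ x ∈ O, 2 * (al x + be x) < -21 * (u : ℤ))
    (hκ : 320 * κ ≤ ((9 : ℝ≥0∞)⁻¹ ^ 4 * 2⁻¹) ^ 4)
    (hs : 2⁻¹ ≤ P G q (RZ G al be u o R (160 * (J + R)) ↑O (0, 0))) : Perc G q := by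
  classical
  have hu' : (0 : ℤ) < u := by exact_mod_cast hu
  set L := 160 * (J + R) with hL
  have mF : ∀ z, MeasurableSet (FZ G al be u o R L ↑O z) := fun z =>
    measurableSet_of_dep _ (dep_FZ al be u o R L ↑O z)
  have hη : (9 : ℝ≥0∞)⁻¹ ^ 4 * 2⁻¹ ≤ 1 :=
    mul_le_one' (pow_le_one' (ENNReal.inv_le_one.2 (by norm_num)) 4)
      (ENNReal.inv_le_one.2 (by norm_num))
  have hb := parity_bound (P G q) (FZ G al be u o R L ↑O) _ hη (fun z S hS => by
    unfold P
    rw [setBer_eq_bern, inter_comm]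
    refine bern_inter_le _ (I := (touch G (ZoneZ al be u z))ᶜ)
      (Finset.measurableSet_biInter S fun w _ => mF w) (mF z)
      (Dep.iInter fun w => Dep.iInter fun hw => (dep_FZ al be u o R L ↑O w).mono ?_)
      fun ξ _ => (FZ_le ht h1 h0 hJ hM hu ↑O o hO z _ fun e he => ?_).trans hκ
    · rintro e he ⟨-, x, hx, hxe⟩
      obtain ⟨-, c2, c3⟩ := Finset.mem_filter.1 (Finset.mem_sym2_iff.1 (Finset.mem_coe.1 he) x hxe)
      obtain ⟨d1, d2⟩ := hx
      rcases hS w hw with h | h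
      · have h3 : (w.1 : ℤ) + 2 ≤ z.1 := by exact_mod_cast h
        have h4 := mul_le_mul_of_nonneg_left h3 hu'.le
        nlinarith
      · have h3 : (w.2 : ℤ) + 2 ≤ z.2 := by exact_mod_cast h
        have h4 := mul_le_mul_of_nonneg_left h3 hu'.le
        nlinarith
    · rw [fixπ_of_notMem _ _ (not_not.2 he), if_pos he.1])
  have hop := op_survive_nat (P G q) (RZ G al be u o R L ↑O) (FZ G al be u o R L ↑O)
    (fun ω z hz => by
      constructor
      · by_cases hc : ω ∈ RZ G al be u o R L ↑O (z.1 + 1, z.2)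
        · exact Or.inl hc
        · refine Or.inr ⟨Or.inl (mem_iUnion₂.2 ⟨z, rfl, ?_⟩), hc⟩
          exact Lk_mono (compl_subset_compl.2 (Finset.coe_subset.2
            (regZ_mono al be u o R L (y := z) (z := (z.1 + 1, z.2)) (Nat.le_succ _) le_rfl)))
            Subset.rfl (fun _ h _ => h) hz
      · by_cases hc : ω ∈ RZ G al be u o R L ↑O (z.1, z.2 + 1)
        · exact Or.inl hc
        · refine Or.inr ⟨Or.inr (mem_iUnion₂.2 ⟨z, rfl, ?_⟩), hc⟩
          exact Lk_mono (compl_subset_compl.2 (Finset.coe_subset.2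
            (regZ_mono al be u o R L (y := z) (z := (z.1, z.2 + 1)) le_rfl (Nat.le_succ _))))
            Subset.rfl (fun _ h _ => h) hz)
    (fun S => by
      rcases S.eq_empty_or_nonempty with rfl | hS
      · simp
      · refine (measure_mono inter_subset_right).trans ((hb S).trans ?_)
        rw [mul_pow]
        gcongr
        refine le_trans ?_ hs
        conv_rhs => rw [← pow_one (2⁻¹ : ℝ≥0∞)]
        exact pow_le_pow_right_of_le_one' (ENNReal.inv_le_one.2 (by norm_num)) hS.card_pos)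
  by_contra hn
  simp only [Perc, not_exists, not_lt, nonpos_iff_eq_zero] at hn
  have hnull : P G q (⋃ a ∈ O, {ω | (cl G ∅ ω a).Infinite}) = 0 :=
    (measure_biUnion_null_iff O.countable_toSet).2 fun a _ => hn a
  have hsub : RZ G al be u o R L ↑O (0, 0) ⊆
      {ω | ω ∈ RZ G al be u o R L ↑O (0, 0) ∧ {z | ω ∈ RZ G al be u o R L ↑O z}.Finite} ∪
        ⋃ a ∈ O, {ω | (cl G ∅ ω a).Infinite} := by
    intro ω hω
    by_cases hc : ω ∈ ⋃ a ∈ O, {ω | (cl G ∅ ω a).Infinite}
    · exact Or.inr hc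
    refine Or.inl ⟨hω, ?_⟩
    have hfin : (⋃ a ∈ O, cl G ∅ ω a).Finite :=
      O.finite_toSet.biUnion fun a ha => not_infinite.1 fun h => hc (mem_iUnion₂.2 ⟨a, ha, h⟩)
    refine (hfin.biUnion (t := fun x => {z | x ∈ GateZ G al be u o R L z})
      fun x _ => Set.Subsingleton.finite fun y hy z hz => gateZ_inj al be hu o R L hy hz).subset ?_
    rintro z ⟨a, ha, b, hb, hab⟩
    exact mem_iUnion₂.2 ⟨b, mem_iUnion₂.2 ⟨a, ha, hab.mono (empty_subset _) Subset.rfl⟩, hb⟩
  have h2 := (measure_mono (μ := P G q) hsub).trans (measure_union_le _ _)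
  rw [hnull, add_zero] at h2
  have h3 := h2.trans hop
  have hne : P G q (RZ G al be u o R L ↑O (0, 0)) ≠ 0 :=
    (lt_of_lt_of_le (by simp) hs).ne'
  exact absurd h3 (not_le.2 (ENNReal.half_lt_self hne (measure_ne_top _ _)))

/-- Two likely moves give percolation. -/
theorem renorm [Nonempty V] {D : ℕ} (hD : ∀ v, G.degree v ≤ D) : StmtRen G := by
  classical
  set η : ℝ≥0∞ := ((9 : ℝ≥0∞)⁻¹ ^ 4 * 2⁻¹) ^ 4 with hη
  have hη0 : η ≠ 0 := by simp [hη]
  obtain ⟨δ, hδ, ht⟩ := target hD (ε := η / 320) (ENNReal.div_pos hη0 (by norm_num))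
  refine ⟨min δ 2⁻¹, lt_min hδ (by simp), fun p1 p0 hp1 hp0 m R0 => ?_⟩
  obtain ⟨J, hJ⟩ := ht p1 p0 hp1 hp0 m R0
  refine ⟨8 * (J + m), fun q h1 h0 R al be u lam hu hl hM => ?_⟩
  have hu' : (0 : ℤ) < u := by exact_mod_cast hu
  obtain ⟨c, hc, -⟩ := hM.2.choose_spec.1 (Classical.arbitrary V)
  have hmv := (hM.2.choose_spec.2 c hc).1.trans (min_le_right _ _)
  have hl' : 8 * ((lam : ℤ) * m) ≤ u := by
    have : 8 * (lam * m) ≤ u := by nlinarith
    exact_mod_cast this
  refine static (δ := δ) (κ := η / 320) (J := J) (p1 := p1) (p0 := p0) hJ h1 h0 (by nlinarith)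
    ((hM.mono (min_le_left _ _)).shift (al c + 11 * u) (be c)) hu (ball G m {c}) c
    (fun x hx => ?_) (le_of_eq (ENNReal.mul_div_cancel (by norm_num) (by norm_num))) ?_
  · have a1 := abs_le.1 (lip_ball (fun x y h => (hM.1 x y h).1) hx)
    have a2 := abs_le.1 (lip_ball (fun x y h => (hM.1 x y h).2) hx)
    linarith
  · rw [miss_eq, prob_compl_eq_one_sub (measurableSet_Lk G _ Subset.rfl _ _), tsub_le_iff_left,
      ← tsub_le_iff_right, ENNReal.one_sub_inv_two] at hmv
    refine hmv.trans (measure_mono (Lk_mono (compl_subset_compl.2 fun x hx => ?_) Subset.rfl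
      fun x hx hx' => ?_))
    · obtain ⟨c1, c2, c3⟩ := Finset.mem_filter.1 (Finset.mem_coe.1 hx)
      have a1 := abs_le.1 c2
      have a2 := abs_le.1 c3
      refine Finset.mem_coe.2 (Finset.mem_filter.2 ⟨by simpa [rad] using c1, ?_, ?_⟩) <;>
        push_cast <;> linarith
    · obtain ⟨c1, c2, c3⟩ := Finset.mem_filter.1 (Finset.mem_coe.1 (not_not.1 hx'))
      have a1 := abs_le.1 c2
      have a2 := abs_le.1 c3
      obtain ⟨d1, d2, d3⟩ := hx
      refine Finset.mem_coe.2 (Finset.mem_filter.2 ⟨by simpa [rad] using c1,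
        abs_le.2 ⟨?_, ?_⟩, abs_le.2 ⟨?_, ?_⟩, ?_⟩) <;> push_cast <;> linarith

theorem ren_anchor : True := by
  have := @GateZ.eq_1.{0}
  have := @GateZ.eq_def.{0}
  have := @GateZ.eq_unfold.{0}
  have := @GateZ.congr_simp.{0}
  have := @RegZ.eq_1.{0}
  have := @RegZ.eq_def.{0}
  have := @RegZ.eq_unfold.{0}
  have := @RegZ.congr_simp.{0}
  have := @ZoneZ.eq_1.{0}
  have := @ZoneZ.eq_def.{0}
  have := @ZoneZ.eq_unfold.{0}
  have := @ZoneZ.congr_simp.{0}
  have := @RZ.eq_1.{0}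
  have := @RZ.eq_def.{0}
  have := @RZ.eq_unfold.{0}
  have := @RZ.congr_simp.{0}
  have := @FZ.eq_1.{0}
  have := @FZ.eq_def.{0}
  have := @FZ.eq_unfold.{0}
  have := @FZ.congr_simp.{0}
  have := @rad.eq_1
  have := @rad.eq_def
  have := @rad.eq_unfold
  have := @rad.congr_simp
  trivial

end Crest.Agent.R147
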