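import Crest.Agent.R147.StSteer2
import Crest.Agent.R147.StRen

/-! Row 147, module A2: the final statement (helper46). -/

set_option autoImplicit false

open Crest.ProbabilityR.Percolation

namespace Crest.Agent.R147

variable {V : Type*} [Countable V] [DecidableEq V] {G : SimpleGraph V} [G.LocallyFinite]

theorem stmtA2' (hconn : G.Connected) (hqt : IsQuasiTransitive G) : StmtA2 G := by
  obtain ⟨D, -, hD⟩ := R159.exists_degree_bound hqt
  have := hconn.nonempty
  exact stmtA2_of_ren hconn hqt (renorm hD)

end Crest.Agent.R147
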