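import Crest.Agent.R147.Defs

/-! Row 147, module A2: the interface between steering and renormalisation (helper29). -/

set_option autoImplicit false

open MeasureTheory ProbabilityTheory Set
open scoped ENNReal NNReal

namespace Crest.Agent.R147
open Crest.Agent.R159

variable {V : Type*} (G : SimpleGraph V) [DecidableEq V] [G.LocallyFinite]

/-- The finite domain of a move that starts at `c`. -/
def Box (al be : V → ℤ) (c : V) (u R : ℕ) : Finset V :=
  (ball G R {c}).filter fun x => |al x - al c| ≤ 9 * (u : ℤ) ∧ |be x - be c| ≤ 9 * (u : ℤ)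

/-- The landing set of a move: `al` goes up, `be` goes down, the sum goes up. -/
def Land (al be : V → ℤ) (c : V) (u : ℕ) : Set V :=
  {x | (u : ℤ) ≤ al x - al c ∧ be x - be c ≤ -(u : ℤ) ∧ (u : ℤ) ≤ (al x - al c) + (be x - be c)}

/-- The seed `ball m c` misses the set `T` inside the finite set `U`. -/
def Miss (m : ℕ) (c : V) (T : Set V) (U : Finset V) : Set (Set (Sym2 V)) :=
  {ω | ¬ ∃ a ∈ ball G m {c}, ∃ t ∈ T, conn G (↑U)ᶜ ω a t}

/-- Two likely moves from every point of an `R0`-dense set. -/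
def Moves (q : unitInterval) (d : ℝ≥0∞) (m R0 R : ℕ) (al be : V → ℤ) (u lam : ℕ) : Prop :=
  (∀ x y, G.Adj x y → |al x - al y| ≤ (lam : ℤ) ∧ |be x - be y| ≤ (lam : ℤ)) ∧
  ∃ S : Set V, (∀ x, ∃ c ∈ S, c ∈ ball G R0 {x}) ∧ ∀ c ∈ S,
    P G q (Miss G m c (Land al be c u) (Box G al be c u R)) ≤ d ∧
    P G q (Miss G m c (Land be al c u) (Box G al be c u R)) ≤ d

/-- The renormalisation statement (proved in `StRen.lean` as `renorm`). -/
def StmtRen : Prop :=
  ∃ d : ℝ≥0∞, 0 < d ∧ ∀ p1 p0 : unitInterval, 0 < p1 → p0 < 1 → ∀ m R0 : ℕ, ∃ J : ℕ,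
    ∀ q : unitInterval, p1 ≤ q → q ≤ p0 → ∀ (R : ℕ) (al be : V → ℤ) (u lam : ℕ), 0 < u →
      lam * J ≤ u → Moves G q d m R0 R al be u lam → Perc G q

theorem moves_anchor : True := by
  have := @Box.eq_1.{0}
  have := @Box.eq_def.{0}
  have := @Box.eq_unfold.{0}
  have := @Box.congr_simp.{0}
  have := @Land.eq_1.{0}
  have := @Land.eq_def.{0}
  have := @Land.eq_unfold.{0}
  have := @Land.congr_simp.{0}
  have := @Miss.eq_1.{0}
  have := @Miss.eq_def.{0}
  have := @Miss.eq_unfold.{0}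
  have := @Miss.congr_simp.{0}
  have := @Moves.eq_1.{0}
  have := @Moves.eq_def.{0}
  have := @Moves.eq_unfold.{0}
  have := @Moves.congr_simp.{0}
  have := @StmtRen.eq_1.{0}
  have := @StmtRen.eq_def.{0}
  have := @StmtRen.eq_unfold.{0}
  have := @StmtRen.congr_simp.{0}
  trivial

end Crest.Agent.R147
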