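import Crest.Agent.R147.StDefs

/-! Row 147, module A2: deterministic lemmas on coordinates. -/

set_option autoImplicit false

open MeasureTheory ProbabilityTheory Set Filter
open scoped ENNReal NNReal

namespace Crest.Agent.R147.St

open Crest.Agent.R159

variable {V : Type*} {G : SimpleGraph V}
  {π : V → ℤ × ℤ} {l C : ℕ}

theorem lin_self (o : V) (a b : ℝ) : lin π o a b o = 0 := by simp [lin]

theorem Dat.lin_adj (h : Dat G π l C) (o : V) (a b : ℝ) {u v : V} (huv : G.Adj u v) :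
    |lin π o a b v - lin π o a b u| ≤ (|a| + |b|) * l := by
  obtain ⟨h1, h2⟩ := h.lip u v huv
  have h1' : |((π v).1 : ℝ) - (π u).1| ≤ l := by exact_mod_cast h1
  have h2' : |((π v).2 : ℝ) - (π u).2| ≤ l := by exact_mod_cast h2
  have e : lin π o a b v - lin π o a b u =
      a * (((π v).1 : ℝ) - (π u).1) + b * (((π v).2 : ℝ) - (π u).2) := by
    simp only [lin]; ring
  rw [e, add_mul]
  refine (abs_add_le _ _).trans (add_le_add ?_ ?_) <;> rw [abs_mul]
  · exact mul_le_mul_of_nonneg_left h1' (abs_nonneg _)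
  · exact mul_le_mul_of_nonneg_left h2' (abs_nonneg _)

theorem lip_nbh {f : V → ℝ} {lam : ℝ} (h0 : 0 ≤ lam) (hf : ∀ u v, G.Adj u v → |f v - f u| ≤ lam)
    {r : ℕ} {u v : V} (hv : v ∈ nbh G r {u}) : |f v - f u| ≤ lam * r := by
  obtain ⟨w, hw⟩ := mem_nbh_singleton.1 hv
  have key : ∀ {x y : V} (w : G.Walk x y), |f y - f x| ≤ lam * w.length := by
    intro x y w
    induction w with
    | nil => simp
    | @cons x z y hxz w ih =>
      have e : f y - f x = (f y - f z) + (f z - f x) := by ring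
      rw [e, SimpleGraph.Walk.length_cons]
      push_cast
      have := hf x z hxz
      refine (abs_add_le _ _).trans ?_
      linarith
  exact (key w).trans (mul_le_mul_of_nonneg_left (by exact_mod_cast hw) h0)

theorem Dat.nav_iter (h : Dat G π l C) (v : V) {z : ℤ × ℤ} (hz : |z.1| + |z.2| = 1) (i : ℕ) :
    ∃ v' ∈ nbh G (C * i) {v}, π v' = π v + i • z := by
  induction i with
  | zero => exact ⟨v, self_mem_nbh _ _, by simp⟩
  | succ i ih =>
    obtain ⟨u, hu, e⟩ := ih
    obtain ⟨u', hu', e'⟩ := h.nav u z hz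
    refine ⟨u', nbh_trans hu hu', ?_⟩
    rw [e', e, succ_nsmul, add_assoc]

theorem Dat.reflect (h : Dat G π l C) : Dat G (fun v => (-(π v).1, (π v).2)) l C := by
  refine ⟨h.one_le_l, h.one_le_C, fun u v huv => ⟨?_, (h.lip u v huv).2⟩, fun v z hz => ?_⟩
  · have := (h.lip u v huv).1
    rwa [show -(π v).1 - -(π u).1 = -((π v).1 - (π u).1) by ring, abs_neg]
  · obtain ⟨v', hv', e⟩ := h.nav v (-z.1, z.2) (by simpa using hz)
    refine ⟨v', hv', ?_⟩
    rw [e]
    ext <;> simp [add_comm]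

theorem lin_reflect (o : V) (a b : ℝ) :
    lin (fun v => (-(π v).1, (π v).2)) o a b = lin π o (-a) b := by
  funext v
  simp only [lin]
  push_cast
  ring

/-- A walk that leaves `{|f| ≤ h - lam}` can be stopped inside `{|f| ≤ h}`. -/
theorem exit_walk {f : V → ℝ} {h lam : ℝ} (h0 : 0 ≤ lam)
    (hf : ∀ u v, G.Adj u v → |f v - f u| ≤ lam) {r : ℕ} {u v : V} (hu : |f u| ≤ h - lam)
    (hv : v ∈ nbh G r {u}) (hv' : h - lam < |f v|) :
    ∃ v', h - lam < |f v'| ∧ ∃ w : G.Walk u v', w.length ≤ r ∧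
      ∀ y ∈ w.support, |f y| ≤ h ∧ y ∈ nbh G r {u} := by
  classical
  have key : ∀ {u v : V} (w : G.Walk u v), |f u| ≤ h - lam → h - lam < |f v| →
      ∃ v', h - lam < |f v'| ∧ ∃ w' : G.Walk u v', w'.length ≤ w.length ∧
        ∀ y ∈ w'.support, |f y| ≤ h := by
    intro u v w
    induction w with
    | nil => exact fun h1 h2 => absurd h1 (not_le.2 h2)
    | @cons a b c hab w ih =>
      intro h1 h2
      by_cases hb : h - lam < |f b|
      · refine ⟨b, hb, SimpleGraph.Walk.cons hab SimpleGraph.Walk.nil, by simp, fun y hy => ?_⟩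
        have h3 := hf a b hab
        have h4 := abs_sub_abs_le_abs_sub (f b) (f a)
        simp only [SimpleGraph.Walk.support_cons, SimpleGraph.Walk.support_nil, List.mem_cons,
          List.not_mem_nil, or_false] at hy
        rcases hy with rfl | rfl <;> linarith
      · obtain ⟨v', h3, w', h4, h5⟩ := ih (not_lt.1 hb) h2
        refine ⟨v', h3, SimpleGraph.Walk.cons hab w', by simpa using h4, fun y hy => ?_⟩
        rw [SimpleGraph.Walk.support_cons, List.mem_cons] at hy
        rcases hy with rfl | hy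
        · linarith
        · exact h5 y hy
  obtain ⟨w, hw⟩ := mem_nbh_singleton.1 hv
  obtain ⟨v', h1, w', h2, h3⟩ := key w hu hv'
  exact ⟨v', h1, w', h2.trans hw, fun y hy => ⟨h3 y hy, mem_nbh_singleton.2
    ⟨w'.takeUntil y hy, (w'.length_takeUntil_le hy).trans (h2.trans hw)⟩⟩⟩

/-- A cluster of `par D f h` that misses the boundary layer is a cluster of `D`. -/
theorem cl_stay {D : Set V} {f : V → ℝ} {h lam : ℝ} (hf : ∀ u v, G.Adj u v → |f v - f u| ≤ lam)
    {a : V} (ha : |f a| ≤ h) {ω : Set (Sym2 V)} (hω : ω ∉ hit G (par D f h) {a} (lay D f h lam)) :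
    cl G Dᶜ ω a = cl G (par D f h)ᶜ ω a ∧ cl G Dᶜ ω a ⊆ {v | |f v| ≤ h - lam} := by
  have low : ∀ y, conn G (par D f h)ᶜ ω a y → |f y| ≤ h - lam := fun y hy => by
    have hy' : y ∈ par D f h := not_not.1 hy.right
    by_contra hc
    exact hω ⟨a, rfl, y, ⟨hy'.1, not_le.1 hc, hy'.2⟩, hy⟩
  have key : ∀ y, conn G Dᶜ ω a y → conn G (par D f h)ᶜ ω a y := fun y hy => by
    refine hy.ind (Q := fun y => conn G (par D f h)ᶜ ω a y)
      (conn_refl (not_not.2 ⟨not_not.1 hy.left, ha⟩)) fun x y _ hxy he hyD hQ => ?_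
    refine hQ.tail hxy he (not_not.2 ⟨not_not.1 hyD, ?_⟩)
    have h1 := low x hQ
    have h3 := hf x y hxy
    have h4 := abs_sub_abs_le_abs_sub (f y) (f x)
    show |f y| ≤ h
    linarith
  exact ⟨Subset.antisymm key fun y hy =>
    conn.mono hy (compl_subset_compl.2 inter_subset_left) Subset.rfl, fun y hy => low y (key y hy)⟩

/-- A cluster that climbs from `|f| ≤ h₀` above `h₀ + n lam` has `n` points at height `≤ h₀ + n lam`. -/
theorem climb {R : Set V} {f : V → ℝ} {h₀ lam : ℝ} (h0 : 0 < lam)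
    (hf : ∀ u v, G.Adj u v → |f v - f u| ≤ lam) {a b : V} {ω : Set (Sym2 V)} {n : ℕ}
    (hab : conn G R ω a b) (ha : |f a| ≤ h₀) (hb : h₀ + n * lam < |f b|) :
    (n : ℕ∞) ≤ (cl G R ω a ∩ {v | |f v| ≤ h₀ + n * lam}).encard := by
  induction n with
  | zero => simp
  | succ n ih =>
    push_cast at hb ⊢
    have hn : 0 ≤ (n : ℝ) * lam := by positivity
    have hb' : h₀ + n * lam < |f b| := by linarith
    obtain ⟨x, y, hy, hxy, -, hx, hyb⟩ := hab.first_entry {v | h₀ + n * lam < |f v|}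
      (show ¬ h₀ + n * lam < |f a| from not_lt.2 (by linarith)) hb'
    have hx' : |f x| ≤ h₀ + n * lam := not_lt.1 fun h => hx.right (Or.inr h)
    have h3 := hf x y hxy
    have h4 := abs_sub_abs_le_abs_sub (f y) (f x)
    have hnot : y ∉ cl G R ω a ∩ {v | |f v| ≤ h₀ + n * lam} := fun h =>
      (not_lt.2 (show |f y| ≤ h₀ + n * lam from h.2)) hy
    refine le_trans ?_ (encard_le_encard
      (s := insert y (cl G R ω a ∩ {v | |f v| ≤ h₀ + n * lam})) ?_)
    · rw [encard_insert_of_notMem hnot]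
      exact add_le_add_left (ih hb') _
    · rintro z (rfl | hz)
      · exact ⟨hab.trans hyb.symm, show |f z| ≤ _ by linarith⟩
      · exact ⟨hz.1, show |f z| ≤ _ by have : |f z| ≤ _ := hz.2; linarith⟩

end Crest.Agent.R147.St
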