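import Crest.Agent.R147.StKN
import Crest.Agent.R147.StExit

/-! Row 147, module A2: zero-one law and openness in the parameter. -/

set_option autoImplicit false

open MeasureTheory ProbabilityTheory Set Filter
open scoped ENNReal NNReal

namespace Crest.Agent.R147.St

open Crest.Agent.R159

variable {V : Type*} [Countable V] {G : SimpleGraph V} [G.LocallyFinite]

theorem pos_of_perc {p : unitInterval} (h : Perc G p) : 0 < p := by
  obtain ⟨x, hx⟩ := h
  refine pos_iff_ne_zero.2 ?_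
  rintro rfl
  have h1 := ae_cl_finite (G := G) (p := 0) (ne_top_of_le_ne_top ENNReal.one_ne_top chi_zero_le)
  have h3 := ae_iff.1 h1
  refine hx.ne' (measure_mono_null ?_ h3)
  intro ω hω hf
  exact hω (hf ∅ x)

theorem zero_one (hconn : G.Connected) {p : unitInterval} (h : Perc G p) (o : V) {ε : ℝ≥0∞}
    (hε : ε ≠ 0) : ∃ m, P G p (noinf G (nbh G m {o})) ≤ ε := by
  classical
  obtain ⟨m, hm⟩ := seed_inf hconn h o (pos_iff_ne_zero.2 hε)
  exact ⟨m, by rw [nbh_eq_ball]; exact hm⟩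

omit [Countable V] [G.LocallyFinite] in
theorem open_hit_lip (r q : unitInterval) (F : Finset (Sym2 V)) (hF : ∀ e ∈ F, e ∈ G.edgeSet)
    {E : Set (Set (Sym2 V))} (hE : MeasurableSet E) (dE : Dep (↑F) E) :
    P G q E ≤ P G (oplus r q) E + pe r * F.card := by
  rw [← P2_red G r q hE, ← P2_uni G r q hE]
  have hsub : red ⁻¹' E ⊆ uni ⁻¹' E ∪ ⋃ e ∈ F, blue ⁻¹' {ω | e ∈ ω} := by
    intro ω hω
    by_cases hb : ∃ e ∈ F, e ∈ blue ω
    · obtain ⟨e, he, hb⟩ := hb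
      exact Or.inr (mem_iUnion₂.2 ⟨e, he, hb⟩)
    · exact Or.inl (dE _ _ (fun e he => ⟨Or.inr, fun h => h.resolve_left fun h' => hb ⟨e, he, h'⟩⟩) hω)
  refine (measure_mono hsub).trans ((measure_union_le _ _).trans (add_le_add le_rfl ?_))
  refine (measure_biUnion_finset_le F _).trans (le_of_eq ?_)
  rw [Finset.sum_congr rfl fun e he => (P2_blue G r q (measurableSet_mem e)).trans
    (P_mem G r (hF e he)), Finset.sum_const, nsmul_eq_mul, mul_comm]

theorem open_hit {p : unitInterval} (h₀ : 0 < p) (h₁ : p < 1) (D A B : Set V) {δ : ℝ≥0∞}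
    (hδ : δ ≠ 0) (h : P G p (hit G D A B)ᶜ ≤ δ) :
    ∃ q₀ : unitInterval, q₀ < p ∧ ∀ q, q₀ ≤ q → P G q (hit G D A B)ᶜ ≤ 2 * δ := by
  classical
  rcases eq_or_ne δ ∞ with rfl | hT
  · exact ⟨0, h₀, fun q _ => by simp⟩
  have hδ2 : δ / 2 ≠ 0 := (ENNReal.half_pos hδ).ne'
  obtain ⟨S, hS, hc⟩ := exists_finset_hit (P G p) D A B
    (h.trans_lt (ENNReal.lt_add_right hT hδ2))
  set F : Finset (Sym2 V) := S.sym2.filter (· ∈ G.edgeSet) with hFd
  have hF : ∀ e ∈ F, e ∈ G.edgeSet := fun e he => (Finset.mem_filter.1 he).2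
  have dE : Dep (↑F) (hit G ↑S A B) := (dep_hit _ A B).mono fun e he =>
    Finset.mem_coe.2 (Finset.mem_filter.2 ⟨Finset.mem_sym2_iff.2 he.1, he.2⟩)
  obtain ⟨n, hn0, hn⟩ := ENNReal.exists_nnreal_pos_mul_lt (ENNReal.natCast_ne_top F.card) hδ2
  have hp0 : (0 : ℝ) < p := h₀
  have hp1 : (p : ℝ) < 1 := h₁
  let r : unitInterval := ⟨min (p : ℝ) n, le_min p.2.1 n.2, (min_le_left _ _).trans p.2.2⟩
  have hr0 : (0 : ℝ) < r := lt_min hp0 hn0
  have hrn : pe r ≤ n := by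
    rw [pe_eq_ofReal, ← ENNReal.ofReal_coe_nnreal]
    exact ENNReal.ofReal_le_ofReal (min_le_right _ _)
  obtain ⟨q₀, hq⟩ := exists_oplus (show r ≤ p from min_le_left (p : ℝ) n)
  have e : (p : ℝ) = r + q₀ - r * q₀ := by rw [← hq, coe_oplus]
  have hq1 : (q₀ : ℝ) < 1 := lt_of_le_of_ne q₀.2.2 fun h' => by rw [h'] at e; linarith
  refine ⟨q₀, show (q₀ : ℝ) < p by nlinarith [mul_pos hr0 (sub_pos.2 hq1)], fun q hqq => ?_⟩
  have mE := measurableSet_hit (G := G) ↑S A B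
  calc P G q (hit G D A B)ᶜ ≤ P G q (hit G ↑S A B)ᶜ :=
        measure_mono (compl_subset_compl.2 (hit_mono hS Subset.rfl Subset.rfl))
    _ ≤ P G q₀ (hit G ↑S A B)ᶜ := by
        rw [prob_compl_eq_one_sub mE, prob_compl_eq_one_sub mE]
        exact tsub_le_tsub_left (P_mono G hqq mE (isUpperSet_hit _ _ _)) _
    _ ≤ P G (oplus r q₀) (hit G ↑S A B)ᶜ + pe r * F.card :=
        open_hit_lip r q₀ F hF mE.compl dE.compl
    _ ≤ δ + δ / 2 + δ / 2 := by
        rw [hq]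
        exact add_le_add hc.le ((mul_le_mul' hrn le_rfl).trans hn.le)
    _ = 2 * δ := by rw [add_assoc, ENNReal.add_halves, two_mul]

end Crest.Agent.R147.St
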