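import Crest.Agent.R147.StEsc
import Crest.Agent.R147.StNav
import Crest.Agent.R147.StZero

/-! Row 147, module A2: the infinite cluster leaves strips and thin parallelograms. -/

set_option autoImplicit false

open MeasureTheory ProbabilityTheory Set Filter
open scoped ENNReal NNReal

namespace Crest.Agent.R147.St

open Crest.Agent.R159

variable {V : Type*} [Countable V] {G : SimpleGraph V} [G.LocallyFinite]
  {π : V → ℤ × ℤ} {l C d : ℕ} {p : unitInterval}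

theorem strip_exit_null (hd : ∀ v, G.degree v ≤ d) (h : Dat G π l C) (hp : 0 < p) (o a : V)
    (n : ℕ) : P G p {ω | cl G univᶜ ω a ⊆ {v | |lin π o 1 0 v| ≤ n} ∧
      (cl G univᶜ ω a).Infinite} = 0 := by
  by_contra hne
  have hpe : pe p ≠ 0 := by
    rw [pe_eq_ofReal]
    exact (ENNReal.ofReal_pos.2 hp).ne'
  obtain ⟨k, hk⟩ := ENNReal.exists_nat_mul_gt (mul_ne_zero (pow_ne_zero (C * (2 * n + 1)) hpe) hne)
    (ENNReal.natCast_ne_top ((d + 1) ^ (2 * (C * (2 * n + 1)))))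
  refine hk.not_ge (le_trans ?_ (esc hd p (D := univ) (W := {v | |lin π o 1 0 v| ≤ n})
    (S := {v | |lin π o 1 0 v| ≤ n}) (fun u hu => ?_) a k))
  · refine mul_le_mul_right (mul_le_mul_right (measure_mono ?_) _) _
    rintro ω ⟨h1, h2⟩
    refine ⟨h1, ?_⟩
    rw [inter_eq_left.2 h1, h2.encard_eq]
    exact le_top
  · obtain ⟨v, hv, e⟩ := h.nav_iter u (z := (1, 0)) (by simp) (2 * n + 1)
    obtain ⟨w, hw⟩ := mem_nbh_singleton.1 hv
    refine ⟨v, fun hv' => ?_, w, hw, fun _ _ => trivial⟩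
    have h1 : lin π o 1 0 v = lin π o 1 0 u + (2 * n + 1) := by
      have e1 : (π v).1 = (π u).1 + (2 * n + 1) := by rw [e]; simp
      simp only [lin, e1]
      push_cast
      ring
    have h2 := (abs_le.1 (show |lin π o 1 0 u| ≤ n from hu)).1
    have h3 := (abs_le.1 (show |lin π o 1 0 v| ≤ n from hv')).2
    linarith

theorem strip_exit (hd : ∀ v, G.degree v ≤ d) (h : Dat G π l C) (hp : 0 < p) (o : V) {m n : ℕ}
    (hn : l * m ≤ n) :
    P G p (hit G (par univ (lin π o 1 0) n) (nbh G m {o}) (lay univ (lin π o 1 0) n l))ᶜ ≤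
      P G p (noinf G (nbh G m {o})) := by
  have hf : ∀ u v, G.Adj u v → |lin π o 1 0 v - lin π o 1 0 u| ≤ l := fun u v huv => by
    simpa using h.lin_adj o 1 0 huv
  have h0 : P G p (⋃ a ∈ nbh G m {o}, {ω | cl G univᶜ ω a ⊆ {v | |lin π o 1 0 v| ≤ n} ∧
      (cl G univᶜ ω a).Infinite}) = 0 :=
    (measure_biUnion_null_iff (to_countable _)).2 fun a _ => strip_exit_null hd h hp o a n
  rw [← add_zero (P G p (noinf G (nbh G m {o}))), ← h0]
  refine le_trans (measure_mono fun ω hω => ?_) (measure_union_le _ _)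
  refine or_iff_not_imp_left.2 fun hω' => ?_
  obtain ⟨a, ha'⟩ := not_forall.1 hω'
  obtain ⟨ha, hinf⟩ := Classical.not_imp.1 ha'
  have h1 := lip_nbh (Nat.cast_nonneg l) hf ha
  rw [lin_self, sub_zero] at h1
  have h2 := (cl_stay hf (h1.trans (by exact_mod_cast hn)) fun hh =>
    hω (hit_mono Subset.rfl (singleton_subset_iff.2 ha) Subset.rfl hh)).2
  refine mem_biUnion ha ⟨fun v hv => ?_, by rwa [compl_univ]⟩
  exact le_trans (b := (n : ℝ) - l) (h2 hv) (sub_le_self (n : ℝ) (Nat.cast_nonneg l))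

omit [Countable V] [G.LocallyFinite] in
theorem thin_exit_nav (h : Dat G π l C) (o : V) (Λ : ℕ) {n : ℕ} (hn : 1 ≤ n) (s : ℤ) {u : V}
    (hu : |lin π o (-s) n u| ≤ Λ * ((|(s : ℝ)| + n) * l) - (|(s : ℝ)| + n) * l) :
    ∃ v ∈ nbh G (C * (4 * Λ * l + 1)) {u},
      Λ * ((|(s : ℝ)| + n) * l) - (|(s : ℝ)| + n) * l < |lin π o (-s) n v| := by
  obtain ⟨z, hz, M, hM, h1, h2⟩ : ∃ z : ℤ × ℤ, |z.1| + |z.2| = 1 ∧ ∃ M : ℝ,
      -(s : ℝ) * z.1 + n * z.2 = M ∧ |(s : ℝ)| ≤ M ∧ (n : ℝ) ≤ M := by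
    rcases le_total |(s : ℝ)| n with hs | hs
    · exact ⟨(0, 1), by simp, n, by simp, hs, le_rfl⟩
    · rcases le_total 0 (s : ℝ) with h0 | h0
      · exact ⟨(-1, 0), by simp, |(s : ℝ)|, by simp [abs_of_nonneg h0], le_rfl, hs⟩
      · exact ⟨(1, 0), by simp, |(s : ℝ)|, by simp [abs_of_nonpos h0], le_rfl, hs⟩
  obtain ⟨v, hv, e⟩ := h.nav_iter u hz (4 * Λ * l + 1)
  refine ⟨v, hv, lt_of_lt_of_le ?_ (le_abs_self _)⟩
  have e2 : lin π o (-s) n v = lin π o (-s) n u + (4 * Λ * l + 1) * M := by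
    rw [← hM]
    simp only [lin, e, Prod.fst_add, Prod.snd_add, Prod.smul_fst, Prod.smul_snd]
    simp only [nsmul_eq_mul]
    push_cast
    ring
  have hn' : (1 : ℝ) ≤ n := by exact_mod_cast hn
  have h3 : (Λ : ℝ) * ((|(s : ℝ)| + n) * l) ≤ Λ * ((M + M) * l) := by gcongr
  have h4 : 0 ≤ (|(s : ℝ)| + n) * l := by positivity
  have h5 := (abs_le.1 hu).1
  rw [e2]
  linarith

omit [Countable V] [G.LocallyFinite] in
theorem thin_exit_card {x : V → ℝ} {lam h₀ N : ℝ} (h0 : 0 < lam)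
    (hx : ∀ u v, G.Adj u v → |x v - x u| ≤ lam) {a : V} {ω : Set (Sym2 V)} {k : ℕ}
    (ha : |x a| ≤ h₀) (hN : h₀ + k * lam ≤ N - lam) (hinf : (cl G ∅ ω a).Infinite) :
    (k : ℕ∞) ≤ (cl G (par univ x N)ᶜ ω a ∩ {v | |x v| ≤ h₀ + k * lam}).encard := by
  by_cases hb : ∃ b ∈ cl G (par univ x N)ᶜ ω a, h₀ + k * lam < |x b|
  · obtain ⟨b, hb, hb'⟩ := hb
    exact climb h0 hx hb ha hb'
  · push Not at hb
    have hk : 0 ≤ k * lam := by positivity
    have h1 := (cl_stay (D := univ) (h := N) hx (a := a) (ω := ω) (by linarith) (by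
      rintro ⟨_, rfl, b, hb', hc⟩
      linarith [hb b hc, hb'.2.1])).1
    rw [compl_univ] at h1
    rw [inter_eq_left.2 (show _ ⊆ {v | |x v| ≤ h₀ + k * lam} from hb), ← h1, hinf.encard_eq]
    exact le_top

theorem thin_exit (hd : ∀ v, G.degree v ≤ d) (h : Dat G π l C) (hp : 0 < p) (o : V) {m Λ : ℕ}
    (hΛ : m ≤ Λ) {ε : ℝ≥0∞} (hε : ε ≠ 0) : ∃ n₀ : ℕ, ∀ n : ℕ, n₀ ≤ n → ∀ s : ℤ,
      P G p (hit G (par (par univ (lin π o 1 0) n) (lin π o (-s) n) (Λ * ((|(s : ℝ)| + n) * l)))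
        (nbh G m {o}) (lay (par univ (lin π o 1 0) n) (lin π o (-s) n)
          (Λ * ((|(s : ℝ)| + n) * l)) ((|(s : ℝ)| + n) * l)))ᶜ ≤
      P G p (noinf G (nbh G m {o})) + ε := by
  classical
  set c := C * (4 * Λ * l + 1) with hc
  have hp' : pe p ^ c ≠ 0 := by
    refine pow_ne_zero _ ?_
    rw [pe_eq_ofReal]
    exact (ENNReal.ofReal_pos.2 (show (0 : ℝ) < p from hp)).ne'
  have hpt : pe p ^ c ≠ ∞ :=
    ENNReal.pow_ne_top (ne_top_of_le_ne_top ENNReal.one_ne_top (pe_le_one p))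
  obtain ⟨k, hk0, hk⟩ := ENNReal.exists_nat_pos_mul_gt
    (b := (((d + 1) ^ m * (d + 1) ^ (2 * c) : ℕ) : ℝ≥0∞)) (a := pe p ^ c * ε)
    (mul_ne_zero hp' hε) (ENNReal.natCast_ne_top _)
  refine ⟨l * (m + k + c + 1), fun n hn s => ?_⟩
  have hl : (1 : ℝ) ≤ l := by exact_mod_cast h.one_le_l
  have hn1 : 1 ≤ n := le_trans (Nat.mul_pos h.one_le_l (Nat.succ_pos _)) hn
  have hn' : (l : ℝ) * (m + k + c + 1) ≤ n := by exact_mod_cast hn
  have hx : ∀ u v, G.Adj u v → |lin π o 1 0 v - lin π o 1 0 u| ≤ l := fun u v huv => by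
    simpa using h.lin_adj o 1 0 huv
  have hf : ∀ u v, G.Adj u v →
      |lin π o (-s) n v - lin π o (-s) n u| ≤ (|(s : ℝ)| + n) * l := fun u v huv => by
    simpa using h.lin_adj o (-s) n huv
  have hnav := fun u => thin_exit_nav h o Λ hn1 s (u := u)
  have hlam : 0 ≤ (|(s : ℝ)| + n) * l := by positivity
  have hx0 := lin_self (π := π) o 1 0
  have hf0 := lin_self (π := π) o (-s) n
  generalize (|(s : ℝ)| + n) * l = lam at *
  generalize lin π o 1 0 = x at *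
  generalize lin π o (-s) n = f at *
  set W : Set V := {v | |f v| ≤ Λ * lam - lam} with hW
  set S : Set V := W ∩ {v | |x v| ≤ n - l * c} with hS
  set E : V → Set (Set (Sym2 V)) := fun a =>
    {ω | cl G (par univ x n)ᶜ ω a ⊆ W ∧ (k : ℕ∞) ≤ (cl G (par univ x n)ᶜ ω a ∩ S).encard} with hE
  have hb : ∀ a ∈ ball G m {o}, k * (pe p ^ c * P G p (E a)) ≤ ((d + 1) ^ (2 * c) : ℕ) := by
    refine fun a _ => esc hd p (fun u hu => ?_) a k
    obtain ⟨v, hv, hv'⟩ := hnav u hu.1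
    obtain ⟨w, hw⟩ := mem_nbh_singleton.1 hv
    refine ⟨v, not_le.2 hv', w, hw, fun y hy => ⟨mem_univ _, ?_⟩⟩
    have h1 : y ∈ nbh G c {u} :=
      mem_nbh_singleton.2 ⟨w.takeUntil y hy, (w.length_takeUntil_le_length hy).trans hw⟩
    have h2 := lip_nbh (by linarith) hx h1
    have h3 : |x u| ≤ n - l * c := hu.2
    have h4 := abs_sub_abs_le_abs_sub (x y) (x u)
    change |x y| ≤ n
    linarith
  have hsub : (hit G (par (par univ x n) f (Λ * lam)) (nbh G m {o})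
      (lay (par univ x n) f (Λ * lam) lam))ᶜ ⊆ noinf G (nbh G m {o}) ∪ ⋃ a ∈ ball G m {o}, E a := by
    intro ω hω
    by_cases hno : ω ∈ noinf G (nbh G m {o})
    · exact Or.inl hno
    obtain ⟨a, ha, hinf⟩ : ∃ a ∈ nbh G m {o}, (cl G ∅ ω a).Infinite := by
      by_contra h'
      exact hno fun a ha => not_not.1 fun h'' => h' ⟨a, ha, h''⟩
    have hxa := lip_nbh (by linarith) hx ha
    have hfa := lip_nbh hlam hf ha
    rw [hx0, sub_zero] at hxa
    rw [hf0, sub_zero] at hfa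
    have hm : (m : ℝ) ≤ Λ := by exact_mod_cast hΛ
    have h1 := (cl_stay (D := par univ x n) (h := Λ * lam) hf (a := a) (ω := ω)
      (by nlinarith) fun h' => hω (hit_mono Subset.rfl (singleton_subset_iff.2 ha) Subset.rfl h')).2
    have hc0 : 0 ≤ (l : ℝ) * c := by positivity
    have h2 := thin_exit_card (N := n) (k := k) (by linarith) hx hxa (by linarith) hinf
    refine Or.inr (mem_iUnion₂.2 ⟨a, by rwa [nbh_eq_ball] at ha, h1,
      h2.trans (encard_le_encard fun v hv => ⟨hv.1, h1 hv.1, ?_⟩)⟩)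
    have h3 : |x v| ≤ l * m + k * l := hv.2
    change |x v| ≤ n - l * c
    linarith
  refine (measure_mono hsub).trans ((measure_union_le _ _).trans (add_le_add le_rfl
    ((measure_biUnion_finset_le _ _).trans ?_)))
  have hk' : (k : ℝ≥0∞) ≠ 0 := by exact_mod_cast hk0.ne'
  refine (ENNReal.mul_le_mul_iff_right (mul_ne_zero hk' hp')
    (ENNReal.mul_ne_top (ENNReal.natCast_ne_top k) hpt)).1 ?_
  calc k * pe p ^ c * ∑ a ∈ ball G m {o}, P G p (E a)
      = ∑ a ∈ ball G m {o}, k * (pe p ^ c * P G p (E a)) := by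
        rw [Finset.mul_sum]; exact Finset.sum_congr rfl fun b _ => mul_assoc _ _ _
    _ ≤ (ball G m {o}).card • (((d + 1) ^ (2 * c) : ℕ) : ℝ≥0∞) :=
        Finset.sum_le_card_nsmul _ _ _ hb
    _ ≤ (((d + 1) ^ m * (d + 1) ^ (2 * c) : ℕ) : ℝ≥0∞) := by
        rw [nsmul_eq_mul, ← Nat.cast_mul]
        exact Nat.cast_le.2 (Nat.mul_le_mul_right _ (by simpa using card_ball_le hd m {o}))
    _ ≤ k * (pe p ^ c * ε) := hk.le
    _ = k * pe p ^ c * ε := (mul_assoc _ _ _).symm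

end Crest.Agent.R147.St
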