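import Crest.Agent.R147.StMoves
import Crest.Agent.R147.StCond

/-! Row 147, module A2: the corridor lemma (helper29). -/

set_option autoImplicit false

open MeasureTheory ProbabilityTheory Set
open scoped ENNReal NNReal

namespace Crest.Agent.R147
open Crest.Agent.R159

theorem bern_congr_of_dep {ι : Type*} {π π' : ι → unitInterval} {I : Set ι} {E : Set (Set ι)}
    (hE : MeasurableSet E) (dE : Dep I E) (h : ∀ i ∈ I, π i = π' i) : bern π E = bern π' E := by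
  have d' : Dep Iᶜᶜ E := by rwa [compl_compl]
  rw [← bern_fix_of_dep π ∅ hE d', ← bern_fix_of_dep π' ∅ hE d']
  congr 2
  funext i
  by_cases hi : i ∈ I
  · rw [fixπ_of_notMem _ _ (by simpa using hi), fixπ_of_notMem _ _ (by simpa using hi), h i hi]
  · simp [fixπ, hi]

variable {V : Type*} {G : SimpleGraph V}

theorem dep_conn_touch (U : Set V) (x y : V) : Dep (touch G U) {ω | conn G Uᶜ ω x y} :=
  fun _ ω' hω h => conn.ind (Q := fun y => conn G Uᶜ ω' x y) h (conn_refl h.1)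
    fun _ _ ha hab he hb ih =>
      ih.tail hab ((hω _ (mem_touch_of_adj hab (not_not.1 ha.right))).1 he) hb

theorem lip_walk {f : V → ℤ} {lam : ℕ} (h : ∀ x y, G.Adj x y → |f x - f y| ≤ (lam : ℤ))
    {x y : V} (w : G.Walk x y) : |f x - f y| ≤ (lam : ℤ) * w.length := by
  induction w with
  | nil => simp
  | @cons a b c hab w ih =>
    have h1 := h a b hab
    rw [SimpleGraph.Walk.length_cons]
    push_cast
    have := abs_sub_le (f a) (f b) (f c)
    linarith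

variable [DecidableEq V] [G.LocallyFinite]

theorem lip_ball {f : V → ℤ} {lam : ℕ} (h : ∀ x y, G.Adj x y → |f x - f y| ≤ (lam : ℤ))
    {x y : V} {k : ℕ} (hy : y ∈ ball G k {x}) : |f x - f y| ≤ (lam : ℤ) * k := by
  obtain ⟨w, hw⟩ := mem_ball_singleton.1 hy
  exact (lip_walk h w).trans (mul_le_mul_of_nonneg_left (by exact_mod_cast hw) (by positivity))

theorem ball_trans {x y z : V} {k l n : ℕ} (h1 : y ∈ ball G k {x}) (h2 : z ∈ ball G l {y})
    (h : k + l ≤ n) : z ∈ ball G n {x} := by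
  obtain ⟨w, hw⟩ := mem_ball_singleton.1 h1
  obtain ⟨w', hw'⟩ := mem_ball_singleton.1 h2
  exact mem_ball_singleton.2 ⟨w.append w', by rw [SimpleGraph.Walk.length_append]; omega⟩

theorem ball_mono_rad {x y : V} {k n : ℕ} (h1 : y ∈ ball G k {x}) (h : k ≤ n) :
    y ∈ ball G n {x} := by
  obtain ⟨w, hw⟩ := mem_ball_singleton.1 h1
  exact mem_ball_singleton.2 ⟨w, hw.trans h⟩

theorem mem_ball_set {B : Finset V} {k : ℕ} {y : V} (h : y ∈ ball G k B) :
    ∃ b ∈ B, y ∈ ball G k {b} := by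
  obtain ⟨b, hb, w, hw⟩ := mem_ball.1 h
  exact ⟨b, hb, mem_ball_singleton.2 ⟨w, hw⟩⟩

theorem miss_eq (m : ℕ) (c : V) (T : Set V) (U : Finset V) :
    Miss G m c T U = (Lk G (↑U)ᶜ ↑(ball G m {c}) T)ᶜ := rfl

theorem Lk_mono {R R' A A' B B' : Set V} (hR : R' ⊆ R) (hA : A ⊆ A')
    (hB : ∀ b ∈ B, b ∉ R → b ∈ B') : Lk G R A B ⊆ Lk G R' A' B' :=
  fun _ ⟨a, ha, b, hb, hc⟩ => ⟨a, hA ha, b, hB b hb hc.right, hc.mono hR Subset.rfl⟩

theorem box_swap (al be : V → ℤ) (c : V) (u R : ℕ) : Box G al be c u R = Box G be al c u R := by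
  unfold Box
  exact Finset.filter_congr fun x _ => and_comm

theorem Moves.swap {q : unitInterval} {d : ℝ≥0∞} {m R0 R : ℕ} {al be : V → ℤ} {u lam : ℕ}
    (h : Moves G q d m R0 R al be u lam) : Moves G q d m R0 R be al u lam := by
  obtain ⟨h1, S, h2, h3⟩ := h
  refine ⟨fun x y hxy => (h1 x y hxy).symm, S, h2, fun c hc => ?_⟩
  rw [box_swap be al]
  exact (h3 c hc).symm

theorem Moves.shift {q : unitInterval} {d : ℝ≥0∞} {m R0 R : ℕ} {al be : V → ℤ} {u lam : ℕ}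
    (h : Moves G q d m R0 R al be u lam) (a b : ℤ) :
    Moves G q d m R0 R (fun x => al x - a) (fun x => be x - b) u lam := by
  obtain ⟨h1, S, h2, h3⟩ := h
  refine ⟨fun x y hxy => by simpa using h1 x y hxy, S, h2, fun c hc => ?_⟩
  simpa [Box, Land] using h3 c hc

theorem Moves.mono {q : unitInterval} {d d' : ℝ≥0∞} {m R0 R : ℕ} {al be : V → ℤ} {u lam : ℕ}
    (h : Moves G q d m R0 R al be u lam) (hd : d ≤ d') : Moves G q d' m R0 R al be u lam := by
  obtain ⟨h1, S, h2, h3⟩ := h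
  exact ⟨h1, S, h2, fun c hc => ⟨(h3 c hc).1.trans hd, (h3 c hc).2.trans hd⟩⟩

variable (G)

/-- The conclusion of the target lemma. -/
def Tgt (δ κ : ℝ≥0∞) (p1 p0 : unitInterval) (m R0 J : ℕ) : Prop :=
  ∀ (π : Sym2 V → unitInterval) (U B : Finset V) (O T S : Set V),
    (∀ x, ∃ v ∈ S, v ∈ ball G R0 {x}) → ball G J B ⊆ U → (∀ o ∈ O, o ∉ ball G J B) →
    (∀ e ∈ touch G ↑(ball G J B), p1 ≤ π e ∧ π e ≤ p0) →
    (∀ v ∈ S, v ∈ ball G J B → bern π (Lk G (↑U)ᶜ ↑(ball G m {v}) T)ᶜ ≤ δ) →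
    bern π (Lk G (↑U)ᶜ O ↑B ∩ (Lk G (↑U)ᶜ O T)ᶜ) ≤ κ

/-- The `i`-th stage of the corridor. -/
def Stage (al be : V → ℤ) (u : ℕ) (o : V) (ρ i : ℕ) : Finset V :=
  (ball G ρ {o}).filter fun x =>
    -20 * (u : ℤ) + i * u ≤ 2 * (al x + be x) ∧ |be x| ≤ 10 * (u : ℤ) ∧ al x < 60 * (u : ℤ)

/-- The gate at the origin of the coordinates. -/
def Gate (al be : V → ℤ) (u : ℕ) (o : V) (ρ : ℕ) : Finset V :=
  (ball G ρ {o}).filter fun x =>
    |al x| ≤ 10 * (u : ℤ) ∧ |be x| ≤ 10 * (u : ℤ) ∧ -10 * (u : ℤ) ≤ al x + be x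

variable {G}

theorem corridor_step {δ κ : ℝ≥0∞} {p1 p0 q : unitInterval} {m R0 J R : ℕ} {al be : V → ℤ}
    {u lam : ℕ} (ht : Tgt G δ κ p1 p0 m R0 J) (h1 : p1 ≤ q) (h0 : q ≤ p0)
    (hJ : 4 * (lam * J) ≤ u) (hM : Moves G q δ m R0 R al be u lam)
    (π : Sym2 V → unitInterval) (U : Finset V) (O : Set V) (o : V) (ρ ρ' : ℕ)
    (hO : ∀ x ∈ O, 2 * (al x + be x) < -21 * (u : ℤ))
    (hU : ∀ x ∈ ball G ρ' {o}, al x ≤ 70 * (u : ℤ) → be x ≤ 20 * (u : ℤ) → x ∈ U)
    (hπ : ∀ e ∈ touch G {x | -30 * (u : ℤ) ≤ al x ∧ -30 * (u : ℤ) ≤ be x}, π e = q)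
    (hρ : ρ + (J + R) ≤ ρ') (i : ℕ) :
    bern π (Lk G (↑U)ᶜ O ↑(Stage G al be u o ρ i) ∩
      (Lk G (↑U)ᶜ O (↑(Stage G al be u o (ρ + (J + R)) (i + 1)) ∪
        ↑(Gate G (fun x => al x - 60 * u) be u o ρ')))ᶜ) ≤ κ := by
  classical
  obtain ⟨hl, S, hS, hm⟩ := hM
  have hJ' : 4 * ((lam : ℤ) * J) ≤ u := by exact_mod_cast hJ
  have hi : (0 : ℤ) ≤ i * u := by positivity
  have hu : (0 : ℤ) ≤ u := by positivity
  have near : ∀ x ∈ ball G J (Stage G al be u o ρ i), x ∈ ball G (ρ + J) {o} ∧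
      -20 * (u : ℤ) + i * u - u ≤ 2 * (al x + be x) ∧ 4 * |be x| ≤ 41 * (u : ℤ) ∧
      4 * al x < 241 * (u : ℤ) := by
    intro x hx
    obtain ⟨b, hb, hx⟩ := mem_ball_set hx
    obtain ⟨hb1, hb2, hb3, hb4⟩ := Finset.mem_filter.1 hb
    have a1 := abs_le.1 (lip_ball (fun x y h => (hl x y h).1) hx)
    have a2 := abs_le.1 (lip_ball (fun x y h => (hl x y h).2) hx)
    have a3 := abs_le.1 hb3
    refine ⟨ball_trans hb1 hx le_rfl, by linarith, ?_, by linarith⟩
    rcases abs_cases (be x) with h | h <;> linarith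
  refine ht π U _ O _ S hS (fun x hx => ?_) (fun x hx hx' => ?_) (fun e he => ?_)
    (fun v hv hv' => ?_)
  · obtain ⟨a1, -, a3, a4⟩ := near x hx
    have := le_abs_self (be x)
    exact hU x (ball_mono_rad a1 (by omega)) (by linarith) (by linarith)
  · have := hO x hx
    have := (near x hx').2.1
    linarith
  · rw [hπ e (touch_mono (fun x hx => ?_) he)]
    · exact ⟨h1, h0⟩
    · obtain ⟨-, a2, a3, -⟩ := near x hx
      have := le_abs_self (be x)
      have := neg_abs_le (be x)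
      exact ⟨by linarith, by linarith⟩
  · obtain ⟨a1, a2, a3, a4⟩ := near v hv'
    have b1 := le_abs_self (be v)
    have b2 := neg_abs_le (be v)
    have hbox : ∀ x ∈ Box G al be v u R, x ∈ ball G (ρ + (J + R)) {o} ∧
        (-(9 * (u : ℤ)) ≤ al x - al v ∧ al x - al v ≤ 9 * u) ∧
        (-(9 * (u : ℤ)) ≤ be x - be v ∧ be x - be v ≤ 9 * u) := by
      intro x hx
      obtain ⟨c1, c2, c3⟩ := Finset.mem_filter.1 hx
      exact ⟨ball_trans a1 c1 (by omega), abs_le.1 c2, abs_le.1 c3⟩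
    have key : ∀ L : Set V, P G q (Miss G m v L (Box G al be v u R)) ≤ δ →
        (∀ x ∈ L, x ∈ Box G al be v u R → |be x| ≤ 10 * (u : ℤ) ∧
          (u : ℤ) ≤ (al x - al v) + (be x - be v)) →
        bern π (Lk G (↑U)ᶜ ↑(ball G m {v}) (↑(Stage G al be u o (ρ + (J + R)) (i + 1)) ∪
          ↑(Gate G (fun x => al x - 60 * u) be u o ρ')))ᶜ ≤ δ := by
      intro L hL hL'
      have e : bern π (Miss G m v L (Box G al be v u R)) =
          P G q (Miss G m v L (Box G al be v u R)) := by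
        unfold P
        rw [setBer_eq_bern, miss_eq]
        refine bern_congr_of_dep (measurableSet_Lk G _ Subset.rfl _ _).compl
          (dep_Lk (dep_conn_touch _) _ _).compl fun e he => ?_
        rw [if_pos he.1]
        refine hπ e (touch_mono (fun x hx => ?_) he)
        obtain ⟨-, c2, c3⟩ := hbox x hx
        exact ⟨by linarith, by linarith⟩
      refine le_trans (measure_mono ?_) (e.trans_le hL)
      rw [miss_eq]
      refine compl_subset_compl.2 (Lk_mono (compl_subset_compl.2 fun x hx => ?_) Subset.rfl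
        fun x hx hx' => ?_)
      · obtain ⟨c1, c2, c3⟩ := hbox x hx
        exact hU x (ball_mono_rad c1 hρ) (by linarith) (by linarith)
      · have hx'' : x ∈ Box G al be v u R := not_not.1 hx'
        obtain ⟨c1, c2, c3⟩ := hbox x hx''
        obtain ⟨d1, d2⟩ := hL' x hx hx''
        have d3 := abs_le.1 d1
        by_cases hg : al x < 60 * (u : ℤ)
        · refine Or.inl (Finset.mem_coe.2 (Finset.mem_filter.2 ⟨c1, ?_, d1, hg⟩))
          push_cast
          linarith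
        · refine Or.inr (Finset.mem_coe.2 (Finset.mem_filter.2
            ⟨ball_mono_rad c1 hρ, abs_le.2 ⟨?_, ?_⟩, d1, ?_⟩)) <;> linarith
    by_cases hs : 0 ≤ be v
    · refine key _ (hm v hv).1 fun x hx hx' => ?_
      obtain ⟨-, c2, c3⟩ := hbox x hx'
      obtain ⟨d1, d2, d3⟩ := hx
      exact ⟨abs_le.2 ⟨by linarith, by linarith⟩, d3⟩
    · refine key _ (hm v hv).2 fun x hx hx' => ?_
      obtain ⟨-, c2, c3⟩ := hbox x hx'
      obtain ⟨d1, d2, d3⟩ := hx
      exact ⟨abs_le.2 ⟨by linarith, by linarith⟩, by linarith⟩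

theorem corridor {δ κ : ℝ≥0∞} {p1 p0 q : unitInterval} {m R0 J R : ℕ} {al be : V → ℤ}
    {u lam : ℕ} (ht : Tgt G δ κ p1 p0 m R0 J) (h1 : p1 ≤ q) (h0 : q ≤ p0)
    (hJ : 4 * (lam * J) ≤ u) (hM : Moves G q δ m R0 R al be u lam)
    (π : Sym2 V → unitInterval) (U : Finset V) (O : Set V) (o : V) (ρ ρ' : ℕ)
    (hO : ∀ x ∈ O, 2 * (al x + be x) < -21 * (u : ℤ))
    (hU : ∀ x ∈ ball G ρ' {o}, al x ≤ 70 * (u : ℤ) → be x ≤ 20 * (u : ℤ) → x ∈ U)
    (hπ : ∀ e ∈ touch G {x | -30 * (u : ℤ) ≤ al x ∧ -30 * (u : ℤ) ≤ be x}, π e = q)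
    (hρ : ρ + 160 * (J + R) ≤ ρ') (hu : 0 < u) :
    bern π (Lk G (↑U)ᶜ O ↑(Gate G al be u o ρ) ∩
      (Lk G (↑U)ᶜ O ↑(Gate G (fun x => al x - 60 * u) be u o ρ'))ᶜ) ≤ 160 * κ := by
  have hu' : (0 : ℤ) < u := by exact_mod_cast hu
  set N := (Lk G (↑U)ᶜ O ↑(Gate G (fun x => al x - 60 * u) be u o ρ'))ᶜ with hN
  have key : ∀ i : ℕ, i ≤ 160 → bern π (Lk G (↑U)ᶜ O ↑(Gate G al be u o ρ) ∩ N) ≤
      i * κ + bern π (Lk G (↑U)ᶜ O ↑(Stage G al be u o (ρ + i * (J + R)) i) ∩ N) := by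
    intro i
    induction i with
    | zero =>
      intro _
      simp only [Nat.cast_zero, zero_mul, zero_add, add_zero]
      refine measure_mono (inter_subset_inter_left _ (Lk_mono Subset.rfl Subset.rfl
        fun x hx _ => ?_))
      obtain ⟨c1, c2, c3, c4⟩ := Finset.mem_filter.1 (Finset.mem_coe.1 hx)
      have := abs_le.1 c2
      exact Finset.mem_coe.2 (Finset.mem_filter.2 ⟨c1, by push_cast; linarith, c3, by linarith⟩)
    | succ i ih =>
      intro hi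
      have hs := corridor_step ht h1 h0 hJ hM π U O o (ρ + i * (J + R)) ρ' hO hU hπ
        (by nlinarith) i
      have e : ρ + i * (J + R) + (J + R) = ρ + (i + 1) * (J + R) := by ring
      rw [e] at hs
      refine (ih (by omega)).trans ?_
      push_cast
      rw [add_mul, one_mul, add_assoc]
      gcongr
      refine le_trans (measure_mono fun ω hω => ?_)
        ((measure_union_le _ _).trans (add_le_add hs le_rfl))
      by_cases hc : ω ∈ Lk G (↑U)ᶜ O ↑(Stage G al be u o (ρ + (i + 1) * (J + R)) (i + 1))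
      · exact Or.inr ⟨hc, hω.2⟩
      · refine Or.inl ⟨hω.1, ?_⟩
        rintro ⟨a, ha, b, hb | hb, hab⟩
        · exact hc ⟨a, ha, b, hb, hab⟩
        · exact hω.2 ⟨a, ha, b, hb, hab⟩
  have h := key 160 le_rfl
  have e : Lk G (↑U)ᶜ O ↑(Stage G al be u o (ρ + 160 * (J + R)) 160) = ∅ := by
    refine eq_empty_of_forall_notMem ?_
    rintro ω ⟨a, -, b, hb, -⟩
    obtain ⟨-, c2, c3, c4⟩ := Finset.mem_filter.1 (Finset.mem_coe.1 hb)
    have := abs_le.1 c3
    push_cast at c2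
    linarith
  rw [e, empty_inter, measure_empty, add_zero] at h
  exact_mod_cast h

theorem ren1_anchor : True := by
  have := @Tgt.eq_1.{0}
  have := @Tgt.eq_def.{0}
  have := @Tgt.eq_unfold.{0}
  have := @Tgt.congr_simp.{0}
  have := @Stage.eq_1.{0}
  have := @Stage.eq_def.{0}
  have := @Stage.eq_unfold.{0}
  have := @Stage.congr_simp.{0}
  have := @Gate.eq_1.{0}
  have := @Gate.eq_def.{0}
  have := @Gate.eq_unfold.{0}
  have := @Gate.congr_simp.{0}
  trivial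

end Crest.Agent.R147
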