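import Crest.Agent.R147.StMoves
import Crest.Agent.R147.StExit

/-! Row 147, module A2, steering (helper46): the choice of the parallelogram. -/

set_option autoImplicit false

open MeasureTheory ProbabilityTheory Set Filter
open scoped ENNReal NNReal

namespace Crest.Agent.R147

open Crest.Agent.R159

variable {V : Type*} [DecidableEq V] (G : SimpleGraph V) [G.LocallyFinite]

/-- Probability that the seed misses `T` inside `U`. -/
noncomputable def sm (p : unitInterval) (m : ℕ) (a : V) (U T : Set V) : ℝ≥0∞ :=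
  P G p {ω | ¬ ∃ b ∈ ball G m {a}, ∃ t ∈ T, conn G Uᶜ ω b t}

/-- The output of the steering argument at the base point `a`. -/
def StOut (p : unitInterval) (m : ℕ) (a : V) (x : ℝ≥0∞) (J : ℕ) (E : (V → ℤ) → Prop) : Prop :=
  ∃ (R : ℕ) (al be : V → ℤ) (u lam : ℕ), E al ∧ E be ∧ 0 < u ∧ lam * J ≤ u ∧
    (∀ v w, G.Adj v w → |al v - al w| ≤ (lam : ℤ) ∧ |be v - be w| ≤ (lam : ℤ)) ∧
    P G p (Miss G m a (Land al be a u) (Box G al be a u R)) ≤ x ∧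
    P G p (Miss G m a (Land be al a u) (Box G al be a u R)) ≤ x

variable {G} {p : unitInterval} {m : ℕ} {a : V}

theorem sm_mono {U U' T T' : Set V} (hU : U ⊆ U') (hT : ∀ t ∈ T, t ∈ U → t ∈ T') :
    sm G p m a U' T' ≤ sm G p m a U T := by
  refine measure_mono fun ω hω h => hω ?_
  obtain ⟨b, hb, t, ht, h⟩ := h
  exact ⟨b, hb, t, hT t ht (not_not.1 h.right), h.mono (compl_subset_compl.2 hU) Subset.rfl⟩

theorem sm_meas [Countable V] (U T : Set V) :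
    MeasurableSet {ω | ¬ ∃ b ∈ ball G m {a}, ∃ t ∈ T, conn G Uᶜ ω b t} :=
  measurableSet_setOfPred.2 (Measurable.not (Measurable.exists fun b => Measurable.and
    measurable_const (Measurable.exists fun t => Measurable.and measurable_const
      (cn_measurable_conn (G := G) _ b t))))

theorem sm_lower (U T : Set V) :
    IsLowerSet {ω | ¬ ∃ b ∈ ball G m {a}, ∃ t ∈ T, conn G Uᶜ ω b t} := by
  rintro ω ω' h hω ⟨b, hb, t, ht, h'⟩
  exact hω ⟨b, hb, t, ht, h'.mono Subset.rfl h⟩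

theorem sm_or [Countable V] {U T : Set V} (T₁ T₂ : Set V) {x : ℝ≥0∞} {k : ℕ}
    (hT : ∀ t ∈ T, t ∈ U → t ∈ T₁ ∨ t ∈ T₂) (h : sm G p m a U T ≤ x ^ (2 * k)) :
    sm G p m a U T₁ ≤ x ^ k ∨ sm G p m a U T₂ ≤ x ^ k := by
  by_contra hc
  rw [not_or, not_le, not_le] at hc
  have h1 := ENNReal.mul_lt_mul hc.1 hc.2
  rw [← pow_add, ← two_mul] at h1
  refine absurd (h1.trans_le ((harris_P_lower G p (sm_meas U T₁) (sm_meas U T₂) (sm_lower U T₁)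
    (sm_lower U T₂)).trans (measure_mono ?_))) (not_lt.2 h)
  rintro ω ⟨h1, h2⟩ ⟨b, hb, t, ht, h'⟩
  rcases hT t ht (not_not.1 h'.right) with h3 | h3
  · exact h1 ⟨b, hb, t, h3, h'⟩
  · exact h2 ⟨b, hb, t, h3, h'⟩

/-- First exit from `W`. -/
theorem sm_exit {U U' T T' : Set V} (W : Set V) (hs : ∀ b ∈ ball G m {a}, b ∈ W)
    (h1 : ∀ v ∈ U, v ∈ W → v ∈ U') (h2 : ∀ v ∈ U, v ∈ W → ∀ w ∈ U, G.Adj v w → w ∈ U')
    (h3 : ∀ t ∈ T, t ∈ W → t ∈ T') (h4 : ∀ t, t ∉ W → t ∈ T') :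
    sm G p m a U' T' ≤ sm G p m a U T := by
  refine measure_mono fun ω hω h => hω ?_
  obtain ⟨b, hb, t, ht, h⟩ := h
  have key : (t ∈ W ∧ conn G U'ᶜ ω b t) ∨ ∃ z, z ∉ W ∧ conn G U'ᶜ ω b z := by
    refine h.ind (Q := fun t => (t ∈ W ∧ conn G U'ᶜ ω b t) ∨ ∃ z, z ∉ W ∧ conn G U'ᶜ ω b z)
      (Or.inl ⟨hs b hb, conn_refl fun h' => h' (h1 b (not_not.1 h.1) (hs b hb))⟩) ?_
    intro v w hv hvw he hw ih
    rcases ih with ⟨hvW, ih⟩ | ih
    · have := ih.tail hvw he fun h' => h' (h2 v (not_not.1 hv.right) hvW w (not_not.1 hw) hvw)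
      by_cases hwW : w ∈ W
      · exact Or.inl ⟨hwW, this⟩
      · exact Or.inr ⟨w, hwW, this⟩
    · exact Or.inr ih
  rcases key with ⟨h5, h6⟩ | ⟨z, h5, h6⟩
  · exact ⟨b, hb, t, h3 t ht h5, h6⟩
  · exact ⟨b, hb, z, h4 z h5, h6⟩

omit [DecidableEq V] [G.LocallyFinite] in
theorem st_lip_walk {X : V → ℤ} {L : ℤ} (hX : ∀ v w, G.Adj v w → |X v - X w| ≤ L) {v w : V}
    (γ : G.Walk v w) : |X v - X w| ≤ γ.length * L := by
  induction γ with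
  | nil => simp
  | @cons v y w h γ ih =>
    have h1 := hX v y h
    rw [SimpleGraph.Walk.length_cons]
    push_cast
    rw [abs_le] at *
    constructor <;> nlinarith [h1.1, h1.2, ih.1, ih.2]

theorem st_lip_ball {X : V → ℤ} {L : ℤ} (hL : 0 ≤ L) (hX : ∀ v w, G.Adj v w → |X v - X w| ≤ L)
    (h0 : X a = 0) {r : ℕ} {v : V} (hv : v ∈ ball G r {a}) : |X v| ≤ r * L := by
  obtain ⟨γ, hγ⟩ := mem_ball_singleton.1 hv
  have := st_lip_walk hX γ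
  rw [h0, zero_sub, abs_neg] at this
  exact this.trans (mul_le_mul_of_nonneg_right (by exact_mod_cast hγ) hL)

omit [DecidableEq V] [G.LocallyFinite] in
theorem st_lip_comb {X Y : V → ℤ} {L : ℤ} (hX : ∀ v w, G.Adj v w → |X v - X w| ≤ L)
    (hY : ∀ v w, G.Adj v w → |Y v - Y w| ≤ L) (A B : ℤ) (v w : V) (h : G.Adj v w) :
    |(A * X v + B * Y v) - (A * X w + B * Y w)| ≤ (|A| + |B|) * L := by
  have e : (A * X v + B * Y v) - (A * X w + B * Y w) = A * (X v - X w) + B * (Y v - Y w) := by ring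
  rw [e, add_mul]
  refine (abs_add_le _ _).trans (add_le_add ?_ ?_)
  · rw [abs_mul]; exact mul_le_mul_of_nonneg_left (hX v w h) (abs_nonneg _)
  · rw [abs_mul]; exact mul_le_mul_of_nonneg_left (hY v w h) (abs_nonneg _)

/-- Normal form of the two moves. -/
theorem st_nf {x : ℝ≥0∞} {J : ℕ} {E : (V → ℤ) → Prop}
    (hE : ∀ f g, E f → E g → ∀ A B : ℤ, E fun v => A * f v + B * g v) {ξ η : V → ℤ} (Eξ : E ξ)
    (Eη : E η) (ξ0 : ξ a = 0) (η0 : η a = 0) {Λ e : ℤ} (he : 0 ≤ e) (hΛ : 0 < Λ)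
    (hJ : (7 * J + 26) * e ≤ Λ) (hξ : ∀ v w, G.Adj v w → |ξ v - ξ w| ≤ e)
    (hη : ∀ v w, G.Adj v w → |η v - η w| ≤ e) {ρ : ℕ} {Q TD TT : Set V}
    (hQ : ∀ v ∈ Q, v ∈ ball G ρ {a} ∧ |ξ v| ≤ Λ + e ∧ |η v| ≤ Λ + e)
    (hD : ∀ t ∈ TD, t ∈ Q → Λ ≤ ξ t ∧ η t ≤ e) (hT : ∀ t ∈ TT, t ∈ Q → Λ ≤ η t ∧ -e ≤ ξ t)
    (mD : sm G p m a Q TD ≤ x) (mT : sm G p m a Q TT ≤ x) : StOut G p m a x J E := by
  have hJe : 0 ≤ (J : ℤ) * e := mul_nonneg (Int.natCast_nonneg J) he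
  obtain ⟨u, hu⟩ := Int.eq_ofNat_of_zero_le (show 0 ≤ Λ - 5 * e by nlinarith)
  obtain ⟨lam, hlam⟩ := Int.eq_ofNat_of_zero_le (show 0 ≤ 7 * e by omega)
  have hQB : Q ⊆ ↑(Box G (fun v => 3 * ξ v + -4 * η v) (fun v => -1 * ξ v + 5 * η v) a u ρ) := by
    intro v hv
    obtain ⟨h1, h2, h3⟩ := hQ v hv
    refine Finset.mem_coe.2 (Finset.mem_filter.2 ⟨h1, ?_⟩)
    simp only [ξ0, η0, ← hu]
    rw [abs_le] at h2 h3
    refine ⟨abs_le.2 ⟨?_, ?_⟩, abs_le.2 ⟨?_, ?_⟩⟩ <;> nlinarith [h2.1, h2.2, h3.1, h3.2]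
  refine ⟨ρ, fun v => 3 * ξ v + -4 * η v, fun v => -1 * ξ v + 5 * η v, u, lam, hE _ _ Eξ Eη _ _,
    hE _ _ Eξ Eη _ _, ?_, ?_, fun v w h => ⟨?_, ?_⟩, ?_, ?_⟩
  · have : (0 : ℤ) < u := by nlinarith
    exact_mod_cast this
  · have : (lam : ℤ) * J ≤ u := by rw [← hu, ← hlam]; nlinarith
    exact_mod_cast this
  · refine (st_lip_comb hξ hη 3 (-4) v w h).trans ?_
    rw [← hlam]; norm_num
  · refine (st_lip_comb hξ hη (-1) 5 v w h).trans ?_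
    rw [← hlam]; norm_num; omega
  · refine le_trans (sm_mono hQB fun t ht htQ => ?_) mD
    obtain ⟨h1, h2⟩ := hD t ht htQ
    obtain ⟨-, h3, h4⟩ := hQ t htQ
    rw [abs_le] at h3 h4
    simp only [Land, mem_ofPred_eq, ξ0, η0, ← hu]
    refine ⟨?_, ?_, ?_⟩ <;> nlinarith [h3.1, h3.2, h4.1, h4.2]
  · refine le_trans (sm_mono hQB fun t ht htQ => ?_) mT
    obtain ⟨h1, h2⟩ := hT t ht htQ
    obtain ⟨-, h3, h4⟩ := hQ t htQ
    rw [abs_le] at h3 h4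
    simp only [Land, mem_ofPred_eq, ξ0, η0, ← hu]
    refine ⟨?_, ?_, ?_⟩ <;> nlinarith [h3.1, h3.2, h4.1, h4.2]

/-- The splitting height. -/
theorem st_split [Countable V] {x : ℝ≥0∞} (hx : x ≤ 1) {Y : V → ℤ} {U T : Set V} {B : ℕ}
    (hB : ∀ v ∈ U, |Y v| ≤ B) (h : sm G p m a U T ≤ x ^ 16) :
    ∃ s : ℤ, sm G p m a U (T ∩ {v | s ≤ Y v}) ≤ x ^ 8 ∧ sm G p m a U (T ∩ {v | Y v ≤ s}) ≤ x ^ 8 := by
  classical
  have h8 : sm G p m a U T ≤ x ^ 8 := h.trans (pow_le_pow_right_of_le_one' hx (by norm_num))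
  have hex : ∃ j : ℕ, sm G p m a U (T ∩ {v | Y v ≤ (j : ℤ) - B}) ≤ x ^ 8 := by
    refine ⟨2 * B, le_trans (sm_mono Subset.rfl fun t ht htU => ⟨ht, ?_⟩) h8⟩
    have := (abs_le.1 (hB t htU)).2
    simp only [mem_ofPred_eq]
    push_cast
    omega
  refine ⟨(Nat.find hex : ℤ) - B, ?_, Nat.find_spec hex⟩
  rcases Nat.eq_zero_or_pos (Nat.find hex) with h0 | h0
  · refine le_trans (sm_mono Subset.rfl fun t ht htU => ⟨ht, ?_⟩) h8
    have := (abs_le.1 (hB t htU)).1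
    simp only [mem_ofPred_eq, h0]
    omega
  · have hn := Nat.find_min hex (m := Nat.find hex - 1) (by omega)
    refine (sm_or (k := 8) _ _ (fun t ht _ => ?_) h).resolve_right hn
    by_cases h1 : (Nat.find hex : ℤ) - B ≤ Y t
    · exact Or.inl ⟨ht, h1⟩
    · refine Or.inr ⟨ht, ?_⟩
      simp only [mem_ofPred_eq]
      omega

/-- The height of the parallelogram. -/
theorem st_height [Countable V] {x : ℝ≥0∞} (hx : x ≤ 1) {η : V → ℤ} {l H₁ : ℤ} (hl : 0 ≤ l)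
    (hη : ∀ v w, G.Adj v w → |η v - η w| ≤ l) {U T₁ T₂ : Set V} {B : ℕ}
    (hB : ∀ v ∈ U, |η v| ≤ B) (hH : 0 ≤ H₁) (hs : ∀ b ∈ ball G m {a}, |η b| ≤ H₁)
    (h₁ : sm G p m a U T₁ ≤ x ^ 8) (h₂ : sm G p m a U T₂ ≤ x ^ 8)
    (hZ : sm G p m a U {v | H₁ < |η v|} ≤ x ^ 4) :
    ∃ H : ℤ, H₁ ≤ H ∧ sm G p m a (U ∩ {v | |η v| ≤ H + l}) T₁ ≤ x ^ 4 ∧
      sm G p m a (U ∩ {v | |η v| ≤ H + l}) T₂ ≤ x ^ 4 ∧
      sm G p m a (U ∩ {v | |η v| ≤ H + l}) {v | H ≤ |η v|} ≤ x ^ 4 := by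
  classical
  have h84 : x ^ 8 ≤ x ^ 4 := pow_le_pow_right_of_le_one' hx (by norm_num)
  have hex : ∃ j : ℕ, sm G p m a (U ∩ {v | |η v| ≤ H₁ + j + l}) T₁ ≤ x ^ 4 ∧
      sm G p m a (U ∩ {v | |η v| ≤ H₁ + j + l}) T₂ ≤ x ^ 4 := by
    have hU : U ⊆ U ∩ {v | |η v| ≤ H₁ + B + l} := fun v hv => ⟨hv, by
      have := hB v hv
      simp only [mem_ofPred_eq]
      omega⟩
    exact ⟨B, ((sm_mono hU fun t ht _ => ht).trans h₁).trans h84,
      ((sm_mono hU fun t ht _ => ht).trans h₂).trans h84⟩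
  have hexit : ∀ (H : ℤ) (T T' : Set V), H₁ ≤ H → (∀ t ∈ T, |η t| ≤ H → t ∈ T') →
      (∀ t, H < |η t| → t ∈ T') →
      sm G p m a (U ∩ {v | |η v| ≤ H + l}) T' ≤ sm G p m a U T := by
    intro H T T' hH1 h3 h4
    refine sm_exit {v | |η v| ≤ H} (fun b hb => (hs b hb).trans hH1)
      (fun v hv hvW => ⟨hv, show |η v| ≤ H + l from le_trans hvW (by omega)⟩) (fun v _ hvW w hw hvw => ⟨hw, ?_⟩) h3
      fun t ht => h4 t (not_le.1 ht)
    have h5 := hη v w hvw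
    simp only [mem_ofPred_eq, abs_le] at hvW h5 ⊢
    omega
  refine ⟨H₁ + Nat.find hex, by omega, (Nat.find_spec hex).1, (Nat.find_spec hex).2, ?_⟩
  rcases Nat.eq_zero_or_pos (Nat.find hex) with h0 | h0
  · rw [h0, Nat.cast_zero, add_zero]
    exact (hexit H₁ _ _ le_rfl (fun t ht _ => le_of_lt ht) fun t ht => le_of_lt ht).trans hZ
  · obtain ⟨j, hj⟩ : ∃ j, Nat.find hex = j + 1 := ⟨Nat.find hex - 1, by omega⟩
    have hn := Nat.find_min hex (m := j) (by omega)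
    rw [hj]
    have key : ∀ T, sm G p m a U T ≤ x ^ 8 →
        sm G p m a (U ∩ {v | |η v| ≤ H₁ + j + l}) T ≤ x ^ 4 ∨
        sm G p m a (U ∩ {v | |η v| ≤ H₁ + j + l}) {v | H₁ + (j + 1 : ℕ) ≤ |η v|} ≤ x ^ 4 := by
      intro T hT
      refine sm_or (k := 4) (T := T ∪ {v | H₁ + (j + 1 : ℕ) ≤ |η v|}) _ _ (fun t ht _ => ht)
        ((hexit (H₁ + j) T _ (by omega) (fun t ht _ => Or.inl ht) fun t ht => Or.inr ?_).trans hT)
      simp only [mem_ofPred_eq]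
      push_cast
      omega
    have hZ' : sm G p m a (U ∩ {v | |η v| ≤ H₁ + j + l}) {v | H₁ + (j + 1 : ℕ) ≤ |η v|} ≤ x ^ 4 := by
      rcases key T₁ h₁ with k1 | k1
      · rcases key T₂ h₂ with k2 | k2
        · exact absurd ⟨k1, k2⟩ hn
        · exact k2
      · exact k1
    refine le_trans (sm_mono (fun v hv => ⟨hv.1, ?_⟩) fun t ht _ => ht) hZ'
    have := hv.2
    simp only [mem_ofPred_eq] at this ⊢
    push_cast
    omega

/-- The parallelogram with three likely sides gives the two moves. -/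
theorem st_core [Countable V] {x : ℝ≥0∞} (hx : x ≤ 1) {J : ℕ} {E : (V → ℤ) → Prop}
    (hE : ∀ f g, E f → E g → ∀ A B : ℤ, E fun v => A * f v + B * g v) {X Y : V → ℤ} (EX : E X)
    (EY : E Y) (X0 : X a = 0) (Y0 : Y a = 0) {L : ℕ}
    (hX : ∀ v w, G.Adj v w → |X v - X w| ≤ L) (hY : ∀ v w, G.Adj v w → |Y v - Y w| ≤ L)
    {n N₀ ρ : ℕ} (hn : 0 < n) (hN : 0 < N₀) (hnJ : 2 * (7 * J + 26) * L ≤ n)
    (hNJ : 2 * (7 * J + 26) * L ≤ N₀) (hm : m * L ≤ N₀)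
    (hR : sm G p m a (↑(ball G ρ {a}) ∩ {v | |X v| ≤ n + L}) {v | (n : ℤ) < X v} ≤ x ^ 16)
    (hZ : ∀ s : ℤ, sm G p m a (↑(ball G ρ {a}) ∩ {v | |X v| ≤ n + L})
      {v | N₀ * (n + |s|) < |-s * X v + n * Y v|} ≤ x ^ 4) : StOut G p m a x J E := by
  set U : Set V := ↑(ball G ρ {a}) ∩ {v | |X v| ≤ n + L} with hU
  have hL : (0 : ℤ) ≤ L := Int.natCast_nonneg L
  have hn' : (0 : ℤ) < n := by exact_mod_cast hn
  have hN' : (0 : ℤ) < N₀ := by exact_mod_cast hN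
  have hnJ' : 2 * (7 * (J : ℤ) + 26) * L ≤ n := by exact_mod_cast hnJ
  have hNJ' : 2 * (7 * (J : ℤ) + 26) * L ≤ N₀ := by exact_mod_cast hNJ
  have hm' : (m : ℤ) * L ≤ N₀ := by exact_mod_cast hm
  obtain ⟨s, hs1, hs2⟩ := st_split hx (Y := Y) (B := ρ * L)
    (fun v hv => by push_cast; exact st_lip_ball hL hY Y0 hv.1) hR
  obtain ⟨η, Eη, hηv⟩ : ∃ η : V → ℤ, E η ∧ ∀ v, η v = -s * X v + n * Y v :=
    ⟨_, hE _ _ EX EY (-s) n, fun _ => rfl⟩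
  obtain ⟨σ, hσ⟩ := Int.eq_ofNat_of_zero_le (abs_nonneg s)
  have hσ0 : (0 : ℤ) ≤ σ := Int.natCast_nonneg σ
  have hη : ∀ v w, G.Adj v w → |η v - η w| ≤ (n + σ) * L := by
    intro v w h
    have := st_lip_comb hX hY (-s) n v w h
    rwa [← hηv, ← hηv, abs_neg, hσ, abs_of_pos hn', add_comm] at this
  have η0 : η a = 0 := by rw [hηv, X0, Y0]; ring
  have hl : (0 : ℤ) ≤ (n + σ) * L := by positivity
  obtain ⟨H, hH, h1, h2, h3⟩ := st_height hx (η := η) (H₁ := N₀ * (n + σ)) hl hη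
    (B := ρ * ((n + σ) * L)) (fun v hv => by push_cast; exact st_lip_ball hl hη η0 hv.1)
    (by positivity) (fun b hb => (st_lip_ball hl hη η0 hb).trans (by nlinarith)) hs1 hs2
    (by simpa only [hηv, hσ] using hZ s)
  have hH0 : 0 < H := lt_of_lt_of_le (by positivity) hH
  set Q : Set V := U ∩ {v | |η v| ≤ H + (n + σ) * L} with hQ
  obtain ⟨f, Ef, hf⟩ : ∃ f : V → ℤ, E f ∧ ∀ v, f v = H * X v :=
    ⟨_, hE _ _ EX EY H 0, fun _ => by ring⟩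
  obtain ⟨g, Eg, hg⟩ : ∃ g : V → ℤ, E g ∧ ∀ v, g v = n * η v :=
    ⟨_, hE _ _ EX Eη 0 n, fun _ => by ring⟩
  obtain ⟨g', Eg', hg'⟩ : ∃ g' : V → ℤ, E g' ∧ ∀ v, g' v = -g v :=
    ⟨_, hE _ _ EX Eg 0 (-1), fun _ => by ring⟩
  obtain ⟨e, he⟩ : ∃ e : ℤ, e = H * L + n * ((n + σ) * L) := ⟨_, rfl⟩
  have e1 : 0 ≤ H * L := by positivity
  have e2 : 0 ≤ n * ((n + σ) * (L : ℤ)) := by positivity
  have he0 : 0 ≤ e := by omega
  have hΛ : 0 < n * H := by positivity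
  have hJ : (7 * J + 26) * e ≤ n * H := by
    have a1 : 2 * (7 * (J : ℤ) + 26) * L * H ≤ n * H := mul_le_mul_of_nonneg_right hnJ' hH0.le
    have a2 : 2 * (7 * (J : ℤ) + 26) * L * (n + σ) ≤ H :=
      (mul_le_mul_of_nonneg_right hNJ' (by positivity)).trans hH
    have a3 := mul_le_mul_of_nonneg_left a2 hn'.le
    rw [he]
    nlinarith
  have lf : ∀ v w, G.Adj v w → |f v - f w| ≤ e := fun v w h => by
    rw [hf, hf, ← mul_sub, abs_mul, abs_of_pos hH0]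
    exact (mul_le_mul_of_nonneg_left (hX v w h) hH0.le).trans (by omega)
  have lg : ∀ v w, G.Adj v w → |g v - g w| ≤ e := fun v w h => by
    rw [hg, hg, ← mul_sub, abs_mul, abs_of_pos hn']
    exact (mul_le_mul_of_nonneg_left (hη v w h) hn'.le).trans (by omega)
  have lg' : ∀ v w, G.Adj v w → |g' v - g' w| ≤ e := fun v w h => by
    rw [hg', hg', neg_sub_neg, abs_sub_comm]; exact lg v w h
  have f0 : f a = 0 := by rw [hf, X0, mul_zero]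
  have g0 : g a = 0 := by rw [hg, η0, mul_zero]
  have g0' : g' a = 0 := by rw [hg', g0, neg_zero]
  have bf : ∀ v ∈ Q, |f v| ≤ n * H + e := fun v hv => by
    rw [hf, abs_mul, abs_of_pos hH0]
    have := mul_le_mul_of_nonneg_left (show |X v| ≤ n + L from hv.1.2) hH0.le
    nlinarith
  have bg : ∀ v ∈ Q, |g v| ≤ n * H + e := fun v hv => by
    rw [hg, abs_mul, abs_of_pos hn']
    have := mul_le_mul_of_nonneg_left (show |η v| ≤ H + (n + σ) * L from hv.2) hn'.le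
    nlinarith
  have bg' : ∀ v ∈ Q, |g' v| ≤ n * H + e := fun v hv => by rw [hg', abs_neg]; exact bg v hv
  have bb : ∀ v ∈ Q, v ∈ ball G ρ {a} := fun v hv => hv.1.1
  have side : ∀ t ∈ Q, (n : ℤ) < X t → n * H ≤ f t ∧ |n * (s * (X t - n))| ≤ e := by
    intro t ht h
    have h' := (abs_le.1 (show |X t| ≤ n + L from ht.1.2)).2
    refine ⟨by rw [hf]; nlinarith, ?_⟩
    rw [abs_mul, abs_mul, abs_of_pos hn', hσ, abs_of_pos (sub_pos.2 h)]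
    have a1 : (σ : ℤ) * (X t - n) ≤ (n + σ) * L := by nlinarith
    have a2 := mul_le_mul_of_nonneg_left a1 hn'.le
    omega
  have tU : ∀ t ∈ {v | (n : ℤ) < X v} ∩ {v | s ≤ Y v}, t ∈ Q → n * H ≤ f t ∧ -e ≤ g t := by
    intro t ht htQ
    obtain ⟨a1, a2⟩ := side t htQ ht.1
    refine ⟨a1, ?_⟩
    have a3 : 0 ≤ (n : ℤ) * (n * (Y t - s)) :=
      mul_nonneg hn'.le (mul_nonneg hn'.le (sub_nonneg.2 ht.2))
    rw [hg, hηv]
    nlinarith [(abs_le.1 a2).2]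
  have tD : ∀ t ∈ {v | (n : ℤ) < X v} ∩ {v | Y v ≤ s}, t ∈ Q → n * H ≤ f t ∧ g t ≤ e := by
    intro t ht htQ
    obtain ⟨a1, a2⟩ := side t htQ ht.1
    refine ⟨a1, ?_⟩
    have a3 : 0 ≤ (n : ℤ) * (n * (s - Y t)) :=
      mul_nonneg hn'.le (mul_nonneg hn'.le (sub_nonneg.2 ht.2))
    rw [hg, hηv]
    nlinarith [(abs_le.1 a2).1]
  have cov : ∀ t, H ≤ |η t| → n * H ≤ g t ∨ n * H ≤ g' t := by
    intro t ht
    rw [hg', hg]
    rcases le_abs.1 ht with h | h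
    · exact Or.inl (mul_le_mul_of_nonneg_left h hn'.le)
    · exact Or.inr (by nlinarith)
  rcases sm_or (k := 2) {v | n * H ≤ g v} {v | n * H ≤ g' v} (fun t ht _ => cov t ht) h3 with
    h4 | h4
  · rcases sm_or (k := 1) {v | n * H ≤ g v ∧ 0 ≤ f v} {v | n * H ≤ g v ∧ f v ≤ 0}
      (fun t ht _ => (le_total 0 (f t)).imp (fun h => ⟨ht, h⟩) fun h => ⟨ht, h⟩) h4 with h5 | h5
    · rw [pow_one] at h5
      exact st_nf hE Ef Eg f0 g0 he0 hΛ hJ lf lg (fun v hv => ⟨bb v hv, bf v hv, bg v hv⟩) tD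
        (fun t ht _ => ⟨ht.1, by have := ht.2; omega⟩)
        (h2.trans (pow_le_of_le_one zero_le hx (by norm_num))) h5
    · rw [pow_one] at h5
      exact st_nf hE Eg Ef g0 f0 he0 hΛ hJ lg lf (fun v hv => ⟨bb v hv, bg v hv, bf v hv⟩)
        (fun t ht _ => ⟨ht.1, by have := ht.2; omega⟩) tU h5
        (h1.trans (pow_le_of_le_one zero_le hx (by norm_num)))
  · rcases sm_or (k := 1) {v | n * H ≤ g' v ∧ 0 ≤ f v} {v | n * H ≤ g' v ∧ f v ≤ 0}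
      (fun t ht _ => (le_total 0 (f t)).imp (fun h => ⟨ht, h⟩) fun h => ⟨ht, h⟩) h4 with h5 | h5
    · rw [pow_one] at h5
      exact st_nf hE Ef Eg' f0 g0' he0 hΛ hJ lf lg' (fun v hv => ⟨bb v hv, bf v hv, bg' v hv⟩)
        (fun t ht htQ => ⟨(tU t ht htQ).1, by have := (tU t ht htQ).2; rw [hg']; omega⟩)
        (fun t ht _ => ⟨ht.1, by have := ht.2; omega⟩)
        (h1.trans (pow_le_of_le_one zero_le hx (by norm_num))) h5
    · rw [pow_one] at h5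
      exact st_nf hE Eg' Ef g0' f0 he0 hΛ hJ lg' lf (fun v hv => ⟨bb v hv, bg' v hv, bf v hv⟩)
        (fun t ht _ => ⟨ht.1, by have := ht.2; omega⟩)
        (fun t ht htQ => ⟨(tD t ht htQ).1, by have := (tD t ht htQ).2; rw [hg']; omega⟩) h5
        (h2.trans (pow_le_of_le_one zero_le hx (by norm_num)))

end Crest.Agent.R147
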