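import Crest.Agent.R147.StSteer1

/-! Row 147, module A2, steering (helper46): from an equivariant map to the two moves. -/

set_option autoImplicit false

open MeasureTheory ProbabilityTheory Set Filter
open scoped ENNReal NNReal
open Crest.ProbabilityR.Percolation

namespace Crest.Agent.R147

open Crest.Agent.R159

variable {V : Type*} [DecidableEq V] {G : SimpleGraph V} [G.LocallyFinite]

/-- Increments of `f` are invariant under the automorphisms that translate `π`. -/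
def Eqv (G : SimpleGraph V) (π : V → ℤ × ℤ) (f : V → ℤ) : Prop :=
  ∀ (φ : G ≃g G) (t : ℤ × ℤ), Shifts G π φ t → ∀ v w, f (φ v) - f (φ w) = f v - f w

omit [DecidableEq V] [G.LocallyFinite] in
theorem Eqv.comb {π : V → ℤ × ℤ} (f g : V → ℤ) (hf : Eqv G π f) (hg : Eqv G π g) (A B : ℤ) :
    Eqv G π fun v => A * f v + B * g v := fun φ t h v w => by
  have h1 := hf φ t h v w
  have h2 := hg φ t h v w
  linear_combination A * h1 + B * h2

omit [DecidableEq V] in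
theorem st_pi_lip {π : V → ℤ × ℤ} {F : Finset V}
    (hF : ∀ v, ∃ (φ : G ≃g G) (t : ℤ × ℤ), Shifts G π φ t ∧ φ v ∈ F) :
    ∃ L : ℕ, ∀ v w, G.Adj v w → |(π v).1 - (π w).1| ≤ L ∧ |(π v).2 - (π w).2| ≤ L := by
  refine ⟨F.sup fun f => (G.neighborFinset f).sup fun w =>
    ((π f).1 - (π w).1).natAbs + ((π f).2 - (π w).2).natAbs, fun v w h => ?_⟩
  obtain ⟨φ, t, hφ, hv⟩ := hF v
  have h1 : ((π (φ v)).1 - (π (φ w)).1).natAbs + ((π (φ v)).2 - (π (φ w)).2).natAbs ≤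
      F.sup fun f => (G.neighborFinset f).sup fun w =>
        ((π f).1 - (π w).1).natAbs + ((π f).2 - (π w).2).natAbs :=
    le_trans (Finset.le_sup (f := fun w => ((π (φ v)).1 - (π w).1).natAbs +
      ((π (φ v)).2 - (π w).2).natAbs) ((G.mem_neighborFinset _ _).2 (φ.map_adj_iff.2 h)))
      (Finset.le_sup (f := fun f => (G.neighborFinset f).sup fun w =>
        ((π f).1 - (π w).1).natAbs + ((π f).2 - (π w).2).natAbs) hv)
  rw [hφ v, hφ w] at h1
  simp only [Prod.fst_add, Prod.snd_add, add_sub_add_right_eq_sub] at h1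
  rw [Int.abs_eq_natAbs, Int.abs_eq_natAbs]
  omega

omit [DecidableEq V] [G.LocallyFinite] in
theorem st_walk_bound (hconn : G.Connected) (F : Finset V) (k : V → V) :
    ∃ c : ℕ, ∀ f ∈ F, ∃ w : G.Walk f (k f), w.length ≤ c :=
  ⟨F.sup fun f => (hconn.preconnected f (k f)).some.length, fun f hf =>
    ⟨(hconn.preconnected f (k f)).some,
      Finset.le_sup (f := fun f => (hconn.preconnected f (k f)).some.length) hf⟩⟩

omit [DecidableEq V] [G.LocallyFinite] in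
theorem st_pi_walk (hconn : G.Connected) {π : V → ℤ × ℤ} {F : Finset V}
    (hF : ∀ v, ∃ (φ : G ≃g G) (t : ℤ × ℤ), Shifts G π φ t ∧ φ v ∈ F) (k : V → V) :
    ∃ c : ℕ, ∀ v, ∃ (φ : G ≃g G) (t : ℤ × ℤ), Shifts G π φ t ∧
      ∃ w : G.Walk v (φ.symm (k (φ v))), w.length ≤ c := by
  obtain ⟨c, hc⟩ := st_walk_bound hconn F k
  refine ⟨c, fun v => ?_⟩
  obtain ⟨φ, t, hφ, hv⟩ := hF v
  obtain ⟨w, hw⟩ := hc _ hv
  exact ⟨φ, t, hφ, (w.map φ.symm.toHom).copy (φ.symm_apply_apply v) rfl, by simpa using hw⟩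

omit [DecidableEq V] [G.LocallyFinite] in
theorem st_pi_move (hconn : G.Connected) {π : V → ℤ × ℤ} {F : Finset V}
    (hF : ∀ v, ∃ (φ : G ≃g G) (t : ℤ × ℤ), Shifts G π φ t ∧ φ v ∈ F)
    (hT : ∀ t : ℤ × ℤ, ∃ φ : G ≃g G, Shifts G π φ t) (t : ℤ × ℤ) :
    ∃ c : ℕ, ∀ v, ∃ u, π u = π v + t ∧ ∃ w : G.Walk v u, w.length ≤ c := by
  obtain ⟨ψ, hψ⟩ := hT t
  obtain ⟨c, hc⟩ := st_pi_walk hconn hF ψ
  refine ⟨c, fun v => ?_⟩
  obtain ⟨φ, s, hφ, w, hw⟩ := hc v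
  refine ⟨_, ?_, w, hw⟩
  rw [hφ.symm, hψ, hφ]
  abel

/-- Steering at the parameter `p`, at one base point. -/
theorem st_at [Countable V] (hconn : G.Connected) {d : ℕ} (hd : ∀ v, G.degree v ≤ d)
    {π : V → ℤ × ℤ} {F : Finset V}
    (hF : ∀ v, ∃ (φ : G ≃g G) (t : ℤ × ℤ), Shifts G π φ t ∧ φ v ∈ F)
    (hT : ∀ t : ℤ × ℤ, ∃ φ : G ≃g G, Shifts G π φ t) {p : unitInterval} (hθ : Perc G p) (a : V)
    {x : ℝ≥0∞} (hx0 : 0 < x) (hx : x ≤ 1) :
    ∃ m : ℕ, ∀ J : ℕ, StOut G p m a x J (Eqv G π) := by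
  obtain ⟨m, hm⟩ := seed_exit hconn hd hθ a (ENNReal.pow_pos hx0 32)
  obtain ⟨L, hL⟩ := st_pi_lip hF
  refine ⟨m, fun J => ?_⟩
  obtain ⟨X, hXv⟩ : ∃ X : V → ℤ, ∀ v, X v = (π v).1 - (π a).1 := ⟨_, fun _ => rfl⟩
  obtain ⟨Y, hYv⟩ : ∃ Y : V → ℤ, ∀ v, Y v = (π v).2 - (π a).2 := ⟨_, fun _ => rfl⟩
  have EX : Eqv G π X := fun φ t h v w => by
    simp only [hXv, h v, h w, Prod.fst_add]; ring
  have EY : Eqv G π Y := fun φ t h v w => by
    simp only [hYv, h v, h w, Prod.snd_add]; ring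
  have X0 : X a = 0 := by rw [hXv, sub_self]
  have Y0 : Y a = 0 := by rw [hYv, sub_self]
  have hX : ∀ v w, G.Adj v w → |X v - X w| ≤ L := fun v w h => by
    rw [hXv, hXv, sub_sub_sub_cancel_right]; exact (hL v w h).1
  have hY : ∀ v w, G.Adj v w → |Y v - Y w| ≤ L := fun v w h => by
    rw [hYv, hYv, sub_sub_sub_cancel_right]; exact (hL v w h).2
  have hL0 : (0 : ℤ) ≤ L := Int.natCast_nonneg L
  obtain ⟨N₀, hN₀⟩ : ∃ N₀ : ℕ, N₀ = 2 * (7 * J + 26) * L + m * L + 1 := ⟨_, rfl⟩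
  obtain ⟨c₁, hc₁⟩ := st_pi_move hconn hF hT (4 * N₀ + 1, 0)
  obtain ⟨c₂, hc₂⟩ := st_pi_move hconn hF hT (0, 4 * N₀ + 1)
  obtain ⟨ρ₂, hρ₂⟩ := hm (c₁ + c₂)
  obtain ⟨n, hn⟩ : ∃ n : ℕ, n = ρ₂ * L + N₀ := ⟨_, rfl⟩
  obtain ⟨c₃, hc₃⟩ := st_pi_move hconn hF hT (2 * n + 1, 0)
  obtain ⟨ρ₁, hρ₁⟩ := hm c₃
  have hN' : (0 : ℤ) < N₀ := by exact_mod_cast (by omega : 0 < N₀)
  have hn' : (0 : ℤ) < n := by exact_mod_cast (by omega : 0 < n)
  have hmiss : ∀ (ρ : ℕ) (W : Set V), sm G p m a ↑(ball G ρ {a}) Wᶜ =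
      P G p {ω | ¬ ∃ b ∈ ball G m {a}, ∃ u, u ∉ W ∧ conn G (↑(ball G ρ {a}))ᶜ ω b u} :=
    fun _ _ => rfl
  have hZ : ∀ s : ℤ, sm G p m a (↑(ball G (ρ₁ + ρ₂) {a}) ∩ {v | |X v| ≤ n + L})
      {v | N₀ * (n + |s|) < |-s * X v + n * Y v|} ≤ x ^ 4 := by
    intro s
    have h1 := hρ₂ {v | |-s * X v + n * Y v| ≤ N₀ * (n + |s|)} (by
      intro v hv
      simp only [mem_ofPred_eq, not_le] at hv ⊢
      obtain ⟨a1, a2⟩ := abs_le.1 hv
      rcases le_total |s| n with h | h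
      · obtain ⟨u, hu, w, hw⟩ := hc₂ v
        refine ⟨u, lt_abs.2 (Or.inl ?_), w, by omega⟩
        have e1 : X u = X v := by simp only [hXv, hu, Prod.fst_add]; ring
        have e2 : Y u = Y v + (4 * N₀ + 1) := by simp only [hYv, hu, Prod.snd_add]; ring
        rw [e1, e2]
        nlinarith
      · obtain ⟨u, hu, w, hw⟩ := hc₁ v
        refine ⟨u, lt_abs.2 ?_, w, by omega⟩
        have e1 : X u = X v + (4 * N₀ + 1) := by simp only [hXv, hu, Prod.fst_add]; ring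
        have e2 : Y u = Y v := by simp only [hYv, hu, Prod.snd_add]; ring
        rw [e1, e2]
        rcases abs_cases s with ⟨h1, -⟩ | ⟨h1, -⟩
        · right
          rw [h1] at h a1 a2 ⊢
          nlinarith
        · left
          rw [h1] at h a1 a2 ⊢
          nlinarith)
    rw [← hmiss] at h1
    have h2 := h1.trans (pow_le_pow_right_of_le_one' hx (show 4 ≤ 32 by norm_num))
    refine le_trans (sm_mono (fun v hv => ⟨ex_ball_mono (Nat.le_add_left _ _) hv, ?_⟩) ?_) h2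
    swap
    · intro t ht _
      simpa only [mem_compl_iff, mem_ofPred_eq, not_le] using ht
    have := st_lip_ball hL0 hX X0 (Finset.mem_coe.1 hv)
    simp only [mem_ofPred_eq, hn]
    push_cast
    omega
  have hS : sm G p m a (↑(ball G (ρ₁ + ρ₂) {a}) ∩ {v | |X v| ≤ n + L}) {v | |X v| ≤ n}ᶜ ≤
      x ^ (2 * 16) := by
    have h1 := hρ₁ {v | |X v| ≤ n} (by
      intro v hv
      simp only [mem_ofPred_eq, not_le] at hv ⊢
      obtain ⟨u, hu, w, hw⟩ := hc₃ v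
      refine ⟨u, lt_abs.2 (Or.inl ?_), w, hw⟩
      have e1 : X u = X v + (2 * n + 1) := by simp only [hXv, hu, Prod.fst_add]; ring
      have := (abs_le.1 hv).1
      omega)
    rw [← hmiss] at h1
    refine le_trans (sm_exit {v | |X v| ≤ n} (fun b hb => ?_)
      (fun v hv hvW => ⟨ex_ball_mono (Nat.le_add_right _ _) hv, ?_⟩)
      (fun v _ hvW w hw hvw => ⟨ex_ball_mono (Nat.le_add_right _ _) hw, ?_⟩)
      (fun t ht _ => ht) fun t ht => ht) h1
    · have := st_lip_ball hL0 hX X0 hb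
      have h2 : ((m * L : ℕ) : ℤ) ≤ n := by exact_mod_cast (by omega : m * L ≤ n)
      push_cast at h2
      exact this.trans h2
    · simp only [mem_ofPred_eq] at hvW ⊢
      omega
    · have h2 := hX v w hvw
      simp only [mem_ofPred_eq, abs_le] at hvW h2 ⊢
      omega
  rcases sm_or {v | (n : ℤ) < X v} {v | (n : ℤ) < -1 * X v + 0 * Y v} (fun t ht _ => by
    simp only [mem_compl_iff, mem_ofPred_eq, not_le, lt_abs] at ht ⊢
    omega) hS with h | h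
  · exact st_core hx Eqv.comb EX EY X0 Y0 hX hY (by omega) (by omega) (by omega) (by omega)
      (by omega) h hZ
  · have e : ∀ v, -1 * X v + 0 * Y v = -X v := fun v => by ring
    refine st_core hx Eqv.comb (Eqv.comb _ _ EX EY (-1) 0) EY (by rw [e, X0, neg_zero]) Y0
      (fun v w h => by rw [e, e, neg_sub_neg, abs_sub_comm]; exact hX v w h) hY (n := n)
      (N₀ := N₀) (ρ := ρ₁ + ρ₂) (by omega) (by omega) (by omega) (by omega) (by omega) ?_
      fun s => ?_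
    · simpa only [e, abs_neg] using h
    · have := hZ (-s)
      simpa only [e, abs_neg, neg_neg, neg_mul_neg] using this

omit [DecidableEq V] [G.LocallyFinite] in
/-- Local events are continuous in the parameter. -/
theorem st_cont (q r : unitInterval) {E : Set (Set (Sym2 V))} (hE : MeasurableSet E)
    (I : Finset (Sym2 V)) (hI : Dep (↑I) E) :
    P G q E ≤ P G (oplus q r) E + I.card * pe r := by
  rw [← P2_blue G q r hE, ← P2_uni G q r hE]
  have hsub : blue ⁻¹' E ⊆ uni ⁻¹' E ∪ ⋃ e ∈ I, red ⁻¹' {ω | e ∈ ω} := by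
    intro ω hω
    by_cases h : ∃ e ∈ I, e ∈ red ω
    · obtain ⟨e, he, h⟩ := h
      exact Or.inr (mem_iUnion₂.2 ⟨e, he, h⟩)
    · exact Or.inl (hI (blue ω) (uni ω) (fun e he => ⟨fun h' => Or.inl h',
        fun h' => h'.resolve_right fun h'' => h ⟨e, he, h''⟩⟩) hω)
  refine (measure_mono hsub).trans ((measure_union_le _ _).trans (add_le_add le_rfl
    ((measure_biUnion_finset_le _ _).trans ?_)))
  rw [← nsmul_eq_mul]
  refine Finset.sum_le_card_nsmul _ _ _ fun e _ => ?_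
  rw [P2_red G q r (measurableSet_mem e), P, setBer_eq_bern, bern_mem]
  split_ifs
  · exact le_rfl
  · simp

theorem miss_dep (m : ℕ) (c : V) (T : Set V) (U : Finset V) :
    Dep (↑U.sym2) (Miss G m c T U) := by
  rintro ω ω' hω h ⟨b, hb, t, ht, h'⟩
  refine h ⟨b, hb, t, ht, h'.ind (Q := fun t => conn G (↑U)ᶜ ω b t) (conn_refl h'.1) ?_⟩
  intro v w hv hvw he hw ih
  exact ih.tail hvw ((hω _ (Finset.mem_coe.2 (Finset.mk_mem_sym2_iff.2
    ⟨not_not.1 hv.right, not_not.1 hw⟩))).2 he) hw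

theorem st_ball_iso (φ : G ≃g G) {r : ℕ} {a v : V} (h : v ∈ ball G r {a}) :
    φ v ∈ ball G r {φ a} := by
  obtain ⟨w, hw⟩ := mem_ball_singleton.1 h
  exact mem_ball_singleton.2 ⟨w.map φ.toHom, by simpa using hw⟩

theorem miss_iso [Countable V] (q : unitInterval) (φ : G ≃g G) (m : ℕ) (a : V) {T T' : Set V}
    {U U' : Finset V} (hT : ∀ t ∈ T, φ t ∈ T') (hU : ∀ v ∈ U, φ v ∈ U') :
    P G q (Miss G m (φ a) T' U') ≤ P G q (Miss G m a T U) := by
  rw [cn_P_iso q φ (E := Miss G m (φ a) T' U') (sm_meas _ _)]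
  refine measure_mono ?_
  rintro ω hω ⟨b, hb, t, ht, h⟩
  refine hω ⟨φ b, st_ball_iso φ hb, φ t, hT t ht, (h.image_iso φ).mono (fun v hv => ?_) Subset.rfl⟩
  obtain ⟨w, rfl⟩ := φ.surjective v
  exact ⟨w, fun h' => hv (hU w h'), rfl⟩

/-- Steering: two likely moves at a smaller parameter. -/
theorem steer [Countable V] (hconn : G.Connected) (hqt : IsQuasiTransitive G) (hπ : HasPi G)
    {p : unitInterval} (hp1 : p < 1) (hθ : Perc G p) {d : ℝ≥0∞} (hd0 : 0 < d) :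
    ∃ p₁ : unitInterval, 0 < p₁ ∧ ∃ m R₀ : ℕ, ∀ J : ℕ, ∃ q : unitInterval, p₁ ≤ q ∧ q < p ∧
      ∃ (R : ℕ) (al be : V → ℤ) (u lam : ℕ), 0 < u ∧ lam * J ≤ u ∧
        Moves G q d m R₀ R al be u lam := by
  obtain ⟨π, F, hF, hT⟩ := hπ
  obtain ⟨D, -, hD⟩ := exists_degree_bound hqt
  obtain ⟨a⟩ := hconn.nonempty
  have hp0 : (0 : ℝ) < p := by
    refine lt_of_le_of_ne p.2.1 fun h => ?_
    obtain ⟨y, hy⟩ := hθ
    have h0 : p = 0 := Subtype.ext h.symm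
    have h1 := ae_cl_finite (G := G) (p := p) (by
      rw [h0]; exact ne_top_of_le_ne_top ENNReal.one_ne_top chi_zero_le)
    refine hy.ne' (measure_mono_null (fun ω hω => ?_) (ae_iff.1 h1))
    exact fun h' => hω (h' ∅ y)
  have hp1' : (p : ℝ) < 1 := hp1
  have hd2 : 0 < d / 2 := ENNReal.half_pos hd0.ne'
  obtain ⟨m, hm⟩ := st_at hconn hD hF hT hθ a (x := min (d / 2) 1) (lt_min hd2 one_pos)
    (min_le_right _ _)
  obtain ⟨R₀, hR₀⟩ := st_pi_walk hconn hF fun _ => a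
  refine ⟨⟨p / 2, by linarith, by linarith⟩, show (0 : ℝ) < p / 2 by linarith, m, R₀,
    fun J => ?_⟩
  obtain ⟨R, al, be, u, lam, Ea, Eb, hu, hJ, hlip, h1, h2⟩ := hm J
  obtain ⟨r', hr0, hr⟩ := ENNReal.exists_nnreal_pos_mul_lt
    (a := ((Box G al be a u R).sym2.card : ℝ≥0∞)) (b := d / 2) (ENNReal.natCast_ne_top _) hd2.ne'
  have hr0' : (0 : ℝ) < r' := hr0
  obtain ⟨r, hr1, hr2, hr3⟩ : ∃ r : unitInterval, (0 : ℝ) < r ∧ (r : ℝ) ≤ p / 2 ∧ (r : ℝ) ≤ r' :=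
    ⟨⟨min (p / 2) r', (lt_min (by linarith) hr0').le, (min_le_left _ _).trans (by linarith)⟩,
      lt_min (by linarith) hr0', min_le_left _ _, min_le_right _ _⟩
  have hr4 : (0 : ℝ) < 1 - r := by linarith
  obtain ⟨q, hq⟩ : ∃ q : unitInterval, (q : ℝ) = (p - r) / (1 - r) :=
    ⟨⟨(p - r) / (1 - r), div_nonneg (by linarith) hr4.le, (div_le_one hr4).2 (by linarith)⟩, rfl⟩
  have hqr : oplus q r = p := Subtype.ext (by rw [coe_oplus, hq]; field_simp; ring)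
  have hcont : ∀ T, P G p (Miss G m a T (Box G al be a u R)) ≤ min (d / 2) 1 →
      P G q (Miss G m a T (Box G al be a u R)) ≤ d := by
    intro T h
    refine (st_cont q r (sm_meas _ _) _ (miss_dep m a T _)).trans ?_
    rw [hqr, ← ENNReal.add_halves d]
    refine add_le_add (h.trans (min_le_left _ _)) (le_trans ?_ hr.le)
    rw [mul_comm]
    exact mul_le_mul' (ENNReal.coe_le_coe.2 hr3) le_rfl
  refine ⟨q, ?_, ?_, R, al, be, u, lam, hu, hJ, hlip,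
    {c | ∃ (φ : G ≃g G) (t : ℤ × ℤ), Shifts G π φ t ∧ φ a = c}, fun v => ?_, ?_⟩
  · show (p : ℝ) / 2 ≤ q
    rw [hq, le_div_iff₀ hr4]
    nlinarith
  · show (q : ℝ) < p
    rw [hq, div_lt_iff₀ hr4]
    nlinarith
  · obtain ⟨φ, t, hφ, w, hw⟩ := hR₀ v
    exact ⟨_, ⟨φ.symm, -t, hφ.symm, rfl⟩, mem_ball_singleton.2 ⟨w, hw⟩⟩
  · rintro c ⟨φ, t, hφ, rfl⟩
    have hB : ∀ v ∈ Box G al be a u R, φ v ∈ Box G al be (φ a) u R := by
      intro v hv
      obtain ⟨a1, a2⟩ := Finset.mem_filter.1 hv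
      refine Finset.mem_filter.2 ⟨st_ball_iso φ a1, ?_⟩
      rwa [Ea φ t hφ, Eb φ t hφ]
    refine ⟨(miss_iso q φ m a (fun v hv => ?_) hB).trans (hcont _ h1),
      (miss_iso q φ m a (fun v hv => ?_) hB).trans (hcont _ h2)⟩
    · simpa only [Land, mem_ofPred_eq, Ea φ t hφ, Eb φ t hφ] using hv
    · simpa only [Land, mem_ofPred_eq, Ea φ t hφ, Eb φ t hφ] using hv

/-- Module A2 from the renormalisation statement. -/
theorem stmtA2_of_ren [Countable V] (hconn : G.Connected) (hqt : IsQuasiTransitive G)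
    (hR : StmtRen G) : StmtA2 G := by
  intro hπ p hp1 hθ _
  obtain ⟨d, hd0, hR⟩ := hR
  obtain ⟨p₁, hp₁, m, R₀, h⟩ := steer hconn hqt hπ hp1 hθ hd0
  obtain ⟨J, hJ⟩ := hR p₁ p hp₁ hp1 m R₀
  obtain ⟨q, h1, h2, R, al, be, u, lam, hu, hl, hM⟩ := h J
  exact ⟨q, h2, hJ q h1 h2.le R al be u lam hu hl hM⟩

end Crest.Agent.R147
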