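import Crest.Agent.R147.StKN
import Crest.Agent.R147.StNav

/-! Row 147, module A2: choice of the splitting point and of the height. -/

set_option autoImplicit false

open MeasureTheory ProbabilityTheory Set Filter
open scoped ENNReal NNReal

namespace Crest.Agent.R147.St

open Crest.Agent.R159

variable {V : Type*} [Countable V] {G : SimpleGraph V}
  {p : unitInterval}

theorem miss_or {D S A B : Set V} {ε : ℝ≥0∞} (h : P G p (hit G D S (A ∪ B))ᶜ ≤ ε ^ 2) :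
    P G p (hit G D S A)ᶜ ≤ ε ∨ P G p (hit G D S B)ᶜ ≤ ε := by
  by_contra hc
  rw [not_or, not_le, not_le] at hc
  have h1 := harris_P_lower G p (measurableSet_hit (G := G) D S A).compl
    (measurableSet_hit (G := G) D S B).compl
    (isUpperSet_hit D S A).compl (isUpperSet_hit D S B).compl
  rw [← compl_union, ← hit_union] at h1
  have h2 := ENNReal.mul_lt_mul hc.1 hc.2
  rw [← pow_two] at h2
  exact absurd (h1.trans h) (not_le.2 h2)

theorem split_lim (D S R : Set V) (T : ℕ → Set V) (hT : Monotone T) (hR : ∀ v ∈ R, ∃ k, v ∈ T k)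
    {ε : ℝ≥0∞} (h : P G p (hit G D S R)ᶜ < ε) : ∃ k, P G p (hit G D S (T k))ᶜ ≤ ε := by
  have h1 := tendsto_measure_iInter_atTop (μ := P G p) (s := fun k => (hit G D S (T k))ᶜ)
    (fun k => (measurableSet_hit D S (T k)).compl.nullMeasurableSet)
    (fun k l hkl => compl_subset_compl.2 (hit_mono Subset.rfl Subset.rfl (hT hkl)))
    ⟨0, measure_ne_top _ _⟩
  have h2 : P G p (⋂ k, (hit G D S (T k))ᶜ) < ε := by
    refine lt_of_le_of_lt (measure_mono fun ω hω => ?_) h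
    rintro ⟨a, ha, b, hb, hc⟩
    obtain ⟨k, hk⟩ := hR b hb
    exact mem_iInter.1 hω k ⟨a, ha, b, hk, hc⟩
  obtain ⟨k, hk⟩ := (h1.eventually (gt_mem_nhds h2)).exists
  exact ⟨k, le_of_lt hk⟩

theorem split (D S R : Set V) (y : V → ℤ) {ε : ℝ≥0∞} (h0 : ε ≠ 0) (h1 : ε < 1)
    (h : P G p (hit G D S R)ᶜ ≤ ε ^ 2) : ∃ s : ℤ,
      P G p (hit G D S (R ∩ {v | s ≤ y v}))ᶜ ≤ ε ∧ P G p (hit G D S (R ∩ {v | y v ≤ s}))ᶜ ≤ ε := by
  have hlt : P G p (hit G D S R)ᶜ < ε := by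
    refine h.trans_lt ?_
    rw [pow_two]
    calc ε * ε < ε * 1 := (ENNReal.mul_lt_mul_iff_right h0 h1.ne_top).2 h1
      _ = ε := mul_one ε
  obtain ⟨k0, hk0⟩ := split_lim D S R (fun k => R ∩ {v | y v ≤ k})
    (fun k l hkl v hv => ⟨hv.1, le_trans (b := (k : ℤ)) hv.2 (Int.ofNat_le.2 hkl)⟩)
    (fun v hv => ⟨(y v).natAbs, hv, Int.le_natAbs⟩) hlt
  obtain ⟨k1, hk1⟩ := split_lim D S R (fun k => R ∩ {v | -(k : ℤ) ≤ y v})
    (fun k l hkl v hv => ⟨hv.1, le_trans (b := -(k : ℤ)) (neg_le_neg (Int.ofNat_le.2 hkl)) hv.2⟩)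
    (fun v hv => ⟨(y v).natAbs, hv, by
      show -(((y v).natAbs : ℕ) : ℤ) ≤ y v
      omega⟩) hlt
  obtain ⟨s, ⟨hs1, hs2⟩, hmin⟩ := Int.exists_least_of_bdd
    (P := fun s : ℤ => -(k1 : ℤ) ≤ s ∧ P G p (hit G D S (R ∩ {v | y v ≤ s}))ᶜ ≤ ε)
    ⟨-(k1 : ℤ), fun z hz => hz.1⟩ ⟨k0, by omega, hk0⟩
  refine ⟨s, ?_, hs2⟩
  rcases hs1.eq_or_lt with he | hl
  · rw [← he]; exact hk1
  · have hR : R = (R ∩ {v | s ≤ y v}) ∪ (R ∩ {v | y v ≤ s - 1}) := by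
      ext v
      simp only [mem_union, mem_inter_iff, mem_ofPred_eq]
      constructor
      · intro hv
        by_cases hy : s ≤ y v
        · exact Or.inl ⟨hv, hy⟩
        · exact Or.inr ⟨hv, by omega⟩
      · rintro (hv | hv) <;> exact hv.1
    rw [hR] at h
    rcases miss_or h with h' | h'
    · exact h'
    · have := hmin (s - 1) ⟨by omega, h'⟩
      omega

theorem height_ev {D S U : Set V} {lam : ℝ} (hl : 0 < lam) (f : V → ℝ) {ε : ℝ≥0∞} (h0 : ε ≠ 0)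
    (h1 : ε < 1) (hU : P G p (hit G D S U)ᶜ ≤ ε ^ 2) :
    ∀ᶠ j : ℕ in atTop, P G p (hit G (par D f (j * lam)) S U)ᶜ ≤ ε := by
  have hlt : ε ^ 2 < ε := by
    rw [sq]
    conv_rhs => rw [← mul_one ε]
    exact ENNReal.mul_lt_mul_right h0 h1.ne_top h1
  obtain ⟨T, hT, hP⟩ := exists_finset_hit (P G p) D S U (hU.trans_lt hlt)
  have hev : ∀ᶠ j : ℕ in atTop, ∀ v ∈ T, |f v| ≤ j * lam :=
    (eventually_all_finset T).2 fun v _ =>
      (tendsto_natCast_atTop_atTop.atTop_mul_const hl).eventually_ge_atTop _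
  filter_upwards [hev] with j hj
  refine le_trans (measure_mono (compl_subset_compl.2 (hit_mono ?_ Subset.rfl Subset.rfl))) hP.le
  exact fun v hv => ⟨hT hv, hj v hv⟩

theorem height_step {D S U : Set V} {f : V → ℝ} {lam h : ℝ}
    (hf : ∀ u v, G.Adj u v → |f v - f u| ≤ lam) (hS : ∀ a ∈ S, |f a| ≤ h) {ε : ℝ≥0∞}
    (hU : P G p (hit G D S U)ᶜ ≤ ε ^ 2)
    (hc : ¬ P G p (hit G (par D f h) S (lay D f h lam))ᶜ ≤ ε) :
    P G p (hit G (par D f h) S U)ᶜ ≤ ε := by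
  by_contra hc'
  have hsub : (hit G (par D f h) S U)ᶜ ∩ (hit G (par D f h) S (lay D f h lam))ᶜ ⊆
      (hit G D S U)ᶜ := by
    rintro ω ⟨h1, h2⟩ ⟨a, ha, b, hb, hab⟩
    have hst := (cl_stay (D := D) hf (hS a ha) (ω := ω) fun h' =>
      h2 (hit_mono Subset.rfl (singleton_subset_iff.2 ha) Subset.rfl h')).1
    have hb' : b ∈ cl G (par D f h)ᶜ ω a := hst ▸ hab
    exact h1 ⟨a, ha, b, hb, hb'⟩
  have hh := (harris_P_lower G p (measurableSet_hit _ _ _).compl (measurableSet_hit _ _ _).compl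
    (isUpperSet_hit _ _ _).compl (isUpperSet_hit _ _ _).compl).trans
    ((measure_mono hsub).trans hU)
  rw [sq] at hh
  exact absurd hh (not_le.2 (ENNReal.mul_lt_mul (not_le.1 hc') (not_le.1 hc)))
theorem height {D S U U' : Set V} {f : V → ℝ} {lam : ℝ} (hl : 0 < lam)
    (hf : ∀ u v, G.Adj u v → |f v - f u| ≤ lam) {Λ : ℕ} (hS : ∀ a ∈ S, |f a| ≤ Λ * lam)
    {ε : ℝ≥0∞} (h0 : ε ≠ 0) (h1 : ε < 1) (hU : P G p (hit G D S U)ᶜ ≤ ε ^ 2)
    (hU' : P G p (hit G D S U')ᶜ ≤ ε ^ 2)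
    (hT : P G p (hit G (par D f (Λ * lam)) S (lay D f (Λ * lam) lam))ᶜ ≤ ε) :
    ∃ j j' : ℕ, Λ ≤ j' ∧ j' ≤ j ∧ j ≤ j' + 1 ∧ P G p (hit G (par D f (j * lam)) S U)ᶜ ≤ ε ∧
      P G p (hit G (par D f (j * lam)) S U')ᶜ ≤ ε ∧
      P G p (hit G (par D f (j' * lam)) S (lay D f (j' * lam) lam))ᶜ ≤ ε := by
  classical
  have hex : ∃ j : ℕ, Λ ≤ j ∧ P G p (hit G (par D f (j * lam)) S U)ᶜ ≤ ε ∧
      P G p (hit G (par D f (j * lam)) S U')ᶜ ≤ ε := by
    obtain ⟨j, hj⟩ := ((eventually_ge_atTop Λ).and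
      ((height_ev hl f h0 h1 hU).and (height_ev hl f h0 h1 hU'))).exists
    exact ⟨j, hj⟩
  obtain ⟨hj, hjU, hjU'⟩ := Nat.find_spec hex
  rcases hj.eq_or_lt with he | hlt
  · exact ⟨Nat.find hex, Λ, le_rfl, hj, by omega, hjU, hjU', hT⟩
  · obtain ⟨i, hi⟩ : ∃ i, Nat.find hex = i + 1 := ⟨Nat.find hex - 1, by omega⟩
    have hΛ : Λ ≤ i := by omega
    have hS' : ∀ a ∈ S, |f a| ≤ i * lam := fun a ha =>
      (hS a ha).trans (mul_le_mul_of_nonneg_right (by exact_mod_cast hΛ) hl.le)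
    have hmin := Nat.find_min hex (show i < Nat.find hex by omega)
    refine ⟨Nat.find hex, i, hΛ, by omega, by omega, hjU, hjU', ?_⟩
    by_contra hc
    exact hmin ⟨hΛ, height_step hf hS' hU hc, height_step hf hS' hU' hc⟩

end Crest.Agent.R147.St
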