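import Crest.Agent.R147.StU1
import Crest.Agent.R147.StOut

/-! Row 147, module A2: the three moves `U`, `D`, `T`. -/

set_option autoImplicit false

open MeasureTheory ProbabilityTheory Set Filter
open scoped ENNReal NNReal

namespace Crest.Agent.R147.St

open Crest.Agent.R159

variable {V : Type*} [Countable V] {G : SimpleGraph V} [G.LocallyFinite]
  {π : V → ℤ × ℤ} {l C d : ℕ} {p : unitInterval}

omit [Countable V] [G.LocallyFinite] in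
theorem udt_norm_miss {D D' S A B : Set V} {ε : ℝ≥0∞} (h : P G p (hit G D S A)ᶜ ≤ ε)
    (hD : D ⊆ D') (hB : ∀ v ∈ D, v ∈ A → v ∈ B) : P G p (hit G D' S B)ᶜ ≤ ε := by
  rw [← hit_inter] at h
  exact le_trans (measure_mono (compl_subset_compl.2
    (hit_mono hD Subset.rfl fun v hv => hB v hv.2 hv.1))) h

omit [Countable V] [G.LocallyFinite] in
theorem udt_norm_core (S : Set V) {x f X Y : V → ℝ} {D D' A A' B : Set V} {n l H lam κ : ℝ}
    {ε : ℝ≥0∞} (hn : 0 < n) (hH : 0 < H) (hκ : l ≤ κ * n) (hκ' : 2 * lam ≤ κ * H) (hlam : 0 ≤ lam)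
    (hX : ∀ v, X v = x v / n) (hY : ∀ v, Y v = f v / H)
    (hD : ∀ v ∈ D, |x v| ≤ n ∧ |f v| ≤ H) (hD' : D' ⊆ D)
    (hA : ∀ v ∈ D, v ∈ A → n - l < x v ∧ -lam ≤ f v)
    (hA' : ∀ v ∈ D, v ∈ A' → n - l < x v ∧ f v ≤ lam)
    (hB : ∀ v ∈ B, H - 2 * lam ≤ f v)
    (hU : P G p (hit G D S A)ᶜ ≤ ε) (hDn : P G p (hit G D S A')ᶜ ≤ ε)
    (hT : P G p (hit G D' S B)ᶜ ≤ ε) : UDT G p ε S κ X Y := by
  have hb : ∀ v ∈ D, -1 ≤ X v ∧ X v ≤ 1 ∧ -1 ≤ Y v ∧ Y v ≤ 1 := fun v hv => by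
    obtain ⟨h1, h2⟩ := hD v hv
    rw [abs_le] at h1 h2
    rw [hX, hY, le_div_iff₀ hn, div_le_iff₀ hn, le_div_iff₀ hH, div_le_iff₀ hH]
    refine ⟨by linarith [h1.1], by linarith [h1.2], by linarith [h2.1], by linarith [h2.2]⟩
  refine ⟨udt_norm_miss hU hb fun v hv ha => ?_, udt_norm_miss hDn hb fun v hv ha => ?_,
    udt_norm_miss hT (fun v hv => hb v (hD' hv)) fun v hv ha => ?_⟩
  · obtain ⟨h1, h2⟩ := hA v hv ha
    refine ⟨?_, (hb v hv).2.1, ?_, (hb v hv).2.2.2⟩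
    · rw [hX, le_div_iff₀ hn]; linarith
    · rw [hY, le_div_iff₀ hH]; linarith
  · obtain ⟨h1, h2⟩ := hA' v hv ha
    refine ⟨?_, (hb v hv).2.1, (hb v hv).2.2.1, ?_⟩
    · rw [hX, le_div_iff₀ hn]; linarith
    · rw [hY, div_le_iff₀ hH]; linarith
  · have h1 := hB v ha
    refine ⟨(hb v (hD' hv)).1, (hb v (hD' hv)).2.1, ?_, (hb v (hD' hv)).2.2.2⟩
    rw [hY, le_div_iff₀ hH]; linarith

theorem udt_norm (h : Dat G π l C) (o : V) (S : Set V) {n j j' Λ : ℕ} {s : ℤ} {κ : ℝ} {ε : ℝ≥0∞}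
    (hn : 1 ≤ n) (hΛ : 1 ≤ Λ) (hκ : (l : ℝ) ≤ κ * n) (hκ' : 2 ≤ κ * Λ) (hj : Λ ≤ j') (hj' : j' ≤ j)
    (hj'' : j ≤ j' + 1)
    (hU : P G p (hit G (par (par univ (lin π o 1 0) n) (lin π o (-s) n) (j * ((|(s : ℝ)| + n) * l)))
      S ({v | (n : ℝ) - l < lin π o 1 0 v} ∩ {v | s ≤ (π v).2 - (π o).2}))ᶜ ≤ ε)
    (hD : P G p (hit G (par (par univ (lin π o 1 0) n) (lin π o (-s) n) (j * ((|(s : ℝ)| + n) * l)))
      S ({v | (n : ℝ) - l < lin π o 1 0 v} ∩ {v | (π v).2 - (π o).2 ≤ s}))ᶜ ≤ ε)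
    (hT : P G p (hit G (par (par univ (lin π o 1 0) n) (lin π o (-s) n) (j' * ((|(s : ℝ)| + n) * l)))
      S (lay (par univ (lin π o 1 0) n) (lin π o (-s) n) (j' * ((|(s : ℝ)| + n) * l))
        ((|(s : ℝ)| + n) * l)))ᶜ ≤ ε ^ 2) :
    ∃ a b a' b' : ℝ, |a| + |b| ≤ κ ∧ |a'| + |b'| ≤ κ ∧
      UDT G p ε S κ (lin π o a b) (lin π o a' b') := by
  have hn1 : (1 : ℝ) ≤ n := by exact_mod_cast hn
  have hn0 : (0 : ℝ) < n := by linarith
  have hl1 : (1 : ℝ) ≤ l := by exact_mod_cast h.one_le_l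
  have hΛ1 : (1 : ℝ) ≤ Λ := by exact_mod_cast hΛ
  have hjj : (Λ : ℝ) ≤ j' := by exact_mod_cast hj
  have hjj' : (j' : ℝ) ≤ j := by exact_mod_cast hj'
  have hjj'' : (j : ℝ) ≤ j' + 1 := by exact_mod_cast hj''
  have hs0 : 0 ≤ |(s : ℝ)| := abs_nonneg _
  have hκ0 : 0 < κ := by
    by_contra hc
    have := mul_nonpos_of_nonpos_of_nonneg (not_lt.1 hc) (show (0 : ℝ) ≤ Λ by linarith)
    linarith
  have hκj : 2 ≤ κ * j := hκ'.trans (mul_le_mul_of_nonneg_left (hjj.trans hjj') hκ0.le)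
  obtain ⟨lam, hlam⟩ : ∃ lam : ℝ, lam = (|(s : ℝ)| + n) * l := ⟨_, rfl⟩
  rw [← hlam] at hU hD hT
  have hlam0 : 0 < lam := by rw [hlam]; positivity
  have hj0 : (0 : ℝ) < j := by linarith
  have hH : 0 < j * lam := mul_pos hj0 hlam0
  have hκH : 2 * lam ≤ κ * (j * lam) := by
    rw [← mul_assoc]; exact mul_le_mul_of_nonneg_right hκj hlam0.le
  have hc1 : |(1 : ℝ) / n| + |(0 : ℝ)| ≤ κ := by
    rw [abs_zero, add_zero, abs_of_pos (by positivity), div_le_iff₀ hn0]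
    linarith
  have hc2 : |(s : ℝ)| / (j * lam) + n / (j * lam) ≤ κ := by
    rw [← add_div, div_le_iff₀ hH]
    have : |(s : ℝ)| + n ≤ lam := by
      rw [hlam]; exact le_mul_of_one_le_right (by positivity) hl1
    linarith
  have hX : ∀ v, lin π o (1 / n) 0 v = lin π o 1 0 v / n := fun v => by
    simp only [lin]; ring
  have hDD : ∀ v ∈ par (par univ (lin π o 1 0) n) (lin π o (-s) n) (j * lam),
      |lin π o 1 0 v| ≤ n ∧ |lin π o (-s) n v| ≤ j * lam := fun v hv => ⟨hv.1.2, hv.2⟩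
  have hD' : par (par univ (lin π o 1 0) n) (lin π o (-s) n) (j' * lam) ⊆
      par (par univ (lin π o 1 0) n) (lin π o (-s) n) (j * lam) := fun v hv =>
    ⟨hv.1, le_trans hv.2 (mul_le_mul_of_nonneg_right hjj' hlam0.le)⟩
  have key : ∀ x : ℝ, n - l < x → |x| ≤ n → |(s : ℝ) * (n - x)| ≤ lam := fun x h1 h2 => by
    have h3 := (abs_le.1 h2).2
    rw [abs_mul, abs_of_nonneg (show (0 : ℝ) ≤ n - x by linarith), hlam]
    have h4 : |(s : ℝ)| * (n - x) ≤ |(s : ℝ)| * l :=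
      mul_le_mul_of_nonneg_left (by linarith) hs0
    have h5 : (0 : ℝ) ≤ n * l := by positivity
    linarith
  have hf : ∀ v, lin π o (-s) n v = (s : ℝ) * (n - lin π o 1 0 v) +
      n * ((((π v).2 - (π o).2 : ℤ) : ℝ) - s) := fun v => by
    simp only [lin]; push_cast; ring
  have hA : ∀ v ∈ par (par univ (lin π o 1 0) n) (lin π o (-s) n) (j * lam),
      v ∈ {v | (n : ℝ) - l < lin π o 1 0 v} ∩ {v | s ≤ (π v).2 - (π o).2} →
      n - l < lin π o 1 0 v ∧ -lam ≤ lin π o (-s) n v := fun v hv ha => by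
    refine ⟨ha.1, ?_⟩
    have h1 := (abs_le.1 (key _ ha.1 hv.1.2)).1
    have h2 : (s : ℝ) ≤ (((π v).2 - (π o).2 : ℤ) : ℝ) := by exact_mod_cast ha.2
    have h3 := mul_nonneg hn0.le (sub_nonneg.2 h2)
    rw [hf]; linarith
  have hA' : ∀ v ∈ par (par univ (lin π o 1 0) n) (lin π o (-s) n) (j * lam),
      v ∈ {v | (n : ℝ) - l < lin π o 1 0 v} ∩ {v | (π v).2 - (π o).2 ≤ s} →
      n - l < lin π o 1 0 v ∧ lin π o (-s) n v ≤ lam := fun v hv ha => by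
    refine ⟨ha.1, ?_⟩
    have h1 := (abs_le.1 (key _ ha.1 hv.1.2)).2
    have h2 : (((π v).2 - (π o).2 : ℤ) : ℝ) ≤ s := by exact_mod_cast ha.2
    have h3 := mul_nonpos_of_nonneg_of_nonpos hn0.le (sub_nonpos.2 h2)
    rw [hf]; linarith
  have hjl : j * lam - 2 * lam ≤ j' * lam - lam := by
    have := mul_le_mul_of_nonneg_right hjj'' hlam0.le
    linarith
  have hT' : P G p (hit G (par (par univ (lin π o 1 0) n) (lin π o (-s) n) (j' * lam)) S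
      ({v | j * lam - 2 * lam ≤ lin π o (-s) n v} ∪
        {v | j * lam - 2 * lam ≤ -lin π o (-s) n v}))ᶜ ≤ ε ^ 2 := by
    refine udt_norm_miss hT Subset.rfl fun v _ hv => ?_
    rcases lt_abs.1 hv.2.1 with h1 | h1
    · exact Or.inl (hjl.trans h1.le)
    · exact Or.inr (hjl.trans h1.le)
  rcases miss_or hT' with h1 | h1
  · refine ⟨1 / n, 0, -s / (j * lam), n / (j * lam), hc1, ?_,
      udt_norm_core S hn0 hH hκ hκH hlam0.le hX (f := lin π o (-s) n) (fun v => ?_) hDD hD' hA hA'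
        (fun v hv => hv) hU hD h1⟩
    · rw [abs_div, abs_div, abs_neg, abs_of_pos hH, abs_of_pos hn0]; exact hc2
    · simp only [lin]; ring
  · refine ⟨1 / n, 0, s / (j * lam), -n / (j * lam), hc1, ?_,
      udt_norm_core S hn0 hH hκ hκH hlam0.le hX (f := fun v => -lin π o (-s) n v) (fun v => ?_)
        (fun v hv => ⟨(hDD v hv).1, by rw [abs_neg]; exact (hDD v hv).2⟩) hD'
        (fun v hv ha => ⟨(hA' v hv ha).1, neg_le_neg (hA' v hv ha).2⟩)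
        (fun v hv ha => ⟨(hA v hv ha).1, neg_le.1 (hA v hv ha).2⟩)
        (fun v hv => hv) hD hU h1⟩
    · rw [abs_div, abs_div, abs_neg, abs_of_pos hH, abs_of_pos hn0]; exact hc2
    · simp only [lin]; ring

theorem udt_right (hd : ∀ v, G.degree v ≤ d) (h : Dat G π l C) (hp : 0 < p) (o : V) {m : ℕ}
    {ε : ℝ≥0∞} (h0 : ε ≠ 0) (h1 : ε < 1) (hm : P G p (noinf G (nbh G m {o})) ≤ ε ^ 16) {κ : ℝ}
    (hκ : 0 < κ) : ∃ n₀ : ℕ, ∀ n : ℕ, n₀ ≤ n →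
      P G p (hit G (par univ (lin π o 1 0) n) (nbh G m {o})
        {v | (n : ℝ) - l < lin π o 1 0 v})ᶜ ≤ ε ^ 8 →
      ∃ a b a' b' : ℝ, |a| + |b| ≤ κ ∧ |a'| + |b'| ≤ κ ∧
        UDT G p ε (nbh G m {o}) κ (lin π o a b) (lin π o a' b') := by
  have hpow : ∀ {a b : ℕ}, a ≤ b → ε ^ b ≤ ε ^ a := fun hab =>
    pow_le_pow_right_of_le_one' h1.le hab
  have hlt : ∀ {a : ℕ}, a ≠ 0 → ε ^ a < 1 := fun ha => pow_lt_one₀ zero_le h1 ha
  have h16 : ε ^ 16 < ε ^ 2 := by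
    have := (ENNReal.mul_lt_mul_iff_right (pow_ne_zero 2 h0)
      (ENNReal.pow_ne_top h1.ne_top)).2 (hlt (a := 14) (by norm_num))
    rwa [mul_one, ← pow_add] at this
  obtain ⟨n₀, hn₀⟩ := thin_exit hd h hp o (m := m) (Λ := m + 1 + ⌈2 / κ⌉₊) (by omega)
    (tsub_pos_iff_lt.2 h16).ne'
  refine ⟨n₀ + 1 + ⌈l / κ⌉₊, fun n hn hR => ?_⟩
  obtain ⟨s, hU, hD⟩ := split (par univ (lin π o 1 0) n) (nbh G m {o})
    {v | (n : ℝ) - l < lin π o 1 0 v} (fun v => (π v).2 - (π o).2) (ε := ε ^ 4) (pow_ne_zero _ h0)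
    (hlt (by norm_num)) (by rw [← pow_mul]; exact hR)
  have hn1 : (1 : ℝ) ≤ n := by exact_mod_cast (show 1 ≤ n by omega)
  have hl1 : (1 : ℝ) ≤ l := by exact_mod_cast h.one_le_l
  have hlam : 0 < (|(s : ℝ)| + n) * l := by positivity
  have hf : ∀ u v, G.Adj u v →
      |lin π o (-s) n v - lin π o (-s) n u| ≤ (|(s : ℝ)| + n) * l := fun u v huv => by
    simpa only [abs_neg, Nat.abs_cast] using h.lin_adj o (-s) n huv
  obtain ⟨j, j', a1, a2, a3, a4, a5, a6⟩ := height (Λ := m + 1 + ⌈2 / κ⌉₊) (ε := ε ^ 2) hlam hf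
    (S := nbh G m {o}) (fun a ha => by
      have := lip_nbh hlam.le hf ha
      rw [lin_self, sub_zero, mul_comm] at this
      refine this.trans (mul_le_mul_of_nonneg_right ?_ hlam.le)
      exact_mod_cast (show m ≤ m + 1 + ⌈2 / κ⌉₊ by omega))
    (pow_ne_zero _ h0) (hlt (by norm_num)) (by rw [← pow_mul]; exact hU)
    (by rw [← pow_mul]; exact hD)
    ((hn₀ n (by omega) s).trans
      ((add_le_add hm le_rfl).trans (add_tsub_cancel_of_le h16.le).le))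
  have h21 : ε ^ 2 ≤ ε := by simpa using hpow (show 1 ≤ 2 by norm_num)
  refine udt_norm h o _ (Λ := m + 1 + ⌈2 / κ⌉₊) (by omega) (by omega) ?_ ?_ a1 a2 a3
    (a4.trans h21) (a5.trans h21) a6
  · rw [mul_comm, ← div_le_iff₀ hκ]
    refine (Nat.le_ceil _).trans ?_
    exact_mod_cast (show ⌈l / κ⌉₊ ≤ n by omega)
  · rw [mul_comm, ← div_le_iff₀ hκ]
    refine (Nat.le_ceil _).trans ?_
    exact_mod_cast (show ⌈2 / κ⌉₊ ≤ m + 1 + ⌈2 / κ⌉₊ by omega)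

theorem udt (hd : ∀ v, G.degree v ≤ d) (h : Dat G π l C) (hp : 0 < p) (o : V) {m : ℕ}
    {ε : ℝ≥0∞} (h0 : ε ≠ 0) (h1 : ε < 1) (hm : P G p (noinf G (nbh G m {o})) ≤ ε ^ 16) {κ : ℝ}
    (hκ : 0 < κ) : ∃ a b a' b' : ℝ, |a| + |b| ≤ κ ∧ |a'| + |b'| ≤ κ ∧
      UDT G p ε (nbh G m {o}) κ (lin π o a b) (lin π o a' b') := by
  obtain ⟨n₁, hn₁⟩ := udt_right hd h hp o h0 h1 hm hκ
  obtain ⟨n₂, hn₂⟩ := udt_right hd h.reflect hp o h0 h1 hm hκ
  obtain ⟨n, a1, a2, a3⟩ : ∃ n, n₁ ≤ n ∧ n₂ ≤ n ∧ l * m ≤ n :=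
    ⟨n₁ + n₂ + l * m, by omega, by omega, by omega⟩
  have e : ∀ v, lin π o (-1) 0 v = -lin π o 1 0 v := fun v => by simp [lin]
  have hx : P G p (hit G (par univ (lin π o 1 0) n) (nbh G m {o})
      ({v | (n : ℝ) - l < lin π o 1 0 v} ∪ {v | (n : ℝ) - l < lin π o (-1) 0 v}))ᶜ ≤
      (ε ^ 8) ^ 2 := by
    rw [← pow_mul]
    refine le_trans (measure_mono (compl_subset_compl.2 (hit_mono Subset.rfl Subset.rfl ?_)))
      ((strip_exit hd h hp o a3).trans hm)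
    rintro v ⟨-, hv, -⟩
    rcases lt_abs.1 hv with hv | hv
    · exact Or.inl hv
    · exact Or.inr (by rw [mem_ofPred_eq, e]; exact hv)
  rcases miss_or hx with hx | hx
  · exact hn₁ n a1 hx
  · have e' : par univ (lin π o (-1) 0) n = par univ (lin π o 1 0) n := by
      ext v
      simp only [par, mem_inter_iff, mem_ofPred_eq, e, abs_neg]
    obtain ⟨a, b, a', b', b1, b2, b3⟩ := hn₂ n a2 (by rw [lin_reflect, e']; exact hx)
    rw [lin_reflect, lin_reflect] at b3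
    exact ⟨-a, b, -a', b', by rwa [abs_neg], by rwa [abs_neg], b3⟩

end Crest.Agent.R147.St
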