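import Crest.Agent.R147.T1

/-! Row 147, module A1: the triangle inequality in infinite volume; dyadic chain. -/

set_option autoImplicit false

open MeasureTheory ProbabilityTheory Set Filter
open scoped ENNReal NNReal
open Crest.ProbabilityR.Percolation

namespace Crest.Agent.R147.T

open Crest.Agent.R159

variable {V : Type*} [Countable V] [DecidableEq V] {G : SimpleGraph V} [G.LocallyFinite]

omit [Countable V] in
theorem tendsto_Dn_ball_sub {A : Finset V} {x : V} (hx : x ∈ A) {n j : ℕ} (h : n ≤ j) :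
    ball G n {x} ⊆ ball G j A := fun y hy => by
  obtain ⟨w, hw⟩ := mem_ball_singleton.1 hy
  exact mem_ball.2 ⟨x, hx, w, hw.trans h⟩

omit [Countable V] in
theorem tendsto_Dn_ball_mono (A : Finset V) {i j : ℕ} (h : i ≤ j) :
    ball G i A ⊆ ball G j A := fun y hy => by
  obtain ⟨a, ha, w, hw⟩ := mem_ball.1 hy
  exact mem_ball.2 ⟨a, ha, w, hw.trans h⟩

omit [Countable V] [DecidableEq V] [G.LocallyFinite] in
theorem tendsto_Dn_conn_anti {R R' : Set V} (h : R' ⊆ R) {ω : Set (Sym2 V)} {x z : V}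
    (hc : conn G R ω x z) : conn G R' ω x z :=
  hc.mono h subset_rfl

omit [Countable V] in
theorem tendsto_Dn_conn_local {A : Finset V} {x z : V} (hx : x ∈ A) {ω : Set (Sym2 V)}
    (hc : conn G ∅ ω x z) : ∃ j, z ∈ ball G j A ∧ conn G (↑(ball G j A))ᶜ ω x z := by
  obtain ⟨-, hc⟩ := hc
  induction hc with
  | refl =>
    have : x ∈ ball G 0 A := hx
    exact ⟨0, this, fun h => h (Finset.mem_coe.2 this), Relation.ReflTransGen.refl⟩
  | @tail b c _ hbc ih =>
    obtain ⟨j, hb, hj⟩ := ih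
    have hc' : c ∈ ball G (j + 1) A := by
      rw [ball_succ']
      exact mem_nb.2 (Or.inr ⟨b, hb, hbc.1⟩)
    have h1 := tendsto_Dn_conn_anti (R' := (↑(ball G (j + 1) A))ᶜ)
      (compl_subset_compl.2 (Finset.coe_subset.2 (tendsto_Dn_ball_mono A (Nat.le_succ j)))) hj
    exact ⟨j + 1, hc', h1.1, h1.2.tail ⟨hbc.1, hbc.2.1, fun h => h (Finset.mem_coe.2 hc')⟩⟩

theorem tendsto_Dn (p : unitInterval) (n : ℕ) (A : Finset V) {x z : V} (hx : x ∈ A) (hz : z ∈ A) :
    Tendsto (fun j : ℕ => Dn G p (↑(ball G j A))ᶜ n x z) atTop (nhds (Dn G p ∅ n x z)) := by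
  set E : ℕ → Set (Set (Sym2 V)) := fun j =>
    Big G ∅ n x ∩ Big G ∅ n z ∩ {ω | ¬ conn G (↑(ball G j A))ᶜ ω x z} with hE
  have hanti : Antitone E := fun i j hij ω hω => ⟨hω.1, fun hc => hω.2
    (tendsto_Dn_conn_anti
      (compl_subset_compl.2 (Finset.coe_subset.2 (tendsto_Dn_ball_mono A hij))) hc)⟩
  have hmeas : ∀ j, MeasurableSet (E j) := fun j =>
    ((measurableSet_big _ _ _).inter (measurableSet_big _ _ _)).inter
      (measurableSet_conn _ _ _).compl
  have hI : ⋂ j, E j = Two G ∅ n x z := by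
    ext ω
    simp only [mem_iInter]
    constructor
    · intro h
      refine ⟨(h 0).1, fun hc => ?_⟩
      obtain ⟨j, -, hj⟩ := tendsto_Dn_conn_local hx hc
      exact (h j).2 hj
    · intro h j
      exact ⟨h.1, fun hc => h.2 (tendsto_Dn_conn_anti (empty_subset _) hc)⟩
  have h1 := tendsto_measure_iInter_atTop (μ := P G p) (fun j => (hmeas j).nullMeasurableSet) hanti
    ⟨0, measure_ne_top _ _⟩
  rw [hI] at h1
  have h2 := (ENNReal.tendsto_toReal (measure_ne_top (P G p) (Two G ∅ n x z))).comp h1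
  refine h2.congr' ?_
  filter_upwards [eventually_ge_atTop n] with j hj
  have e1 : ∀ y ∈ A, Big G (↑(ball G j A))ᶜ n y = Big G ∅ n y := fun y hy =>
    Subset.antisymm (big_anti (empty_subset _) n y) (big_local (tendsto_Dn_ball_sub hy hj))
  simp only [Function.comp, Dn, Two, e1 x hx, e1 z hz, Measure.real, hE]

theorem lt_inf (h : LTFin G) : LTInf G := by
  intro p₀ θ hp hθ
  obtain ⟨K, hK, H⟩ := h p₀ θ hp hθ
  refine ⟨K, hK, fun p hpp n a b c hb => ?_⟩
  have ha' : a ∈ ({a, b, c} : Finset V) := by simp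
  have hb' : b ∈ ({a, b, c} : Finset V) := by simp
  have hc' : c ∈ ({a, b, c} : Finset V) := by simp
  refine le_of_tendsto_of_tendsto (tendsto_Dn p n _ ha' hc')
    (((tendsto_Dn p n _ ha' hb').add (tendsto_Dn p n _ hb' hc')).const_mul K) ?_
  filter_upwards [eventually_ge_atTop n] with j hj
  refine H p hpp _ n a b c ?_
  rw [fn_local p (tendsto_Dn_ball_sub hb' hj)]
  exact hb

omit [Countable V] [DecidableEq V] [G.LocallyFinite] in
theorem chain_split {x z : V} (w : G.Walk x z) (a b : ℕ) (hw : w.length ≤ a + b) :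
    ∃ (y : V) (w1 : G.Walk x y) (w2 : G.Walk y z), w1.length ≤ a ∧ w2.length ≤ b := by
  refine ⟨w.getVert a, w.take a, w.drop a, ?_, ?_⟩
  · rw [SimpleGraph.Walk.take_length]; omega
  · rw [SimpleGraph.Walk.drop_length]; omega

omit [Countable V] [DecidableEq V] [G.LocallyFinite] in
theorem chain (D : V → V → ℝ) {K η : ℝ} (hK : 1 ≤ K) (hη : 0 ≤ η) (h0 : ∀ x, D x x ≤ η)
    (h1 : ∀ x y, G.Adj x y → D x y ≤ η) (htri : ∀ a b c, D a c ≤ K * (D a b + D b c))
    (j : ℕ) {x z : V} (w : G.Walk x z) (hw : w.length ≤ 2 ^ j) : D x z ≤ (2 * K) ^ j * η := by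
  induction j generalizing x z with
  | zero =>
    rw [pow_zero, one_mul]
    cases w with
    | nil => exact h0 _
    | cons h w =>
      cases w with
      | nil => exact h1 _ _ h
      | cons h' w => simp at hw
  | succ j ih =>
    obtain ⟨y, w1, w2, k1, k2⟩ := chain_split w (2 ^ j) (2 ^ j) (by rw [pow_succ] at hw; omega)
    have := ih w1 k1
    have := ih w2 k2
    refine (htri x y z).trans ?_
    calc K * (D x y + D y z) ≤ K * ((2 * K) ^ j * η + (2 * K) ^ j * η) :=
          mul_le_mul_of_nonneg_left (by linarith) (by linarith)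
      _ = (2 * K) ^ (j + 1) * η := by ring

end Crest.Agent.R147.T
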