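import Crest.Agent.R147.T7a

/-! Row 147, module A1: clusters of intermediate size are rare. -/

set_option autoImplicit false

open MeasureTheory ProbabilityTheory Set Filter
open scoped ENNReal NNReal
open Crest.ProbabilityR.Percolation

namespace Crest.Agent.R147.T

open Crest.Agent.R159

variable {V : Type*} [Countable V] [DecidableEq V] {G : SimpleGraph V} [G.LocallyFinite]

omit [DecidableEq V] [G.LocallyFinite] in
theorem second_piece (p : unitInterval) {n : ℕ} (hn : 1 ≤ n) (x z : V) {A : Finset V}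
    (hA : n ≤ A.card) :
    P G p {ω | cl G ∅ ω x = ↑A} * P G p (Big G (↑A) n z) ≤
      P G p (Two G ∅ n x z ∩ {ω | cl G ∅ ω x = ↑A}) := by
  rw [← P_indep G p (I := touch G ↑A \ touch G ∅) (J := (touch G ↑A)ᶜ)
    (disjoint_compl_right.mono_left sdiff_subset) (measurableSet_cl _ _ _)
    (measurableSet_big _ _ _) (dep_cl _ _ _) (dep_big _ _ _)]
  refine measure_mono ?_
  rintro ω ⟨h1, h2⟩
  have h1' : cl G ∅ ω x = ↑A := h1
  refine ⟨⟨⟨?_, big_anti (empty_subset _) n z h2⟩, fun hc => ?_⟩, h1⟩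
  · change (n : ℕ∞) ≤ (cl G ∅ ω x).encard
    rw [h1', encard_coe_eq_coe_finsetCard]
    exact_mod_cast hA
  · have hz : z ∈ (↑A : Set V) := h1' ▸ hc
    have h3 : (1 : ℕ∞) ≤ (cl G (↑A) ω z).encard := le_trans (by exact_mod_cast hn) h2
    obtain ⟨y, hy⟩ := one_le_encard_iff_nonempty.1 h3
    exact conn.left hy hz

theorem second {d : ℕ} (hd : ∀ v, G.degree v ≤ d) (p : unitInterval) {n n' : ℕ} (hn : 1 ≤ n)
    (hn' : n ≤ n') (x : V) (B : Finset V) {θ : ℝ} (hθ : ∀ y, θ ≤ fn G p ∅ n y) :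
    (fn G p ∅ n x - fn G p ∅ n' x) * (θ * B.card - (1 + d * n) * n') ≤
      ∑ z ∈ B, Dn G p ∅ n x z := by
  have hM : fn G p ∅ n x - fn G p ∅ n' x = (P G p).real (Big G ∅ n x \ Big G ∅ n' x) :=
    (measureReal_sdiff (big_anti_n ∅ hn' x) (measurableSet_big _ _ _)).symm
  rw [hM]
  rcases le_total (θ * B.card - (1 + d * n) * n') 0 with hc | hc
  · exact (mul_nonpos_of_nonneg_of_nonpos measureReal_nonneg hc).trans
      (Finset.sum_nonneg fun z _ => Dn_nonneg _ _ _ _ _)
  have hmeas : MeasurableSet (Big G ∅ n x \ Big G ∅ n' x) :=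
    (measurableSet_big _ _ _).diff (measurableSet_big _ _ _)
  have hsub : Big G ∅ n x \ Big G ∅ n' x =
      (Big G ∅ n x \ Big G ∅ n' x) ∩ ⋃ A : Finset V, {ω | cl G ∅ ω x = ↑A} := by
    refine (inter_eq_left.2 fun ω hω => ?_).symm
    have h2 : (cl G ∅ ω x).encard < n' := not_le.1 hω.2
    have h3 : (cl G ∅ ω x).Finite := encard_lt_top_iff.1 (h2.trans (ENat.natCast_lt_top _))
    exact mem_iUnion.2 ⟨h3.toFinset, h3.coe_toFinset.symm⟩
  have key : P G p (Big G ∅ n x \ Big G ∅ n' x) *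
      ENNReal.ofReal (θ * B.card - (1 + d * n) * n') ≤ ∑ z ∈ B, P G p (Two G ∅ n x z) := by
    rw [hsub, cn_measure_inter_partition (P G p) (fun ω => cl G ∅ ω x)
      (fun A => measurableSet_cl _ _ _) hmeas, ← ENNReal.tsum_mul_right]
    refine le_trans ?_ (Finset.sum_le_sum fun z _ => tsum_measure_partition_le (P G p)
      (fun ω => cl G ∅ ω x) (fun A => measurableSet_cl _ _ _) (measurableSet_two ∅ n x z))
    rw [← Summable.tsum_finsetSum fun _ _ => ENNReal.summable]
    refine ENNReal.tsum_le_tsum fun A => ?_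
    rcases ((Big G ∅ n x \ Big G ∅ n' x) ∩ {ω | cl G ∅ ω x = ↑A}).eq_empty_or_nonempty with h | h
    · rw [h, measure_empty, zero_mul]
      exact zero_le
    obtain ⟨ω, ⟨h1, h2⟩, h3⟩ := h
    have h3' : cl G ∅ ω x = ↑A := h3
    have h1' : (n : ℕ∞) ≤ (cl G ∅ ω x).encard := h1
    have h2' : (cl G ∅ ω x).encard < n' := not_le.1 h2
    rw [h3', encard_coe_eq_coe_finsetCard] at h1' h2'
    have hA : n ≤ A.card := by exact_mod_cast h1'
    have hA' : (A.card : ℝ) ≤ n' := by
      have : A.card < n' := by exact_mod_cast h2'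
      exact_mod_cast this.le
    have h4 : ENNReal.ofReal (θ * B.card - (1 + d * n) * n') ≤
        ∑ z ∈ B, P G p (Big G (↑A) n z) := by
      have h5 := sum_fn_le hd p n A B
      have h6 : θ * B.card ≤ ∑ z ∈ B, fn G p ∅ n z := by
        rw [mul_comm, ← nsmul_eq_mul]
        exact Finset.card_nsmul_le_sum _ _ _ fun z _ => hθ z
      have h7 : (1 + d * n : ℝ) * A.card ≤ (1 + d * n) * n' :=
        mul_le_mul_of_nonneg_left hA' (by positivity)
      refine (ENNReal.ofReal_le_ofReal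
        (show _ ≤ ∑ z ∈ B, fn G p (↑A) n z by linarith)).trans (le_of_eq ?_)
      unfold fn
      rw [ENNReal.ofReal_sum_of_nonneg fun z _ => measureReal_nonneg]
      exact Finset.sum_congr rfl fun z _ => ofReal_measureReal
    refine (mul_le_mul' (measure_mono inter_subset_right) h4).trans ?_
    rw [Finset.mul_sum]
    exact Finset.sum_le_sum fun z _ => second_piece p hn x z hA
  have h8 := ENNReal.toReal_mono (ENNReal.sum_ne_top.2 fun z _ => measure_ne_top _ _) key
  rwa [ENNReal.toReal_mul, ENNReal.toReal_ofReal hc,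
    ENNReal.toReal_sum fun z _ => measure_ne_top _ _] at h8

end Crest.Agent.R147.T
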