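import Crest.Agent.R147.TD2

/-! Row 147, module A1: choice of scales. -/

set_option autoImplicit false

open MeasureTheory ProbabilityTheory Set Filter
open scoped ENNReal NNReal
open Crest.ProbabilityR.Percolation

namespace Crest.Agent.R147.T

open Crest.Agent.R159

variable {V : Type*} [DecidableEq V] {G : SimpleGraph V} [G.LocallyFinite]

theorem scales (hV : SuperPoly G) (d : ℕ) {K C θ : ℝ} (hK : 1 ≤ K) (hC : 0 ≤ C) (hθ : 0 < θ) :
    ∃ (b : ℕ → ℝ) (i₀ : ℕ), b i₀ ≤ θ / 2 ∧ (∀ i, 0 ≤ b i) ∧ ∀ i, i₀ ≤ i → ∃ j : ℕ,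
      (∀ x, 2 * ((1 + (d : ℝ) * ((2 ^ i : ℕ) : ℝ)) * ((2 ^ (i + 1) : ℕ) : ℝ)) ≤
        θ * vol G x (2 ^ j)) ∧
      2 / θ * ((2 * K) ^ j * (C / √((2 ^ i : ℕ) : ℝ))) ≤ b i - b (i + 1) := by
  obtain ⟨a, ha⟩ := pow_unbounded_of_one_lt (2 * K) (one_lt_two (α := ℝ))
  have ha0 : 0 < a := Nat.pos_of_ne_zero (by rintro rfl; rw [pow_zero] at ha; linarith)
  obtain ⟨k₀, hk₀⟩ := eventually_atTop.1 (hV (12 * a))
  have e1 : ∀ᶠ i : ℕ in atTop, 16 * C / θ * (7 / 8 : ℝ) ^ i ≤ θ / 2 := by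
    have := (tendsto_pow_atTop_nhds_zero_of_lt_one (r := (7 / 8 : ℝ)) (by norm_num)
      (by norm_num)).const_mul (16 * C / θ)
    rw [mul_zero] at this
    exact this.eventually (ge_mem_nhds (half_pos hθ))
  have e2 : ∀ᶠ i : ℕ in atTop, 4 * (1 + (d : ℝ)) * 2 ^ (12 * a) / θ ≤ 2 ^ i :=
    (tendsto_pow_atTop_atTop_of_one_lt one_lt_two).eventually_ge_atTop _
  obtain ⟨i₀, hi₀⟩ := eventually_atTop.1 (e1.and (e2.and (eventually_ge_atTop (k₀ * (4 * a)))))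
  refine ⟨fun i => 16 * C / θ * (7 / 8 : ℝ) ^ i, i₀, (hi₀ i₀ le_rfl).1, fun i => by positivity,
    fun i hi => ⟨i / (4 * a), fun x => ?_, ?_⟩⟩
  · obtain ⟨-, h2, h3⟩ := hi₀ i hi
    have h4 : k₀ ≤ i / (4 * a) := (Nat.le_div_iff_mul_le (by omega)).2 h3
    have h5 : (((2 ^ (i / (4 * a))) ^ (12 * a) : ℕ) : ℝ) ≤ vol G x (2 ^ (i / (4 * a))) :=
      Nat.cast_le.2 (hk₀ _ (h4.trans Nat.lt_two_pow_self.le) x)
    have h6 : i < 4 * a * (i / (4 * a) + 1) := Nat.lt_mul_div_succ i (by omega)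
    have h7 : (2 : ℝ) ^ (3 * i) ≤ 2 ^ (i / (4 * a) * (12 * a) + 12 * a) :=
      pow_le_pow_right₀ one_le_two (by nlinarith)
    rw [div_le_iff₀ hθ] at h2
    push_cast at h5 ⊢
    rw [← pow_mul] at h5
    rw [pow_add, mul_comm 3 i, pow_mul] at h7
    rw [pow_succ]
    have h8 : (1 : ℝ) ≤ 2 ^ i := one_le_pow₀ one_le_two
    have h9 : (0 : ℝ) < 2 ^ (12 * a) := by positivity
    have hd : (0 : ℝ) ≤ d := Nat.cast_nonneg d
    refine le_trans ?_ (mul_le_mul_of_nonneg_left h5 hθ.le)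
    generalize (2 : ℝ) ^ (i / (4 * a) * (12 * a)) = A at *
    generalize (2 : ℝ) ^ (12 * a) = B at *
    generalize (2 : ℝ) ^ i = u at *
    refine le_of_mul_le_mul_right ?_ h9
    calc 2 * ((1 + d * u) * (u * 2)) * B ≤ 4 * (1 + d) * B * u ^ 2 := by
          have : 0 ≤ B * u * (u - 1) := by
            have := sub_nonneg.2 h8
            positivity
          nlinarith
      _ ≤ u * θ * u ^ 2 := mul_le_mul_of_nonneg_right h2 (sq_nonneg u)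
      _ = θ * u ^ 3 := by ring
      _ ≤ θ * (A * B) := mul_le_mul_of_nonneg_left h7 hθ.le
      _ = θ * A * B := by ring
  · have h1 : (0 : ℝ) < √((2 ^ i : ℕ) : ℝ) := Real.sqrt_pos.2 (by positivity)
    have h2 : (2 * K) ^ (i / (4 * a)) ≤ (7 / 8) ^ i * √((2 ^ i : ℕ) : ℝ) := by
      refine le_of_pow_le_pow_left₀ (n := 4) (by norm_num) (by positivity) ?_
      have h3 : √((2 ^ i : ℕ) : ℝ) ^ 4 = (2 ^ i) ^ 2 := by
        rw [show 4 = 2 * 2 from rfl, pow_mul, Real.sq_sqrt (Nat.cast_nonneg _)]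
        push_cast
        rfl
      calc ((2 * K) ^ (i / (4 * a))) ^ 4 ≤ ((2 ^ a) ^ (i / (4 * a))) ^ 4 := by gcongr
        _ = 2 ^ (4 * a * (i / (4 * a))) := by rw [← pow_mul, ← pow_mul]; congr 1; ring
        _ ≤ 2 ^ i := pow_le_pow_right₀ one_le_two (Nat.mul_div_le i _)
        _ ≤ ((7 / 8) ^ 4 * 2 ^ 2) ^ i := by gcongr; norm_num
        _ = _ := by rw [mul_pow, mul_pow, h3, ← pow_mul, ← pow_mul, ← pow_mul, ← pow_mul,
          mul_comm 4 i, mul_comm 2 i]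
    have h4 : (2 * K) ^ (i / (4 * a)) * (C / √((2 ^ i : ℕ) : ℝ)) ≤ (7 / 8) ^ i * C := by
      rw [← mul_div_assoc, div_le_iff₀ h1, mul_right_comm]
      exact mul_le_mul_of_nonneg_right h2 hC
    refine (mul_le_mul_of_nonneg_left h4 (by positivity)).trans_eq ?_
    ring

end Crest.Agent.R147.T
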