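import Crest.Agent.R147.LT

/-! Row 147, module A1: the triangle inequality `Crest.Agent.R147.T.lt_fin` is proved in `R147/LT`. -/
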