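import Crest.Agent.R147.T4
import Crest.Agent.R147.T5
import Crest.Agent.R147.T7
import Crest.Agent.R147.T8a
import Crest.Agent.R147.T8b
import Crest.Agent.R147.TLT

/-! Row 147, module A1: assembly. -/

set_option autoImplicit false

open MeasureTheory ProbabilityTheory Set Filter
open scoped ENNReal NNReal
open Crest.ProbabilityR.Percolation

namespace Crest.Agent.R147

open Crest.Agent.R159

variable {V : Type*} [Countable V] [DecidableEq V] {G : SimpleGraph V} [G.LocallyFinite]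

namespace T

/-- The two-arm bound at distance `2 ^ j`. -/
theorem two_far {d : ℕ} (hd1 : 1 ≤ d) (hd : ∀ v, G.degree v ≤ d) {R : ℕ} (hR : Near G R)
    (ha : ¬ IsVertexNonamenable G) {p₀ θ : ℝ} (hp0 : 0 < p₀) (hp1 : p₀ < 1) (hθ : 0 < θ) :
    ∃ K C : ℝ, 1 ≤ K ∧ 0 ≤ C ∧ ∀ q : unitInterval, p₀ / 2 ≤ q → (q : ℝ) ≤ p₀ → ∀ n : ℕ, 1 ≤ n →
      (∀ y, θ ≤ fn G q ∅ n y) → ∀ (j : ℕ) (x z : V) (w : G.Walk x z), w.length ≤ 2 ^ j →
        Dn G q ∅ n x z ≤ (2 * K) ^ j * (C / √(n : ℝ)) := by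
  have hpm : 0 < min (p₀ / 2) (1 - p₀) := lt_min (by linarith) (by linarith)
  obtain ⟨C, hC, hCt⟩ := tg_inf hd1 hd hR ha hpm
  obtain ⟨K, hK, hKt⟩ := lt_inf (lt_fin G) p₀ θ hp1 hθ
  refine ⟨K, C, hK, hC, fun q hq1 hq2 n hn hf j x z w hw => ?_⟩
  have hη : 0 ≤ C / √(n : ℝ) := div_nonneg hC (Real.sqrt_nonneg _)
  refine chain (fun a b => Dn G q ∅ n a b) hK hη (fun a => ?_) (fun a b hab => ?_)
    (fun a b c => hKt q hq2 n a b c (hf b)) j w hw
  · rw [Dn_self]; exact hη
  · refine hCt q ((min_le_left _ _).trans hq1) ?_ n hn a b hab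
    have := min_le_right (p₀ / 2) (1 - p₀)
    linarith

end T

open T

theorem stmtA1 (hconn : G.Connected) (hqt : IsQuasiTransitive G) : StmtA1 G := by
  intro ha hV p hp1 hperc
  obtain ⟨R, hR⟩ := exists_near hconn hqt
  obtain ⟨d, hd1, hd⟩ := exists_degree_bound hqt
  obtain ⟨θ, hθ, hθf⟩ := theta_pos hR hperc
  have hp0 := perc_pos hperc
  have hp1' : (p : ℝ) < 1 := hp1
  obtain ⟨K, C, hK, hC, hfar⟩ := two_far hd1 hd hR ha hp0 hp1' (half_pos hθ)
  obtain ⟨b, i₀, hb0, hbn, hb⟩ := scales hV d hK hC (half_pos hθ)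
  obtain ⟨q, hqp, hq2, hq⟩ := fn_cont hd hp0 (2 ^ i₀) (show 0 < θ / 4 by positivity)
  refine ⟨q, hqp, ?_⟩
  have hqp' : (q : ℝ) ≤ p := hqp.le
  have key : ∀ i, i₀ ≤ i → ∀ y, θ / 2 + b i ≤ fn G q ∅ (2 ^ i) y := by
    intro i hi
    induction i, hi using Nat.le_induction with
    | base =>
      intro y
      have h1 := hq y
      have h2 := hθf (2 ^ i₀) y
      linarith
    | succ i hi ih =>
      intro x
      obtain ⟨j, hvol, hdrop⟩ := hb i hi
      have hf : ∀ y, θ / 2 ≤ fn G q ∅ (2 ^ i) y := fun y => by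
        have := ih y
        have := hbn i
        linarith
      have hn : 1 ≤ 2 ^ i := Nat.one_le_two_pow
      have hn' : 2 ^ i ≤ 2 ^ (i + 1) := Nat.pow_le_pow_right (by norm_num) (by omega)
      have h2 := second hd q hn hn' x (ball G (2 ^ j) {x}) hf
      set η : ℝ := (2 * K) ^ j * (C / √((2 ^ i : ℕ) : ℝ)) with hη
      have h3 : ∑ z ∈ ball G (2 ^ j) {x}, Dn G q ∅ (2 ^ i) x z ≤
          (ball G (2 ^ j) {x}).card * η := by
        rw [← nsmul_eq_mul]
        refine Finset.sum_le_card_nsmul _ _ _ fun z hz => ?_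
        obtain ⟨w, hw⟩ := mem_ball_singleton.1 hz
        exact hfar q hq2 hqp' _ hn hf j x z w hw
      have hv := hvol x
      have hvpos : (0 : ℝ) < (ball G (2 ^ j) {x}).card := by
        have : x ∈ ball G (2 ^ j) {x} :=
          mem_ball_singleton.2 ⟨SimpleGraph.Walk.nil, Nat.zero_le _⟩
        exact_mod_cast Finset.card_pos.2 ⟨x, this⟩
      have hv' : (vol G x (2 ^ j) : ℝ) = (ball G (2 ^ j) {x}).card := rfl
      rw [hv'] at hv
      set N : ℝ := (((ball G (2 ^ j) {x}).card : ℕ) : ℝ) with hN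
      set δ : ℝ := fn G q ∅ (2 ^ i) x - fn G q ∅ (2 ^ (i + 1)) x with hδ
      have hη0 : 0 ≤ η := by positivity
      have hδle : δ ≤ 2 / (θ / 2) * η := by
        by_contra hcon
        push Not at hcon
        have hδ0 : 0 < δ := lt_of_le_of_lt (by positivity) hcon
        have h4 : δ * (θ / 2 * N / 2) ≤ N * η := by
          refine le_trans (mul_le_mul_of_nonneg_left ?_ hδ0.le) (h2.trans h3)
          linarith
        have h5 : 2 / (θ / 2) * η * (θ / 2 * N / 2) < δ * (θ / 2 * N / 2) :=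
          mul_lt_mul_of_pos_right hcon (by positivity)
        have h6 : 2 / (θ / 2) * η * (θ / 2 * N / 2) = N * η := by
          field_simp
        linarith
      have := ih x
      linarith
  obtain ⟨x, -⟩ := hperc
  refine perc_of_fn (half_pos hθ) x i₀ fun i hi => ?_
  have := key i hi x
  have := hbn i
  linarith

theorem stmtUniq (hconn : G.Connected) (hqt : IsQuasiTransitive G) : StmtUniq G := by
  intro ha p hp1 x y
  by_cases hperc : Perc G p
  swap
  · simp only [Perc, not_exists, not_lt, nonpos_iff_eq_zero] at hperc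
    exact measure_mono_null (fun ω hω => hω.1) (hperc x)
  obtain ⟨R, hR⟩ := exists_near hconn hqt
  obtain ⟨d, hd1, hd⟩ := exists_degree_bound hqt
  obtain ⟨θ, hθ, hθf⟩ := theta_pos hR hperc
  have hp0 := perc_pos hperc
  have hp1' : (p : ℝ) < 1 := hp1
  obtain ⟨K, C, hK, hC, hfar⟩ := two_far hd1 hd hR ha hp0 hp1' hθ
  obtain ⟨w⟩ := hconn.preconnected x y
  have hw : w.length ≤ 2 ^ w.length := Nat.lt_two_pow_self.le
  set E := {ω | (cl G ∅ ω x).Infinite ∧ (cl G ∅ ω y).Infinite ∧ ¬ conn G ∅ ω x y} with hE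
  have hle : ∀ n : ℕ, 1 ≤ n → (P G p).real E ≤ (2 * K) ^ w.length * (C / √(n : ℝ)) := by
    intro n hn
    refine le_trans ?_ (hfar p (by linarith) le_rfl n hn (hθf n) _ x y w hw)
    refine measureReal_mono (fun ω hω => ⟨⟨?_, ?_⟩, hω.2.2⟩)
    · show (n : ℕ∞) ≤ (cl G ∅ ω x).encard
      rw [hω.1.encard_eq]; exact le_top
    · show (n : ℕ∞) ≤ (cl G ∅ ω y).encard
      rw [hω.2.1.encard_eq]; exact le_top
  have hlim : Tendsto (fun n : ℕ => (2 * K) ^ w.length * (C / √(n : ℝ))) atTop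
      (nhds ((2 * K) ^ w.length * 0)) := by
    refine Tendsto.const_mul _ (Tendsto.div_atTop tendsto_const_nhds ?_)
    exact Real.tendsto_sqrt_atTop.comp tendsto_natCast_atTop_atTop
  rw [mul_zero] at hlim
  have h0 : (P G p).real E ≤ 0 :=
    ge_of_tendsto hlim (eventually_atTop.2 ⟨1, hle⟩)
  exact (measureReal_eq_zero_iff (measure_ne_top _ _)).1 (le_antisymm h0 measureReal_nonneg)

end Crest.Agent.R147
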