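import Crest.Agent.R147.TD2

/-! Row 147, module A1: calculus of finite product expectations. -/

set_option autoImplicit false

open MeasureTheory ProbabilityTheory Set Filter
open scoped ENNReal NNReal
open Crest.ProbabilityR.Percolation

namespace Crest.Agent.R147.T

open Crest.Agent.R159

variable {ι : Type*} [DecidableEq ι] {π : ι → ℝ} {I : Finset ι}

theorem wt_nonneg (hπ : ∀ e ∈ I, 0 ≤ π e ∧ π e ≤ 1) {J : Finset ι} (hJ : J ⊆ I) :
    0 ≤ wt π I J := by
  exact mul_nonneg (Finset.prod_nonneg fun e he => (hπ e (hJ he)).1)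
    (Finset.prod_nonneg fun e he => sub_nonneg.2 (hπ e (Finset.mem_sdiff.1 he).1).2)

theorem Ex_insert {e : ι} (he : e ∉ I) (F : Finset ι → ℝ) :
    Ex π (insert e I) F = π e * Ex π I (fun J => F (insert e J)) + (1 - π e) * Ex π I F := by
  unfold Ex
  rw [Finset.sum_powerset_insert he, add_comm, Finset.mul_sum, Finset.mul_sum]
  congr 1 <;> refine Finset.sum_congr rfl fun J hJ => ?_
  · have hJ' : e ∉ J := fun h => he (Finset.mem_powerset.1 hJ h)
    unfold wt
    rw [Finset.prod_insert hJ', Finset.insert_sdiff_insert, Finset.sdiff_insert_of_notMem he]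
    ring
  · have hJ' : e ∉ J := fun h => he (Finset.mem_powerset.1 hJ h)
    unfold wt
    rw [Finset.insert_sdiff_of_notMem _ hJ',
      Finset.prod_insert fun h => he (Finset.mem_sdiff.1 h).1]
    ring

theorem Ex_const (c : ℝ) : Ex π I (fun _ => c) = c := by
  induction I using Finset.induction_on with
  | empty => simp [Ex, wt]
  | insert e I he ih => rw [Ex_insert he, ih]; ring

theorem Ex_congr {F F' : Finset ι → ℝ} (h : ∀ J ⊆ I, F J = F' J) : Ex π I F = Ex π I F' := by
  exact Finset.sum_congr rfl fun J hJ => by rw [h J (Finset.mem_powerset.1 hJ)]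

theorem Ex_mono (hπ : ∀ e ∈ I, 0 ≤ π e ∧ π e ≤ 1) {F F' : Finset ι → ℝ}
    (h : ∀ J ⊆ I, F J ≤ F' J) : Ex π I F ≤ Ex π I F' := by
  exact Finset.sum_le_sum fun J hJ => mul_le_mul_of_nonneg_left (h J (Finset.mem_powerset.1 hJ))
    (wt_nonneg hπ (Finset.mem_powerset.1 hJ))

theorem Ex_add (F F' : Finset ι → ℝ) :
    Ex π I (fun J => F J + F' J) = Ex π I F + Ex π I F' := by
  simp only [Ex, mul_add, Finset.sum_add_distrib]

theorem Ex_sub (F F' : Finset ι → ℝ) :
    Ex π I (fun J => F J - F' J) = Ex π I F - Ex π I F' := by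
  simp only [Ex, mul_sub, Finset.sum_sub_distrib]

theorem Ex_const_mul (c : ℝ) (F : Finset ι → ℝ) :
    Ex π I (fun J => c * F J) = c * Ex π I F := by
  simp only [Ex, Finset.mul_sum, mul_left_comm c]

theorem Ex_sum {κ : Type*} (s : Finset κ) (F : κ → Finset ι → ℝ) :
    Ex π I (fun J => ∑ k ∈ s, F k J) = ∑ k ∈ s, Ex π I (F k) := by
  simp only [Ex, Finset.mul_sum]
  exact Finset.sum_comm

/-- Covariance with one coordinate. -/
theorem Ex_cov {e : ι} (he : e ∈ I) (F : Finset ι → ℝ) :
    Ex π I (fun J => F J * (π e - if e ∈ J then 1 else 0)) =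
      π e * (1 - π e) * Ex π I (fun J => F (J.erase e) - F (insert e J)) := by
  obtain ⟨I, he', rfl⟩ : ∃ I', e ∉ I' ∧ I = insert e I' :=
    ⟨I.erase e, Finset.notMem_erase e I, (Finset.insert_erase he).symm⟩
  rw [Ex_insert he', Ex_insert he']
  have h1 : Ex π I (fun J => F (insert e J) * (π e - if e ∈ insert e J then 1 else 0)) =
      (π e - 1) * Ex π I (fun J => F (insert e J)) := by
    rw [← Ex_const_mul]
    exact Ex_congr fun J _ => by simp [mul_comm]
  have h2 : Ex π I (fun J => F J * (π e - if e ∈ J then 1 else 0)) = π e * Ex π I F := by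
    rw [← Ex_const_mul]
    exact Ex_congr fun J hJ => by simp [show e ∉ J from fun h => he' (hJ h), mul_comm]
  have h3 : Ex π I (fun J => F ((insert e J).erase e) - F (insert e (insert e J))) =
      Ex π I F - Ex π I (fun J => F (insert e J)) := by
    rw [← Ex_sub]
    exact Ex_congr fun J hJ => by
      rw [Finset.erase_insert fun h => he' (hJ h), Finset.insert_idem]
  have h4 : Ex π I (fun J => F (J.erase e) - F (insert e J)) =
      Ex π I F - Ex π I (fun J => F (insert e J)) := by
    rw [← Ex_sub]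
    exact Ex_congr fun J hJ => by rw [Finset.erase_eq_of_notMem fun h => he' (hJ h)]
  rw [h1, h2, h3, h4]
  ring

/-- Only the parameters of the coordinates on which `F` depends matter. -/
theorem Ex_congr_param {π' : ι → ℝ} {T : Finset ι} (hT : ∀ e ∈ T, π e = π' e)
    {F : Finset ι → ℝ} (hF : ∀ J ⊆ I, F J = F (J ∩ T)) : Ex π I F = Ex π' I F := by
  induction I using Finset.induction_on generalizing F with
  | empty => simp [Ex, wt]
  | insert e I he ih =>
    have h1 : ∀ J ⊆ I, F J = F (J ∩ T) := fun J hJ => hF J (hJ.trans (Finset.subset_insert _ _))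
    rw [Ex_insert he, Ex_insert he, ih h1]
    by_cases heT : e ∈ T
    · rw [hT e heT, ih (F := fun J => F (insert e J)) fun J hJ => ?_]
      rw [hF _ (Finset.insert_subset_insert e hJ),
        hF _ (Finset.insert_subset_insert e (Finset.inter_subset_left.trans hJ)),
        Finset.insert_inter_of_mem heT, Finset.insert_inter_of_mem heT, Finset.inter_assoc,
        Finset.inter_self]
    · have h2 : ∀ σ : ι → ℝ, Ex σ I (fun J => F (insert e J)) = Ex σ I F := fun σ =>
        Ex_congr fun J hJ => by
          rw [hF _ (Finset.insert_subset_insert e hJ), Finset.insert_inter_of_notMem heT, ← h1 J hJ]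
      rw [h2, h2, ih h1]
      ring

end Crest.Agent.R147.T
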