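import Crest.Agent.R147.T0

/-! Row 147, module A1: fluctuation bound for stopping sets. -/

set_option autoImplicit false

open MeasureTheory ProbabilityTheory Set Filter
open scoped ENNReal NNReal
open Crest.ProbabilityR.Percolation

namespace Crest.Agent.R147.T

open Crest.Agent.R159

variable {ι : Type*} [DecidableEq ι]

theorem der_wt (π : ι → ℝ) {I J : Finset ι} (hJ : J ⊆ I) :
    wt π I J = ∏ e ∈ I, (if e ∈ J then π e else 1 - π e) := by
  rw [Finset.prod_ite, wt]
  congr 2
  · ext e; simp only [Finset.mem_filter]; exact ⟨fun h => ⟨hJ h, h⟩, fun h => h.2⟩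
  · ext e; simp

omit [DecidableEq ι] in
theorem der_prod (T : Finset ι) (y : ι → ℝ) (hy : ∀ e ∈ T, -(1 / 2) ≤ y e)
    (h2 : ∑ e ∈ T, y e ^ 2 ≤ 1 / 2) : ∑ e ∈ T, y e ≤ ∏ e ∈ T, (1 + y e) := by
  have hpos : ∀ e ∈ T, 0 < 1 + y e := fun e he => by linarith [hy e he]
  have h1 : ∑ e ∈ T, (y e - 2 * y e ^ 2) ≤ ∑ e ∈ T, Real.log (1 + y e) := by
    refine Finset.sum_le_sum fun e he => le_trans ?_ (Real.one_sub_inv_le_log_of_pos (hpos e he))
    have h0 := hpos e he
    have h3 := hy e he
    have : (1 + y e)⁻¹ ≤ 1 - y e + 2 * y e ^ 2 := by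
      rw [inv_eq_one_div, div_le_iff₀ h0]
      nlinarith [mul_nonneg (sq_nonneg (y e)) (show 0 ≤ 1 + 2 * y e by linarith)]
    linarith
  rw [← Real.log_prod fun e he => (hpos e he).ne', Finset.sum_sub_distrib, ← Finset.mul_sum] at h1
  have h4 := Real.log_le_sub_one_of_pos (Finset.prod_pos hpos)
  linarith

/-- If `K J` is determined by the coordinates in `T (K J)`, then the centred count, restricted to
the event that `T (K J)` is small, has expectation `O(√M)`. -/
theorem der {β : Type*} [DecidableEq β] (I : Finset ι) {p pm : ℝ} (hpm : 0 < pm) (h1 : pm ≤ p)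
    (h2 : p ≤ 1 - pm) (K : Finset ι → β) (T : β → Finset ι) (hT : ∀ B, T B ⊆ I)
    (hstop : ∀ J ⊆ I, ∀ J' ⊆ I, (∀ e ∈ T (K J), e ∈ J ↔ e ∈ J') → K J' = K J)
    (S : β → Prop) [DecidablePred S] {M : ℝ} (hM : 1 ≤ M)
    (hS : ∀ B, S B → ((T B).card : ℝ) ≤ M) :
    Ex (fun _ => p) I (fun J => if S (K J) then fl p I J else 0) ≤ √M / pm := by
  have hp0 : 0 < p := hpm.trans_le h1
  have hp1 : 0 < 1 - p := by linarith
  have hs1 : 1 ≤ √M := Real.one_le_sqrt.2 hM
  have hss : √M ^ 2 = M := Real.sq_sqrt (by linarith)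
  set s := √M with hs
  set t := pm / (2 * s) with ht
  have ht0 : 0 < t := by positivity
  have htp : t ≤ pm := by
    rw [ht, div_le_iff₀ (by positivity)]; nlinarith
  set c := p * (1 - p) with hc
  have hc0 : 0 < c := by positivity
  have hπ : ∀ e ∈ I, 0 ≤ (fun _ : ι => p) e ∧ (fun _ : ι => p) e ≤ 1 :=
    fun _ _ => ⟨hp0.le, by linarith⟩
  have hπq : ∀ e ∈ I, 0 ≤ (fun _ : ι => p - t) e ∧ (fun _ : ι => p - t) e ≤ 1 :=
    fun _ _ => ⟨by show 0 ≤ p - t; linarith, by show p - t ≤ 1; linarith⟩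
  set A : β → Finset ι → ℝ := fun B J => if K J = B then 1 else 0 with hA
  have hA0 : ∀ B J, 0 ≤ A B J := fun B J => by simp only [hA]; split_ifs <;> norm_num
  have hdep : ∀ B, ∀ J ⊆ I, ∀ J' ⊆ I, (∀ e ∈ T B, e ∈ J ↔ e ∈ J') → A B J = A B J' := by
    intro B J hJ J' hJ' h
    have : K J = B ↔ K J' = B := by
      constructor
      · rintro rfl; exact hstop J hJ J' hJ' h
      · rintro rfl; exact hstop J' hJ' J hJ fun e he => (h e he).symm
    simp only [hA, this]
  set y : Finset ι → ι → ℝ := fun J e => t * (p - if e ∈ J then 1 else 0) / c with hy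
  have hyb : ∀ J e, |y J e| ≤ 1 / (2 * s) := by
    intro J e
    have e1 : 1 / (2 * s) = t / pm := by rw [ht]; field_simp
    rw [e1, hy]
    by_cases he : e ∈ J
    · have : t * (p - 1) / c = -(t / p) := by rw [hc]; field_simp; ring
      simp only [he, if_true, this, abs_neg]
      rw [abs_of_pos (by positivity)]
      gcongr
    · have : t * (p - 0) / c = t / (1 - p) := by rw [hc]; field_simp; ring
      simp only [he, if_false, this]
      rw [abs_of_pos (by positivity)]
      gcongr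
      linarith
  have key : ∀ B, S B → Ex (fun _ => p) I (fun J => A B J * fl p I J) ≤
      c / t * Ex (fun _ => p - t) I (A B) := by
    intro B hB
    have e0 : Ex (fun _ => p) I (fun J => A B J * fl p I J) =
        Ex (fun _ => p) I (fun J => A B J * ∑ e ∈ T B, (p - if e ∈ J then 1 else 0)) +
        ∑ e ∈ I \ T B, Ex (fun _ => p) I (fun J => A B J * (p - if e ∈ J then 1 else 0)) := by
      rw [← Ex_sum, ← Ex_add]
      refine Ex_congr fun J _ => ?_
      rw [← Finset.mul_sum, ← mul_add, fl, add_comm, Finset.sum_sdiff (hT B)]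
    have e1 : ∀ e ∈ I \ T B,
        Ex (fun _ => p) I (fun J => A B J * (p - if e ∈ J then 1 else 0)) = 0 := by
      intro e he
      obtain ⟨heI, heT⟩ := Finset.mem_sdiff.1 he
      have := Ex_cov (π := fun _ => p) heI (A B)
      rw [this, Ex_congr (F' := fun _ => 0), Ex_const, mul_zero]
      intro J hJ
      rw [sub_eq_zero]
      refine hdep B _ ((Finset.erase_subset _ _).trans hJ) _ (Finset.insert_subset heI hJ) ?_
      intro f hf
      have : f ≠ e := fun h => heT (h ▸ hf)
      simp [this]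
    rw [e0, Finset.sum_eq_zero e1, add_zero]
    set πB : ι → ℝ := fun e => if e ∈ T B then p - t else p with hπB
    have e2 : Ex (fun _ => p) I (fun J => A B J * ∏ e ∈ T B, (1 + y J e)) = Ex πB I (A B) := by
      refine Finset.sum_congr rfl fun J hJ => ?_
      have hJ' := Finset.mem_powerset.1 hJ
      have e3 : ∏ e ∈ T B, (1 + y J e) = ∏ e ∈ I, (if e ∈ T B then 1 + y J e else 1) := by
        rw [Finset.prod_ite_mem, Finset.inter_eq_right.2 (hT B)]
      beta_reduce
      rw [der_wt _ hJ', der_wt _ hJ', e3, mul_left_comm, ← Finset.prod_mul_distrib, mul_comm]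
      congr 1
      refine Finset.prod_congr rfl fun e _ => ?_
      simp only [hπB, hy, hc]
      split_ifs <;> field_simp <;> ring
    have e4 : Ex πB I (A B) = Ex (fun _ => p - t) I (A B) := by
      refine Ex_congr_param (T := T B) (fun e he => by simp [hπB, he]) fun J hJ => ?_
      exact hdep B _ hJ _ (Finset.inter_subset_left.trans hJ) fun e he => by simp [he]
    rw [← e4, ← e2, ← Ex_const_mul]
    refine Ex_mono hπ fun J _ => ?_
    have e5 : ∑ e ∈ T B, (p - if e ∈ J then 1 else 0) = c / t * ∑ e ∈ T B, y J e := by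
      rw [Finset.mul_sum]
      refine Finset.sum_congr rfl fun e _ => ?_
      simp only [hy]
      field_simp
    rw [e5, mul_left_comm]
    refine mul_le_mul_of_nonneg_left (mul_le_mul_of_nonneg_left ?_ (hA0 B J)) (by positivity)
    have hb : 1 / (2 * s) ≤ 1 / 2 := by gcongr; linarith
    refine der_prod _ _ (fun e _ => by linarith [(abs_le.1 (hyb J e)).1]) ?_
    calc ∑ e ∈ T B, y J e ^ 2 ≤ ∑ _e ∈ T B, (1 / (2 * s)) ^ 2 :=
          Finset.sum_le_sum fun e _ => sq_le_sq' (abs_le.1 (hyb J e)).1 (abs_le.1 (hyb J e)).2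
      _ = (T B).card * (1 / (2 * s)) ^ 2 := by rw [Finset.sum_const, nsmul_eq_mul]
      _ ≤ s ^ 2 * (1 / (2 * s)) ^ 2 := by rw [hss]; gcongr; exact hS B hB
      _ = 1 / 4 := by field_simp; norm_num
      _ ≤ 1 / 2 := by norm_num
  set 𝔅 := (I.powerset.image K).filter S with h𝔅
  have e6 : Ex (fun _ => p) I (fun J => if S (K J) then fl p I J else 0) =
      ∑ B ∈ 𝔅, Ex (fun _ => p) I (fun J => A B J * fl p I J) := by
    rw [← Ex_sum]
    refine Ex_congr fun J hJ => ?_
    rw [← Finset.sum_mul]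
    simp only [hA, Finset.sum_ite_eq, h𝔅, Finset.mem_filter,
      Finset.mem_image_of_mem K (Finset.mem_powerset.2 hJ), true_and]
    split_ifs <;> simp
  have e7 : ∑ B ∈ 𝔅, Ex (fun _ => p - t) I (A B) ≤ 1 := by
    rw [← Ex_sum, ← Ex_const (π := fun _ => p - t) (I := I) 1]
    refine Ex_mono hπq fun J _ => ?_
    simp only [hA, Finset.sum_ite_eq]
    split_ifs <;> norm_num
  rw [e6]
  calc _ ≤ ∑ B ∈ 𝔅, c / t * Ex (fun _ => p - t) I (A B) :=
        Finset.sum_le_sum fun B hB => key B (Finset.mem_filter.1 hB).2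
    _ ≤ c / t * 1 := by rw [← Finset.mul_sum]; gcongr
    _ ≤ s / pm := by
        have : c ≤ 1 / 2 := by rw [hc]; nlinarith [sq_nonneg (p - 1 / 2)]
        rw [mul_one, ht, div_div_eq_mul_div]
        gcongr
        nlinarith

end Crest.Agent.R147.T
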