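import Crest.Agent.R147.T0b

/-! Row 147, module A1: merging two big clusters. -/

set_option autoImplicit false

open MeasureTheory ProbabilityTheory Set Filter
open scoped ENNReal NNReal
open Crest.ProbabilityR.Percolation

namespace Crest.Agent.R147.T

open Crest.Agent.R159

variable {V : Type*} [DecidableEq V] {G : SimpleGraph V}

omit [DecidableEq V] in
theorem t3a_mem_clF {Λ : Finset V} {J : Finset (Sym2 V)} {x y : V} :
    y ∈ clF G Λ J x ↔ conn G (↑Λ)ᶜ (↑J) x y := by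
  classical
  unfold clF
  rw [Finset.mem_filter]
  refine ⟨fun h => h.2, fun h => ⟨?_, h⟩⟩
  have := h.right
  simpa using this

omit [DecidableEq V] in
theorem t3a_gn_anti (Λ : Finset V) {n : ℕ} (hn : 1 ≤ n) (x : V) {J J' : Finset (Sym2 V)}
    (hJ : J ⊆ J') : gn G Λ n x J' ≤ gn G Λ n x J := by
  unfold gn
  have hn' : (1 : ℝ) ≤ n := by exact_mod_cast hn
  have hsub : clF G Λ J x ⊆ clF G Λ J' x := fun y hy =>
    t3a_mem_clF.2 ((t3a_mem_clF.1 hy).mono le_rfl (Finset.coe_subset.2 hJ))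
  have hc : ((clF G Λ J x).card : ℝ) ≤ (clF G Λ J' x).card := by
    exact_mod_cast Finset.card_le_card hsub
  apply one_div_le_one_div_of_le
  · exact lt_of_lt_of_le (by linarith) (le_max_right _ _)
  · exact max_le_max hc le_rfl

theorem t3a_side (Λ : Finset V) {n : ℕ} (hn : 1 ≤ n) {u v : V} {J J' : Finset (Sym2 V)}
    (hJ : J ⊆ J') (hc : conn G (↑Λ)ᶜ (↑J') u v) (hd : Disjoint (clF G Λ J u) (clF G Λ J v))
    (ha : n ≤ (clF G Λ J u).card) {x : V} (hx : x ∈ clF G Λ J u) :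
    1 / ((clF G Λ J u).card : ℝ) - 1 / (((clF G Λ J u).card : ℝ) + (clF G Λ J v).card) ≤
      gn G Λ n x J - gn G Λ n x J' := by
  have hn' : (1 : ℝ) ≤ n := by exact_mod_cast hn
  have ha' : (n : ℝ) ≤ (clF G Λ J u).card := by exact_mod_cast ha
  have hux := t3a_mem_clF.1 hx
  have hJ' : (↑J : Set (Sym2 V)) ⊆ ↑J' := Finset.coe_subset.2 hJ
  have h1 : clF G Λ J x = clF G Λ J u := by
    ext y
    rw [t3a_mem_clF, t3a_mem_clF]
    exact ⟨fun h => hux.trans h, fun h => hux.symm.trans h⟩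
  have h2 : clF G Λ J u ∪ clF G Λ J v ⊆ clF G Λ J' x := by
    intro y hy
    have hxu : conn G (↑Λ)ᶜ (↑J') x u := hux.symm.mono le_rfl hJ'
    rcases Finset.mem_union.1 hy with hy | hy
    · exact t3a_mem_clF.2 (hxu.trans ((t3a_mem_clF.1 hy).mono le_rfl hJ'))
    · exact t3a_mem_clF.2 ((hxu.trans hc).trans ((t3a_mem_clF.1 hy).mono le_rfl hJ'))
  have h3 : ((clF G Λ J u).card : ℝ) + (clF G Λ J v).card ≤ (clF G Λ J' x).card := by
    have := Finset.card_le_card h2
    rw [Finset.card_union_of_disjoint hd] at this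
    exact_mod_cast this
  have h4 : gn G Λ n x J = 1 / ((clF G Λ J u).card : ℝ) := by
    unfold gn
    rw [h1, max_eq_left ha']
  have h5 : gn G Λ n x J' ≤ 1 / (((clF G Λ J u).card : ℝ) + (clF G Λ J v).card) := by
    unfold gn
    apply one_div_le_one_div_of_le
    · have : (0 : ℝ) ≤ (clF G Λ J v).card := Nat.cast_nonneg _
      linarith
    · exact h3.trans (le_max_left _ _)
  rw [h4]
  linarith

theorem gn_insert_le (Λ : Finset V) {n : ℕ} (hn : 1 ≤ n) (x : V) (J : Finset (Sym2 V))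
    (e : Sym2 V) : gn G Λ n x (insert e J) ≤ gn G Λ n x (J.erase e) := by
  exact t3a_gn_anti Λ hn x ((Finset.erase_subset e J).trans (Finset.subset_insert e J))

/-- Opening an edge between two different big clusters lowers `∑ₓ gn` by at least one. -/
theorem one_le_sum_gn (Λ : Finset V) {n : ℕ} (hn : 1 ≤ n) {u v : V} (huv : G.Adj u v)
    (J : Finset (Sym2 V)) (h : (↑J : Set (Sym2 V)) ∈ Two G (↑Λ)ᶜ n u v) :
    1 ≤ ∑ x ∈ Λ, (gn G Λ n x (J.erase s(u, v)) - gn G Λ n x (insert s(u, v) J)) := by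
  obtain ⟨⟨hu, hv⟩, hnc⟩ := h
  have hnc : ¬ conn G (↑Λ)ᶜ (↑J) u v := hnc
  have ha := (mem_big_iff Λ J n u).1 hu
  have hb := (mem_big_iff Λ J n v).1 hv
  have huΛ : u ∉ (↑Λ : Set V)ᶜ := by
    obtain ⟨y, hy⟩ := Finset.card_pos.1 (lt_of_lt_of_le (by omega) ha : 0 < (clF G Λ J u).card)
    exact (t3a_mem_clF.1 hy).left
  have hvΛ : v ∉ (↑Λ : Set V)ᶜ := by
    obtain ⟨y, hy⟩ := Finset.card_pos.1 (lt_of_lt_of_le (by omega) hb : 0 < (clF G Λ J v).card)
    exact (t3a_mem_clF.1 hy).left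
  have he : s(u, v) ∉ J := fun he => hnc ((conn_refl huΛ).tail huv (Finset.mem_coe.2 he) hvΛ)
  rw [Finset.erase_eq_of_notMem he]
  have hc : conn G (↑Λ)ᶜ (↑(insert s(u, v) J)) u v :=
    (conn_refl huΛ).tail huv (Finset.mem_coe.2 (Finset.mem_insert_self _ _)) hvΛ
  have hd : Disjoint (clF G Λ J u) (clF G Λ J v) := by
    rw [Finset.disjoint_left]
    intro y hy hy'
    exact hnc ((t3a_mem_clF.1 hy).trans (t3a_mem_clF.1 hy').symm)
  have hsub : clF G Λ J u ∪ clF G Λ J v ⊆ Λ := by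
    intro y hy
    rcases Finset.mem_union.1 hy with hy | hy
    · simpa using (t3a_mem_clF.1 hy).right
    · simpa using (t3a_mem_clF.1 hy).right
  have hJ : J ⊆ insert s(u, v) J := Finset.subset_insert _ _
  have hA := Finset.card_nsmul_le_sum (clF G Λ J u)
    (fun x => gn G Λ n x J - gn G Λ n x (insert s(u, v) J)) _
    (fun x hx => t3a_side Λ hn hJ hc hd ha hx)
  have hB := Finset.card_nsmul_le_sum (clF G Λ J v)
    (fun x => gn G Λ n x J - gn G Λ n x (insert s(u, v) J)) _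
    (fun x hx => t3a_side Λ hn hJ hc.symm hd.symm hb hx)
  have hS : ∑ x ∈ clF G Λ J u ∪ clF G Λ J v, (gn G Λ n x J - gn G Λ n x (insert s(u, v) J)) ≤
      ∑ x ∈ Λ, (gn G Λ n x J - gn G Λ n x (insert s(u, v) J)) :=
    Finset.sum_le_sum_of_subset_of_nonneg hsub fun x _ _ =>
      sub_nonneg.2 (t3a_gn_anti Λ hn x hJ)
  rw [Finset.sum_union hd] at hS
  rw [nsmul_eq_mul] at hA hB
  have ha' : (1 : ℝ) ≤ (clF G Λ J u).card := by exact_mod_cast hn.trans ha
  have hb' : (1 : ℝ) ≤ (clF G Λ J v).card := by exact_mod_cast hn.trans hb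
  generalize ((clF G Λ J u).card : ℝ) = a at hA hB ha' hb'
  generalize ((clF G Λ J v).card : ℝ) = b at hA hB ha' hb'
  have key : a * (1 / a - 1 / (a + b)) + b * (1 / b - 1 / (b + a)) = 1 := by
    have h1 : a ≠ 0 := by linarith
    have h2 : b ≠ 0 := by linarith
    have h3 : a + b ≠ 0 := by linarith
    rw [add_comm b a]
    field_simp
    ring
  linarith

end Crest.Agent.R147.T
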