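import Crest.Agent.R147.T0b
import Crest.Agent.R147.T2

/-! Row 147, module A1: layer cake over the cluster size. -/

set_option autoImplicit false

open MeasureTheory ProbabilityTheory Set Filter
open scoped ENNReal NNReal
open Crest.ProbabilityR.Percolation

namespace Crest.Agent.R147.T

open Crest.Agent.R159

variable {V : Type*} [DecidableEq V] {G : SimpleGraph V} [G.LocallyFinite]

/-- The fluctuation bound for the event that the cluster of `x` has fewer than `m` vertices. -/
theorem der_cl {d : ℕ} (hd1 : 1 ≤ d) (hd : ∀ v, G.degree v ≤ d) {p pm : ℝ} (hpm : 0 < pm)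
    (h1 : pm ≤ p) (h2 : p ≤ 1 - pm) (Λ : Finset V) (x : V) {m : ℕ} (hm : 1 ≤ m) :
    Ex (fun _ => p) (eIn G Λ)
      (fun J => if (clF G Λ J x).card < m then fl p (eIn G Λ) J else 0) ≤ √(d * m) / pm := by
  classical
  have hd1' : (1 : ℝ) ≤ d := by exact_mod_cast hd1
  have hm' : (1 : ℝ) ≤ m := by exact_mod_cast hm
  refine der (eIn G Λ) hpm h1 h2 (fun J => clF G Λ J x)
    (fun B => (eIn G Λ).filter fun e => ∃ b ∈ B, b ∈ e) (fun B => Finset.filter_subset _ _)
    (fun J hJ J' hJ' h => ?_) (fun B => B.card < m) (by nlinarith) fun B hB => ?_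
  · apply Finset.coe_injective
    rw [coe_clF, coe_clF]
    refine dep_cl (G := G) _ x _ (↑J) (↑J') (fun e he => ?_) rfl
    by_cases hI : e ∈ eIn G Λ
    · obtain ⟨⟨-, a, ha, hae⟩, -⟩ := he
      rw [← coe_clF] at ha
      exact h e (Finset.mem_filter.2 ⟨hI, a, ha, hae⟩)
    · exact iff_of_false (fun h' => hI (hJ h')) fun h' => hI (hJ' h')
  · have h3 : ((eIn G Λ).filter fun e => ∃ b ∈ B, b ∈ e) ⊆
        B.biUnion fun b => G.incidenceFinset b := fun e he => by
      obtain ⟨hI, b, hb, hbe⟩ := Finset.mem_filter.1 he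
      exact Finset.mem_biUnion.2 ⟨b, hb, (G.mem_incidenceFinset b e).2 ⟨eIn_edge e hI, hbe⟩⟩
    have h4 : ((eIn G Λ).filter fun e => ∃ b ∈ B, b ∈ e).card ≤ d * m :=
      calc _ ≤ (B.biUnion fun b => G.incidenceFinset b).card := Finset.card_le_card h3
        _ ≤ B.card * d := Finset.card_biUnion_le_card_mul _ _ _ fun b _ => by
            rw [SimpleGraph.card_incidenceFinset_eq_degree]
            exact hd b
        _ ≤ d * m := by
            rw [mul_comm]
            exact Nat.mul_le_mul_left _ hB.le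
    exact_mod_cast h4

theorem sum_layer_le_term {N : ℕ} (hN : 1 ≤ N) :
    √((N + 1 : ℕ) : ℝ) / (((N + 1 : ℕ) : ℝ) * (((N + 1 : ℕ) : ℝ) - 1)) ≤
      3 / √(N : ℝ) - 3 / √((N + 1 : ℕ) : ℝ) := by
  have hN' : (1 : ℝ) ≤ N := by exact_mod_cast hN
  push_cast
  rw [add_sub_cancel_right]
  have ha : 0 < √(N : ℝ) := Real.sqrt_pos.2 (by linarith)
  have hb : 0 < √((N : ℝ) + 1) := Real.sqrt_pos.2 (by linarith)
  have ha2 : √(N : ℝ) ^ 2 = N := Real.sq_sqrt (by linarith)
  have hb2 : √((N : ℝ) + 1) ^ 2 = N + 1 := Real.sq_sqrt (by linarith)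
  set a := √(N : ℝ)
  set b := √((N : ℝ) + 1)
  have h1 : b ≤ 2 * a := by nlinarith
  have h2 : a ≤ b := by nlinarith
  have h3 : 1 ≤ 3 * a * (b - a) := by nlinarith
  rw [← hb2]
  conv_lhs => rw [← ha2]
  rw [div_sub_div _ _ ha.ne' hb.ne', div_le_div_iff₀ (by positivity) (by positivity)]
  have := mul_le_mul_of_nonneg_left h3 (show 0 ≤ a * b ^ 2 by positivity)
  nlinarith

theorem sum_layer_le {n : ℕ} (hn : 1 ≤ n) (N : ℕ) :
    ∑ m ∈ Finset.Ioc n N, √(m : ℝ) / ((m : ℝ) * (m - 1)) ≤ 3 / √(n : ℝ) := by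
  have key : ∀ N, n ≤ N → ∑ m ∈ Finset.Ioc n N, √(m : ℝ) / ((m : ℝ) * (m - 1)) ≤
      3 / √(n : ℝ) - 3 / √(N : ℝ) := by
    intro N hN
    induction N, hN using Nat.le_induction with
    | base => simp
    | succ N hN ih =>
      rw [Finset.sum_Ioc_succ_top hN]
      have := sum_layer_le_term (hn.trans hN)
      linarith
  rcases le_total n N with h | h
  · have := key N h
    have : 0 ≤ 3 / √(N : ℝ) := by positivity
    linarith
  · rw [Finset.Ioc_eq_empty (not_lt.2 h), Finset.sum_empty]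
    positivity

theorem layer_cake {n N s : ℕ} (hn : 1 ≤ n) (hnN : n ≤ N) (hs : s ≤ N) :
    1 / max (s : ℝ) n =
      1 / (N : ℝ) + ∑ m ∈ Finset.Ioc n N, (if s < m then 1 else 0) / ((m : ℝ) * (m - 1)) := by
  have key : ∀ N, n ≤ N → 1 / (N : ℝ) +
      ∑ m ∈ Finset.Ioc n N, (if s < m then 1 else 0) / ((m : ℝ) * (m - 1)) =
      1 / ((min N (max s n) : ℕ) : ℝ) := by
    intro N hN
    induction N, hN using Nat.le_induction with
    | base => simp
    | succ N hN ih =>
      have hN' : (1 : ℝ) ≤ N := by exact_mod_cast hn.trans hN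
      rw [Finset.sum_Ioc_succ_top hN]
      split_ifs with h
      · rw [show min (N + 1) (max s n) = min N (max s n) by omega, ← ih]
        push_cast
        rw [add_sub_cancel_right]
        have : 1 / ((N : ℝ) + 1) + 1 / (((N : ℝ) + 1) * N) = 1 / N := by
          field_simp
        linarith
      · rw [show min N (max s n) = N by omega] at ih
        rw [show min (N + 1) (max s n) = N + 1 by omega, zero_div]
        linarith
  rw [key N hnN, show min N (max s n) = max s n by omega, Nat.cast_max]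

theorem gn_cov_fl {ι : Type*} [DecidableEq ι] (p : ℝ) (I : Finset ι) :
    Ex (fun _ => p) I (fun J => fl p I J) = 0 := by
  unfold fl
  rw [Ex_sum]
  refine Finset.sum_eq_zero fun e he => ?_
  have := Ex_cov (π := fun _ => p) he fun _ => 1
  simpa only [one_mul, sub_self, Ex_const, mul_zero] using this

theorem gn_cov {d : ℕ} (hd1 : 1 ≤ d) (hd : ∀ v, G.degree v ≤ d) {p pm : ℝ} (hpm : 0 < pm)
    (h1 : pm ≤ p) (h2 : p ≤ 1 - pm) (Λ : Finset V) (x : V) {n : ℕ} (hn : 1 ≤ n) :
    Ex (fun _ => p) (eIn G Λ) (fun J => gn G Λ n x J * fl p (eIn G Λ) J) ≤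
      3 * √(d : ℝ) / (pm * √(n : ℝ)) := by
  have hp : ∀ J, gn G Λ n x J * fl p (eIn G Λ) J =
      1 / ((max Λ.card n : ℕ) : ℝ) * fl p (eIn G Λ) J +
        ∑ m ∈ Finset.Ioc n (max Λ.card n), 1 / ((m : ℝ) * (m - 1)) *
          if (clF G Λ J x).card < m then fl p (eIn G Λ) J else 0 := fun J => by
    have hc : (clF G Λ J x).card ≤ Λ.card := by
      classical
      unfold clF
      exact Finset.card_filter_le _ _
    rw [gn, layer_cake hn (le_max_right Λ.card n) (hc.trans (le_max_left _ _)), add_mul,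
      Finset.sum_mul]
    congr 1
    refine Finset.sum_congr rfl fun m _ => ?_
    split_ifs <;> simp
  simp only [hp]
  rw [Ex_add, Ex_const_mul, gn_cov_fl, mul_zero, zero_add, Ex_sum]
  calc _ ≤ ∑ m ∈ Finset.Ioc n (max Λ.card n), √(d : ℝ) / pm * (√(m : ℝ) / ((m : ℝ) * (m - 1))) := by
        refine Finset.sum_le_sum fun m hm => ?_
        have hm1 : n < m := (Finset.mem_Ioc.1 hm).1
        have hm2 : (2 : ℝ) ≤ m := by exact_mod_cast (show 2 ≤ m by omega)
        have hm3 : (0 : ℝ) < (m : ℝ) * (m - 1) := mul_pos (by linarith) (by linarith)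
        rw [Ex_const_mul]
        refine (mul_le_mul_of_nonneg_left (der_cl hd1 hd hpm h1 h2 Λ x (by omega))
          (by positivity)).trans_eq ?_
        rw [Real.sqrt_mul (Nat.cast_nonneg d)]
        ring
    _ ≤ √(d : ℝ) / pm * (3 / √(n : ℝ)) := by
        rw [← Finset.mul_sum]
        exact mul_le_mul_of_nonneg_left (sum_layer_le hn _) (by positivity)
    _ = _ := by ring

end Crest.Agent.R147.T
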