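import Crest.Agent.R147.T0
import Crest.Agent.R147.T1
import Crest.Agent.R147.T3a
import Crest.Agent.R147.T3b

/-! Row 147, module A1: the averaged two-arm bound in a finite box. -/

set_option autoImplicit false

open MeasureTheory ProbabilityTheory Set Filter
open scoped ENNReal NNReal
open Crest.ProbabilityR.Percolation

namespace Crest.Agent.R147.T

open Crest.Agent.R159

variable {V : Type*} [DecidableEq V] {G : SimpleGraph V} [G.LocallyFinite]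

theorem sum_pairs_le (Λ : Finset V) (c : Sym2 V → ℝ) (hc : ∀ e ∈ eIn G Λ, 0 ≤ c e) :
    ∑ u ∈ Λ, ∑ v ∈ Λ ∩ G.neighborFinset u, c s(u, v) ≤ 2 * ∑ e ∈ eIn G Λ, c e := by
  rw [Finset.sum_sigma', ← Finset.sum_fiberwise_of_maps_to (t := eIn G Λ)
    (g := fun q : (_ : V) × V => s(q.1, q.2)), Finset.mul_sum]
  · refine Finset.sum_le_sum fun e he => ?_
    have hce := hc e he
    rw [Finset.sum_congr rfl (g := fun _ => c e) fun q hq => by rw [(Finset.mem_filter.1 hq).2],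
      Finset.sum_const, nsmul_eq_mul]
    refine mul_le_mul_of_nonneg_right ?_ hce
    induction e using Sym2.ind with
    | _ a b =>
      have h : ((Λ.sigma fun u => Λ ∩ G.neighborFinset u).filter
          fun q : (_ : V) × V => s(q.1, q.2) = s(a, b)) ⊆ {⟨a, b⟩, ⟨b, a⟩} := by
        rintro ⟨u, v⟩ hq
        rcases Sym2.eq_iff.1 (Finset.mem_filter.1 hq).2 with ⟨rfl, rfl⟩ | ⟨rfl, rfl⟩
        · exact Finset.mem_insert_self _ _
        · exact Finset.mem_insert_of_mem (Finset.mem_singleton_self _)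
      exact_mod_cast (Finset.card_le_card h).trans Finset.card_le_two
  · rintro ⟨u, v⟩ hq
    obtain ⟨hu, hv⟩ := Finset.mem_sigma.1 hq
    obtain ⟨hv, huv⟩ := Finset.mem_inter.1 hv
    exact mem_eIn.2 ⟨hu, hv, (G.mem_neighborFinset u v).1 huv⟩

theorem tg_fin {d : ℕ} (hd1 : 1 ≤ d) (hd : ∀ v, G.degree v ≤ d) {pm : ℝ} (hpm : 0 < pm)
    (p : unitInterval) (h1 : pm ≤ p) (h2 : (p : ℝ) ≤ 1 - pm) (Λ : Finset V) {n : ℕ}
    (hn : 1 ≤ n) :
    ∑ u ∈ Λ, ∑ v ∈ Λ ∩ G.neighborFinset u, Dn G p (↑Λ)ᶜ n u v ≤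
      6 * √(d : ℝ) / pm ^ 3 * Λ.card / √(n : ℝ) := by
  classical
  have hπ : ∀ e ∈ eIn G Λ, 0 ≤ (fun _ => (p : ℝ)) e ∧ (fun _ => (p : ℝ)) e ≤ 1 :=
    fun _ _ => ⟨p.2.1, p.2.2⟩
  let c : Sym2 V → ℝ := fun e => Ex (fun _ => (p : ℝ)) (eIn G Λ)
    fun J => ∑ x ∈ Λ, (gn G Λ n x (J.erase e) - gn G Λ n x (insert e J))
  have hnn : ∀ (e : Sym2 V) (J : Finset (Sym2 V)),
      0 ≤ ∑ x ∈ Λ, (gn G Λ n x (J.erase e) - gn G Λ n x (insert e J)) := fun e J =>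
    Finset.sum_nonneg fun x _ => sub_nonneg.2 (gn_insert_le Λ hn x J e)
  have hc : ∀ e ∈ eIn G Λ, 0 ≤ c e := fun e _ => by
    have h := Ex_mono hπ (F := fun _ => 0) fun J _ => hnn e J
    rwa [Ex_const] at h
  have hD : ∀ u v, G.Adj u v → Dn G p (↑Λ)ᶜ n u v ≤ c s(u, v) := fun u v huv => by
    refine (P_real_eq p (eIn G Λ) eIn_edge (dep_two_in Λ n u v)).le.trans
      (Ex_mono hπ fun J _ => ?_)
    split_ifs with h
    · exact one_le_sum_gn Λ hn huv J h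
    · exact hnn _ J
  have hsum : ∑ x ∈ Λ, Ex (fun _ => (p : ℝ)) (eIn G Λ)
      (fun J => gn G Λ n x J * fl p (eIn G Λ) J) = (p : ℝ) * (1 - p) * ∑ e ∈ eIn G Λ, c e := by
    have h : ∀ x, Ex (fun _ => (p : ℝ)) (eIn G Λ) (fun J => gn G Λ n x J * fl p (eIn G Λ) J) =
        ∑ e ∈ eIn G Λ, (p : ℝ) * (1 - p) * Ex (fun _ => (p : ℝ)) (eIn G Λ)
          fun J => gn G Λ n x (J.erase e) - gn G Λ n x (insert e J) := fun x => by
      rw [← Finset.sum_congr rfl fun e he => Ex_cov (π := fun _ => (p : ℝ)) he (gn G Λ n x),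
        ← Ex_sum]
      exact Ex_congr fun J _ => Finset.mul_sum _ _ _
    rw [Finset.sum_congr rfl fun x _ => h x, Finset.sum_comm, Finset.mul_sum]
    refine Finset.sum_congr rfl fun e _ => ?_
    rw [← Finset.mul_sum, ← Ex_sum]
  have hle : (p : ℝ) * (1 - p) * ∑ e ∈ eIn G Λ, c e ≤
      Λ.card * (3 * √(d : ℝ) / (pm * √(n : ℝ))) := by
    rw [← hsum, ← nsmul_eq_mul]
    exact Finset.sum_le_card_nsmul _ _ _ fun x _ => gn_cov hd1 hd hpm h1 h2 Λ x hn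
  have hp : pm ^ 2 ≤ (p : ℝ) * (1 - p) := by
    rw [sq]
    exact mul_le_mul h1 (by linarith) hpm.le p.2.1
  have hS : 0 ≤ ∑ e ∈ eIn G Λ, c e := Finset.sum_nonneg hc
  have hn' : 0 < √(n : ℝ) := Real.sqrt_pos.2 (by exact_mod_cast hn)
  have h3 : ∑ e ∈ eIn G Λ, c e ≤ Λ.card * (3 * √(d : ℝ) / (pm * √(n : ℝ))) / pm ^ 2 := by
    rw [le_div_iff₀ (by positivity), mul_comm]
    exact (mul_le_mul_of_nonneg_right hp hS).trans hle
  calc ∑ u ∈ Λ, ∑ v ∈ Λ ∩ G.neighborFinset u, Dn G p (↑Λ)ᶜ n u v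
      ≤ ∑ u ∈ Λ, ∑ v ∈ Λ ∩ G.neighborFinset u, c s(u, v) :=
        Finset.sum_le_sum fun u _ => Finset.sum_le_sum fun v hv =>
          hD u v ((G.mem_neighborFinset u v).1 (Finset.mem_inter.1 hv).2)
    _ ≤ 2 * ∑ e ∈ eIn G Λ, c e := sum_pairs_le Λ c hc
    _ ≤ 2 * (Λ.card * (3 * √(d : ℝ) / (pm * √(n : ℝ))) / pm ^ 2) := by linarith
    _ = 6 * √(d : ℝ) / pm ^ 3 * Λ.card / √(n : ℝ) := by
        field_simp
        ring

end Crest.Agent.R147.T
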