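import Crest.Agent.R147.T3

/-! Row 147, module A1: the two-arm bound at every edge of an amenable graph. -/

set_option autoImplicit false

open MeasureTheory ProbabilityTheory Set Filter
open scoped ENNReal NNReal
open Crest.ProbabilityR.Percolation

namespace Crest.Agent.R147.T

open Crest.Agent.R159

variable {V : Type*} [Countable V] [DecidableEq V] {G : SimpleGraph V} [G.LocallyFinite]

theorem tg_inf_ball {F : Finset V} {x y : V} (hx : x ∈ F) (w : G.Walk x y) {n r : ℕ}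
    (h : w.length + n ≤ r) : ball G n {y} ⊆ ball G r F := by
  intro z hz
  obtain ⟨b, hb, w', hw'⟩ := mem_ball.1 hz
  rw [Finset.mem_singleton] at hb
  subst hb
  exact mem_ball.2 ⟨x, hx, w.append w', by rw [SimpleGraph.Walk.length_append]; omega⟩

theorem tg_inf {d : ℕ} (hd1 : 1 ≤ d) (hd : ∀ v, G.degree v ≤ d) {R : ℕ} (hR : Near G R)
    (ha : ¬ IsVertexNonamenable G) {pm : ℝ} (hpm : 0 < pm) :
    ∃ C : ℝ, 0 ≤ C ∧ ∀ p : unitInterval, pm ≤ p → (p : ℝ) ≤ 1 - pm → ∀ n : ℕ, 1 ≤ n →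
      ∀ u v, G.Adj u v → Dn G p ∅ n u v ≤ C / √(n : ℝ) := by
  refine ⟨12 * ((d : ℝ) + 1) ^ R * √(d : ℝ) / pm ^ 3, by positivity,
    fun p h1 h2 n hn u v huv => ?_⟩
  obtain ⟨F, hF, hc⟩ := folner hd ha (R + n + 1)
  have hfin := tg_fin hd1 hd hpm p h1 h2 (ball G (R + n + 1) F) hn
  set Λ := ball G (R + n + 1) F with hΛ
  choose φ w hw using fun x => hR x u
  set h : V → ℝ := fun y => ∑ v' ∈ Λ ∩ G.neighborFinset y, Dn G p (↑Λ)ᶜ n y v' with hh
  have h0 : ∀ y, 0 ≤ h y := fun y => Finset.sum_nonneg fun _ _ => Dn_nonneg _ _ _ _ _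
  have hmem : ∀ x ∈ F, φ x u ∈ Λ := fun x hx =>
    mem_ball.2 ⟨x, hx, w x, by have := hw x; omega⟩
  have hx : ∀ x ∈ F, Dn G p ∅ n u v ≤ h (φ x u) := by
    intro x hx
    have hadj : G.Adj (φ x u) (φ x v) := (φ x).map_adj_iff.2 huv
    have hl : ((w x).concat hadj).length ≤ R + 1 := by
      rw [SimpleGraph.Walk.length_concat]; have := hw x; omega
    rw [← Dn_iso p (φ x)]
    refine (Dn_le_local (Λ := Λ) p (tg_inf_ball hx (w x) (by have := hw x; omega))
      (tg_inf_ball hx ((w x).concat hadj) (by omega))).trans ?_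
    refine Finset.single_le_sum (f := fun v' => Dn G p (↑Λ)ᶜ n (φ x u) v')
      (fun _ _ => Dn_nonneg _ _ _ _ _) ?_
    exact Finset.mem_inter.2 ⟨mem_ball.2 ⟨x, hx, (w x).concat hadj, by omega⟩,
      (G.mem_neighborFinset _ _).2 hadj⟩
  have hsum : ∑ x ∈ F, h (φ x u) ≤ ((d : ℝ) + 1) ^ R * ∑ y ∈ Λ, h y := by
    rw [← Finset.sum_fiberwise_of_maps_to hmem, Finset.mul_sum]
    refine Finset.sum_le_sum fun y _ => ?_
    have e1 : ∑ x ∈ F with φ x u = y, h (φ x u) =
        ((F.filter fun x => φ x u = y).card : ℝ) * h y := by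
      rw [Finset.sum_congr rfl (g := fun _ => h y) fun x hx => by
        rw [(Finset.mem_filter.1 hx).2], Finset.sum_const, nsmul_eq_mul]
    rw [e1]
    refine mul_le_mul_of_nonneg_right ?_ (h0 y)
    have e2 : (F.filter fun x => φ x u = y) ⊆ ball G R {y} := by
      intro x hx
      obtain ⟨-, rfl⟩ := Finset.mem_filter.1 hx
      exact mem_ball.2 ⟨_, Finset.mem_singleton_self _, (w x).reverse, by
        rw [SimpleGraph.Walk.length_reverse]; exact hw x⟩
    have e3 := (Finset.card_le_card e2).trans (card_ball_le hd R {y})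
    rw [Finset.card_singleton, mul_one] at e3
    exact_mod_cast e3
  have hlow : (F.card : ℝ) * Dn G p ∅ n u v ≤ ∑ x ∈ F, h (φ x u) := by
    rw [← nsmul_eq_mul, ← Finset.sum_const]
    exact Finset.sum_le_sum hx
  have hFpos : (0 : ℝ) < F.card := by exact_mod_cast hF.card_pos
  have hc' : (Λ.card : ℝ) ≤ 2 * F.card := by exact_mod_cast hc
  have hfin' : ∑ y ∈ Λ, h y ≤ 6 * √(d : ℝ) / pm ^ 3 * (2 * F.card) / √(n : ℝ) :=
    hfin.trans (by gcongr)
  refine le_of_mul_le_mul_left ?_ hFpos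
  refine hlow.trans (hsum.trans ((mul_le_mul_of_nonneg_left hfin' (by positivity)).trans_eq ?_))
  ring

end Crest.Agent.R147.T
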