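import Crest.Agent.R147.T1

/-! Row 147, module A1: points shielded by a finite set. -/

set_option autoImplicit false

open MeasureTheory ProbabilityTheory Set Filter
open scoped ENNReal NNReal
open Crest.ProbabilityR.Percolation

namespace Crest.Agent.R147.T

open Crest.Agent.R159

variable {V : Type*} [DecidableEq V] {G : SimpleGraph V} [G.LocallyFinite]

omit [DecidableEq V] [G.LocallyFinite] in
theorem card_big_le_exit {A : Set V} {ω : Set (Sym2 V)} {z y : V} (hz : z ∉ A)
    (h : conn G ∅ ω z y) : conn G A ω z y ∨ ∃ a ∈ A, ∃ a', G.Adj a a' ∧ conn G A ω z a' := by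
  obtain ⟨-, h⟩ := h
  induction h with
  | refl => exact Or.inl (conn_refl hz)
  | @tail b c _ hbc ih =>
    rcases ih with ih | ih
    · by_cases hc : c ∈ A
      · exact Or.inr ⟨c, hc, b, hbc.1.symm, ih⟩
      · exact Or.inl ⟨hz, ih.2.tail ⟨hbc.1, hbc.2.1, hc⟩⟩
    · exact Or.inr ih

open Classical in
/-- Removing a finite set `A` destroys at most `(1 + d n) |A|` big points. -/
theorem card_big_le {d : ℕ} (hd : ∀ v, G.degree v ≤ d) (n : ℕ) (A B : Finset V)
    (ω : Set (Sym2 V)) :
    (B.filter fun z => ω ∈ Big G ∅ n z).card ≤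
      (B.filter fun z => ω ∈ Big G (↑A) n z).card + (1 + d * n) * A.card := by
  set f : V → Finset V := fun a' =>
    B.filter fun z => z ∈ cl G (↑A) ω a' ∧ (cl G (↑A) ω a').encard < n with hf
  have h1 : ∀ a', (f a').card ≤ n := fun a' => by
    rcases (f a').eq_empty_or_nonempty with h | ⟨z, hz⟩
    · rw [h]; exact Nat.zero_le _
    · have h2 : (↑(f a') : Set V) ⊆ cl G (↑A) ω a' := fun y hy =>
        (Finset.mem_filter.1 (Finset.mem_coe.1 hy)).2.1
      have h3 := (Set.encard_le_encard h2).trans (Finset.mem_filter.1 hz).2.2.le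
      rw [Set.encard_coe_eq_coe_finsetCard] at h3
      exact_mod_cast h3
  have h2 : (B.filter fun z => ω ∈ Big G ∅ n z) ⊆ (B.filter fun z => ω ∈ Big G (↑A) n z) ∪
      (A ∪ A.biUnion fun a => (G.neighborFinset a).biUnion f) := fun z hz => by
    obtain ⟨hzB, hz⟩ := Finset.mem_filter.1 hz
    by_cases h3 : ω ∈ Big G (↑A) n z
    · exact Finset.mem_union_left _ (Finset.mem_filter.2 ⟨hzB, h3⟩)
    refine Finset.mem_union_right _ ?_
    by_cases h4 : z ∈ A
    · exact Finset.mem_union_left _ h4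
    refine Finset.mem_union_right _ ?_
    have h5 : (cl G (↑A) ω z).encard < n := not_le.1 h3
    obtain ⟨y, hy, hy'⟩ : ∃ y, y ∈ cl G ∅ ω z ∧ y ∉ cl G (↑A) ω z := by
      by_contra hc
      push Not at hc
      exact h3 (le_trans hz (Set.encard_le_encard hc))
    obtain ⟨a, ha, a', haa, hc⟩ :=
      (card_big_le_exit (A := (↑A : Set V)) (fun h => h4 (Finset.mem_coe.1 h)) hy).resolve_left hy'
    refine Finset.mem_biUnion.2 ⟨a, ha, Finset.mem_biUnion.2 ⟨a', (G.mem_neighborFinset _ _).2 haa,
      Finset.mem_filter.2 ⟨hzB, hc.symm, lt_of_le_of_lt (Set.encard_le_encard ?_) h5⟩⟩⟩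
    exact fun u hu => hc.trans hu
  have h3 : (A.biUnion fun a => (G.neighborFinset a).biUnion f).card ≤ A.card * (d * n) :=
    Finset.card_biUnion_le_card_mul _ _ _ fun a _ =>
      (Finset.card_biUnion_le_card_mul _ _ _ fun a' _ => h1 a').trans
        (Nat.mul_le_mul_right _ (hd a))
  refine ((Finset.card_le_card h2).trans (Finset.card_union_le _ _)).trans
    (Nat.add_le_add_left (((Finset.card_union_le _ _).trans (Nat.add_le_add_left h3 _)).trans_eq
      (by ring)) _)

theorem sum_fn_le [Countable V] {d : ℕ} (hd : ∀ v, G.degree v ≤ d) (p : unitInterval) (n : ℕ)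
    (A B : Finset V) :
    ∑ z ∈ B, fn G p ∅ n z ≤ ∑ z ∈ B, fn G p (↑A) n z + (1 + d * n) * A.card := by
  classical
  have i1 : ∀ (R : Set V), ∀ z ∈ B,
      Integrable ((Big G R n z).indicator (1 : Set (Sym2 V) → ℝ)) (P G p) := fun R z _ =>
    (integrable_const (1 : ℝ)).indicator (measurableSet_big R n z)
  have e1 : ∀ R : Set V, ∑ z ∈ B, fn G p R n z =
      ∫ ω, ∑ z ∈ B, (Big G R n z).indicator 1 ω ∂P G p := fun R => by
    rw [integral_finsetSum _ (i1 R)]
    exact Finset.sum_congr rfl fun z _ => (integral_indicator_one (measurableSet_big R n z)).symm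
  have e2 : ∀ (R : Set V) (ω : Set (Sym2 V)), ∑ z ∈ B, (Big G R n z).indicator 1 ω =
      ((B.filter fun z => ω ∈ Big G R n z).card : ℝ) := fun R ω => by
    rw [Finset.card_filter, Nat.cast_sum]
    refine Finset.sum_congr rfl fun z _ => ?_
    by_cases h : ω ∈ Big G R n z <;> simp [h]
  have e3 : ((1 : ℝ) + d * n) * A.card = ∫ _ω, ((1 : ℝ) + d * n) * A.card ∂P G p := by simp
  rw [e1, e1, e3, ← integral_add (integrable_finsetSum _ (i1 _)) (integrable_const _)]
  refine integral_mono (integrable_finsetSum _ (i1 _))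
    ((integrable_finsetSum _ (i1 _)).add (integrable_const _)) fun ω => ?_
  simp only [e2]
  exact_mod_cast card_big_le hd n A B ω

end Crest.Agent.R147.T
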