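import Crest.Agent.R147.TDefs
import Crest.Agent.R147.Defs

/-! Row 147, module A1: finite product expectations (definitions). -/

set_option autoImplicit false

open MeasureTheory ProbabilityTheory Set Filter
open scoped ENNReal NNReal
open Crest.ProbabilityR.Percolation

namespace Crest.Agent.R147.T

open Crest.Agent.R159

section Ex
variable {ι : Type*} [DecidableEq ι]

/-- Product weight of the subset `J` of `I`. -/
noncomputable def wt (π : ι → ℝ) (I J : Finset ι) : ℝ :=
  (∏ e ∈ J, π e) * ∏ e ∈ I \ J, (1 - π e)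

/-- Expectation under the product law on subsets of `I`. -/
noncomputable def Ex (π : ι → ℝ) (I : Finset ι) (F : Finset ι → ℝ) : ℝ :=
  ∑ J ∈ I.powerset, wt π I J * F J

/-- The centred count `∑_{e ∈ I} (p - 1[e ∈ J])`. -/
noncomputable def fl (p : ℝ) (I J : Finset ι) : ℝ := ∑ e ∈ I, (p - if e ∈ J then 1 else 0)

end Ex

variable {V : Type*} (G : SimpleGraph V)

open Classical in
/-- Edges of `G` with both endpoints in `Λ`. -/
noncomputable def eIn (Λ : Finset V) : Finset (Sym2 V) := Λ.sym2.filter (· ∈ G.edgeSet)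

open Classical in
/-- The cluster of `x` inside `Λ` for the finite configuration `J`. -/
noncomputable def clF (Λ : Finset V) (J : Finset (Sym2 V)) (x : V) : Finset V :=
  Λ.filter fun y => conn G (↑Λ)ᶜ (↑J) x y

/-- `1 / max (|K_x|, n)`. -/
noncomputable def gn (Λ : Finset V) (n : ℕ) (x : V) (J : Finset (Sym2 V)) : ℝ :=
  1 / max ((clF G Λ J x).card : ℝ) n

/-- The triangle inequality for two-arm probabilities in the whole graph. -/
def LTInf : Prop :=
  ∀ p₀ θ : ℝ, p₀ < 1 → 0 < θ → ∃ K : ℝ, 1 ≤ K ∧ ∀ p : unitInterval, (p : ℝ) ≤ p₀ →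
    ∀ (n : ℕ) (a b c : V), θ ≤ fn G p ∅ n b →
      Dn G p ∅ n a c ≤ K * (Dn G p ∅ n a b + Dn G p ∅ n b c)

end Crest.Agent.R147.T
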