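import Crest.Agent.R159.Conn
import Crest.Agent.R159.Graph

/-!
Row 147, module A1 (two-arm bound, triangle inequality, finite-size criterion): definitions.
-/

set_option autoImplicit false

open MeasureTheory ProbabilityTheory Set
open scoped ENNReal NNReal

namespace Crest.Agent.R147.T

open Crest.Agent.R159

variable {V : Type*} (G : SimpleGraph V)

/-- The cluster of `x` off `R` has at least `n` vertices. -/
def Big (R : Set V) (n : ℕ) (x : V) : Set (Set (Sym2 V)) :=
  {ω | (n : ℕ∞) ≤ (cl G R ω x).encard}

/-- `x` and `z` lie in two different clusters off `R`, each with at least `n` vertices. -/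
def Two (R : Set V) (n : ℕ) (x z : V) : Set (Set (Sym2 V)) :=
  Big G R n x ∩ Big G R n z ∩ {ω | ¬ conn G R ω x z}

/-- Probability that the cluster of `x` off `R` has at least `n` vertices. -/
noncomputable def fn (p : unitInterval) (R : Set V) (n : ℕ) (x : V) : ℝ :=
  (P G p).real (Big G R n x)

/-- Probability of two different big clusters at `x` and `z`. -/
noncomputable def Dn (p : unitInterval) (R : Set V) (n : ℕ) (x z : V) : ℝ :=
  (P G p).real (Two G R n x z)

/-- The triangle inequality for two-arm probabilities inside finite boxes, with a constant that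
depends only on an upper bound `p₀ < 1` for the parameter and a lower bound `θ` for the
probability that the middle point has a big cluster. -/
def LTFin : Prop :=
  ∀ p₀ θ : ℝ, p₀ < 1 → 0 < θ → ∃ K : ℝ, 1 ≤ K ∧ ∀ p : unitInterval, (p : ℝ) ≤ p₀ →
    ∀ (Λ : Finset V) (n : ℕ) (a b c : V), θ ≤ fn G p (↑Λ)ᶜ n b →
      Dn G p (↑Λ)ᶜ n a c ≤ K * (Dn G p (↑Λ)ᶜ n a b + Dn G p (↑Λ)ᶜ n b c)

end Crest.Agent.R147.T
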