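import Crest.Agent.R147.Lin

/-! Row 147: the case split. -/

set_option autoImplicit false

open MeasureTheory ProbabilityTheory Set Filter
open scoped ENNReal NNReal
open Crest.ProbabilityR.Percolation

namespace Crest.Agent.R147

open Crest.Agent.R159

variable {V : Type*} [Countable V] [DecidableEq V] {G : SimpleGraph V} [G.LocallyFinite]

theorem top (hconn : G.Connected) (hqt : IsQuasiTransitive G) (hN : StmtN G) (hA1 : StmtA1 G)
    (hU : StmtUniq G) (hGeo : StmtGeo G) (hA2 : StmtA2 G) {p : unitInterval}
    (hp : (p : ℝ) = bondCriticalValue G) (hp1 : p < 1) :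
    P G p {ω | HasInfiniteCluster G ω} = 0 := by
  refine measure_eq_zero_of_not_perc fun hθ => ?_
  by_cases hna : IsVertexNonamenable G
  · exact hN hna p hp hp1 hθ
  have key : ∃ q : unitInterval, q < p ∧ Perc G q := by
    rcases superPoly_or_weakPoly hconn hqt with h | h
    · exact hA1 hna h p hp1 hθ
    · rcases hGeo h with h | h
      · exact absurd hθ (not_perc_of_lin hconn hqt h hp1)
      · exact hA2 h p hp1 hθ (hU hna p hp1)
  obtain ⟨q, hq, hq'⟩ := key
  exact not_perc_of_lt (hp ▸ (show (q : ℝ) < p from hq)) hq'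

end Crest.Agent.R147
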